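import Crest.Agent.N49.He.Defs

/-!
# Row 49 (helper11): the two Cauchy-Schwarz data of a system (Fubini identities, blindness)
-/

set_option autoImplicit false
set_option linter.unusedSectionVars false

open Finset Matrix
open scoped ComplexConjugate

noncomputable section

namespace Crest.Agent.N49.He

open Po Rm Rm.TT Ft

namespace Fb
variable {R A B : Type}

theorem sm2 {p : R → ℝ} {l : R → A → ℝ} {b : ℝ} (p0 : ∀ ρ, 0 ≤ p ρ) (l0 : ∀ ρ α, 0 ≤ l ρ α)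
    (hp : Summable p) (hl : ∀ ρ, Summable (l ρ) ∧ ∑' α, l ρ α ≤ b) :
    Summable fun e : R × A => p e.1 * l e.1 e.2 := by
  refine (summable_prod_of_nonneg fun e => mul_nonneg (p0 _) (l0 _ _)).2
    ⟨fun ρ => (hl ρ).1.mul_left (p ρ), ?_⟩
  simp only [tsum_mul_left]
  exact (hp.mul_right b).of_nonneg_of_le (fun ρ => mul_nonneg (p0 ρ) (tsum_nonneg (l0 ρ)))
    fun ρ => mul_le_mul_of_nonneg_left (hl ρ).2 (p0 ρ)

theorem smp {k : A → ℝ} {k' : B → ℝ} (k0 : ∀ β, 0 ≤ k β) (k0' : ∀ β, 0 ≤ k' β) (h : Summable k)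
    (h' : Summable k') : Summable fun e : A × B => k e.1 * k' e.2 :=
  sm2 (l := fun _ => k') k0 (fun _ => k0') h fun _ => ⟨h', le_rfl⟩

theorem tsp {k : A → ℝ} {k' : B → ℝ} (h : Summable k) (h' : Summable k') :
    ∑' e : A × B, k e.1 * k' e.2 = (∑' a, k a) * ∑' b, k' b :=
  (tsum_mul_tsum_of_summable_norm h.norm h'.norm).symm

theorem smc {k : A → ℝ} {f : A → ℂ} {c : ℝ} (k0 : ∀ β, 0 ≤ k β) (h : Summable k)
    (hf : ∀ a, ‖f a‖ ≤ c) : Summable fun a => (k a : ℂ) * f a :=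
  .of_norm_bounded (h.mul_right c) fun a => by
    rw [norm_mul, Complex.norm_real, Real.norm_of_nonneg (k0 a)]
    exact mul_le_mul_of_nonneg_left (hf a) (k0 a)

theorem nrm {k : A → ℝ} {f : A → ℂ} (k0 : ∀ β, 0 ≤ k β) (h : Summable k)
    (hf : ∀ a, ‖f a‖ ≤ 1) : ‖∑' a, (k a : ℂ) * f a‖ ≤ ∑' a, k a :=
  tsum_of_norm_bounded h.hasSum fun a => by
    rw [norm_mul, Complex.norm_real, Real.norm_of_nonneg (k0 a)]
    exact mul_le_of_le_one_right (k0 a) (hf a)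

theorem mul1 {x y : ℂ} (hx : ‖x‖ ≤ 1) (hy : ‖y‖ ≤ 1) : ‖x * y‖ ≤ 1 := by
  rw [norm_mul]; exact mul_le_one₀ hx (norm_nonneg _) hy

theorem mulc {x y : ℂ} (hx : ‖x‖ ≤ 1) (hy : ‖y‖ ≤ 1) : ‖x * conj y‖ ≤ 1 :=
  mul1 hx (by rwa [Complex.norm_conj])

/-- real sums over a product -/
theorem ts2 {p : R → ℝ} {l : R → A → ℝ} (h : Summable fun e : R × A => p e.1 * l e.1 e.2)
    {g : R → ℝ} {c : ℝ} (hg : ∀ ρ, |g ρ| ≤ c) :
    ∑' e : R × A, p e.1 * l e.1 e.2 * g e.1 = ∑' ρ, p ρ * ((∑' α, l ρ α) * g ρ) := by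
  rw [Summable.tsum_prod (.of_norm_bounded (h.norm.mul_right c) fun e => by
    rw [norm_mul]; exact mul_le_mul_of_nonneg_left (hg _) (norm_nonneg _))]
  exact tsum_congr fun ρ => by simp only [tsum_mul_right, tsum_mul_left, mul_assoc]
end Fb
open Fb

namespace Sys
variable {Ω R A B : Type} {Y : Sys Ω R A B}

theorem Ok.sa (o : Y.Ok) (w : Ω) : Summable fun e : R × A => Y.ϖ w e.1 * Y.la w e.1 e.2 := by
  obtain ⟨b, h⟩ := o.bd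
  exact sm2 (o.p0 w) (o.l0 w) (h w).1.1 fun ρ => ((h w).2 ρ).1

theorem Ok.sl (o : Y.Ok) (w : Ω) (ρ : R) : Summable (Y.la w ρ) := o.bd.elim fun _ h =>
  ((h w).2 ρ).1.1
theorem Ok.sk (o : Y.Ok) (w : Ω) (ρ : R) : Summable (Y.ka w ρ) := o.bd.elim fun _ h =>
  ((h w).2 ρ).2.1

theorem Ok.two (o : Y.Ok) : ∃ c, ∀ w w' ρ, |(∑' β, Y.ka w ρ β) * ∑' β, Y.ka w' ρ β| ≤ c ∧
    |(∑' β, Y.la w ρ β) * ∑' β, Y.la w' ρ β| ≤ c := by
  obtain ⟨b, h⟩ := o.bd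
  refine ⟨b * b, fun w w' ρ => ⟨?_, ?_⟩⟩
  · have a : 0 ≤ ∑' β, Y.ka w ρ β := tsum_nonneg (o.k0 w ρ)
    have a' : 0 ≤ ∑' β, Y.ka w' ρ β := tsum_nonneg (o.k0 w' ρ)
    rw [abs_of_nonneg (mul_nonneg a a')]
    exact mul_le_mul ((h w).2 ρ).2.2 ((h w').2 ρ).2.2 a' (a.trans ((h w).2 ρ).2.2)
  · have a : 0 ≤ ∑' β, Y.la w ρ β := tsum_nonneg (o.l0 w ρ)
    have a' : 0 ≤ ∑' β, Y.la w' ρ β := tsum_nonneg (o.l0 w' ρ)
    rw [abs_of_nonneg (mul_nonneg a a')]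
    exact mul_le_mul ((h w).2 ρ).1.2 ((h w').2 ρ).1.2 a' (a.trans ((h w).2 ρ).1.2)

theorem Ok.sb (o : Y.Ok) (w w' : Ω) :
    Summable fun e : R × B × B => Y.ϖ w e.1 * (Y.ka w e.1 e.2.1 * Y.ka w' e.1 e.2.2) := by
  obtain ⟨c, hc⟩ := o.two
  obtain ⟨b, h⟩ := o.bd
  refine sm2 (l := fun ρ (e : B × B) => Y.ka w ρ e.1 * Y.ka w' ρ e.2) (b := c) (o.p0 w)
    (fun ρ e => mul_nonneg (o.k0 _ _ _) (o.k0 _ _ _)) (h w).1.1 fun ρ =>
      ⟨smp (o.k0 w ρ) (o.k0 w' ρ) (o.sk w ρ) (o.sk w' ρ), ?_⟩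
  rw [tsp (o.sk w ρ) (o.sk w' ρ)]
  exact (le_abs_self _).trans (hc w w' ρ).1

theorem Ok.c1 (o : Y.Ok) : Y.c1.Ok where
  m0 _ _ := mul_nonneg (o.p0 _ _) (o.l0 _ _ _)
  k0 _ _ _ := o.k0 _ _ _
  a1 _ _ := o.a1 _ _ _
  p1 _ _ _ := mul1 (o.b1 _ _ _) (o.φ1 _ _ _ _)
  sm := o.sa
  sk := o.bd.imp fun _ h w e => ((h w).2 e.1).2

theorem Ok.c2 (o : Y.Ok) (σ : Ω → Ω) : (Y.c2 σ).Ok where
  m0 _ _ := mul_nonneg (o.p0 _ _) (mul_nonneg (o.k0 _ _ _) (o.k0 _ _ _))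
  k0 _ _ _ := o.l0 _ _ _
  a1 _ _ := mulc (o.b1 _ _ _) (o.b1 _ _ _)
  p1 _ _ _ := mulc (o.φ1 _ _ _ _) (o.φ1 _ _ _ _)
  sm w := o.sb w (σ w)
  sk := o.bd.imp fun _ h w e => ((h w).2 e.1).1

theorem Ok.c1_M (o : Y.Ok) (τ σ : Ω → Ω) : Y.c1.M = Y.N τ σ {false} ∅ := funext fun w => by
  have := ts2 (o.sa w) (g := fun _ => 1) (c := 1) fun _ => by simp
  simp only [mul_one] at this
  simpa [Cs.M, Sys.c1, N] using this

theorem Ok.c1_N (o : Y.Ok) (τ σ : Ω → Ω) : Y.c1.N σ = Y.N τ σ {false} univ := funext fun w => by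
  obtain ⟨c, hc⟩ := o.two
  refine (ts2 (o.sa w) fun ρ => (hc w (σ w) ρ).1).trans (tsum_congr fun ρ => ?_)
  simp [mul_comm]

theorem Ok.c2_M (o : Y.Ok) (τ σ : Ω → Ω) : (Y.c2 σ).M = Y.N τ σ ∅ univ := funext fun w => by
  have := ts2 (l := fun ρ (e : B × B) => Y.ka w ρ e.1 * Y.ka (σ w) ρ e.2) (o.sb w (σ w))
    (g := fun _ => 1) (c := 1) fun _ => by simp
  simp only [mul_one] at this
  refine this.trans (tsum_congr fun ρ => ?_)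
  rw [tsp (o.sk w ρ) (o.sk (σ w) ρ)]
  simp [mul_comm]

theorem Ok.c2_N (o : Y.Ok) (τ σ : Ω → Ω) : (Y.c2 σ).N τ = Y.N τ σ univ univ := funext fun w => by
  obtain ⟨c, hc⟩ := o.two
  refine (ts2 (l := fun ρ (e : B × B) => Y.ka w ρ e.1 * Y.ka (σ w) ρ e.2) (o.sb w (σ w))
    fun ρ => (hc w (τ w) ρ).2).trans (tsum_congr fun ρ => ?_)
  rw [tsp (o.sk w ρ) (o.sk (σ w) ρ)]
  simp [mul_comm]

/-- **Fubini**: the Gram kernel of the first step is the correlation of the second one -/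
theorem Ok.c1_g (o : Y.Ok) (σ : Ω → Ω) : Y.c1.g σ = (Y.c2 σ).c := funext fun w => by
  obtain ⟨c, hc⟩ := o.two
  obtain ⟨b, hb⟩ := o.bd
  have p1 := o.c1.p1
  have n1 : ∀ w (e : R × A), ‖∑' β, (Y.c1.κ w e β : ℂ) * Y.c1.φ w e β‖ ≤ b := fun w e =>
    (nrm (o.k0 w e.1) (o.sk w e.1) (p1 w e)).trans ((hb w).2 e.1).2.2
  have n2 : ∀ e : R × B × B, ‖(Y.c2 σ).a w e *
      ∑' α, ((Y.c2 σ).κ w e α : ℂ) * (Y.c2 σ).φ w e α‖ ≤ b := fun e => by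
    rw [norm_mul]
    refine (mul_le_of_le_one_left (norm_nonneg _) ((o.c2 σ).a1 w e)).trans ?_
    exact (nrm (o.l0 w e.1) (o.sl w e.1) ((o.c2 σ).p1 w e)).trans ((hb w).2 e.1).1.2
  rw [Cs.g, Cs.c, Summable.tsum_prod (smc (c := b * b) (o.c1.m0 w) (o.sa w) fun e => by
      rw [norm_mul, Complex.norm_conj]
      exact mul_le_mul (n1 w e) (n1 _ e) (norm_nonneg _) ((norm_nonneg _).trans (n1 w e))),
    Summable.tsum_prod (smc ((o.c2 σ).m0 w) (o.sb w (σ w)) n2)]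
  refine tsum_congr fun ρ => ?_
  obtain ⟨F, hF⟩ : ∃ F : A → B × B → ℂ, F = fun α e => ((Y.la w ρ α * (Y.ka w ρ e.1 *
      Y.ka (σ w) ρ e.2) : ℝ) : ℂ) * ((Y.ϖ w ρ : ℂ) * (Y.c1.φ w (ρ, α) e.1 *
        conj (Y.c1.φ (σ w) (ρ, α) e.2))) := ⟨_, rfl⟩
  have sF : Summable (Function.uncurry F) := by
    rw [hF]
    refine smc (k := fun p : A × B × B => Y.la w ρ p.1 * (Y.ka w ρ p.2.1 * Y.ka (σ w) ρ p.2.2))
      (c := ‖(Y.ϖ w ρ : ℂ)‖) (fun p => mul_nonneg (o.l0 _ _ _) (mul_nonneg (o.k0 _ _ _) (o.k0 _ _ _)))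
      (smp (k' := fun e : B × B => Y.ka w ρ e.1 * Y.ka (σ w) ρ e.2) (o.l0 w ρ)
        (fun e => mul_nonneg (o.k0 _ _ _) (o.k0 _ _ _)) (o.sl w ρ)
        (smp (o.k0 w ρ) (o.k0 _ ρ) (o.sk w ρ) (o.sk _ ρ))) fun p => ?_
    rw [norm_mul]
    exact mul_le_of_le_one_right (norm_nonneg _) (mulc (p1 _ _ _) (p1 _ _ _))
  refine (tsum_congr fun α => ?_).trans (sF.tsum_comm.symm.trans (tsum_congr fun e => ?_))
  · have s1 : ∀ w, Summable fun β => ‖(Y.c1.κ w (ρ, α) β : ℂ) * Y.c1.φ w (ρ, α) β‖ := fun w =>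
      (smc (o.k0 w ρ) (o.sk w ρ) (p1 w (ρ, α))).norm
    rw [Complex.conj_tsum, tsum_mul_tsum_of_summable_norm (s1 w)
      (by simpa only [Complex.norm_conj] using s1 (σ w)), ← tsum_mul_left, hF]
    refine tsum_congr fun e => ?_
    simp only [Sys.c1, map_mul, Complex.conj_ofReal, Complex.ofReal_mul]
    ring
  · rw [← tsum_mul_left, ← tsum_mul_left, hF]
    refine tsum_congr fun α => ?_
    simp only [Sys.c1, Sys.c2, map_mul, Complex.ofReal_mul]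
    ring
end Sys

section
variable {L C : Type} [Fintype L] [DecidableEq L] [Fintype C] [DecidableEq C] {Q : ℕ}
  {U : TT L C} {s : Bool → Fin Q → L} {t : Bool → Fin 1 → L} {X X' : Type} {S S' : Finset L}

theorem Bl.mono {f : (C → ℤ) → X} (h : Bl U S f) (e : S' ⊆ S) : Bl U S' f :=
  fun w w' k => h w w' fun c hc => k c (hc.mono_right e)

theorem Bl.map {f : (C → ℤ) → X} (h : Bl U S f) (g : X → X') : Bl U S fun w => g (f w) :=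
  fun w w' k => congrArg g (h w w' k)

theorem Bl.map2 {X'' : Type} {f : (C → ℤ) → X} {f' : (C → ℤ) → X'} (h : Bl U S f)
    (h' : Bl U S f') (g : X → X' → X'') : Bl U S fun w => g (f w) (f' w) :=
  fun w w' k => congrArg₂ g (h w w' k) (h' w w' k)

/-- a symmetry whose letters are outside `S` keeps the words that miss `S` -/
theorem dis_sw {Q' : ℕ} {x : L} {s' : Bool → Fin Q' → L} {τ : Fin Q' → C → C} {σ : C → C}
    (h : Sw U x s' τ σ) (k : Fin Q') (hS : ∀ b, s' b k ∉ S) {c : C} (hc : Disjoint (U.ty c) S) :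
    Disjoint (U.ty (τ k c)) S := by
  rw [h.ty, disjoint_left]
  intro a ha hs
  obtain ⟨l, hl, rfl⟩ := mem_image.1 ha
  rw [Equiv.swap_apply_def] at hs
  split_ifs at hs
  exacts [hS _ hs, hS _ hs, disjoint_left.1 hc hl hs]

theorem Bl.sw {Q' : ℕ} {x : L} {s' : Bool → Fin Q' → L} {τ : Fin Q' → C → C} {σ : C → C}
    (h : Sw U x s' τ σ) (k : Fin Q') (hS : ∀ b, s' b k ∉ S) {f : (C → ℤ) → X} (hf : Bl U S f) :
    Bl U S fun w => f (w ∘ τ k) :=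
  fun _ _ e => hf _ _ fun _ hc => e _ (dis_sw h k hS hc)

variable {x : L} {τ : Fin Q → C → C} {σ0 σ : C → C} {k : Fin Q} {r : ℕ} {R A B : Type}
  {Y : Sys (C → ℤ) R A B}

theorem Sw2.nS3 (h : Sw2 U s t x τ σ0 σ) (k : Fin Q) (b : Bool) : t b 0 ∉ S3 s k := fun m => by
  rcases mem_insert.1 m with e | e
  · exact h.ne _ _ _ e.symm
  · obtain ⟨k', -, e⟩ := mem_image.1 e
    exact h.ne _ _ _ e

theorem Sw2.nS1 (h : Sw2 U s t x τ σ0 σ) (b : Bool) : t b 0 ∉ S1 s := fun m => by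
  obtain ⟨k', -, e⟩ := mem_image.1 m
  exact h.ne _ _ _ e

theorem S1_S5 : S1 s ⊆ S5 s t := subset_insert _ _
theorem S3_sub (k : Fin Q) : S3 s k ⊆ insert (s false k) (S5 s t) := insert_subset_insert _ S1_S5
theorem mem_S1 (k : Fin Q) : s true k ∈ S1 s := mem_image_of_mem _ (mem_univ k)
theorem two_S3 (k : Fin Q) : {s false k, s true k} ⊆ S3 s k :=
  insert_subset_insert _ (singleton_subset_iff.2 (mem_S1 k))
theorem two_S5 : {t false 0, t true 0} ⊆ insert (t false 0) (S5 s t) :=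
  insert_subset_insert _ (singleton_subset_iff.2 (mem_insert_self _ _))

theorem Gs.m1 (g : Gs U s t τ σ k r Y) : Bl U (insert (t false 0) (S5 s t)) Y.c1.m :=
  (g.bp.mono (subset_insert _ _)).map2 g.bl fun p l (e : R × A) => p e.1 * l e.1 e.2
theorem Gs.a1 (g : Gs U s t τ σ k r Y) : Bl U (insert (t false 0) (S5 s t)) Y.c1.a :=
  g.ba.map fun f (e : R × A) => f e.1 e.2
theorem Gs.k1 (g : Gs U s t τ σ k r Y) : Bl U (S5 s t) Y.c1.κ :=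
  (g.bk.mono (subset_insert _ _)).map fun f (e : R × A) => f e.1
theorem Gs.p1 (g : Gs U s t τ σ k r Y) : Bl U (S5 s t) Y.c1.φ :=
  (g.bb.mono (subset_insert _ _)).map2 g.bφ fun f p (e : R × A) b => f e.1 b * p e.1 e.2 b

theorem Gs.m2 (h : Sw2 U s t x τ σ0 σ) (g : Gs U s t τ σ k r Y) :
    Bl U (S3 s k) (Y.c2 (· ∘ σ)).m :=
  have b := g.bk.mono (S3_sub k)
  (g.bp.mono ((S3_sub k).trans (insert_subset_insert _ (subset_insert _ _)))).map2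
    (b.map2 (b.sw h.s2 0 (h.nS3 k)) fun f f' (e : R × B × B) => f e.1 e.2.1 * f' e.1 e.2.2)
    fun p l (e : R × B × B) => p e.1 * l e
theorem Gs.a2 (h : Sw2 U s t x τ σ0 σ) (g : Gs U s t τ σ k r Y) :
    Bl U (S3 s k) (Y.c2 (· ∘ σ)).a :=
  have b := g.bb.mono (S3_sub k)
  b.map2 (b.sw h.s2 0 (h.nS3 k)) fun f f' (e : R × B × B) => f e.1 e.2.1 * conj (f' e.1 e.2.2)
theorem Gs.k2 (g : Gs U s t τ σ k r Y) : Bl U (S1 s) (Y.c2 (· ∘ σ)).κ :=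
  (g.bl.mono (S1_S5.trans (subset_insert _ _))).map fun f (e : R × B × B) => f e.1
theorem Gs.p2 (h : Sw2 U s t x τ σ0 σ) (g : Gs U s t τ σ k r Y) :
    Bl U (S1 s) (Y.c2 (· ∘ σ)).φ :=
  have b := g.bφ.mono S1_S5
  b.map2 (b.sw h.s2 0 h.nS1) fun f f' (e : R × B × B) α => f e.1 α e.2.1 * conj (f' e.1 α e.2.2)

/-- the hypotheses of `TEN` for the first step -/
theorem Gs.ten1 (g : Gs U s t τ σ k r Y) : Y.c1.Ok ∧ Bl U {t false 0, t true 0} Y.c1.m ∧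
    Bl U {t false 0, t true 0} Y.c1.a ∧ Bl U {t true 0} Y.c1.κ ∧ Bl U {t true 0} Y.c1.φ ∧
    Mo U r (Y.c1.N (· ∘ σ)) :=
  have e : {t true 0} ⊆ S5 s t := singleton_subset_iff.2 (mem_insert_self _ _)
  ⟨g.ok.c1, g.m1.mono two_S5, g.a1.mono two_S5, g.k1.mono e, g.p1.mono e,
    g.ok.c1_N (· ∘ τ k) (· ∘ σ) ▸ g.mo _ _⟩

/-- the hypotheses of `TEN` for the second step -/
theorem Gs.ten2 (h : Sw2 U s t x τ σ0 σ) (g : Gs U s t τ σ k r Y) : (Y.c2 (· ∘ σ)).Ok ∧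
    Bl U {s false k, s true k} (Y.c2 (· ∘ σ)).m ∧ Bl U {s false k, s true k} (Y.c2 (· ∘ σ)).a ∧
    Bl U {s true k} (Y.c2 (· ∘ σ)).κ ∧ Bl U {s true k} (Y.c2 (· ∘ σ)).φ ∧
    Mo U r ((Y.c2 (· ∘ σ)).N (· ∘ τ k)) :=
  have e : {s true k} ⊆ S1 s := singleton_subset_iff.2 (mem_S1 k)
  ⟨g.ok.c2 _, (g.m2 h).mono (two_S3 k), (g.a2 h).mono (two_S3 k), g.k2.mono e, (g.p2 h).mono e,
    g.ok.c2_N (· ∘ τ k) (· ∘ σ) ▸ g.mo _ _⟩

theorem Gs.mo1 (g : Gs U s t τ σ k r Y) : Mo U r Y.c1.M :=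
  g.ok.c1_M (· ∘ τ k) (· ∘ σ) ▸ g.mo _ _
theorem Gs.mo2 (g : Gs U s t τ σ k r Y) : Mo U r (Y.c2 (· ∘ σ)).M :=
  g.ok.c2_M (· ∘ τ k) (· ∘ σ) ▸ g.mo _ _

theorem Gs.bM1 (g : Gs U s t τ σ k r Y) : Bl U (S5 s t) Y.c1.M :=
  (g.m1.mono (subset_insert _ _)).map fun m => ∑' e, m e
theorem Gs.bM2 (h : Sw2 U s t x τ σ0 σ) (g : Gs U s t τ σ k r Y) :
    Bl U (S1 s) (Y.c2 (· ∘ σ)).M := ((g.m2 h).mono (subset_insert _ _)).map fun m => ∑' e, m e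
theorem Gs.bc2 (h : Sw2 U s t x τ σ0 σ) (g : Gs U s t τ σ k r Y) :
    Bl U (S1 s) (Y.c2 (· ∘ σ)).c := fun w w' e => by
  rw [Cs.c, Cs.c, (g.m2 h).mono (subset_insert _ _) w w' e,
    (g.a2 h).mono (subset_insert _ _) w w' e, g.k2 w w' e, g.p2 h w w' e]
theorem Gs.bc1 (g : Gs U s t τ σ k r Y) : Bl U (S5 s t) Y.c1.c := fun w w' e => by
  rw [Cs.c, Cs.c, g.m1.mono (subset_insert _ _) w w' e, g.a1.mono (subset_insert _ _) w w' e,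
    g.k1 w w' e, g.p1 w w' e]
end

end Crest.Agent.N49.He

end
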