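import Crest.Agent.N49.He.Db
import Crest.Agent.N49.He.Fub

/-!
# Row 49 (helper42): the quantities of a system as single sums
-/

set_option autoImplicit false
set_option linter.unusedSectionVars false

open Finset
open scoped ComplexConjugate

noncomputable section

namespace Crest.Agent.N49.He

open Fb

namespace As

/-- the two copies -/
abbrev U2 : Type := (univ : Finset Bool)
/-- their names -/
def cp (b : Bool) : U2 := ⟨b, mem_univ b⟩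
/-- pairs -/
def e2 (A : Type) : (U2 → A) ≃ A × A where
  toFun α := (α (cp false), α (cp true))
  invFun q b := bif b.1 then q.2 else q.1
  left_inv α := funext fun ⟨b, _⟩ => by cases b <;> rfl
  right_inv _ := rfl

theorem prod_U2 {M : Type} [CommMonoid M] (f : U2 → M) : ∏ b, f b = f (cp false) * f (cp true) := by
  rw [← (Equiv.subtypeUnivEquiv mem_univ).symm.prod_comp, Fintype.prod_bool, mul_comm]; rfl

theorem hs2 {R A : Type} {f : R × A → ℂ} (h : Summable f) {g : R → ℂ}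
    (e : ∀ ρ, ∑' α, f (ρ, α) = g ρ) : HasSum f (∑' ρ, g ρ) := by
  rw [← funext e, ← h.tsum_prod]; exact h.hasSum

theorem hs3 {R A B : Type} {p a k : R → ℝ} {l : R → A → ℝ} {m : R → B → ℝ} {b b' : ℝ}
    (p0 : ∀ ρ, 0 ≤ p ρ) (sp : Summable p) (hl : ∀ ρ, HasSum (l ρ) (a ρ))
    (hm : ∀ ρ, HasSum (m ρ) (k ρ)) (l0 : ∀ ρ α, 0 ≤ l ρ α) (m0 : ∀ ρ α, 0 ≤ m ρ α)
    (ab : ∀ ρ, a ρ ≤ b) (kb : ∀ ρ, k ρ ≤ b') : HasSum (fun q : R × A × B =>
      p q.1 * (l q.1 q.2.1 * m q.1 q.2.2)) (∑' ρ, p ρ * (a ρ * k ρ)) := by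
  have t : ∀ ρ, ∑' e : A × B, l ρ e.1 * m ρ e.2 = a ρ * k ρ := fun ρ => by
    rw [tsp (hl ρ).summable (hm ρ).summable, (hl ρ).tsum_eq, (hm ρ).tsum_eq]
  have s := sm2 (l := fun ρ (e : A × B) => l ρ e.1 * m ρ e.2) (b := b * b') p0
    (fun ρ e => mul_nonneg (l0 _ _) (m0 _ _)) sp fun ρ =>
      ⟨smp (l0 ρ) (m0 ρ) (hl ρ).summable (hm ρ).summable, (t ρ).trans_le (mul_le_mul (ab ρ) (kb ρ)
        ((hm ρ).nonneg (m0 ρ)) (((hl ρ).nonneg (l0 ρ)).trans (ab ρ)))⟩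
  refine s.hasSum_iff.2 (s.tsum_prod.trans (tsum_congr fun ρ => ?_))
  rw [← t, ← tsum_mul_left]
end As
open As

namespace Sys
variable {Ω R A B : Type} {Y : Sys Ω R A B}

/-- the masses -/
theorem Ok.hs_N (o : Y.Ok) (τ σ : Ω → Ω) (Γ Δ : Finset Bool) (w : Ω) :
    HasSum (fun q : R × (Γ → A) × (Δ → B) => Y.ϖ w q.1 *
      ((∏ b : Γ, Y.la (bif b.1 then τ w else w) q.1 (q.2.1 b)) *
        ∏ b : Δ, Y.ka (bif b.1 then σ w else w) q.1 (q.2.2 b))) (Y.N τ σ Γ Δ w) := by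
  obtain ⟨c, h⟩ := o.bd
  have := hs3 (b := ∏ _b : Γ, c) (b' := ∏ _b : Δ, c) (o.p0 w) (h w).1.1
    (fun ρ => Gw.hasSum_pi_prod (fun (b : Γ) => Y.la (bif b.1 then τ w else w) ρ)
      fun _ => o.sl _ ρ)
    (fun ρ => Gw.hasSum_pi_prod (fun (b : Δ) => Y.ka (bif b.1 then σ w else w) ρ)
      fun _ => o.sk _ ρ)
    (fun ρ α => prod_nonneg fun _ _ => o.l0 _ _ _) (fun ρ α => prod_nonneg fun _ _ => o.k0 _ _ _)
    (fun ρ => prod_le_prod (fun _ _ => tsum_nonneg (o.l0 _ _)) fun _ _ => ((h _).2 ρ).1.2)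
    (fun ρ => prod_le_prod (fun _ _ => tsum_nonneg (o.k0 _ _)) fun _ _ => ((h _).2 ρ).2.2)
  unfold Sys.N
  simp only [← prod_coe_sort Γ, ← prod_coe_sort Δ]
  exact this

/-- the weight of all the variables -/
theorem Ok.sw (o : Y.Ok) (w : Ω) : Summable fun q : (R × A) × B =>
    Y.ϖ w q.1.1 * Y.la w q.1.1 q.1.2 * Y.ka w q.1.1 q.2 := by
  obtain ⟨c, h⟩ := o.bd
  exact sm2 (p := fun e : R × A => Y.ϖ w e.1 * Y.la w e.1 e.2) (l := fun e => Y.ka w e.1)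
    (fun _ => mul_nonneg (o.p0 _ _) (o.l0 _ _ _)) (fun _ => o.k0 _ _) (o.sa w)
    fun e => ((h w).2 e.1).2

/-- the correlation -/
theorem Ok.hs_c1 (o : Y.Ok) (w : Ω) : HasSum (fun q : R × A × B =>
    ((Y.ϖ w q.1 * Y.la w q.1 q.2.1 * Y.ka w q.1 q.2.2 : ℝ) : ℂ) *
      (Y.fa w q.1 q.2.1 * Y.fb w q.1 q.2.2 * Y.φ w q.1 q.2.1 q.2.2)) (Y.c1.c w) := by
  rw [← (Equiv.prodAssoc R A B).hasSum_iff]
  refine hs2 (smc (fun _ => mul_nonneg (mul_nonneg (o.p0 _ _) (o.l0 _ _ _)) (o.k0 _ _ _)) (o.sw w)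
    (c := 1) fun q => mul1 (mul1 (o.a1 _ _ _) (o.b1 _ _ _)) (o.φ1 _ _ _ _)) fun e => ?_
  dsimp only [Sys.c1]
  simp only [← tsum_mul_left]
  exact tsum_congr fun β => by simp only [Equiv.prodAssoc_apply]; push_cast; ring

/-- the last Gram kernel -/
theorem Ok.hs_g (o : Y.Ok) (τ σ : Ω → Ω) (w : Ω) : HasSum (fun q : R × (U2 → A) × (U2 → B) =>
    ((Y.ϖ w q.1 * ((∏ b : U2, Y.la (bif b.1 then τ w else w) q.1 (q.2.1 b)) *
      ∏ b : U2, Y.ka (bif b.1 then σ w else w) q.1 (q.2.2 b)) : ℝ) : ℂ) *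
      (Y.φ w q.1 (q.2.1 (cp false)) (q.2.2 (cp false)) *
        conj (Y.φ (σ w) q.1 (q.2.1 (cp false)) (q.2.2 (cp true))) *
        conj (Y.φ (τ w) q.1 (q.2.1 (cp true)) (q.2.2 (cp false)) *
          conj (Y.φ (σ (τ w)) q.1 (q.2.1 (cp true)) (q.2.2 (cp true))))))
    ((Y.c2 σ).g τ w) := by
  let e : (R × B × B) × A × A ≃ R × (U2 → A) × (U2 → B) :=
    ⟨fun p => (p.1.1, (e2 A).symm p.2, (e2 B).symm p.1.2), fun q => ((q.1, e2 B q.2.2), e2 A q.2.1),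
      fun _ => rfl, fun q => by simp⟩
  have s := smc (fun q : R × (U2 → A) × (U2 → B) => mul_nonneg (o.p0 w q.1) (mul_nonneg
    (prod_nonneg fun _ _ => o.l0 _ _ _) (prod_nonneg fun _ _ => o.k0 _ _ _)))
    (o.hs_N τ σ univ univ w).summable (c := 1) fun q => mulc
      (mulc (o.φ1 w q.1 (q.2.1 (cp false)) (q.2.2 (cp false)))
        (o.φ1 (σ w) q.1 (q.2.1 (cp false)) (q.2.2 (cp true))))
      (mulc (o.φ1 (τ w) q.1 (q.2.1 (cp true)) (q.2.2 (cp false)))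
        (o.φ1 (σ (τ w)) q.1 (q.2.1 (cp true)) (q.2.2 (cp true))))
  rw [← e.hasSum_iff]
  refine hs2 (e.summable_iff.2 s) fun p => ?_
  have s1 := fun w => smc (o.l0 w p.1) (o.sl w p.1) (c := 1) fun α =>
    mulc (o.φ1 w p.1 α p.2.1) (o.φ1 (σ w) p.1 α p.2.2)
  have s2 := smc (o.l0 (τ w) p.1) (o.sl (τ w) p.1) (c := 1)
    (f := fun α => conj (Y.φ (τ w) p.1 α p.2.1 * conj (Y.φ (σ (τ w)) p.1 α p.2.2))) fun α => by
      rw [Complex.norm_conj]; exact mulc (o.φ1 _ _ _ _) (o.φ1 _ _ _ _)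
  dsimp only [Sys.c2]
  simp only [Complex.conj_tsum, map_mul (starRingEnd ℂ) (Y.la _ _ _ : ℂ), Complex.conj_ofReal]
  rw [tsum_mul_tsum_of_summable_norm (s1 w).norm s2.norm, ← tsum_mul_left]
  refine tsum_congr fun a => ?_
  simp only [Function.comp, e, Equiv.coe_fn_mk, prod_U2, e2, Equiv.coe_fn_symm_mk, cp, cond_true,
    cond_false]
  push_cast; ring
end Sys

namespace Hc
variable {s d : ℕ} (c : Hc s d) {k : Fin c.o.Q}

theorem as0 (ρ : c.Cf k 0) (α : c.Cf k 1) (β : c.Cf k 2) (y : {y // c.cls k y = 0}) :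
    c.as ρ α β y.1 = ρ y := dif_pos y.2
theorem as1 (ρ : c.Cf k 0) (α : c.Cf k 1) (β : c.Cf k 2) (y : {y // c.cls k y = 1}) :
    c.as ρ α β y.1 = α y := by
  rw [as, dif_neg (by rw [y.2]; decide), dif_pos y.2]
theorem as2 (ρ : c.Cf k 0) (α : c.Cf k 1) (β : c.Cf k 2) (y : {y // c.cls k y = 2}) :
    c.as ρ α β y.1 = β y := by
  rw [as, dif_neg (by rw [y.2]; decide), dif_neg (by rw [y.2]; decide), dif_pos y.2]

theorem cls3 (y : c.E) : c.cls k y = 0 ∨ c.cls k y = 1 ∨ c.cls k y = 2 := by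
  generalize c.cls k y = i; revert i; decide

/-- a configuration is given by its three classes -/
def eqv (k : Fin c.o.Q) : c.Cf k 0 × c.Cf k 1 × c.Cf k 2 ≃ (c.E → ℤ) where
  toFun q := c.as q.1 q.2.1 q.2.2
  invFun y := (fun z => y z.1, fun z => y z.1, fun z => y z.1)
  left_inv _ := Prod.ext (funext fun z => c.as0 _ _ _ z)
    (Prod.ext (funext fun z => c.as1 _ _ _ z) (funext fun z => c.as2 _ _ _ z))
  right_inv y := funext fun z => by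
    rcases c.cls3 (k := k) z with h | h | h
    exacts [c.as0 _ _ _ ⟨z, h⟩, c.as1 _ _ _ ⟨z, h⟩, c.as2 _ _ _ ⟨z, h⟩]

/-- products over the three classes -/
theorem prod_cls {M : Type} [CommMonoid M] (k : Fin c.o.Q) (f : c.E → M) : ∏ y, f y =
    (∏ y : {y // c.cls k y = 0}, f y.1) * (∏ y : {y // c.cls k y = 1}, f y.1) *
      ∏ y : {y // c.cls k y = 2}, f y.1 := by
  rw [← Fintype.prod_fiberwise (c.cls k) f, Fin.prod_univ_three]
end Hc

end Crest.Agent.N49.He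

end
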