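import Crest.Agent.N49.Ho.Grid
import Crest.Agent.N49.Br.Hom
import Crest.Agent.N49.Tw.Api

/-!
# Row 49 (helper87): the errors and the points of a top-word ring see only the sub-words
-/

set_option autoImplicit false
set_option linter.unusedSectionVars false

open Finset

noncomputable section

namespace Crest.Agent.N49.He

open Tw Br

variable {ι : Type} [Fintype ι] [LinearOrder ι] {s : ℕ} {D D' : Finset (Pt ι)}
  {V V' : ℕ → Pt ι → ℝ} {T : TS Unit} {t t' : Pt ι}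

namespace Lo

/-- the words below `t'` -/
def dn (D' : Finset (Pt ι)) (t' : Pt ι) : Finset (Pt ι) := {w ∈ D' | Le w t'}

theorem le (w : Wd s (dn D' t')) : Le w.tr t' := (mem_filter.1 w.mem).2

variable (hD : Dc D) (ht : t ∈ D) (e : bl t' ⊆ bl t)

/-- transport to the words below `t` -/
def ft (w : Wd s (dn D' t')) : Wd s D :=
  w.mk' (rs t (bl w.tr)) (hD t ht _ (rs_le _ _)) (by rw [bl_rs ((le w).bl.trans e)])

theorem ft_bl (w : Wd s (dn D' t')) : bl (ft hD ht e w).tr = bl w.tr := bl_rs ((le w).bl.trans e)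

theorem ft_le (w : Wd s (dn D' t')) : Le (ft hD ht e w).tr t := rs_le _ _

theorem ft_iff (w w' : Wd s (dn D' t')) :
    Le (ft hD ht e w').tr (ft hD ht e w).tr ↔ Le w'.tr w.tr :=
  ⟨fun k => (le w).eq_rs ▸ (le w').rs (by simpa only [ft_bl] using k.bl),
    fun k => (rs_le _ _).rs ((ft_bl hD ht e w').trans_subset k.bl)⟩

theorem ft_inj : Function.Injective (ft (s := s) (D' := D') hD ht e) := fun w w' k =>
  Wd.ext' (congrArg (fun x : Wd s D => x.lv) k) ((le w).eq (le w') (by rw [← ft_bl hD ht e, k, ft_bl]))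

theorem ft_sur (hD' : Dc D') (ht' : t' ∈ D') {x : Wd s D} (k : Le x.tr t) (b : bl x.tr ⊆ bl t') :
    ∃ w : Wd s (dn D' t'), ft hD ht e w = x :=
  ⟨x.mk' (rs t' (bl x.tr)) (mem_filter.2 ⟨hD' t' ht' _ (rs_le _ _), rs_le _ _⟩) (by rw [bl_rs b]),
    Wd.ext' rfl ((rs_le _ _).eq k ((ft_bl hD ht e _).trans (bl_rs b)))⟩

theorem u_ft (hD' : Dc D') (ht' : t' ∈ D') (y : T.Cw (tw s D V) → ℝ)
    (q : T.Cw (tw s (dn D' t') V')) :
    (T.sh (tw s D V)).u y (Ho.fc T (S := tw s D V) (f := ft hD ht e) (fun _ => rfl) q) =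
      (T.sh (tw s (dn D' t') V')).u
        (fun q => y (Ho.fc T (S := tw s D V) (f := ft hD ht e) (fun _ => rfl) q)) q := by
  have i := ft_inj (s := s) (D' := D') hD ht e
  have := Ho.u_fc (S := tw s D V) (S₁ := tw s (dn D' t') V') (f := ft hD ht e) (fun _ => rfl) i
    (T.tw0 _) y q (fun m => ?_) fun m k x hx => ?_
  · rw [TS.tp_tw0 (funext fun w => ?_)] at this
    · have a : ∀ (S : Sh Unit Unit) (y : T.Cw S → ℝ) (c : T.Cw S),
          (T.sh S).u y c = (T.tw S (T.tw0 S)).u y c := fun S y c =>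
        (congrArg (MvPolynomial.eval y) (congrArg (S.cf _ c.1.2) (TS.eval₂_tw0 _ _))).symm
      exact (a _ _ _).trans (this.trans (a _ _ _).symm)
    · rw [Ho.pj_mulVec]
      exact if_congr (and_congr Iff.rfl (by rw [ft_bl])) rfl rfl
  · refine if_congr (and_congr ?_ (and_congr ?_ ?_)) rfl rfl
    · rw [TS.weight_map]; rfl
    · rw [Finsupp.mapDomain_support_of_injective i, forall_mem_image]
      exact forall₂_congr fun w' _ => ft_iff hD ht e _ _
    · rw [Finsupp.mapDomain_support_of_injective i, image_biUnion]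
      simp only [ft_bl]
  · have l := (tw_r.1 k).2.1 x hx
    exact ft_sur hD ht e hD' ht' (l.trans (ft_le hD ht e _))
      (l.bl.trans ((ft_bl hD ht e _).trans_subset (le _).bl))

theorem pw_ft (hD' : Dc D') (ht' : t' ∈ D') (e' : bl t ⊆ bl t') (y : T.Cw (tw s D V) → ℤ) :
    T.pw (tw s D V) (chi V t) y = T.pw (tw s (dn D' t') V') (fun _ => 1)
      fun q => y (Ho.fc T (S := tw s D V) (f := ft hD ht e) (fun _ => rfl) q) := by
  refine (Ho.pw_fc (S := tw s D V) (S₁ := tw s (dn D' t') V') (f := ft hD ht e) (fun _ => rfl)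
    (ft_inj hD ht e) (fun x k => if_neg fun l => ?_) y).trans ?_
  · obtain ⟨w, hw⟩ := ft_sur hD ht e hD' ht' l (l.bl.trans e')
    exact k w hw
  · congr 1
    exact funext fun w => if_pos (ft_le hD ht e w)
end Lo

/-- **locality of the errors** -/
theorem u_loc (hD : Dc D) (hD' : Dc D') {y : T.Cw (tw s D V) → ℝ} {y' : T.Cw (tw s D' V') → ℝ}
    {c : T.Cw (tw s D V)} {c' : T.Cw (tw s D' V')} (hF : c.1.1 = c'.1.1)
    (hb : bl (Wd.tr c.1.2) = bl (Wd.tr c'.1.2))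
    (h : ∀ (q : T.Cw (tw s D V)) (q' : T.Cw (tw s D' V')), q.1.1 = q'.1.1 →
      Le (Wd.tr q.1.2) (Wd.tr c.1.2) → Le (Wd.tr q'.1.2) (Wd.tr c'.1.2) →
      bl (Wd.tr q.1.2) = bl (Wd.tr q'.1.2) → y q = y' q') :
    (T.sh (tw s D V)).u y c = (T.sh (tw s D' V')).u y' c' := by
  have m := Wd.mem c.1.2
  have m' := Wd.mem c'.1.2
  have l : Wd.lv c.1.2 = Wd.lv c'.1.2 := by
    have := c.2.trans (hF ▸ c'.2.symm)
    rw [tw_cd, tw_cd] at this
    exact Finsupp.single_injective _ this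
  let q : T.Cw (tw s (Lo.dn D' (Wd.tr c'.1.2)) V') :=
    ⟨(c'.1.1, Wd.mk' c'.1.2 _ (mem_filter.2 ⟨m', .refl _⟩) rfl), c'.2⟩
  have a := Lo.u_ft (V := V) (V' := V') hD m hb.ge hD' m' y q
  have b := Lo.u_ft (V := V') (V' := V') hD' m' Subset.rfl hD' m' y' q
  have e1 : Ho.fc T (S := tw s D V) (f := Lo.ft hD m hb.ge) (fun _ => rfl) q = c :=
    Subtype.ext (Prod.ext hF.symm (Wd.ext' l.symm ((rs_le _ _).eq (.refl _)
      ((Lo.ft_bl hD m hb.ge _).trans hb.symm))))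
  have e2 : Ho.fc T (S := tw s D' V') (f := Lo.ft hD' m' Subset.rfl) (fun _ => rfl) q = c' :=
    Subtype.ext (Prod.ext rfl (Wd.ext' rfl ((rs_le _ _).eq (.refl _) (Lo.ft_bl hD' m' Subset.rfl _))))
  rw [e1] at a
  rw [e2] at b
  rw [a, b]
  refine congrArg (fun z => (T.sh (tw s (Lo.dn D' (Wd.tr c'.1.2)) V')).u z q) (funext fun r => ?_)
  exact h _ _ rfl (Lo.ft_le hD m hb.ge _) (Lo.ft_le hD' m' Subset.rfl _)
    ((Lo.ft_bl hD m hb.ge _).trans (Lo.ft_bl hD' m' Subset.rfl _).symm)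

/-- the same inside one ring -/
theorem u_loc1 (hD : Dc D) {y y' : T.Cw (tw s D V) → ℝ} {c : T.Cw (tw s D V)}
    (h : ∀ q : T.Cw (tw s D V), Le (Wd.tr q.1.2) (Wd.tr c.1.2) → y q = y' q) :
    (T.sh (tw s D V)).u y c = (T.sh (tw s D V)).u y' c :=
  u_loc hD hD rfl rfl fun q q' a b b' e => by
    have l : Wd.lv q.1.2 = Wd.lv q'.1.2 := by
      have := q.2.trans (a ▸ q'.2.symm)
      rw [tw_cd, tw_cd] at this
      exact Finsupp.single_injective _ this
    rw [← show q = q' from Subtype.ext (Prod.ext a (Wd.ext' l (b.eq b' e)))]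
    exact h q b

/-- **locality of the points** -/
theorem pw_loc (hD : Dc D) (hD' : Dc D') (ht : t ∈ D) (ht' : t' ∈ D') (hb : bl t = bl t')
    {y : T.Cw (tw s D V) → ℤ} {y' : T.Cw (tw s D' V') → ℤ}
    (h : ∀ (q : T.Cw (tw s D V)) (q' : T.Cw (tw s D' V')), q.1.1 = q'.1.1 →
      Le (Wd.tr q.1.2) t → Le (Wd.tr q'.1.2) t' → bl (Wd.tr q.1.2) = bl (Wd.tr q'.1.2) →
      y q = y' q') : T.pw (tw s D V) (chi V t) y = T.pw (tw s D' V') (chi V' t') y' := by
  rw [Lo.pw_ft (V' := V') hD ht hb.ge hD' ht' hb.le,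
    Lo.pw_ft (V' := V') hD' ht' Subset.rfl hD' ht' Subset.rfl]
  exact congrArg _ (funext fun r => h _ _ rfl (Lo.ft_le hD ht hb.ge _)
    (Lo.ft_le hD' ht' Subset.rfl _)
    ((Lo.ft_bl hD ht hb.ge _).trans (Lo.ft_bl hD' ht' Subset.rfl _).symm))

/-- the same inside one ring -/
theorem pw_loc1 {y y' : T.Cw (tw s D V) → ℤ}
    (h : ∀ q : T.Cw (tw s D V), Le (Wd.tr q.1.2) t → y q = y' q) :
    T.pw (tw s D V) (chi V t) y = T.pw (tw s D V) (chi V t) y' :=
  funext fun _ => sum_congr rfl fun q _ => by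
    by_cases k : Le (Wd.tr q.1.2) t
    · rw [h q k]
    · rw [show chi V t q.1.2 = 0 from if_neg k, zero_mul, zero_mul]

end Crest.Agent.N49.He

end
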