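import Crest.Agent.N49.He.Dc
import Crest.Agent.N49.He.As0
import Crest.Agent.N49.He.Loc

/-!
# Row 49 (helper42): the correlation and the mass of a system
-/

set_option autoImplicit false
set_option linter.unusedSectionVars false

open Finset

noncomputable section

namespace Crest.Agent.N49.He

open Po Tw Br Rm Rm.TT Ft Md Sd

namespace Hc
variable {s d : ℕ} (c : Hc s d)

/-- directions and hidden words -/
def sp2 : (Fin 2 → c.XW c.S5 → ℤ) × (HW s c.P (D1 c.o.Q c.j) → ℤ) ≃ (c.E → ℤ) where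
  toFun q := Sum.elim (fun z => q.1 z.1 z.2) q.2
  invFun y := (fun i z => y (.inl (i, z)), fun z => y (.inr z))
  left_inv _ := rfl
  right_inv y := funext fun z => by rcases z with z | z <;> rfl

theorem ed_sp2 (w : c.CU → ℤ) (q) (z : Fin 2 × c.XW c.S5) : c.ed w (c.sp2 q) z =
    c.U.Φ (pt c.U c.x w (ex c.U c.S5 c.x (q.1 z.1))) z.2.1 := by
  have : c.vy (c.sp2 q) z.1 = ex c.U c.S5 c.x (q.1 z.1) := dif_pos z.1.2
  rw [ed, this]

theorem om_sp2 (k V x) (w : c.CU → ℤ) (q) : ∏ z, c.om k V x w (c.sp2 q) z =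
    (∏ i, c.mu c.S5 w (q.1 i)) * ∏ z : HW s c.P (D1 c.o.Q c.j), ga (c.δ z.1.1.1) (V z.1.1.2)
      ((c.P.sh _).u (zc (Sd.gl c.P (SD s _) _ q.2 (c.bg k w (c.vs c.S5 q.1)))) z.1 - x z.1) := by
  rw [Fintype.prod_sum_type, Fintype.prod_prod_type]
  simp only [om, ed_sp2]
  rfl

theorem ct_sp2 (k R) (w : c.CU → ℤ) (q) : c.ct k R {0, 1} w (c.sp2 q) * c.ct k R {2} w (c.sp2 q) =
    ∏ i, c.sh R w (q.1 i) := by
  classical
  simp only [ct, sh, ed_sp2, ite_zero_mul_ite_zero, mul_one, prod_ite_zero, prod_const_one,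
    mem_univ, forall_true_left]
  refine if_congr ⟨fun a i z => ?_, fun a => ⟨fun z _ => a _ _, fun z _ => a _ _⟩⟩ rfl rfl
  rcases c.cls3 (k := k) (.inl (i, z)) with e | e | e
  exacts [a.1 (i, z) (by simp [e]), a.1 (i, z) (by simp [e]), a.2 (i, z) (by simp [e])]

variable {c} {ε : ℝ} {h κ : ℕ} {k : Fin c.o.Q}

theorem ct_loc (L : LOC s d) (o : c.Ok ε h κ) (R w) {y y' : c.E → ℤ} (i : Fin 3) {I : Finset (Fin 3)}
    (hI : ∀ l ∈ I, l = 0 ∨ l = i) (e : ∀ z, c.cls k z = 0 ∨ c.cls k z = i → y z = y' z) :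
    c.ct k R I w y = c.ct k R I w y' := by
  classical
  refine if_congr (forall₂_congr fun z m => ?_) rfl rfl
  rw [(L c ε h κ k (fun _ => 1) 0 w w y y' i o e fun _ _ _ _ => rfl).2.1 z (hI _ m)]

theorem pf_loc (L : LOC s d) (o : c.Ok ε h κ) (f w) {y y' : c.E → ℤ} (i : Fin 3)
    {Ω : Finset (Pt (Fin (d + 2)))} (hΩ : ∀ ω ∈ Ω, ∀ n, ω c.j.succ.succ = some n →
      i = if n = k then 1 else 2) (e : ∀ z, c.cls k z = 0 ∨ c.cls k z = i → y z = y' z) :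
    pf s c.P _ f Ω (c.cy k w y) = pf s c.P _ f Ω (c.cy k w y') := by
  refine prod_congr rfl fun ω m => congrArg f (pw_loc1 fun p l => ?_)
  exact (L c ε h κ k (fun _ => 1) 0 w w y y' i o e fun _ _ _ _ => rfl).2.2 p fun n a =>
    hΩ ω m n ((l _ (by rw [a]; nofun)).symm.trans a)

theorem as01 (ρ : c.Cf k 0) (α : c.Cf k 1) (β β' : c.Cf k 2) (z : c.E)
    (e : c.cls k z = 0 ∨ c.cls k z = 1) : c.as ρ α β z = c.as ρ α β' z :=
  e.elim (fun e => (c.as0 _ _ _ ⟨z, e⟩).trans (c.as0 _ _ _ ⟨z, e⟩).symm)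
    fun e => (c.as1 _ _ _ ⟨z, e⟩).trans (c.as1 _ _ _ ⟨z, e⟩).symm
theorem as02 (ρ : c.Cf k 0) (α α' : c.Cf k 1) (β : c.Cf k 2) (z : c.E)
    (e : c.cls k z = 0 ∨ c.cls k z = 2) : c.as ρ α β z = c.as ρ α' β z :=
  e.elim (fun e => (c.as0 _ _ _ ⟨z, e⟩).trans (c.as0 _ _ _ ⟨z, e⟩).symm)
    fun e => (c.as2 _ _ _ ⟨z, e⟩).trans (c.as2 _ _ _ ⟨z, e⟩).symm

theorem wt_as (L : LOC s d) (o : c.Ok ε h κ) (a b R V x w) (q : c.Cf k 0 × c.Cf k 1 × c.Cf k 2) :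
    (c.sys k a b R V x).ϖ w q.1 * (c.sys k a b R V x).la w q.1 q.2.1 *
      (c.sys k a b R V x).ka w q.1 q.2.2 = ∏ z, c.om k V x w (c.eqv k q) z := by
  have l := fun y y' i e => (L c ε h κ k V x w w y y' i o e fun _ _ _ _ => rfl).1
  rw [c.prod_cls k]
  refine congrArg₂ _ (congrArg₂ _ (prod_congr rfl fun z _ => l _ _ 0 (fun z e => ?_) _ (.inl z.2))
    (prod_congr rfl fun z _ => l _ _ 1 (as01 _ _ _ _) _ (.inr z.2)))
    (prod_congr rfl fun z _ => l _ _ 2 (as02 _ _ _ _) _ (.inr z.2))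
  exact (c.as0 _ _ _ ⟨z, e.elim id id⟩).trans (c.as0 _ _ _ ⟨z, e.elim id id⟩).symm

theorem ab_as (L : LOC s d) (o : c.Ok ε h κ) (a b R V x w) (q : c.Cf k 0 × c.Cf k 1 × c.Cf k 2) :
    (c.sys k a b R V x).fa w q.1 q.2.1 * (c.sys k a b R V x).fb w q.1 q.2.2 =
      ((c.ct k R {0, 1} w (c.eqv k q) * c.ct k R {2} w (c.eqv k q) *
        pf s c.P _ (c.fb b) c.Ω (c.cy k w (c.eqv k q)) : ℝ) : ℂ) := by
  have e1 := ct_loc L o R w 1 (I := {0, 1}) (by simp) (as01 q.1 q.2.1 0 q.2.2)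
  have e2 := ct_loc L o R w 2 (I := {2}) (by simp) (as02 q.1 0 q.2.1 q.2.2)
  have e3 := pf_loc L o (c.fb b) w 1 (Ω := {ω ∈ c.Ω | ω c.j.succ.succ = some k})
    (fun ω m n e => by rw [if_pos (Option.some.inj (e.symm.trans (mem_filter.1 m).2))])
    (as01 q.1 q.2.1 0 q.2.2)
  have e4 := pf_loc L o (c.fb b) w 2 (Ω := {ω ∈ c.Ω | ω c.j.succ.succ ≠ some k})
    (fun ω m n e => by rw [if_neg fun z : n = k => (mem_filter.1 m).2 (e.trans (congrArg some z))])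
    (as02 q.1 0 q.2.1 q.2.2)
  dsimp only [sys]
  rw [← Complex.ofReal_mul, e1, e2, e3, e4, mul_mul_mul_comm, pf, pf,
    prod_filter_mul_prod_filter_not]
  rfl
end Hc

theorem dasm (s d : ℕ) (L : LOC s d) : ASM s d := by
  intro c ε h κ k a b R V x w τ σ o ok
  constructor
  · have h1 := ok.hs_c1 w
    simp only [Hc.wt_as L o, Hc.ab_as L o] at h1
    dsimp only [Hc.sys] at h1
    have h2 := c.sp2.hasSum_iff.2 (((c.eqv k).hasSum_iff (f := fun y =>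
      ((∏ z, c.om k V x w y z : ℝ) : ℂ) * (((c.ct k R {0, 1} w y * c.ct k R {2} w y *
        pf s c.P _ (c.fb b) c.Ω (c.cy k w y) : ℝ) : ℂ) *
          ee (c.Fp a w (c.vy y 1) - c.Fp a w (c.vy y 0))))).1 h1)
    refine h2.prod_fiberwise fun n => (h2.summable.prod_factor n).hasSum_iff.2 ?_
    unfold hs
    rw [← tsum_mul_left, Complex.ofReal_tsum, ← tsum_mul_right]
    refine tsum_congr fun z => ?_
    rw [Function.comp_apply, c.om_sp2, c.ct_sp2, ← mul_assoc, ← Complex.ofReal_mul,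
      prod_mul_distrib]
    refine congrArg₂ _ (congrArg _ ?_) rfl
    exact (mul_mul_mul_comm ..).trans (congrArg₂ _ rfl rfl)
  · obtain ⟨B, hB⟩ := ok.bd
    have h1 := As.hs3 (ok.p0 w) (hB w).1.1 (fun ρ => (ok.sl w ρ).hasSum)
      (fun ρ => (ok.sk w ρ).hasSum) (ok.l0 w) (ok.k0 w) (fun ρ => ((hB w).2 ρ).1.2)
      fun ρ => ((hB w).2 ρ).2.2
    simp only [← mul_assoc, Hc.wt_as L o] at h1
    have h2 := c.sp2.hasSum_iff.2 (((c.eqv k).hasSum_iff (f := fun y =>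
      ∏ z, c.om k V x w y z)).1 h1)
    have e : (c.sys k a b R V x).N τ σ {false} {false} w = ∑' ρ, (c.sys k a b R V x).ϖ w ρ *
        (∑' α, (c.sys k a b R V x).la w ρ α) * ∑' β, (c.sys k a b R V x).ka w ρ β := by
      simp only [Sys.N, prod_singleton, cond_false, mul_assoc]
    rw [e]
    refine h2.prod_fiberwise fun n => (h2.summable.prod_factor n).hasSum_iff.2 ?_
    unfold hs
    rw [← tsum_mul_left]
    exact tsum_congr fun z => by rw [Function.comp_apply, c.om_sp2, mul_one]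

end Crest.Agent.N49.He

end
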