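import Crest.Agent.N49.He.Defs
import Crest.Agent.N49.Ft.Rfs

/-!
# Row 49 (helper17): the refined rectangle has the two symmetries (`RFT`)
-/

set_option autoImplicit false
set_option linter.unusedSectionVars false

open Finset

noncomputable section

namespace Crest.Agent.N49.He

open Rm Rm.TT Ft Ft.Rs

namespace Rt

variable {L C : Type} [Fintype L] [DecidableEq L] [Fintype C] [DecidableEq C] {Q : ℕ}
  {T : TT L C} {j : L} {fn : C → Fin Q} {a1 a2 : ℕ}

theorem mem_tl {b : Bool} {k : Fin 1} {d : T.CC j (Fin 4)} :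
    tl L Q b k ∈ (RF T j fn a1 a2).ty d ↔ ∃ c : T.Bl j, d = .inr (c, if b then 3 else 2) := by
  rcases d with c | ⟨c, x⟩
  · simp [ty_inl, tl]
  · cases b <;> fin_cases x <;> simp [ty_ins, tl, lam]

theorem st_fix {d : T.CC j (Fin 4)} {k : Fin 1}
    (h : ∀ b, tl L Q b k ∉ (RF T j fn a1 a2).ty d) : st T j d = d := by
  rcases d with c | ⟨c, x⟩
  · rfl
  · exact congrArg (fun y => Sum.inr (c, y)) (Equiv.swap_apply_of_ne_of_ne
      (fun n => h false (mem_tl.2 ⟨c, by rw [n]; rfl⟩)) fun n => h true (mem_tl.2 ⟨c, by rw [n]; rfl⟩))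

theorem im_tl (S : Finset L) (k : Fin 1) : (S.image fun ℓ => (.inl (.inl ℓ) : LR L Q)).image
    (Equiv.swap (tl L Q false k) (tl L Q true k)) = S.image fun ℓ => .inl (.inl ℓ) := by
  rw [image_image]
  exact image_congr fun ℓ _ => Equiv.swap_apply_of_ne_of_ne (by simp [tl]) (by simp [tl])

theorem sw2 (o : T.Ok) (h : Fine T j fn) (x : L) :
    Sw (RF T j fn a1 a2) (.inl (.inl x)) (tl L Q) (fun _ => st T j) (st T j) := by
  refine ⟨ok o h, fun b b' k k' e => ⟨?_, Subsingleton.elim _ _⟩, fun b k => by simp [tl],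
    fun d b b' k k' m m' => ⟨?_, Subsingleton.elim _ _⟩, fun k d => ?_,
    fun k d m m' => st_fix (k := k) fun b => by cases b; exacts [m, m'], fun k d => ?_,
    fun k p d => ?_, fun d m => st_fix fun b => m b 0, fun _ _ _ _ => rfl⟩
  · revert e; cases b <;> cases b' <;> simp [tl]
  · obtain ⟨c, e⟩ := mem_tl.1 m
    obtain ⟨c', e'⟩ := mem_tl.1 m'
    have z := (Prod.mk.inj (Sum.inr.inj (e.symm.trans e'))).2
    revert z; cases b <;> cases b' <;> simp
  · rcases d with c | ⟨c, y⟩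
    · rfl
    · exact congrArg (fun y => Sum.inr (c, y)) (Equiv.swap_apply_self _ _ y)
  · rcases d with c | ⟨c, y⟩
    · exact (im_tl _ k).symm
    · change (RF T j fn a1 a2).ty (.inr (c, Equiv.swap 2 3 y)) = _
      rw [ty_ins, ty_ins, image_insert, im_tl]
      congr 1
      fin_cases y <;> simp [lam, tl, Equiv.swap_apply_def]
  · rcases d with c | ⟨c, y⟩
    · refine congrArg (T.Φ · c) (funext fun v => ?_)
      rcases v with c' | ℓ <;> rfl
    · change _ = (RF T j fn a1 a2).Φ p (.inr (c, Equiv.swap 2 3 y))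
      rw [phi_px, phi_px]
      congr 2
      fin_cases y <;> simp [Equiv.swap_apply_def]

theorem dis5 {d : T.CC j (Fin 4)} (h : ∀ c : T.Bl j, d ≠ .inr (c, 1) ∧ d ≠ .inr (c, 3)) :
    Disjoint ((RF T j fn a1 a2).ty d) (S5 (sl L Q) (tl L Q)) := by
  refine disjoint_left.2 fun a m k => ?_
  rcases mem_insert.1 k with rfl | k
  · obtain ⟨c, e⟩ := mem_tl.1 m
    exact (h c).2 e
  · obtain ⟨k, -, rfl⟩ := mem_image.1 k
    obtain ⟨c, e, -⟩ := mem_sl.1 m
    exact (h c).1 e

end Rt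

open Rt in
theorem rft : RFT := by
  intro L C _ _ _ _ Q T j x fn a1 a2 o h n
  refine ⟨⟨rfs L C Q T j x fn a1 a2 o h n, sw2 o h x, fun d b k b' m m' => ?_,
    fun b k b' => by simp [sl, tl]⟩, fun H y y' e m => ?_⟩
  · obtain ⟨c, e, -⟩ := mem_sl.1 m
    obtain ⟨c', e'⟩ := mem_tl.1 m'
    have z := (Prod.mk.inj (Sum.inr.inj (e.symm.trans e'))).2
    revert z; cases b <;> cases b' <;> simp
  · have : T.cor j 0 y' = T.cor j 0 y := funext fun c => by
      have e0 := e (.inl c) (dis5 fun _ => by simp)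
      by_cases k : j ∈ T.ty c
      · have e1 := e (.inr (⟨c, k⟩, 0)) (dis5 fun _ => by simp)
        have e2 := e (.inr (⟨c, k⟩, 2)) (dis5 fun _ => by simp)
        simp [cor, posZ, k, Fin.sum_univ_four, e0, e1, e2]
      · simp [cor, posZ, k, e0]
    exact show T.cor j 0 y' ∈ H from this ▸ m

end Crest.Agent.N49.He

end
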