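import Crest.Agent.N49.He.Dc
import Crest.Agent.N49.He.Loc
import Crest.Agent.N49.He.Rft

/-!
# Row 49 (helper47): the systems are blind
-/

set_option autoImplicit false
set_option linter.unusedSectionVars false

open Finset Matrix

noncomputable section

namespace Crest.Agent.N49.He

open Po Tw Br Rm Rm.TT Ft Md Sd

namespace Bd

section
variable {L C : Type} [Fintype L] [DecidableEq L] [Fintype C] [DecidableEq C] {Q : ℕ}
  (T : TT L C) (j : L) (fn : C → Fin Q) (a1 a2 : ℕ) (x : LR L Q)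

theorem pos0 (w w' v : T.CC j (Fin 4) → ℤ)
    (e : ∀ c, Disjoint ((RF T j fn a1 a2).ty c) (S5 (sl L Q) (tl L Q)) → w c = w' c) :
    T.pos j (fun _ => false) 1 (TT.cv 0) (Ft.co (pt (RF T j fn a1 a2) x w v)) =
      T.pos j (fun _ => false) 1 (TT.cv 0) (Ft.co (pt (RF T j fn a1 a2) x w' v)) := by
  have k : ∀ d : T.CC j (Fin 4), (∀ c : T.Bl j, d ≠ .inr (c, 1) ∧ d ≠ .inr (c, 3)) →
      pt (RF T j fn a1 a2) x w v (.inl d) = pt (RF T j fn a1 a2) x w' v (.inl d) := fun d h => by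
    by_cases m : x ∈ (RF T j fn a1 a2).ty d
    · simp [pt, jr, m]
    · simp [pt, jr, m, cf, e d (Rt.dis5 h)]
  funext u
  rcases u with c | ℓ
  · have e0 := k (.inl c) fun _ => by simp
    by_cases m : j ∈ T.ty c
    · have e1 := k (.inr (⟨c, m⟩, 0)) fun _ => by simp
      have e2 := k (.inr (⟨c, m⟩, 2)) fun _ => by simp
      simp [pos, tv, m, p0, px, Ft.co, TT.cv, Fin.sum_univ_four, e0, e1, e2]
    · simp [pos, tv, m, p0, Ft.co, e0]
  · rfl
end

variable {s d : ℕ} (c : Hc s d)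

theorem ct_eq {k : Fin c.o.Q} {R : ℝ} {I : Finset (Fin 3)} {w w' : c.CU → ℤ} {y y' : c.E → ℤ}
    (h : ∀ q, c.cls k (.inl q) ∈ I → c.ed w y q = c.ed w' y' q) :
    c.ct k R I w y = c.ct k R I w' y' :=
  if_congr (forall_congr' fun q => forall_congr' fun m => by rw [h q m]) rfl rfl

theorem pf_eq {D : Finset (Pt (Fin (d + 2)))} {f : (c.P.C → ℤ) → ℝ} {Ω : Finset (Pt (Fin (d + 2)))}
    {y y' : c.P.Cw (SD s D) → ℤ} (h : ∀ ω ∈ Ω, ∀ p : c.P.Cw (SD s D), Le (Br.Wd.tr p.1.2) ω →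
      y p = y' p) : pf s c.P D f Ω y = pf s c.P D f Ω y' :=
  prod_congr rfl fun ω m => congrArg f (pw_loc1 (h ω m))

end Bd

open Bd in
theorem dbld (s d : ℕ) (hL : LOC s d) : BLD s d := by
  intro c ε h κ k a b R V x r o ok mo
  have H := fun i w w' y e => hL c ε h κ k V x w w' y y i o (fun _ _ => rfl) e
  have e1 : ∀ {w w' : c.CU → ℤ}, (∀ v, Disjoint (c.U.ty v) (insert (c.tl false 0) c.S5) →
      w v = w' v) → ∀ v, Disjoint (c.U.ty v) c.S5 → (c.sl false k ∈ c.U.ty v → (1 : Fin 3) = 1) →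
      (c.tl false 0 ∈ c.U.ty v → (1 : Fin 3) = 2) → w v = w' v := fun e v a _ b =>
    e v (disjoint_insert_right.2 ⟨fun m => absurd (b m) (by decide), a⟩)
  have e2 : ∀ {w w' : c.CU → ℤ}, (∀ v, Disjoint (c.U.ty v) (insert (c.sl false k) c.S5) →
      w v = w' v) → ∀ v, Disjoint (c.U.ty v) c.S5 → (c.sl false k ∈ c.U.ty v → (2 : Fin 3) = 1) →
      (c.tl false 0 ∈ c.U.ty v → (2 : Fin 3) = 2) → w v = w' v := fun e v a b _ =>
    e v (disjoint_insert_right.2 ⟨fun m => absurd (b m) (by decide), a⟩)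
  refine ⟨ok, fun w w' e => funext fun ρ => prod_congr rfl fun y _ => ?_,
    fun w w' e => funext fun ρ => funext fun α => prod_congr rfl fun y _ =>
      (H 1 w w' _ (e1 e)).1 _ (.inr y.2), fun w w' e => funext fun ρ => funext fun α => ?_,
    fun w w' e => funext fun ρ => funext fun β => prod_congr rfl fun y _ =>
      (H 2 w w' _ (e2 e)).1 _ (.inr y.2), fun w w' e => funext fun ρ => funext fun β => ?_,
    fun w w' e => funext fun ρ => funext fun α => funext fun β => ?_, mo⟩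
  · exact (H 0 w w' _ fun v a b b' => e v (disjoint_insert_right.2 ⟨fun m => absurd (b m)
      (by decide), disjoint_insert_right.2 ⟨fun m => absurd (b' m) (by decide), a⟩⟩)).1 _ (.inl y.2)
  · obtain ⟨-, h2, h3⟩ := H 1 w w' (c.as ρ α 0) (e1 e)
    refine congrArg Complex.ofReal (congrArg₂ (· * ·) (ct_eq c fun q m => h2 q (by simpa using m))
      (pf_eq c fun ω m p l => h3 p fun n z => ?_))
    have := (l _ (by rw [z]; simp)).trans (mem_filter.1 m).2
    rw [z] at this
    rw [if_pos (Option.some.inj this)]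
  · obtain ⟨-, h2, h3⟩ := H 2 w w' (c.as ρ 0 β) (e2 e)
    refine congrArg Complex.ofReal (congrArg₂ (· * ·) (ct_eq c fun q m =>
      h2 q (.inr (by simpa using m))) (pf_eq c fun ω m p l => h3 p fun n z => ?_))
    have := l _ (by rw [z]; simp)
    rw [z] at this
    rw [if_neg fun k => (mem_filter.1 m).2 (this.symm.trans (congrArg some k))]
  · have k := fun v => congrArg (c.F a) (pos0 c.T c.j.succ c.fn c.a1 c.a2 c.x w w' v e)
    exact congrArg ee (congrArg₂ (· - ·) (k _) (k _))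

end Crest.Agent.N49.He

end
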