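import Crest.Agent.N49.He.Rt
import Crest.Agent.N49.Ft.Rfs
import Crest.Agent.N49.Ft.Rld
import Crest.Agent.N49.Ft.Fine

/-!
# Row 49 (helper36): the normalisers of the rectangle are determinants
-/

set_option autoImplicit false
set_option linter.unusedSectionVars false

open Finset Matrix

noncomputable section

namespace Crest.Agent.N49.He

open Po Tw Rm Rm.TT Md Sy Ft Sd Br

/-- block diagonal matrices -/
theorem det_cls {V K : Type} [Fintype V] [DecidableEq V] [Fintype K] [DecidableEq K] (κ : V → K)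
    (M : Matrix V V ℝ) (h : ∀ v v', κ v ≠ κ v' → M v v' = 0) :
    M.det = ∏ k, (M.submatrix (Subtype.val : {v // κ v = k} → V) Subtype.val).det := by
  let _ : LinearOrder K := LinearOrder.lift' _ (Fintype.equivFin K).injective
  exact BlockTriangular.det_fintype (b := κ) fun _ _ l => h _ _ l.ne'

namespace Dt
variable {τ L C1 : Type} [Fintype τ] [DecidableEq τ] [Fintype L] [DecidableEq L] [Fintype C1]
  [DecidableEq C1] {B : Bs L} {W : Finset (Finset τ)} {blk : τ → L} {T : TT L C1}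
  {e : Gd.Lv T → B.SC W} {s h Q : ℕ} {j : L} {fn : C1 → Fin Q} {a1 a2 : ℕ}

theorem sy_nil {ι : Type} (lev : ι → ℕ) (P : MvPolynomial ι ℝ) {A : Finset τ} {i : τ} (hi : i ∈ A)
    {y : ι → Finset τ → ℝ} (z : ∀ c D, D ⊆ A → i ∈ D → y c D = 0) : sy lev P y A = 0 := by
  rw [sy_congr' lev P (y' := fun c D => if i ∈ D then 0 else y c D) fun c D d _ => by
    split_ifs with g
    exacts [z c D d g, rfl]]
  refine (sy_lin lev P hi (y₁ := fun c D => if i ∈ D then 0 else y c D)
    (y₂ := fun c D => if i ∈ D then 0 else y c D) 0 0 (fun _ _ _ => rfl) (fun _ _ _ => rfl)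
    fun c D g => ?_).trans (by simp)
  simp [g]

theorem sx_one {v : B.SC W} {F : B.T.C} {D : Finset τ} (n : (F, D) ≠ v.1) :
    sx B.T _ W (fun u => (Pi.single (.inl v) 1 : B.SC W ⊕ L → ℝ) (.inl u)) F D = 0 := by
  unfold sx
  split_ifs with g
  · exact Pi.single_eq_of_ne (fun r => n (congrArg (fun x : B.SC W => x.1) (Sum.inl.inj r))) _
  · rfl

/-- the linear part of the symbol tower -/
theorem am_sy (k : B.Ok s h) (u v : B.SC W) : (B.SY W blk).Φ (Pi.single (.inl v) 1) u =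
    if u.1.2 = v.1.2 then (∏ a ∈ u.1.2, B.la (blk a)) * B.T.A u.1.1 v.1.1 else 0 := by
  obtain ⟨i, hi⟩ := sc_ne k.old.ok.toTri u
  change _ * sP B.T _ W (B.T.Φ u.1.1) u.1.2 _ = _
  split_ifs with q
  · congr 1
    rw [sP_phi, sum_eq_single v.1.1 (fun F _ n => mul_eq_zero_of_right _
      (sx_one fun r => n (congrArg Prod.fst r))) (by simp), q, sx_coe, ← q, sP,
      sy_congr _ (low_mem k.old.ok.toTri _) (y' := fun _ _ => 0) fun c hc D _ d => sx_one fun r => ?_,
      sy_nil _ _ hi fun _ _ _ _ => rfl]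
    · simp
    · have : #D = B.T.lev u.1.1 := by rw [← u.2.2.2, q, ← r]
      exact absurd hc (by rw [Set.mem_ofPred_eq, ← this, d]; exact lt_irrefl _)
  · refine mul_eq_zero_of_right _ ?_
    by_cases g : u.1.2 ⊆ v.1.2
    · exact sy_nil _ _ hi fun c D d _ => sx_one fun r =>
        q (Subset.antisymm g (by rw [← r]; exact d))
    · obtain ⟨a, ha, hb⟩ := not_subset.1 g
      exact sy_nil _ _ ha fun c D _ d => sx_one fun r => hb (by rw [← r]; exact d)

theorem am_em (k : B.Ok s h) (m : Em T e (B.SY W blk)) (w w' : Gd.Lv T) : T.Am w.1 w'.1 =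
    if (e w).1.2 = (e w').1.2 then (∏ a ∈ (e w).1.2, B.la (blk a)) * B.T.A (e w).1.1 (e w').1.1
    else 0 := by
  rw [← am_sy k, ← m.Φ 0]
  refine congrArg (fun q => T.Φ q w.1) (funext fun x => ?_)
  rcases x with x | x
  · simp only [rr, Sum.elim_inl]
    split_ifs with g
    · simp [Pi.single_apply, m.inj.eq_iff, Subtype.ext_iff]
    · have : x ≠ w'.1 := fun r => g (r ▸ w'.2)
      simp [this]
  · simp [rr]

theorem phi0 (o : T.Ok) (c : C1) : T.Φ 0 c = 0 := by
  rcases (T.ty c).eq_empty_or_nonempty with z | ⟨ℓ, z⟩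
  · exact o.dead c 0 z
  · have := o.lin z 0 0 0 0 fun _ _ => rfl
    rwa [show T.cmb ℓ 0 0 0 0 = 0 from funext fun v => by simp [cmb], zero_mul, add_zero] at this

/-- the base word -/
def bc (y : T.CC j (Fin 4)) : C1 := y.elim id fun x => x.1.1
/-- the direction -/
def dr (y : T.CC j (Fin 4)) : Option (Fin 4) := y.elim (fun _ => none) fun x => some x.2
/-- the scale -/
def sc (a1 a2 : ℕ) (l : Option (Fin 4)) : ℝ := l.elim 1 fun l => 2 ^ ![a1, a1, a2, a2] l

theorem bc_lv {y : T.CC j (Fin 4)} (n : ((RF T j fn a1 a2).ty y).Nonempty) :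
    (T.ty (bc y)).Nonempty := by
  rcases y with c | ⟨c, x⟩
  · exact Rs.gb_inl (fn := fn) (a1 := a1) (a2 := a2) (j := j) c ▸ n.image _
  · exact ⟨j, c.2⟩

theorem bc_inj {y y' : T.CC j (Fin 4)} (a : bc y = bc y') (b : dr y = dr y') : y = y' := by
  rcases y with c | ⟨c, x⟩ <;> rcases y' with c' | ⟨c', x'⟩
  · exact congrArg _ a
  · cases b
  · cases b
  · exact congrArg _ (Prod.ext (Subtype.ext a) (Option.some.inj b))

/-- the linear part of the rectangle -/
theorem am_rf (o : T.Ok) (y y' : T.CC j (Fin 4)) : (RF T j fn a1 a2).Am y y' =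
    if dr y = dr y' then sc a1 a2 (dr y) * T.Am (bc y) (bc y') else 0 := by
  rcases y with c | ⟨c, x⟩ <;> rcases y' with c' | ⟨c', x'⟩
  · refine (congrArg (fun q => T.Φ q c) (funext fun v => ?_)).trans (one_mul (T.Am c c')).symm
    rcases v with v | v <;> simp [p0, Ft.co, Pi.single_apply]
  · refine (congrArg (fun q => T.Φ q c) (funext fun v => ?_)).trans (phi0 o c)
    rcases v with v | v <;> simp [p0, Ft.co]
  · refine mul_eq_zero_of_right _ ?_
    by_cases g : j ∈ T.ty c'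
    · refine (congrArg (fun q => T.Φ q c.1) (funext fun v => ?_)).trans (phi0 o c.1)
      rcases v with v | v
      · by_cases d : j ∈ T.ty v
        · simp [px, Ft.co, d]
        · have : v ≠ c' := fun r => d (r ▸ g)
          simp [px, Ft.co, d, this]
      · simp [px, Ft.co]
    · refine (congrArg (fun q => T.Φ q c.1) (funext fun v => ?_)).trans
        (o.Am_blk (c := c.1) (c' := c') fun r => g (r ▸ c.2))
      rcases v with v | v
      · by_cases d : j ∈ T.ty v
        · have : v ≠ c' := fun r => g (r ▸ d)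
          simp [px, Ft.co, d, this]
        · simp [px, Ft.co, d, Pi.single_apply]
      · simp [px, Ft.co]
  · by_cases q : x = x'
    · subst q
      refine (congrArg (fun q => 2 ^ ![a1, a1, a2, a2] x * T.Φ q c.1) (funext fun v => ?_)).trans
        (if_pos rfl).symm
      rcases v with v | v
      · by_cases d : j ∈ T.ty v
        · simp [px, Ft.co, d, Pi.single_apply, Subtype.ext_iff, bc]
        · have : v ≠ c'.1 := fun r => d (r ▸ c'.2)
          simp [px, Ft.co, d, this, bc]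
      · simp [px, Ft.co]
    · refine (mul_eq_zero_of_right _ ((congrArg (fun q => T.Φ q c.1) (funext fun v => ?_)).trans
        (phi0 o c.1))).trans (if_neg fun r => q (Option.some.inj r)).symm
      rcases v with v | v
      · by_cases d : j ∈ T.ty v <;> simp [px, Ft.co, d, q]
      · simp [px, Ft.co]

/-- **the determinant of a family of types** -/
theorem det_rf (k : B.Ok s h) (m : Em T e (B.SY W blk)) {lam : C1 → ℝ}
    (hf : ∀ w w' : Gd.Lv T, (e w).1.2 = (e w').1.2 → j ∈ T.ty w.1 → fn w.1 = fn w'.1)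
    (hl : ∀ A, ∏ w : {w // (e w).1.2 = A}, lam w.1.1 = |(Matrix.of
      fun w w' : {w // (e w).1.2 = A} =>
        (∏ a ∈ A, B.la (blk a)) * B.T.A (e w.1).1.1 (e w'.1).1.1).det|)
    {V : Type} [Fintype V] [DecidableEq V] {i : V → T.CC j (Fin 4)} (hi : Function.Injective i)
    (p : Finset (LR L Q) → Prop) (p0 : ¬ p ∅)
    (hp : ∀ y, y ∈ Set.range i ↔ p ((RF T j fn a1 a2).ty y)) :
    |((RF T j fn a1 a2).Am.submatrix i i).det| = ∏ v, sc a1 a2 (dr (i v)) * lam (bc (i v)) := by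
  let b : V → Gd.Lv T := fun v => ⟨bc (i v), bc_lv (fn := fn) (a1 := a1) (a2 := a2)
    (nonempty_iff_ne_empty.2 fun z => p0 (z ▸ (hp _).1 ⟨v, rfl⟩))⟩
  let κ : V → Finset τ × Option (Fin 4) := fun v => ((e (b v)).1.2, dr (i v))
  have ty : ∀ w w' : Gd.Lv T, (e w).1.2 = (e w').1.2 → T.ty w.1 = T.ty w'.1 := fun w w' q =>
    (m.ty w).symm.trans ((congrArg (image blk) q).trans (m.ty w'))
  have am : ∀ v v', (RF T j fn a1 a2).Am (i v) (i v') = if κ v = κ v' then sc a1 a2 (κ v).2 *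
      ((∏ a ∈ (κ v).1, B.la (blk a)) * B.T.A (e (b v)).1.1 (e (b v')).1.1) else 0 := fun v v' => by
    rw [am_rf m.ok, show T.Am (bc (i v)) (bc (i v')) = _ from am_em k m (b v) (b v')]
    by_cases q : dr (i v) = dr (i v') <;> by_cases q' : (e (b v)).1.2 = (e (b v')).1.2 <;>
      simp [κ, q, q']
  rw [det_cls κ ((RF T j fn a1 a2).Am.submatrix i i) fun v v' n => 
    (am v v').trans (if_neg n), abs_prod, ← Fintype.prod_fiberwise κ]
  refine prod_congr rfl fun c _ => ?_
  rcases isEmpty_or_nonempty {v // κ v = c} with z | ⟨⟨v0, rfl⟩⟩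
  · simp [det_isEmpty]
  let g : {v // κ v = κ v0} → {w // (e w).1.2 = (κ v0).1} := fun v =>
    ⟨b v.1, congrArg Prod.fst v.2⟩
  have bj : Function.Bijective g := by
    refine ⟨fun v v' q => Subtype.ext (hi (bc_inj (congrArg (fun x => x.1.1) q)
      (congrArg Prod.snd (v.2.trans v'.2.symm)))), fun w => ?_⟩
    have t := ty w.1 (b v0) w.2
    obtain ⟨y, y1, y2, y3⟩ : ∃ y : T.CC j (Fin 4), bc y = w.1.1 ∧ dr y = dr (i v0) ∧
        (RF T j fn a1 a2).ty y = (RF T j fn a1 a2).ty (i v0) := by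
      have f := hf (b v0) w.1 w.2.symm
      simp only [b] at t f
      generalize i v0 = y0 at t f
      rcases y0 with c | ⟨c, x⟩
      · exact ⟨.inl w.1.1, rfl, rfl, by rw [Rs.ty_inl, Rs.ty_inl, t]; rfl⟩
      · exact ⟨.inr (⟨w.1.1, t ▸ c.2⟩, x), rfl, rfl, by
          rw [Rs.ty_inr, Rs.ty_inr, ← f c.2]; exact congrArg _ t⟩
    obtain ⟨v, rfl⟩ := (hp y).2 (y3 ▸ (hp _).1 ⟨v0, rfl⟩)
    have : b v = w.1 := Subtype.ext y1
    exact ⟨⟨v, Prod.ext ((congrArg (fun x => (e x).1.2) this).trans w.2) y2⟩, Subtype.ext this⟩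
  have s0 : 0 ≤ sc a1 a2 (κ v0).2 := by
    rcases (κ v0).2 with _ | l <;> simp [sc]
  rw [show ((RF T j fn a1 a2).Am.submatrix i i).submatrix (Subtype.val : {v // κ v = κ v0} → V)
    Subtype.val = sc a1 a2 (κ v0).2 • (Matrix.of fun w w' : {w // (e w).1.2 = (κ v0).1} =>
      (∏ a ∈ (κ v0).1, B.la (blk a)) * B.T.A (e w.1).1.1 (e w'.1).1.1).submatrix
        (Equiv.ofBijective g bj) (Equiv.ofBijective g bj) from Matrix.ext fun v v' =>
      (am v.1 v'.1).trans ((if_pos (v.2.trans v'.2.symm)).trans (by rw [v.2]; rfl)),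
    det_smul, det_submatrix_equiv_self, abs_mul, abs_pow, abs_of_nonneg s0, ← hl, prod_mul_distrib,
    ← (Equiv.ofBijective g bj).prod_comp, ← card_univ, ← prod_const]
  exact congrArg₂ _ (prod_congr rfl fun v _ => congrArg _ (congrArg Prod.snd v.2).symm) rfl
end Dt

namespace Hc
variable {s d : ℕ} {c : Hc s d} {ε : ℝ} {h κ : ℕ}

theorem dt_lu_pos (k : c.Ok ε h κ) (y : c.CU) : 0 < c.lu y := by
  rcases y with y | y
  · exact k.l0 y
  · exact mul_pos (by positivity) (k.l0 _)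

theorem dt_fine (k : c.Ok ε h κ) : Fine c.T c.j.succ c.fn :=
  fine_of (B := c.f.toBs) k.emb.toEm _ (fun a => a.elim ⟨0, k.o.Q.1⟩ Prod.snd) _ fun w a ha q => by
    rcases a with _ | ⟨i, t⟩
    · exact absurd q (Fin.succ_ne_zero _).symm
    · obtain rfl : i = c.j := Fin.succ_injective _ q
      exact k.fn w t ha

theorem dt_U (k : c.Ok ε h κ) : c.U.Ok := Rs.ok k.emb.ok (dt_fine k)

/-- **the normalisers of a family of types** -/
theorem det_lu (k : c.Ok ε h κ) {V : Type} [Fintype V] [DecidableEq V] {i : V → c.CU}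
    (hi : Function.Injective i) (p : Finset c.L → Prop) (p0 : ¬ p ∅)
    (hp : ∀ y, y ∈ Set.range i ↔ p (c.U.ty y)) :
    |(c.U.Am.submatrix i i).det| = ∏ v, c.lu (i v) := by
  refine (Dt.det_rf (B := c.f.toBs) k.f.toOk k.emb.toEm (fun w w' q g => ?_) k.lam hi p p0
    hp).trans (prod_congr rfl fun v _ => ?_)
  · obtain ⟨a, ha, q'⟩ := mem_image.1 ((k.emb.ty w).ge g : c.j.succ ∈ (c.e w).1.2.image bk)
    rcases a with _ | ⟨i, t⟩
    · exact absurd q' (Fin.succ_ne_zero _).symm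
    · obtain rfl : i = c.j := Fin.succ_injective _ q'
      exact (k.fn w t ha).trans (k.fn w' t (q ▸ ha)).symm
  · rcases i v with y | y
    exacts [one_mul _, rfl]

/-- the determinant of the fibre -/
theorem det_nm (k : c.Ok ε h κ) {S : Finset c.L} {x : c.L} (p : c.CU ⊕ c.L → ℝ) :
    |((c.U.dls S).Nm x p).det| = ∏ y : (c.U.dls S).Bl x, c.lu y.1 := by
  rw [(Rd.ok_dls (dt_U k) S).det_eq x p 0, ← det_lu k Subtype.val_injective
    (fun A => x ∈ A ∧ Disjoint A S) (by simp) fun y => by rw [← mem_dls]; simp]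
  refine congrArg (fun M : Matrix _ _ ℝ => |M.det|) (Matrix.ext fun y y' => ?_)
  refine (dls_Φ (mem_dls.1 y.2).2 _).trans (congrArg (fun q => c.U.Φ q y.1) (funext fun v => ?_))
  rcases v with v | v
  · by_cases g : x ∈ (c.U.dls S).ty v
    · simp [jr, g, Pi.single_apply, Subtype.ext_iff]
    · have : v ≠ y'.1 := fun r => g (r ▸ y'.2)
      simp [jr, g, this]
  · simp [jr]

theorem dt_mx (k : c.Ok ε h κ) (S : Finset c.L) (w : c.CU → ℤ) :
    dt (Mx c.U S c.x w) = (∏ y : c.XW S, c.lu y.1)⁻¹ :=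
  (Ir.dt_tr _).trans (congrArg _ (det_nm k _))

/-- **the weight of a direction is a normalised Gaussian** -/
theorem mu_gd (k : c.Ok ε h κ) {S : Finset c.L} (hx : c.x ∉ S) (w : c.CU → ℤ) (n : c.XW S → ℤ) :
    c.mu S w n = gd (Mx c.U S c.x w) 0 n := by
  have := (Ft.rld _ _ c.U S c.x w 0 (dt_U k) hx
    ⟨fun _ _ _ => rfl, fun _ _ _ _ _ _ _ => by simp⟩).2.2.2.1 n
  rw [gd, sub_zero, this, dt_mx k, div_inv_eq_mul, mul_comm, mu, sum_subtype (p := fun y =>
    c.x ∈ (c.U.dls S).ty y) _ (by simp), mul_sum, Real.exp_sum, ← prod_mul_distrib]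
  exact prod_congr rfl fun y _ => by simp [ga]
end Hc

end Crest.Agent.N49.He

end
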