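import Crest.Agent.N49.He.Sok
import Crest.Agent.N49.Rm.Mg2
import Crest.Agent.N49.Po.Pi

/-!
# Row 49 (helper80): the directions are short
-/

set_option autoImplicit false
set_option linter.unusedSectionVars false

open Finset Matrix

noncomputable section

namespace Crest.Agent.N49.He

open Po Tw Br Rm Rm.TT Ft Md Sd

namespace Sbg

section lat
variable {d : Type} [Fintype d] [DecidableEq d] {N : Matrix d d ℝ}

theorem pd (h : N.det ≠ 0) : (Nᵀ * N).PosDef := by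
  have := posDef_conj (M := 1) (B := N) PosDef.one
    (mulVec_injective_iff_isUnit.2 ((isUnit_iff_isUnit_det _).2 h.isUnit))
  rwa [Matrix.mul_one] at this

/-- one coordinate of a centred lattice Gaussian -/
theorem one (h : N.det ≠ 0) (c : d) {r : ℝ} (r0 : 0 ≤ r) (n : d → ℤ) (k : r < |(N *ᵥ zc n) c|) :
    gs (Nᵀ * N) (zc n) ≤ Real.exp (-(Real.pi * r ^ 2)) *
      (gs (Nᵀ * N) (zc n - N⁻¹ *ᵥ Pi.single c r) + gs (Nᵀ * N) (zc n - N⁻¹ *ᵥ Pi.single c (-r))) := by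
  have e2 : ∀ t : ℝ, t ^ 2 ≤ t * (N *ᵥ zc n) c → gs (Nᵀ * N) (zc n) ≤
      Real.exp (-(Real.pi * t ^ 2)) * gs (Nᵀ * N) (zc n - N⁻¹ *ᵥ Pi.single c t) := fun t k => by
    rw [gs, gs, qf_mul, qf_mul, mulVec_sub, mulVec_mulVec, mul_nonsing_inv _ h.isUnit, one_mulVec]
    exact Mg2.sh_le _ c k
  have p1 := gs_pos (Nᵀ * N) (zc n - N⁻¹ *ᵥ Pi.single c r)
  have p2 := gs_pos (Nᵀ * N) (zc n - N⁻¹ *ᵥ Pi.single c (-r))
  have p3 := Real.exp_pos (-(Real.pi * r ^ 2))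
  rcases Mg2.sgn r0 k with m | m
  · exact (e2 _ m).trans (by nlinarith)
  · exact (e2 _ m).trans (by rw [neg_sq]; nlinarith)

theorem sm (h : N.det ≠ 0) : Summable fun n : d → ℤ => gs (Nᵀ * N) (zc n) := by
  simpa only [sub_zero] using summable_gs (pd h) 0

/-- all the coordinates -/
theorem all (h : N.det ≠ 0) {r : ℝ} (r0 : 0 ≤ r) {g : (d → ℤ) → ℝ} (g0 : ∀ n, 0 ≤ g n)
    (g1 : ∀ n, g n ≤ 1) (gz : ∀ n, (∀ c, |(N *ᵥ zc n) c| ≤ r) → g n = 0) :
    ∑' n : d → ℤ, gs (Nᵀ * N) (zc n) * g n ≤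
      2 * Fintype.card d * Real.exp (-(Real.pi * r ^ 2)) * ∑' n : d → ℤ, gs (Nᵀ * N) (zc n) := by
  have s := fun θ => (summable_gs (pd h) θ).hasSum
  have H := (hasSum_sum (s := univ) fun c _ => (s (N⁻¹ *ᵥ Pi.single c r)).add
    (s (N⁻¹ *ᵥ Pi.single c (-r)))).mul_left (Real.exp (-(Real.pi * r ^ 2)))
  have p3 := Real.exp_pos (-(Real.pi * r ^ 2))
  have k : ∀ n, gs (Nᵀ * N) (zc n) * g n ≤ Real.exp (-(Real.pi * r ^ 2)) * ∑ c,
      (gs (Nᵀ * N) (zc n - N⁻¹ *ᵥ Pi.single c r) +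
        gs (Nᵀ * N) (zc n - N⁻¹ *ᵥ Pi.single c (-r))) := fun n => by
    have q : ∀ c ∈ (univ : Finset d), 0 ≤ gs (Nᵀ * N) (zc n - N⁻¹ *ᵥ Pi.single c r) +
        gs (Nᵀ * N) (zc n - N⁻¹ *ᵥ Pi.single c (-r)) :=
      fun c _ => (add_pos (gs_pos _ _) (gs_pos _ _)).le
    by_cases m : ∀ c, |(N *ᵥ zc n) c| ≤ r
    · rw [gz n m, mul_zero]; exact mul_nonneg p3.le (sum_nonneg q)
    · obtain ⟨c, m⟩ := not_forall.1 m
      exact (mul_le_of_le_one_right (gs_pos _ _).le (g1 n)).trans ((one h c r0 n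
        (not_le.1 m)).trans (mul_le_mul_of_nonneg_left (single_le_sum q (mem_univ c)) p3.le))
  refine (hasSum_le k (Summable.of_nonneg_of_le (fun n => mul_nonneg (gs_pos _ _).le (g0 n)) k
    H.summable).hasSum H).trans ?_
  have t : ∀ θ, ∑' n : d → ℤ, gs (Nᵀ * N) (zc n - θ) ≤ ∑' n : d → ℤ, gs (Nᵀ * N) (zc n) :=
    fun θ => by simpa only [th, sub_zero] using th_le (pd h) θ
  refine (mul_le_mul_of_nonneg_left (sum_le_sum fun c _ => add_le_add (t _) (t _)) p3.le).trans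
    (le_of_eq ?_)
  rw [sum_const, card_univ, nsmul_eq_mul]
  ring
end lat

/-- independent copies: a union bound -/
theorem pi {X I : Type} [Fintype I] [DecidableEq I] {μ : X → ℝ} (p : ∀ x, 0 ≤ μ x) (s : Summable μ)
    (P : X → Prop) {a : ℝ} (h : ∀ g : X → ℝ, (∀ x, 0 ≤ g x) → (∀ x, g x ≤ 1) →
      (∀ x, P x → g x = 0) → ∑' x, μ x * g x ≤ a * ∑' x, μ x) {g : (I → X) → ℝ}
    (g0 : ∀ v, 0 ≤ g v) (g1 : ∀ v, g v ≤ 1) (gz : ∀ v, (∀ i, P (v i)) → g v = 0) :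
    ∑' v : I → X, (∏ i, μ (v i)) * g v ≤ Fintype.card I * a * (∑' x, μ x) ^ Fintype.card I := by
  classical
  let f : I → I → X → ℝ := fun i j x => if j = i then μ x * (if P x then 0 else 1) else μ x
  have u0 : ∀ x, (0 : ℝ) ≤ if P x then 0 else 1 := fun x => by split_ifs <;> norm_num
  have u1 : ∀ x, (if P x then 0 else 1 : ℝ) ≤ 1 := fun x => by split_ifs <;> norm_num
  have f0 : ∀ i j x, 0 ≤ f i j x := fun i j x => by
    have := p x; have := u0 x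
    simp only [f]; split_ifs <;> positivity
  have f1 : ∀ i j x, f i j x ≤ μ x := fun i j x => by
    simp only [f]; split_ifs <;> simp [p x]
  have fs : ∀ i j, Summable (f i j) := fun i j => s.of_nonneg_of_le (f0 i j) (f1 i j)
  have S := fun i => (summable_pi_prod (X := fun _ : I => X) (f0 i) (fs i)).hasSum
  have H := hasSum_sum (s := univ) fun i _ => S i
  have k : ∀ v : I → X, (∏ i, μ (v i)) * g v ≤ ∑ i, ∏ j, f i j (v j) := fun v => by
    have q : ∀ i ∈ (univ : Finset I), 0 ≤ ∏ j, f i j (v j) :=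
      fun i _ => prod_nonneg fun j _ => f0 _ _ _
    by_cases m : ∀ i, P (v i)
    · rw [gz v m, mul_zero]; exact sum_nonneg q
    · obtain ⟨i, m⟩ := not_forall.1 m
      refine (mul_le_of_le_one_right (prod_nonneg fun _ _ => p _) (g1 v)).trans
        (le_trans (le_of_eq (prod_congr rfl fun j _ => ?_)) (single_le_sum q (mem_univ i)))
      simp only [f]
      split_ifs with a b
      · exact absurd (a ▸ b) m
      · rw [mul_one]
      · rfl
  refine (hasSum_le k (Summable.of_nonneg_of_le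
    (fun v => mul_nonneg (prod_nonneg fun _ _ => p _) (g0 v)) k H.summable).hasSum H).trans ?_
  rw [mul_assoc, ← nsmul_eq_mul, ← card_univ, ← sum_const]
  refine sum_le_sum fun i _ => ?_
  rw [tsum_pi_prod (X := fun _ : I => X) (fs i), ← mul_prod_erase _ _ (mem_univ i),
    ← card_erase_add_one (mem_univ i), pow_succ', ← mul_assoc, ← prod_const]
  refine mul_le_mul ?_ (le_of_eq (prod_congr rfl fun j m => ?_))
    (prod_nonneg fun j _ => tsum_nonneg (f0 i j)) ((tsum_nonneg fun x => mul_nonneg (p x) (u0 x)).trans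
      (h _ u0 u1 fun x m => if_pos m))
  · simpa only [f, if_true] using h _ u0 u1 fun x m => if_pos m
  · simp only [f, if_neg (ne_of_mem_erase m)]

theorem num {n L R : ℝ} (h : n + L ≤ R ^ 2) (hL : 0 ≤ L) :
    2 * n * Real.exp (-(Real.pi * R ^ 2)) ≤ Real.exp (-L) := by
  have a := Real.add_one_le_exp (2 * n)
  refine (mul_le_mul_of_nonneg_right (show 2 * n ≤ Real.exp (2 * n) by linarith)
    (Real.exp_pos _).le).trans ?_
  rw [← Real.exp_add, Real.exp_le_exp]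
  nlinarith [Real.pi_gt_three]

/-- the form with a logarithm -/
theorem num2 {N : ℝ} {n m : ℕ} {R : ℝ} (h : N ≤ 2 ^ n) (k : (n + m + 1 : ℝ) ≤ R ^ 2) :
    2 * N * Real.exp (-(Real.pi * R ^ 2)) ≤ (1 / 2) ^ m := by
  have a : Real.exp (-(Real.pi * R ^ 2)) ≤ (1 / 2) ^ (n + m + 1) := by
    refine le_trans (Real.exp_le_exp.2 (show _ ≤ -((n + m + 1 : ℕ) : ℝ) by
      push_cast; nlinarith [Real.pi_gt_three, sq_nonneg R])) ?_
    rw [Real.exp_neg, ← Real.exp_one_pow, ← inv_pow, one_div]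
    gcongr
    linarith [Real.add_one_le_exp 1]
  calc _ ≤ 2 * 2 ^ n * (1 / 2 : ℝ) ^ (n + m + 1) := by gcongr
    _ = _ := by rw [pow_succ, pow_add, one_div, inv_pow]; field_simp
end Sbg

namespace Hc
variable {s d : ℕ} {c : Hc s d}

theorem mu_gs (u : c.U.Ok) (S : Finset c.L) (w : c.CU → ℤ) (n : c.XW S → ℤ) : c.mu S w n =
    (∏ y : c.XW S, c.lu y.1) * gs (((c.U.dls S).Nm c.x (cf w))ᵀ * (c.U.dls S).Nm c.x (cf w)) (zc n) := by
  rw [gs, qf_mul, mul_sum, ← sum_neg_distrib, Real.exp_sum, ← prod_mul_distrib]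
  exact prod_congr rfl fun y _ => by rw [ga, Sk.phi_pt u, Real.sqrt_one, div_one, div_one]

theorem mu_sm (u : c.U.Ok) (S : Finset c.L) (w : c.CU → ℤ) : Summable (c.mu S w) := by
  rw [funext (mu_gs u S w)]
  exact (Sbg.sm ((Rd.ok_dls u S).det_ne _ _)).mul_left _

/-- **a direction is short** -/
theorem mu_tail (u : c.U.Ok) (hl : ∀ y, 0 ≤ c.lu y) (S : Finset c.L) (w : c.CU → ℤ) {R : ℝ}
    (R0 : 0 ≤ R) (g : (c.XW S → ℤ) → ℝ) (g0 : ∀ n, 0 ≤ g n) (g1 : ∀ n, g n ≤ 1)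
    (gz : ∀ n, (∀ y : c.XW S, |c.U.Φ (pt c.U c.x w (ex c.U S c.x n)) y.1| ≤ R) → g n = 0) :
    ∑' n, c.mu S w n * g n ≤
      2 * Fintype.card (c.XW S) * Real.exp (-(Real.pi * R ^ 2)) * ∑' n, c.mu S w n := by
  simp only [mu_gs u, mul_assoc, tsum_mul_left]
  have := mul_le_mul_of_nonneg_left (Sbg.all ((Rd.ok_dls u S).det_ne c.x (cf w)) R0 g0 g1
    fun n k => gz n fun y => (Sk.phi_pt u S c.x w n y).symm ▸ k y)
    (prod_nonneg fun (y : c.XW S) (_ : y ∈ univ) => hl y.1)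
  linarith

/-- **all the directions are short** -/
theorem mu_tails (u : c.U.Ok) (hl : ∀ y, 0 ≤ c.lu y) (S : Finset c.L) (w : c.CU → ℤ) {R : ℝ}
    (R0 : 0 ≤ R) {r : ℕ} (g : (Fin r → c.XW S → ℤ) → ℝ) (g0 : ∀ v, 0 ≤ g v) (g1 : ∀ v, g v ≤ 1)
    (gz : ∀ v, (∀ i (y : c.XW S), |c.U.Φ (pt c.U c.x w (ex c.U S c.x (v i))) y.1| ≤ R) → g v = 0) :
    ∑' v, (∏ i, c.mu S w (v i)) * g v ≤ r * (2 * Fintype.card (c.XW S) *
      Real.exp (-(Real.pi * R ^ 2))) * (∑' n, c.mu S w n) ^ r := by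
  simpa only [Fintype.card_fin] using Sbg.pi (μ := c.mu S w)
    (fun n => prod_nonneg fun y _ => Sk.ga_nn (hl _) _ _) (mu_sm u S w) _
    (mu_tail u hl S w R0) g0 g1 gz
end Hc

end Crest.Agent.N49.He

end
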