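import Crest.Agent.N49.He.Trb
import Crest.Agent.N49.He.Rft
import Crest.Agent.N49.Ft.Fine
import Crest.Agent.N49.Sd.Ogc

/-!
# Row 49 (helper70): the weight of a system is triangular
-/

set_option autoImplicit false
set_option linter.unusedSectionVars false

open Finset Matrix

noncomputable section

namespace Crest.Agent.N49.He

open Po Tw Br Rm Rm.TT Ft Md Sd

/-- the principal block -/
def sb {J : Type} (p : J → Prop) (A : Matrix J J ℝ) : Matrix {i // p i} {i // p i} ℝ :=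
  A.submatrix Subtype.val Subtype.val

theorem inj_sub {J : Type} [Fintype J] [DecidableEq J] {A : Matrix J J ℝ}
    (hA : Function.Injective A.mulVec) (p : J → Prop) [DecidablePred p]
    (h : ∀ i j, A i j ≠ 0 → (p i ↔ p j)) :
    Function.Injective (sb p A).mulVec := by
  refine (injective_iff_map_eq_zero (mulVecLin _)).2 fun x e => ?_
  have k : A *ᵥ glue p x 0 = A *ᵥ 0 := by
    rw [mulVec_zero]
    funext i
    by_cases a : p i
    · refine Eq.trans ?_ (congrFun e ⟨i, a⟩)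
      simp only [sb, mulVecLin_apply, mulVec, dotProduct, submatrix_apply]
      rw [← sum_filter_add_sum_filter_not univ p, sum_eq_zero (s := filter (¬ p ·) _)
        fun j b => by simp [glue, (mem_filter.1 b).2], add_zero,
        sum_subtype (p := p) _ (fun j => by simp)]
      exact sum_congr rfl fun j _ => by simp [glue, j.2]
    · refine sum_eq_zero fun j _ => ?_
      by_cases b : p j
      · exact mul_eq_zero_of_left (by_contra fun z : A i j ≠ 0 => a ((h i j z).2 b)) _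
      · simp [glue, b]
  funext i
  simpa [glue, i.2] using congrFun (hA k) i.1

theorem mulVec_glue {J : Type} [Fintype J] [DecidableEq J] (A : Matrix J J ℝ) (p : J → Prop)
    [DecidablePred p] (h : ∀ i j, A i j ≠ 0 → (p i ↔ p j)) (x : J → ℝ) (i : {i // p i}) :
    (A *ᵥ x) i.1 = (sb p A *ᵥ fun j => x j.1) i := by
  simp only [sb, mulVec, dotProduct, submatrix_apply]
  rw [← sum_filter_add_sum_filter_not univ p, sum_eq_zero (s := filter (¬ p ·) _)
    fun j b => by rw [by_contra fun z : A i j ≠ 0 => (mem_filter.1 b).2 ((h i j z).1 i.2), zero_mul],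
    add_zero, sum_subtype (p := p) _ (fun j => by simp)]

/-- uniform summability on a class of coordinates -/
theorem tri_bd_sub {J : Type} [Fintype J] [DecidableEq J] (lev : J → ℕ) (A : Matrix J J ℝ)
    (hA : Function.Injective A.mulVec) (bA : Rw.Blk lev A) (δ V : J → ℝ) (hδ : ∀ i, 0 ≤ δ i)
    (hV : ∀ i, 0 < V i) (p : J → Prop) [DecidablePred p] (h : ∀ i j, A i j ≠ 0 → (p i ↔ p j)) :
    ∃ b, ∀ (e : (J → ℤ) → J → ℝ) (y0 : J → ℤ),
      (∀ y y' i, (∀ j, lev j < lev i → y j = y' j) →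
        e y i - (A *ᵥ zc y) i = e y' i - (A *ᵥ zc y') i) →
      (Summable fun n => ∏ i : {i // p i}, ga (δ i) (V i) (e (glue p n y0) i)) ∧
        ∑' n, ∏ i : {i // p i}, ga (δ i) (V i) (e (glue p n y0) i) ≤ b := by
  obtain ⟨b, k⟩ := tri_bd (fun i : {i // p i} => lev i.1) _ (inj_sub hA p h)
    (fun i j n => bA _ _ n) (fun i => δ i.1) (fun i => V i.1) (fun i => hδ _) fun i => hV _
  refine ⟨b, fun e y0 he => k (fun n i => e (glue p n y0) i.1) fun n n' i q => ?_⟩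
  have := he (glue p n y0) (glue p n' y0) i.1 fun j r => by
    unfold glue
    split_ifs with a
    exacts [q ⟨j, a⟩ r, rfl]
  rw [mulVec_glue A p h, mulVec_glue A p h] at this
  have z : ∀ n : {i // p i} → ℤ, (fun j : {i // p i} => zc (glue p n y0) j.1) = zc n :=
    fun n => funext fun j => by simp [zc, glue, j.2]
  rwa [z, z] at this

theorem sd_ok (s : ℕ) {d : ℕ} {D : Finset (Pt (Fin (d + 2)))} (h : Dc D) : (SD s D).Ok :=
  tw_ok h fun _ _ => one_pos

namespace Hc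
variable {s d : ℕ} {c : Hc s d} {ε : ℝ} {h κ : ℕ}

theorem Ok.fine (o : c.Ok ε h κ) : Fine c.T c.j.succ c.fn := by
  refine fine_of (B := c.f.toBs) o.emb.toEm c.j.succ
    (fun a => a.elim ⟨0, o.o.Q.1⟩ Prod.snd) c.fn fun w a m e => ?_
  rcases a with _ | ⟨j, i⟩
  · exact ((Fin.succ_ne_zero _) e.symm).elim
  · obtain rfl : j = c.j := Fin.succ_inj.1 e
    exact o.fn w i m

theorem Ok.sw2 (o : c.Ok ε h κ) : Sw2 c.U c.sl c.tl c.x c.τ (sg c.T c.j.succ) c.σ :=
  (rft _ _ _ c.T c.j.succ 0 c.fn c.a1 c.a2 o.emb.ok o.fine (Fin.succ_ne_zero _).symm).1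

theorem Ok.U (o : c.Ok ε h κ) : c.U.Ok := o.sw2.s1.ok

variable (c) in
theorem P_stg : c.P.Stg c.o.g.st c.o.g.M := Oc.un_stg c.o.h.stg c.o.h.wh

variable (c) in
theorem sh_tri {D : Finset (Pt (Fin (d + 2)))} (hD : Dc D) : (c.P.sh (SD s D)).Tri :=
  TS.sh_tri c.P_stg.cl (sd_ok s hD)

theorem Ok.lu_pos (o : c.Ok ε h κ) (w : c.CU) : 0 < c.lu w := by
  rcases w with w | w
  · exact o.l0 w
  · exact mul_pos (by positivity) (o.l0 _)

variable (c)
/-- normalisers, variances, errors, levels and linear part of a system -/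
def δE : c.E → ℝ
  | .inl z => c.lu z.2.1
  | .inr z => c.δ z.1.1.1
def VE (V : Br.Wd s (D1 c.o.Q c.j) → ℝ) : c.E → ℝ
  | .inl _ => 1
  | .inr z => V z.1.1.2
def er (k : Fin c.o.Q) (x : c.P.Cw (SD s (D1 c.o.Q c.j)) → ℝ) (w : c.CU → ℤ) (y : c.E → ℤ) :
    c.E → ℝ
  | .inl z => c.ed w y z
  | .inr z => (c.P.sh _).u (zc (c.cy k w y)) z.1 - x z.1
def lvE : c.E → ℕ
  | .inl z => #(c.U.ty z.2.1)
  | .inr z => Fintype.card c.L + 1 + (c.P.sh (SD s (D1 c.o.Q c.j))).lev z.1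
/-- the linear parts on the directions and on the hidden words -/
def AX (S : Finset c.L) : Matrix (c.XW S) (c.XW S) ℝ := sb _ c.U.Am
def AH (D : Finset (Pt (Fin (d + 2)))) : Matrix (HW s c.P D) (HW s c.P D) ℝ :=
  sb (fun p : c.P.Cw (SD s D) => ¬ Sd.kw p.1.2) (c.P.sh (SD s D)).A
def AE : Matrix c.E c.E ℝ := fromBlocks
  (Matrix.of fun z z' => if z.1 = z'.1 then c.AX c.S5 z.2 z'.2 else 0) 0 0 (c.AH _)

theorem om_eq (k V x w y) (e : c.E) :
    c.om k V x w y e = ga (c.δE e) (c.VE V e) (c.er k x w y e) := by cases e <;> rfl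

variable {c}
theorem xw_iff {S : Finset c.L} {z : c.CU} :
    c.x ∈ (c.U.dls S).ty z ↔ Disjoint (c.U.ty z) S ∧ c.x ∈ c.U.ty z := by
  by_cases a : Disjoint (c.U.ty z) S
  · rw [dls_ty a]; simp [a]
  · rw [dls_ty' a]; simp [a]

theorem A_wd {D : Finset (Pt (Fin (d + 2)))} (hD : Dc D) {p p' : c.P.Cw (SD s D)}
    (n : (c.P.sh (SD s D)).A p p' ≠ 0) : p.1.2 = p'.1.2 := by
  rw [TS.sh_A (sd_ok s hD)] at n
  exact by_contra fun q => n (by rw [one_apply_ne q, mul_zero])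

theorem Am_ty (o : c.U.Ok) {z z' : c.CU} (n : c.U.Am z z' ≠ 0) : c.U.ty z = c.U.ty z' :=
  by_contra fun q => n (o.Am_blk q)

theorem AE_blk (o : c.U.Ok) : Rw.Blk c.lvE c.AE := by
  rintro (z | z) (z' | z') n
  · have : c.AX c.S5 z.2 z'.2 = 0 := by_contra fun q => n (congrArg card (Am_ty o q))
    simp [AE, this]
  · rfl
  · rfl
  · exact if_neg fun q => n (congrArg (_ + ·) q)

theorem AE_cls (o : c.U.Ok) (k : Fin c.o.Q) {e e' : c.E} (n : c.AE e e' ≠ 0) :
    c.cls k e = c.cls k e' := by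
  rcases e with z | z <;> rcases e' with z' | z'
  · have : c.U.Am z.2.1 z'.2.1 ≠ 0 := fun q : c.AX c.S5 z.2 z'.2 = 0 => n (by simp [AE, q])
    simp only [cls, Am_ty o this]
  · exact (n rfl).elim
  · exact (n rfl).elim
  · simp only [cls, A_wd (dc_grid _) n]

theorem AE_inl (y : c.E → ℝ) (z : Fin 2 × c.XW c.S5) : (c.AE *ᵥ y) (.inl z) =
    (c.AX c.S5 *ᵥ fun z' : c.XW c.S5 => y (.inl (z.1, z'))) z.2 := by
  simp only [AE, mulVec, dotProduct, Fintype.sum_sum_type, fromBlocks_apply₁₁, fromBlocks_apply₁₂,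
    Matrix.zero_apply, zero_mul, sum_const_zero, add_zero, of_apply, Fintype.sum_prod_type, ite_mul]
  rw [sum_comm]
  simp only [sum_ite_eq, mem_univ, if_true]

theorem AE_inr (y : c.E → ℝ) (z : HW s c.P (D1 c.o.Q c.j)) : (c.AE *ᵥ y) (.inr z) =
    (c.AH _ *ᵥ fun z' : HW s c.P (D1 c.o.Q c.j) => y (.inr z')) z := by
  simp only [AE, mulVec, dotProduct, Fintype.sum_sum_type, fromBlocks_apply₂₁, fromBlocks_apply₂₂,
    Matrix.zero_apply, zero_mul, sum_const_zero, zero_add]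

theorem xw_blk (o : c.U.Ok) (S : Finset c.L) (z z' : c.CU) (n : c.U.Am z z' ≠ 0) :
    c.x ∈ (c.U.dls S).ty z ↔ c.x ∈ (c.U.dls S).ty z' := by rw [xw_iff, xw_iff, Am_ty o n]

theorem hw_blk {D : Finset (Pt (Fin (d + 2)))} (hD : Dc D) (p p' : c.P.Cw (SD s D))
    (n : (c.P.sh (SD s D)).A p p' ≠ 0) : ¬ Sd.kw p.1.2 ↔ ¬ Sd.kw p'.1.2 := by rw [A_wd hD n]

theorem AE_inj (o : c.U.Ok) : Function.Injective c.AE.mulVec := fun y y' e => by
  have t := c.sh_tri (D := D1 c.o.Q c.j) (dc_grid _)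
  funext v
  rcases v with z | z
  · refine congrFun (inj_sub o.Am_inj _ (xw_blk o c.S5)
      (a₁ := fun z' => y (.inl (z.1, z'))) (a₂ := fun z' => y' (.inl (z.1, z')))
      (funext fun z' => ?_)) z.2
    exact (AE_inl y (z.1, z')).symm.trans ((congrFun e _).trans (AE_inl y' (z.1, z')))
  · refine congrFun (inj_sub (mulVec_injective_iff_isUnit.2 ((isUnit_iff_isUnit_det _).2 t.unit)) _
      (hw_blk (dc_grid _)) (a₁ := fun z' => y (.inr z')) (a₂ := fun z' => y' (.inr z'))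
      (funext fun z' => ?_)) z
    exact (AE_inr y z').symm.trans ((congrFun e _).trans (AE_inr y' z'))

/-- a direction, read on a word -/
theorem pt_ex {S : Finset c.L} (w : c.CU → ℤ) (n : c.XW S → ℤ) (z : c.XW S) :
    pt c.U c.x w (ex c.U S c.x n) (.inl z.1) = n z :=
  (jr_inl (T := c.U) _ _ _ ⟨z.1, (xw_iff.1 z.2).2⟩).trans (congrArg Int.cast (dif_pos z.2))

/-- the error of a direction is triangular -/
theorem phi_tri (o : c.U.Ok) {S : Finset c.L} (w : c.CU → ℤ) (n n' : c.XW S → ℤ) (z : c.XW S)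
    (e : ∀ z' : c.XW S, c.U.ty z'.1 ⊂ c.U.ty z.1 → n z' = n' z') :
    c.U.Φ (pt c.U c.x w (ex c.U S c.x n)) z.1 -
      (c.AX S *ᵥ zc n) z =
    c.U.Φ (pt c.U c.x w (ex c.U S c.x n')) z.1 -
      (c.AX S *ᵥ zc n') z := by
  have k : ∀ n : c.XW S → ℤ, (c.U.Am *ᵥ fun v => pt c.U c.x w (ex c.U S c.x n) (.inl v)) z.1 =
      (c.AX S *ᵥ zc n) z := fun n =>
    (mulVec_glue _ _ (xw_blk o S) _ z).trans (congrArg (fun v => (_ *ᵥ v) z)
      (funext fun z' => pt_ex w n z'))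
  rw [o.phi_eq, o.phi_eq, Pi.add_apply, Pi.add_apply, k, k, add_sub_cancel_left,
    add_sub_cancel_left]
  refine o.off_congr (fun _ => rfl) fun v q => ?_
  by_cases a : c.x ∈ c.U.ty v
  · have b : c.x ∈ (c.U.dls S).ty v := xw_iff.2 ⟨(xw_iff.1 z.2).1.mono_left q.1, a⟩
    exact (pt_ex w n ⟨v, b⟩).trans ((congrArg Int.cast (e ⟨v, b⟩ q)).trans (pt_ex w n' ⟨v, b⟩).symm)
  · exact (jr_out (v := .inl v) _ _ _ a).trans (jr_out (v := .inl v) _ _ _ a).symm

theorem vy_eq (y : c.E → ℤ) (i : Fin 2) :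
    c.vy y i = ex c.U c.S5 c.x fun z => y (.inl (i, z)) := dif_pos i.2

/-- the hidden errors are triangular -/
theorem u_tri {D : Finset (Pt (Fin (d + 2)))} (hD : Dc D) (b : c.P.Cw (SD s D) → ℤ)
    (n n' : HW s c.P D → ℤ) (z : HW s c.P D) (e : ∀ z' : HW s c.P D,
      (c.P.sh (SD s D)).lev z'.1 < (c.P.sh (SD s D)).lev z.1 → n z' = n' z') :
    (c.P.sh (SD s D)).u (zc (Sd.gl c.P (SD s D) (fun w => ¬ Sd.kw w) n b)) z.1 -
      (c.AH D *ᵥ zc n) z =
    (c.P.sh (SD s D)).u (zc (Sd.gl c.P (SD s D) (fun w => ¬ Sd.kw w) n' b)) z.1 -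
      (c.AH D *ᵥ zc n') z := by
  have k : ∀ n : HW s c.P D → ℤ, ((c.P.sh (SD s D)).A *ᵥ
      zc (Sd.gl c.P (SD s D) (fun w => ¬ Sd.kw w) n b)) z.1 =
      (c.AH D *ᵥ zc n) z := fun n =>
    (mulVec_glue _ (fun p : c.P.Cw (SD s D) => ¬ Sd.kw p.1.2) (hw_blk hD) _ z).trans
      (congrArg (fun v => (_ *ᵥ v) z) (funext fun z' => congrArg Int.cast (dif_pos z'.2)))
  rw [TS.u_low, TS.u_low, Pi.add_apply, Pi.add_apply, k, k, add_sub_cancel_left,
    add_sub_cancel_left]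
  refine (c.sh_tri hD).eval_low fun p q => congrArg Int.cast ?_
  by_cases a : ¬ Sd.kw (p : c.P.Cw (SD s D)).1.2
  · simp only [Sd.gl, glue, dif_pos a]
    exact e ⟨p, a⟩ q
  · simp only [Sd.gl, glue, dif_neg a]

/-- **the errors of a system are triangular** -/
theorem er_tri (o : c.U.Ok) (k x w) (y y' : c.E → ℤ) (e : c.E)
    (q : ∀ e', c.lvE e' < c.lvE e → y e' = y' e') :
    c.er k x w y e - (c.AE *ᵥ zc y) e = c.er k x w y' e - (c.AE *ᵥ zc y') e := by
  rcases e with z | z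
  · rw [AE_inl, AE_inl]
    simp only [er, ed, vy_eq]
    exact phi_tri o w _ _ z.2 fun z' r => q (.inl (z.1, z')) (card_lt_card r)
  · have a : c.vy y = c.vy y' := congrArg (c.vs c.S5) (funext fun i => funext fun z' =>
      q (.inl (i, z')) (by
        have := card_le_univ (c.U.ty z'.1)
        simp only [lvE]; omega))
    rw [AE_inr, AE_inr]
    simp only [er, cy, a]
    have := u_tri (c := c) (dc_grid _) (c.bg k w (c.vy y')) (fun z => y (.inr z))
      (fun z => y' (.inr z)) z fun z' r => q (.inr z') (Nat.add_lt_add_left r _)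
    exact (sub_right_comm _ _ _).trans ((congrArg (· - x z.1) this).trans (sub_right_comm _ _ _))

/-- **one class is uniformly summable** -/
theorem Ok.om_bd (o : c.Ok ε h κ) (k : Fin c.o.Q) (i : Fin 3) {V : Br.Wd s (D1 c.o.Q c.j) → ℝ}
    (hV : ∀ w, 0 < V w) : ∃ b, ∀ x w y0,
      (Summable fun n : c.Cf k i => ∏ e : {e // c.cls k e = i},
        c.om k V x w (glue (c.cls k · = i) n y0) e.1) ∧ ∑' n : c.Cf k i,
        ∏ e : {e // c.cls k e = i}, c.om k V x w (glue (c.cls k · = i) n y0) e.1 ≤ b := by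
  classical
  obtain ⟨b, m⟩ := tri_bd_sub c.lvE c.AE (AE_inj o.U) (AE_blk o.U) c.δE (c.VE V)
    (fun e => by
      rcases e with z | z
      exacts [(o.lu_pos _).le, (o.δ.1 _).le])
    (fun e => by
      rcases e with z | z
      exacts [one_pos, hV _]) (c.cls k · = i) fun e e' n => by rw [AE_cls o.U k n]
  refine ⟨b, fun x w y0 => ?_⟩
  simp only [om_eq]
  exact m (c.er k x w) y0 (er_tri o.U k x w)

theorem as_0 {k : Fin c.o.Q} (ρ : c.Cf k 0) : c.as ρ 0 0 = glue (c.cls k · = 0) ρ 0 :=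
  funext fun e => by simp only [as, glue]; split_ifs <;> rfl

theorem as_1 {k : Fin c.o.Q} (ρ : c.Cf k 0) (α : c.Cf k 1) (β : c.Cf k 2) :
    c.as ρ α β = glue (c.cls k · = 1) α (c.as ρ 0 β) :=
  funext fun e => by
    simp only [as, glue]
    split_ifs with a b <;> first | rfl | exact absurd (a.symm.trans b) (by decide)

theorem as_2 {k : Fin c.o.Q} (ρ : c.Cf k 0) (α : c.Cf k 1) (β : c.Cf k 2) :
    c.as ρ α β = glue (c.cls k · = 2) β (c.as ρ α 0) :=
  funext fun e => by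
    simp only [as, glue]
    by_cases a : c.cls k e = 2
    · rw [dif_pos a, dif_pos a, dif_neg fun b => absurd (a.symm.trans b) (by decide),
        dif_neg fun b => absurd (a.symm.trans b) (by decide)]
    · simp only [dif_neg a]

theorem Ok.om_nonneg (o : c.Ok ε h κ) (k V x w y) (e : c.E) : 0 ≤ c.om k V x w y e := by
  rcases e with z | z
  exacts [Tb.ga_nonneg (o.lu_pos _).le _ _, Tb.ga_nonneg (o.δ.1 _).le _ _]

theorem norm_ctpf {b : ℝ} (b0 : 0 < b) (hf : ∀ y, 0 ≤ c.o.f y ∧ c.o.f y ≤ b) (k R I w y)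
    {D : Finset (Pt (Fin (d + 2)))} (Ω Y) :
    ‖((c.ct k R I w y * pf s c.P D (c.fb b) Ω Y : ℝ) : ℂ)‖ ≤ 1 := by
  have a : 0 ≤ c.ct k R I w y ∧ c.ct k R I w y ≤ 1 := by unfold ct; split_ifs <;> simp
  have f0 : ∀ y, 0 ≤ c.fb b y := fun y => div_nonneg (hf y).1 b0.le
  have p0 : 0 ≤ pf s c.P D (c.fb b) Ω Y := prod_nonneg fun _ _ => f0 _
  rw [Complex.norm_real, Real.norm_of_nonneg (mul_nonneg a.1 p0)]
  exact mul_le_one₀ a.2 p0 (prod_le_one (fun _ _ => f0 _) fun _ _ => (div_le_one b0).2 (hf _).2)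

/-- **the systems are valid** -/
theorem Ok.sys (o : c.Ok ε h κ) (k : Fin c.o.Q) (a : Fin c.o.D) {b : ℝ} (b0 : 0 < b)
    (hf : ∀ y, 0 ≤ c.o.f y ∧ c.o.f y ≤ b) (R : ℝ) {V : Br.Wd s (D1 c.o.Q c.j) → ℝ}
    (hV : ∀ w, 0 < V w) (x) : (c.sys k a b R V x).Ok := by
  refine ⟨fun w ρ => prod_nonneg fun _ _ => o.om_nonneg .., fun w ρ α => prod_nonneg fun _ _ =>
    o.om_nonneg .., fun w ρ β => prod_nonneg fun _ _ => o.om_nonneg ..,
    fun w ρ α => norm_ctpf b0 hf .., fun w ρ β => norm_ctpf b0 hf .., fun w ρ α β => (norm_ee _).le,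
    ?_⟩
  obtain ⟨b0, m0⟩ := o.om_bd k 0 hV
  obtain ⟨b1, m1⟩ := o.om_bd k 1 hV
  obtain ⟨b2, m2⟩ := o.om_bd k 2 hV
  refine ⟨max b0 (max b1 b2), fun w => ⟨?_, fun ρ => ⟨?_, ?_⟩⟩⟩
  · have := m0 x w 0
    simp only [← as_0] at this
    exact ⟨this.1, this.2.trans (le_max_left _ _)⟩
  · have := m1 x w (c.as ρ 0 0)
    simp only [← as_1] at this
    exact ⟨this.1, this.2.trans ((le_max_left _ _).trans (le_max_right _ _))⟩
  · have := m2 x w (c.as ρ 0 0)
    simp only [← as_2] at this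
    exact ⟨this.1, this.2.trans ((le_max_right _ _).trans (le_max_right _ _))⟩

end Hc

end Crest.Agent.N49.He

end
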