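import Crest.Agent.N49.He.Dc
import Crest.Agent.N49.He.Sbg
import Crest.Agent.N49.He.Sk0
import Crest.Agent.N49.He.Dt

/-!
# Row 49 (helper80): short directions, central backgrounds
-/

set_option autoImplicit false
set_option linter.unusedSectionVars false

open Finset Matrix

noncomputable section

namespace Crest.Agent.N49.He

open Po Tw Br Rm Rm.TT Ft Md Sd

namespace Dcut
variable {L C : Type} [Fintype L] [DecidableEq L] [Fintype C] [DecidableEq C]

/-- the errors of a centred block -/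
theorem far {U : TT L C} (h : U.Ok) (ℓ : L) (z : ∀ p, U.of ℓ p = 0) {R : ℝ} (R0 : 0 ≤ R) :
    U.pr {w | ∀ y, ℓ ∈ U.ty y → |U.Φ (cf w) y| ≤ R}ᶜ ≤
      2 * Fintype.card C * Real.exp (-(Real.pi * R ^ 2)) := by
  classical
  refine h.pr_le_fib ℓ fun w => ?_
  have pd := h.Mm_pd ℓ w
  have e0 : U.ce ℓ w = 0 := by rw [ce, z, mulVec_zero, neg_zero]
  have e1 : ∀ n (c : U.Bl ℓ), U.Φ (cf (U.jn ℓ w n)) c.1 = (U.Nm ℓ (cf w) *ᵥ zc n) c :=
    fun n c => by rw [cf_jn, h.phi_in, z, Pi.zero_apply, mul_zero, add_zero]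
  have t0 := th_pos pd 0
  let g : (U.Bl ℓ → ℤ) → ℝ := fun n => if ∀ c, |(U.Nm ℓ (cf w) *ᵥ zc n) c| ≤ R then 0 else 1
  have k := Sbg.all (h.det_ne ℓ (cf w)) R0 (g := g)
    (fun n => by simp only [g]; split_ifs <;> norm_num)
    (fun n => by simp only [g]; split_ifs <;> norm_num) fun n m => if_pos m
  rw [gm_real pd, e0]
  have e : ∀ n, Set.indicator {n | U.jn ℓ w n ∈ {w | ∀ y, ℓ ∈ U.ty y → |U.Φ (cf w) y| ≤ R}ᶜ}
      (fun n => gs (U.Mm ℓ w) (zc n - 0) / th (U.Mm ℓ w) 0) n =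
      gs (U.Mm ℓ w) (zc n) * g n / th (U.Mm ℓ w) 0 := fun n => by
    by_cases m : ∀ c, |(U.Nm ℓ (cf w) *ᵥ zc n) c| ≤ R
    · rw [Set.indicator_of_notMem (show n ∉ {n | U.jn ℓ w n ∈ {w | ∀ y, ℓ ∈ U.ty y →
        |U.Φ (cf w) y| ≤ R}ᶜ} from fun a => a fun y b => (e1 n ⟨y, b⟩).symm ▸ m _)]
      simp only [g, if_pos m, mul_zero, zero_div]
    · rw [Set.indicator_of_mem (show n ∈ {n | U.jn ℓ w n ∈ {w | ∀ y, ℓ ∈ U.ty y →
        |U.Φ (cf w) y| ≤ R}ᶜ} from fun a => m fun c => e1 n c ▸ a c.1 c.2)]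
      simp only [g, if_neg m, mul_one, sub_zero]
  rw [tsum_congr e, tsum_div_const, div_le_iff₀ t0]
  refine k.trans ?_
  have c : (Fintype.card (U.Bl ℓ) : ℝ) ≤ Fintype.card C := by
    exact_mod_cast Fintype.card_subtype_le _
  simp only [th, sub_zero] at t0 ⊢
  exact mul_le_mul_of_nonneg_right (by gcongr) t0.le

theorem of_rf {Q : ℕ} {T : TT L C} {j : L} {fn : C → Fin Q} {a1 a2 : ℕ}
    (h : (RF T j fn a1 a2).Ok) (i : Fin 4) (p : T.CC j (Fin 4) ⊕ LR L Q → ℝ) :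
    (RF T j fn a1 a2).of (.inl (.inr i)) p = 0 := by
  funext c
  have a := h.phi_in (j := .inl (.inr i)) p 0 0 c
  rw [mulVec_zero, zero_mul, add_zero] at a
  refine Eq.trans ?_ a
  have e0 : T.p0 j (co ((RF T j fn a1 a2).jr (.inl (.inr i)) p 0 1)) =
      T.p0 j (co ((RF T j fn a1 a2).jr (.inl (.inr i)) p 0 0)) := by
    funext v
    rcases v with v | v
    · rfl
    · simp [p0, Ft.co, jr]
  have e1 : ∀ x, T.px j (fun _ => false) x (co ((RF T j fn a1 a2).jr (.inl (.inr i)) p 0 1)) =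
      T.px j (fun _ => false) x (co ((RF T j fn a1 a2).jr (.inl (.inr i)) p 0 0)) := fun x => by
    funext v
    rcases v with v | v
    · rfl
    · simp [px, Ft.co, jr]
  obtain ⟨c | c, m⟩ := c
  · exact congrArg (T.Φ · c) e0
  · exact congrArg (fun q => 2 ^ (![a1, a1, a2, a2] c.2) * T.Φ q c.1.1) (e1 c.2)
end Dcut

theorem dcut (s d : ℕ) : CUT s d := by
  intro c ε h κ R o R0
  have u := o.U
  have sw := o.sw2
  refine ⟨fun w w' e k y m => ?_, Dcut.far u _ (Dcut.of_rf u 2) R0, fun k w => ?_⟩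
  · have dj : Disjoint (c.U.ty y) c.S5 := by
      refine disjoint_right.2 fun a b n => ?_
      rcases mem_insert.1 b with rfl | b
      · exact absurd (sw.s2.one y _ _ _ _ m n).1 (by simp)
      · obtain ⟨i, -, rfl⟩ := mem_image.1 b
        exact sw.dis y _ _ _ n m
    rw [← u.phi_cg (p := cf w) fun v a => ?_]
    · exact k y m
    · rcases v with v | v
      · exact congrArg Int.cast (e v (dj.mono_left a))
      · rfl
  · classical
    have sm := Hc.mu_sm u c.S5 w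
    have m0 : ∀ n, 0 ≤ c.mu c.S5 w n :=
      fun n => prod_nonneg fun y _ => Sk.ga_nn (o.lu_pos _).le _ _
    have s0 : ∀ n, 0 ≤ c.sh R w n := fun n => by unfold Hc.sh; split_ifs <;> norm_num
    have s1 : ∀ n, c.sh R w n ≤ 1 := fun n => by unfold Hc.sh; split_ifs <;> norm_num
    have t := Hc.mu_tail u (fun y => (o.lu_pos y).le) c.S5 w R0 (fun n => 1 - c.sh R w n)
      (fun n => sub_nonneg.2 (s1 n)) (fun n => sub_le_self _ (s0 n))
      fun n m => by rw [Hc.sh, if_pos m, sub_self]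
    have s2 : Summable fun n => c.mu c.S5 w n * c.sh R w n := sm.of_nonneg_of_le
      (fun n => mul_nonneg (m0 n) (s0 n)) fun n => mul_le_of_le_one_right (m0 n) (s1 n)
    simp only [mul_sub, mul_one] at t
    rw [sm.tsum_sub s2] at t
    have pd := (Rd.ok_dls u c.S5).Mm_pd c.x w
    have one : 1 ≤ ∑' n, c.mu c.S5 w n := by
      have a := dt_le_th pd
      have b : 0 < ∏ y : c.XW c.S5, c.lu y.1 := prod_pos fun y _ => o.lu_pos _
      rw [show dt _ = _ from Hc.dt_mx o c.S5 w, inv_le_iff_one_le_mul₀' b] at a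
      simpa only [Hc.mu_gs u, tsum_mul_left, th, sub_zero, Mm] using a
    have cd : (Fintype.card (c.XW c.S5) : ℝ) ≤ Fintype.card c.CU := by
      exact_mod_cast Fintype.card_subtype_le _
    have q : 2 * Fintype.card (c.XW c.S5) * Real.exp (-(Real.pi * R ^ 2)) ≤ 1 / 2 := by
      nlinarith [Real.exp_pos (-(Real.pi * R ^ 2))]
    nlinarith

end Crest.Agent.N49.He

end
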