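import Crest.Agent.N49.Br.Hom
import Crest.Agent.N49.Br.Vis

/-!
# Row 49 (helper49): one extra clone `g` in the block `j` is sent to `ε - ∑ e, c e`
-/

set_option autoImplicit false
set_option linter.unusedSectionVars false

open Matrix MvPolynomial Finset

noncomputable section

namespace Crest.Agent.N49.He

open Po Tw Br

variable {ι : Type} [Fintype ι] [LinearOrder ι] {s : ℕ} {D D' : Finset (Pt ι)}
  {V V' : ℕ → Pt ι → ℝ} {j : ι} {g : ℕ} {B B' Ω Ω' : Finset ι}

variable (j g) in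
/-- remove the letter `g` -/
def sg (v : Pt ι) : Pt ι := if v j = some g then Function.update v j none else v

/-- `u` occurs in `P ^ _ * U` filled from `B` -/
def Oc (u : Wd s D) (l : ℕ) (U : Pt ι) (B : Finset ι) : Prop :=
  u.lv = l ∧ Le U u.tr ∧ Fill B (bl u.tr)

instance (u : Wd s D) (l : ℕ) (U : Pt ι) (B : Finset ι) : Decidable (Oc u l U B) := by
  unfold Oc; infer_instance

variable (s D D' j g) in
/-- **the morphism** `c e ↦ c e`, `g ↦ ε - ∑ e, c e` -/
def phi : Matrix (Wd s D) (Wd s D') ℤ := Matrix.of fun u v =>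
  (if Oc u v.lv (sg j g v.tr) (bl (sg j g v.tr)) then 1 else 0) -
    if v.tr j = some g ∧ Oc u v.lv (sg j g v.tr) (bl v.tr) then 1 else 0

variable (D D' j g) in
/-- `D'` is `D` with the words that use the new clone -/
structure Ex : Prop where
  dc : Dc D
  dc' : Dc D'
  sub : D ⊆ D'
  ng : ∀ w ∈ D, w j ≠ some g
  up : ∀ w ∈ D, ∀ U, Le U w → U j = none → #(bl U) < #(bl w) → Function.update U j (some g) ∈ D'

namespace Ph

theorem sg_pos {v : Pt ι} (h : v j = some g) : sg j g v = Function.update v j none := if_pos h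
theorem sg_neg {v : Pt ι} (h : v j ≠ some g) : sg j g v = v := if_neg h

theorem bl_sg {v : Pt ι} (h : v j = some g) : bl (sg j g v) = (bl v).erase j := by
  ext i
  by_cases e : i = j <;> simp [sg_pos h, mem_bl, e]

theorem bl_sg_le (v : Pt ι) : bl (sg j g v) ⊆ bl v := by
  by_cases h : v j = some g
  · rw [bl_sg h]; exact erase_subset _ _
  · rw [sg_neg h]

theorem j_mem {v : Pt ι} (h : v j = some g) : j ∈ bl v := mem_bl.2 (h ▸ nofun)

theorem le_up {v w : Pt ι} (h : v j = some g ∨ v j = none) :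
    Le v (Function.update w j (some g)) ↔ Le (sg j g v) w := by
  refine forall_congr' fun i => ?_
  by_cases e : i = j
  · subst e; rcases h with h | h <;> simp [sg, h]
  · unfold sg; split_ifs <;> simp [e]

theorem oc_self {u : Wd s D} {v : Wd s D'} : Oc u v.lv v.tr (bl v.tr) ↔ u.lv = v.lv ∧ u.tr = v.tr :=
  ⟨fun ⟨a, b, c⟩ => ⟨a, (b.eq (.refl _) (eq_of_subset_of_card_le c.1
    (by rw [u.card, v.card, a]))).symm⟩, fun ⟨a, b⟩ => ⟨a, b ▸ .refl _, b ▸ .refl _⟩⟩

theorem fill_er (h : Fill (B ∪ {j}) Ω') (hj : j ∉ B) (e : #Ω = #Ω') :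
    Fill (Ω'.erase j) Ω ↔ Fill B Ω := by
  have s1 : B ⊆ Ω'.erase j := fun a ha =>
    mem_erase.2 ⟨fun z => hj (z ▸ ha), h.1 (mem_union_left _ ha)⟩
  have j1 : j ∈ Ω' := h.1 (by simp)
  refine ⟨fun k => ⟨s1.trans k.1, fun a ha n b hb => ?_⟩, fun k => k.grow s1 fun a ha => ?_⟩
  · by_cases c : a ∈ Ω'.erase j
    swap
    · exact k.2 a ha c b hb
    have lt := h.2 a (mem_erase.1 c).2 (by simp [n, (mem_erase.1 c).1])
    by_cases z : b = j
    swap
    · exact k.1 (mem_erase.2 ⟨z, lt b hb⟩)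
    subst z
    obtain ⟨x, x1, x2⟩ := exists_mem_notMem_of_card_lt_card (s := Ω'.erase b) (t := Ω)
      (e ▸ card_erase_lt_of_mem j1)
    by_contra y
    have x3 : x ∉ Ω' := fun t => x2 (mem_erase.2 ⟨fun q => y (q ▸ x1), t⟩)
    exact y (k.2 x x1 x2 b (hb.trans_le (not_lt.1 fun t => x3 (lt x t))))
  · by_contra n
    have aB : a ∉ B := fun t => n (k.1 t)
    have : Ω ⊆ Ω'.erase a := fun c hc => mem_erase.2 ⟨fun t => n (t ▸ hc), by
      by_cases t : c ∈ B
      · exact h.1 (mem_union_left _ t)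
      · exact h.2 a (mem_erase.1 ha).2 (by simp [aB, (mem_erase.1 ha).1]) c
          (lt_of_le_of_ne (not_lt.1 fun l => n (k.2 c hc t a l)) fun t => n (t ▸ hc))⟩
    exact (card_le_card this).not_gt (e ▸ card_erase_lt_of_mem (mem_erase.1 ha).2)

theorem phi_z {u : Wd s D} {v : Wd s D'} (h : v.tr j = some g) (k : Fill B (bl v.tr))
    (hj : j ∉ B) : phi s D D' j g u v = 0 := by
  have f : Fill ((bl v.tr).erase j) (bl v.tr) := ⟨erase_subset _ _, fun a ha n b hb =>
    k.2 j (j_mem h) hj b ((of_not_not fun e : a ≠ j => n (mem_erase.2 ⟨e, ha⟩)) ▸ hb)⟩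
  refine sub_eq_zero.2 (if_congr ⟨fun ⟨a, b, c⟩ => ⟨h, a, b, ?_⟩,
    fun ⟨_, a, b, c⟩ => ⟨a, b, ?_⟩⟩ rfl rfl)
  · rw [bl_sg h] at c
    rw [c.unique f (by rw [u.card, v.card, a])]; exact .refl _
  · rw [bl_sg h, ← eq_of_subset_of_card_le c.1 (by rw [u.card, v.card, a])]; exact f

theorem sum_oc (hD : Dc D) (w : Wd s D) {l l' : ℕ} {U : Pt ι} (h1 : 1 ≤ l) (h2 : l + l' = w.lv)
    (hU : bl U ⊆ B) (hB : #B ≤ min l (Fintype.card ι)) (hB' : #B' ≤ l') :
    ∑ u : Wd s D, (if Oc u l U B then 1 else 0) * (if Le u.tr w.tr ∧ Fill (bl u.tr ∪ B') (bl w.tr)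
      then 1 else 0) = if Le U w.tr ∧ Fill (B ∪ B') (bl w.tr) then (1 : ℤ) else 0 := by
  refine (sum_two ⟨fun ⟨a, b⟩ => ?_, fun ⟨u, a, b⟩ => ⟨a.2.1.trans b.1, a.2.2.trans' b.2⟩⟩
    fun _ _ a b a' b' => Wd.uniq (a.1.trans a'.1.symm) a.2.2 a'.2.2 b.1 b'.1).symm
  obtain ⟨F, f, e⟩ := exists_fill B hB (min_le_right ..)
  have c := w.card
  have := w.lv_le
  have k : F ⊆ bl w.tr := by
    by_cases t : Fintype.card ι ≤ w.lv
    · rw [(card_eq_iff_eq_univ _).1 (c.trans (min_eq_right t))]; exact subset_univ _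
    · exact b.sub f (by omega)
  obtain ⟨u, e1, e2⟩ := exists_wd hD w.mem h1 (show l ≤ s by omega) k e
  refine ⟨u, ⟨e1, e2 ▸ a.rs (hU.trans f.1), ?_⟩, e2 ▸ rs_le _ _, ?_⟩ <;> rw [e2, bl_rs k]
  · exact f
  · exact b.grow (union_subset_union_left f.1) (union_subset k (subset_union_right.trans b.1))

theorem sum_phi (hD : Dc D) (w : Wd s D) (v : Wd s D') {l' : ℕ} (h2 : v.lv + l' = w.lv)
    (hB' : #B' ≤ l') : ∑ u : Wd s D, phi s D D' j g u v *
      (if Le u.tr w.tr ∧ Fill (bl u.tr ∪ B') (bl w.tr) then 1 else 0) =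
    (if Le (sg j g v.tr) w.tr ∧ Fill (bl (sg j g v.tr) ∪ B') (bl w.tr) then (1 : ℤ) else 0) -
      if v.tr j = some g ∧ Le (sg j g v.tr) w.tr ∧ Fill (bl (sg j g v.tr) ∪ {j} ∪ B') (bl w.tr)
        then 1 else 0 := by
  simp only [phi, of_apply, sub_mul, sum_sub_distrib]
  rw [sum_oc hD w v.lv_pos h2 Subset.rfl ((card_le_card (bl_sg_le _)).trans v.card.le) hB']
  by_cases h : v.tr j = some g
  · simp only [h, true_and]
    rw [sum_oc hD w v.lv_pos h2 (bl_sg_le _) v.card.le hB', bl_sg h, union_comm _ {j},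
      ← insert_eq, insert_erase (j_mem h)]
  · simp [h]

variable (j g) in
/-- the blocks of the old letters -/
def bs (m : Wd s D' →₀ ℕ) : Finset ι := m.support.biUnion fun v => bl (sg j g v.tr)

theorem bs_add (v : Wd s D') (m : Wd s D' →₀ ℕ) :
    bs j g (Finsupp.single v 1 + m) = bl (sg j g v.tr) ∪ bs j g m := by
  classical
  rw [bs, Finsupp.support_add_eq_union, union_biUnion]; simp [bs]

theorem bs_le (m : Wd s D' →₀ ℕ) : bs j g m ⊆ bu m := biUnion_mono fun _ _ => bl_sg_le _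

theorem bs_j {m : Wd s D' →₀ ℕ} (h : ∃ v ∈ m.support, v.tr j = some g) :
    bs j g m ∪ {j} = bu m := by
  obtain ⟨v, a, b⟩ := h
  refine (union_subset (bs_le m) (singleton_subset_iff.2 (mem_biUnion.2 ⟨v, a, j_mem b⟩))).antisymm
    fun i k => ?_
  obtain ⟨x, c, d⟩ := mem_biUnion.1 k
  by_cases e : i = j
  · simp [e]
  refine mem_union_left _ (mem_biUnion.2 ⟨x, c, ?_⟩)
  by_cases t : x.tr j = some g
  · rw [bl_sg t]; exact mem_erase.2 ⟨e, d⟩
  · rwa [sg_neg t]

variable (j g) in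
/-- the coefficient of `w` in `phi m * n` -/
def cc (w : Wd s D) (m : Wd s D' →₀ ℕ) (n : Wd s D →₀ ℕ) : ℤ :=
  if (∀ v ∈ m.support, Le (sg j g v.tr) w.tr) ∧ (∀ u ∈ n.support, Le u.tr w.tr) ∧
    Finsupp.weight Wd.lv m + Finsupp.weight Wd.lv n = w.lv then
    (if Fill (bs j g m ∪ bu n) (bl w.tr) then 1 else 0) -
      if (∃ v ∈ m.support, v.tr j = some g) ∧ Fill (bs j g m ∪ {j} ∪ bu n) (bl w.tr) then 1 else 0
  else 0

theorem phi_lv {u : Wd s D} {v : Wd s D'} (h : phi s D D' j g u v ≠ 0) : u.lv = v.lv :=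
  of_not_not fun n => h (by
    rw [phi, of_apply, if_neg fun k => n k.1, if_neg fun k => n k.2.1, sub_zero])

theorem cc_add (hD : Dc D) (w : Wd s D) (v : Wd s D') (m : Wd s D' →₀ ℕ) (n : Wd s D →₀ ℕ) :
    ∑ u, phi s D D' j g u v * cc j g w m (Finsupp.single u 1 + n) =
      cc j g w (Finsupp.single v 1 + m) n := by
  have sp : ∀ {E : Finset (Pt ι)} (x : Wd s E), (Finsupp.single x 1).support = {x} :=
    fun x => Finsupp.support_single _ one_ne_zero
  have ex : (∃ x ∈ (Finsupp.single v 1 + m).support, x.tr j = some g) ↔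
      v.tr j = some g ∨ ∃ x ∈ m.support, x.tr j = some g := by
    classical
    rw [Finsupp.support_add_eq_union, sp]; simp
  simp only [cc, forall_add, sp, mem_singleton, forall_eq, bu_add, bu_single,
    bs_add, map_add, Finsupp.weight_single, one_smul, ex]
  by_cases c : (∀ x ∈ m.support, Le (sg j g x.tr) w.tr) ∧ (∀ u ∈ n.support, Le u.tr w.tr) ∧
    v.lv + Finsupp.weight Wd.lv m + Finsupp.weight Wd.lv n = w.lv
  swap
  · rw [if_neg fun k => c ⟨k.1.2, k.2⟩]
    refine sum_eq_zero fun u _ => of_not_not fun z => right_ne_zero_of_mul z (if_neg fun k => c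
      ⟨k.1, k.2.1.2, ?_⟩)
    have := phi_lv (left_ne_zero_of_mul z)
    omega
  have b1 := (card_bu m).trans (min_le_left ..)
  have b2 := (card_bu n).trans (min_le_left ..)
  have t1 := sum_phi (j := j) (g := g) (B' := bs j g m ∪ bu n) hD w v
    ((add_assoc _ _ _).symm.trans c.2.2)
    ((card_union_le ..).trans (add_le_add ((card_le_card (bs_le m)).trans b1) b2))
  have e : ∀ S : Finset ι, bs j g m ∪ (S ∪ bu n) = S ∪ (bs j g m ∪ bu n) ∧
      bs j g m ∪ {j} ∪ (S ∪ bu n) = S ∪ (bs j g m ∪ {j} ∪ bu n) ∧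
      S ∪ {j} ∪ (bs j g m ∪ bu n) = S ∪ bs j g m ∪ {j} ∪ bu n ∧
      S ∪ (bs j g m ∪ {j} ∪ bu n) = S ∪ bs j g m ∪ {j} ∪ bu n ∧
      S ∪ {j} ∪ (bs j g m ∪ {j} ∪ bu n) = S ∪ bs j g m ∪ {j} ∪ bu n ∧
      S ∪ (bs j g m ∪ bu n) = S ∪ bs j g m ∪ bu n := fun S => by
    refine ⟨?_, ?_, ?_, ?_, ?_, ?_⟩ <;> ext <;> simp only [mem_union] <;> tauto
  rw [(e _).2.2.1, (e _).2.2.2.2.2] at t1
  by_cases G : ∃ x ∈ m.support, x.tr j = some g
  · have t2 := sum_phi (j := j) (g := g) (B' := bs j g m ∪ {j} ∪ bu n) hD w v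
      ((add_assoc _ _ _).symm.trans c.2.2)
      ((card_union_le ..).trans (add_le_add (bs_j G ▸ b1) b2))
    rw [(e _).2.2.2.1, (e _).2.2.2.2.1] at t2
    refine Eq.trans (sum_congr rfl fun u _ => ?_) ((sum_sub_distrib _ _).trans
      ((congrArg₂ _ t1 t2).trans ?_))
    · rw [← mul_sub]
      by_cases z : phi s D D' j g u v = 0
      · rw [z, zero_mul, zero_mul]
      have l : Finsupp.weight Wd.lv m + (u.lv + Finsupp.weight Wd.lv n) = w.lv := by
        have := phi_lv z; omega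
      rw [(e _).1, (e _).2.1]
      by_cases k : Le u.tr w.tr <;> simp only [eq_true c.1, eq_true c.2.1, l, G, k, true_and,
        and_true, false_and, if_true, if_false, and_false, sub_zero]
    · by_cases k : Le (sg j g v.tr) w.tr <;> simp only [eq_true c.1, eq_true c.2.1, c.2.2, G, k,
        true_and, and_true, false_and, if_true, if_false, and_false, sub_zero, or_true]
      ring
  · refine Eq.trans (sum_congr rfl fun u _ => ?_) (t1.trans ?_)
    · by_cases z : phi s D D' j g u v = 0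
      · rw [z, zero_mul, zero_mul]
      have l : Finsupp.weight Wd.lv m + (u.lv + Finsupp.weight Wd.lv n) = w.lv := by
        have := phi_lv z; omega
      rw [(e _).1]
      by_cases k : Le u.tr w.tr <;> simp only [eq_true c.1, eq_true c.2.1, l, G, k, true_and,
        and_true, false_and, if_true, if_false, and_false, sub_zero]
    · by_cases k : Le (sg j g v.tr) w.tr <;> simp only [eq_true c.1, eq_true c.2.1, c.2.2, G, k,
        true_and, and_true, false_and, if_true, if_false, and_false, sub_zero, or_false]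

theorem ind1 {α : Type} {p : (α →₀ ℕ) → Prop} (h0 : p 0)
    (h : ∀ a m, p m → p (Finsupp.single a 1 + m)) (m : α →₀ ℕ) : p m := by
  induction m using Finsupp.induction with
  | zero => exact h0
  | single_add a b f h1 h2 ih =>
    clear h1 h2
    induction b with
    | zero => simpa using ih
    | succ b k => rw [add_comm b, Finsupp.single_add, add_assoc]; exact h _ _ k

theorem cf_phi (hD : Dc D) (w : Wd s D) (m : Wd s D' →₀ ℕ) : ∀ n : Wd s D →₀ ℕ,
    (tw s D V).cf ℤ w (aeval (fun v => (tw s D V).el fun u => phi s D D' j g u v)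
      (monomial m (1 : ℤ)) * monomial n 1) = cc j g w m n := by
  induction m using ind1 with
  | h0 =>
    intro n
    rw [monomial_zero', C_1, map_one, one_mul, Sh.cf_monomial, one_mul, Int.cast_id]
    change (if _ ∧ _ ∧ Fill (bu n) _ then _ else _) = _
    simp only [cc, bs, Finsupp.support_zero, notMem_empty, false_and, exists_false, if_false,
      sub_zero, biUnion_empty, empty_union, map_zero, zero_add, false_imp_iff, implies_true,
      true_and]
    rw [← ite_and]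
    exact if_congr (by tauto) rfl rfl
  | h v m ih =>
    intro n
    rw [monomial_single_add, pow_one, map_mul (aeval _), aeval_X, Sh.el, sum_mul, sum_mul, map_sum,
      ← cc_add hD]
    refine sum_congr rfl fun u _ => ?_
    rw [← ih, monomial_single_add, pow_one, smul_mul_assoc, smul_mul_assoc, map_zsmul,
      smul_eq_mul, mul_left_comm _ (X u), mul_assoc]

theorem sg_mono {x v : Pt ι} (h : Le x v) : Le (sg j g x) (sg j g v) := fun i k => by
  by_cases a : x j = some g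
  · have b : v j = some g := (h j (a ▸ nofun)).symm.trans a
    rw [sg_pos a] at k ⊢
    rw [sg_pos b]
    by_cases e : i = j
    · simp [e]
    · rw [Function.update_of_ne e] at k ⊢; rw [Function.update_of_ne e, h i k]
  rw [sg_neg a] at k ⊢
  by_cases e : i = j
  · subst e; rw [sg_neg (h i k ▸ a), h i k]
  · unfold sg; split_ifs <;> simp [e, h i k]

theorem mk (h : Ex D D' j g) {w : Wd s D} {m : Wd s D' →₀ ℕ}
    (G : ∃ x ∈ m.support, x.tr j = some g) (a : ∀ x ∈ m.support, Le (sg j g x.tr) w.tr)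
    (l : Finsupp.weight Wd.lv m = w.lv) (n : j ∉ bs j g m) (f : Fill (bu m) Ω')
    (e : #(bl w.tr) = #Ω') (k : Ω'.erase j ⊆ bl w.tr) : ∃ v : Wd s D', v.lv = w.lv ∧
      v.tr j = some g ∧ bl v.tr = Ω' ∧ Le (sg j g v.tr) w.tr ∧ Rr v m := by
  have j1 : j ∈ Ω' := f.1 (bs_j G ▸ by simp)
  have u0 : rs w.tr (Ω'.erase j) j = none := if_neg (notMem_erase _ _)
  have b : bl (Function.update (rs w.tr (Ω'.erase j)) j (some g)) = Ω' := by
    rw [← insert_erase (j_mem (Function.update_self ..)), ← bl_sg (Function.update_self ..),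
      sg_pos (Function.update_self ..), Function.update_idem, ← u0, Function.update_eq_self,
      bl_rs k, insert_erase j1]
  refine ⟨w.mk' _ (h.up _ w.mem _ (rs_le _ _) u0 (by
    rw [bl_rs k, e]; exact card_erase_lt_of_mem j1)) ((congrArg _ b).trans e.symm), rfl, Function.update_self .., b,
    ?_, l, fun x hx => (le_up ?_).2 ((a x hx).rs fun i hi => ?_), b.symm ▸ f⟩
  · change Le (sg j g (Function.update _ _ _)) _
    rw [sg_pos (Function.update_self ..), Function.update_idem, ← u0, Function.update_eq_self]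
    exact rs_le _ _
  · by_contra! c
    exact n (mem_biUnion.2 ⟨x, hx, by rw [sg_neg c.1]; exact mem_bl.2 c.2⟩)
  · have t : i ∈ bs j g m := mem_biUnion.2 ⟨x, hx, hi⟩
    exact mem_erase.2 ⟨fun z => n (z ▸ t), f.1 (bs_le m t)⟩

/-- old words as words of `D'` -/
def inc (h : Ex D D' j g) (w : Wd s D) : Wd s D' := w.mk' w.tr (h.sub w.mem) rfl

theorem phi_old {u : Wd s D} {v : Wd s D'} (h : v.tr j ≠ some g) :
    phi s D D' j g u v = if u.lv = v.lv ∧ u.tr = v.tr then 1 else 0 := by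
  rw [phi, of_apply, if_neg fun k : _ ∧ _ => h k.1, sub_zero, sg_neg h]
  exact if_congr oc_self rfl rfl

theorem sum_old (h : Ex D D' j g) (w : Wd s D) (c : Wd s D' → ℤ)
    (k : ∀ v, c v ≠ 0 → v.tr j = some g → ∃ B, Fill B (bl v.tr) ∧ j ∉ B) :
    ∑ v, phi s D D' j g w v * c v = c (inc h w) := by
  rw [sum_eq_single (inc h w) (fun v _ n => of_not_not fun z => ?_) fun n => absurd (mem_univ _) n,
    phi_old (v := inc h w) (h.ng _ w.mem), if_pos ⟨rfl, rfl⟩, one_mul]
  refine left_ne_zero_of_mul z ?_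
  by_cases a : v.tr j = some g
  · obtain ⟨B, b1, b2⟩ := k v (right_ne_zero_of_mul z) a
    exact phi_z a b1 b2
  · rw [phi_old a, if_neg fun e => n (Wd.ext' e.1.symm e.2.symm)]

theorem sum_r (h : Ex D D' j g) (w : Wd s D) (m : Wd s D' →₀ ℕ) :
    ∑ v, phi s D D' j g w v * (if Rr v m then 1 else 0) = cc j g w m 0 := by
  have z : bu (0 : Wd s D →₀ ℕ) = ∅ := rfl
  simp only [cc, z, union_empty, map_zero, add_zero, Finsupp.support_zero, notMem_empty,
    false_imp_iff, implies_true, true_and]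
  by_cases G : ∃ x ∈ m.support, x.tr j = some g
  swap
  · have a : ∀ x ∈ m.support, sg j g x.tr = x.tr := fun x hx => sg_neg fun e => G ⟨x, hx, e⟩
    rw [sum_old h w _ fun v k e => ⟨bu m, (of_not_not fun n => k (if_neg n) : Rr v m).2.2,
      fun t => by
        obtain ⟨x, x1, x2⟩ := mem_biUnion.1 t
        exact G ⟨x, x1, ((of_not_not fun n => k (if_neg n) : Rr v m).2.1 x x1 j
          (mem_bl.1 x2)).trans e⟩⟩, show bs j g m = bu m from biUnion_congr rfl fun x hx => by
            rw [a x hx], if_neg fun k : _ ∧ _ => G k.1, sub_zero, ← ite_and]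
    refine if_congr ⟨fun k => ⟨⟨fun x hx => (a x hx).symm ▸ k.2.1 x hx, k.1⟩, k.2.2⟩,
      fun k => ⟨k.1.2, fun x hx => a x hx ▸ k.1.1 x hx, k.2⟩⟩ rfl rfl
  have vg : ∀ v : Wd s D', Rr v m → v.tr j = some g ∧ j ∉ bs j g m := fun v r => by
    obtain ⟨x, x1, x2⟩ := G
    have e := (r.2.1 x x1 j (x2 ▸ nofun)).symm.trans x2
    refine ⟨e, fun t => ?_⟩
    obtain ⟨y, y1, y2⟩ := mem_biUnion.1 t
    exact notMem_erase j _ (bl_sg e ▸ (sg_mono (r.2.1 y y1)).bl y2)
  have uq : ∀ v v' : Wd s D', Rr v m → Rr v' m → Le (sg j g v.tr) w.tr → Le (sg j g v'.tr) w.tr →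
      v = v' := fun v v' r r' a a' =>
    r.uniq r' ((le_up (.inl (vg v r).1)).2 a) ((le_up (.inl (vg v' r').1)).2 a')
  have s2 := sum_two (P := fun v : Wd s D' => Oc w v.lv (sg j g v.tr) (bl (sg j g v.tr)))
    (Q := fun v => Rr v m) (R := ((∀ x ∈ m.support, Le (sg j g x.tr) w.tr) ∧
      Finsupp.weight Wd.lv m = w.lv) ∧ j ∉ bs j g m ∧ Fill (bs j g m) (bl w.tr))
    ⟨fun ⟨⟨a, l⟩, n, f⟩ => by
      obtain ⟨Ω', f', e⟩ := exists_fill (bu m) (k := #(bl w.tr)) (w.card ▸ l ▸ card_bu m)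
        (card_le_univ _)
      have t := (fill_er (bs_j G ▸ f') n e.symm).2 f
      obtain ⟨v, v1, v2, v3, v4, v5⟩ := mk h G a l n f' e.symm t.1
      exact ⟨v, ⟨v1.symm, v4, by rwa [bl_sg v2, v3]⟩, v5⟩, fun ⟨v, a, r⟩ =>
      ⟨⟨fun x hx => (sg_mono (r.2.1 x hx)).trans a.2.1, r.1.trans a.1.symm⟩, (vg v r).2,
        (fill_er (bs_j G ▸ r.2.2) (vg v r).2 (by rw [w.card, v.card, a.1])).1
          (bl_sg (vg v r).1 ▸ a.2.2)⟩⟩ fun v v' a r a' r' => uq v v' r r' a.2.1 a'.2.1
  have s3 := sum_two (P := fun v : Wd s D' => v.tr j = some g ∧ Oc w v.lv (sg j g v.tr) (bl v.tr))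
    (Q := fun v => Rr v m) (R := ((∀ x ∈ m.support, Le (sg j g x.tr) w.tr) ∧
      Finsupp.weight Wd.lv m = w.lv) ∧ j ∉ bs j g m ∧ Fill (bu m) (bl w.tr))
    ⟨fun ⟨⟨a, l⟩, n, f⟩ => by
      obtain ⟨v, v1, v2, v3, v4, v5⟩ := mk h G a l n f rfl (erase_subset _ _)
      exact ⟨v, ⟨v2, v1.symm, v4, v3 ▸ .refl _⟩, v5⟩, fun ⟨v, a, r⟩ =>
      ⟨⟨fun x hx => (sg_mono (r.2.1 x hx)).trans a.2.2.1, r.1.trans a.2.1.symm⟩, (vg v r).2, by
        rw [← eq_of_subset_of_card_le a.2.2.2.1 (by rw [w.card, v.card, a.2.1])]; exact r.2.2⟩⟩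
    fun v v' a r a' r' => uq v v' r r' a.2.2.1 a'.2.2.1
  simp only [phi, of_apply, sub_mul, sum_sub_distrib]
  rw [← s2, ← s3, bs_j G]
  by_cases n : j ∈ bs j g m
  · rw [← bs_j G, union_eq_left.2 (singleton_subset_iff.2 n)]
    simp only [n, G, not_true, false_and, and_false, if_false, true_and, sub_self, ite_self]
  · simp only [n, G, not_false_eq_true, true_and, ite_and]
    split_ifs <;> rfl

end Ph
open Ph

/-- **`phi` is a morphism** -/
theorem phi_hm (h : Ex D D' j g) : (tw s D' V').Hm (tw s D V) (phi s D D' j g) where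
  cd u v k := by rw [tw_cd, tw_cd, phi_lv k]
  mul w m _ := (sum_r h w m).trans ((cf_phi h.dc w m 0).symm.trans (by
    rw [monomial_zero', C_1, mul_one]))
  mass := funext fun w => sum_old h w _ fun v k _ =>
    ⟨∅, (of_not_not fun n => k (if_neg n) : _ ∧ _).2, notMem_empty _⟩

theorem phi_inc (h : Ex D D' j g) (u w : Wd s D) :
    phi s D D' j g u (inc h w) = if u = w then 1 else 0 :=
  (phi_old (h.ng _ w.mem)).trans (if_congr ⟨fun e => Wd.ext' e.1 e.2, fun e => e ▸ ⟨rfl, rfl⟩⟩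
    rfl rfl)

theorem abs_phi (u : Wd s D) (v : Wd s D') : |phi s D D' j g u v| ≤ 1 := by
  rw [phi, of_apply]; split_ifs <;> simp

theorem phi_ne (h : Ex D D' j g) {u : Wd s D} {v : Wd s D'} (k : phi s D D' j g u v ≠ 0) :
    v = inc h u ∨ v.tr j = some g := or_iff_not_imp_right.2 fun n => by
  rw [phi_old n] at k
  have e := of_not_not fun z => k (if_neg z)
  exact Wd.ext' e.1.symm e.2.symm

/-- the words with `g` -/
theorem phi_g {u : Wd s D} {v : Wd s D'} (h : v.tr j = some g) : phi s D D' j g u v =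
    if u.lv = v.lv ∧ Le (Function.update v.tr j none) u.tr then
      (if Fill ((bl v.tr).erase j) (bl u.tr) then 1 else 0) - if bl u.tr = bl v.tr then 1 else 0
    else 0 := by
  rw [phi, of_apply, bl_sg h, sg_pos h]
  by_cases c : u.lv = v.lv ∧ Le (Function.update v.tr j none) u.tr
  · rw [if_pos c]
    exact congrArg₂ _ (if_congr ⟨fun k => k.2.2, fun k => ⟨c.1, c.2, k⟩⟩ rfl rfl) (if_congr
      ⟨fun k => (eq_of_subset_of_card_le k.2.2.2.1 (by rw [u.card, v.card, c.1])).symm,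
        fun k => ⟨h, c.1, c.2, k ▸ .refl _⟩⟩ rfl rfl)
  · rw [if_neg c, if_neg fun k => c ⟨k.1, k.2.1⟩, if_neg fun k => c ⟨k.2.1, k.2.2.1⟩, sub_zero]

variable (D j g) in
/-- the largest extension -/
def xD : Finset (Pt ι) := D ∪ (D.filter (· j = none)).image (Function.update · j (some g))

theorem ex_xD (hD : Dc D) (ng : ∀ w ∈ D, w j ≠ some g) : Ex D (xD D j g) j g where
  dc := hD
  dc' ω k w a := by
    rcases mem_union.1 k with k | k
    · exact mem_union_left _ (hD ω k w a)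
    obtain ⟨U, u, rfl⟩ := mem_image.1 k
    have b : w j = some g ∨ w j = none := or_iff_not_imp_right.2 fun n =>
      (a j n).trans (Function.update_self ..)
    have c := hD U (mem_filter.1 u).1 _ ((le_up b).1 a)
    rcases b with b | b
    · refine mem_union_right _ (mem_image.2 ⟨_, mem_filter.2 ⟨c, by simp [sg_pos b]⟩, ?_⟩)
      rw [sg_pos b, Function.update_idem, ← b, Function.update_eq_self]
    · exact mem_union_left _ (by rwa [sg_neg (by simp [b])] at c)
  sub := subset_union_left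
  ng := ng
  up w k U a b _ := mem_union_right _ (mem_image_of_mem _ (mem_filter.2 ⟨hD w k U a, b⟩))

theorem ex_grid (q : ι → ℕ) (j : ι) :
    Ex (grid q) (grid (Function.update q j (q j + 1))) j (q j) where
  dc := dc_grid _
  dc' := dc_grid _
  sub w k := mem_grid.2 fun i a e => (mem_grid.1 k i a e).trans_le (by
    by_cases c : i = j
    · subst c; simp
    · simp [c])
  ng w k e := (mem_grid.1 k j _ e).false
  up w k U a _ _ := mem_grid.2 fun i x e => by
    by_cases c : i = j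
    · subst c
      rw [Function.update_self] at e ⊢
      exact Option.some.inj e ▸ Nat.lt_succ_self _
    · rw [Function.update_of_ne c] at e ⊢
      exact mem_grid.1 (dc_grid q w k U a) i x e

end Crest.Agent.N49.He

end
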