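import Crest.Agent.N49.He.Db
import Crest.Agent.N49.He.Phi

/-!
# Row 49 (helper4): the systems of the rectangle hypothesis (FROZEN statements, part B)
-/

set_option autoImplicit false
set_option linter.unusedSectionVars false

open Finset Matrix

noncomputable section

namespace Crest.Agent.N49.He

open Po Tw Br Rm Rm.TT Ft Md Sd

/-- the normalised law of a direction -/
def mq {L C : Type} [Fintype L] [DecidableEq L] [Fintype C] [DecidableEq C] (U : TT L C)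
    (S : Finset L) (x : L) (w : C → ℤ) (n : (U.dls S).Bl x → ℤ) : ℝ :=
  gs (Mx U S x w) (zc n) / dt (Mx U S x w)

namespace Hc
variable {s d : ℕ} (c : Hc s d)
open Classical in
/-- short directions -/
def sh (R : ℝ) (w : c.CU → ℤ) (n : c.XW c.S5 → ℤ) : ℝ :=
  if ∀ z : c.XW c.S5, |c.U.Φ (pt c.U c.x w (ex c.U c.S5 c.x n)) z.1| ≤ R then 1 else 0
/-- the phase -/
def ph (a : Fin c.o.D) (w : c.CU → ℤ) (n : Fin 2 → c.XW c.S5 → ℤ) : ℂ :=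
  ee (c.Fp a w (c.vs c.S5 n 1) - c.Fp a w (c.vs c.S5 n 0))
/-- central backgrounds -/
def Cn (R : ℝ) : Set (c.CU → ℤ) := {w | ∀ y, c.tl false 0 ∈ c.U.ty y → |c.U.Φ (cf w) y| ≤ R}
/-- the points of the witness -/
abbrev Ω : Finset (Pt (Fin (d + 2))) := pts (qq c.o.Q c.j 1 2 c.o.Q)
/-- the bound of the function -/
def Fb (b : ℝ) : Prop := 1 ≤ b ∧ b ^ c.o.Q ^ d ≤ 2 ^ c.o.n ∧ ∀ y, 0 ≤ c.o.f y ∧ c.o.f y ≤ b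
/-- the morphism that removes the last clone -/
abbrev hφ (y : c.P.Cw (SD s (D1 c.o.Q c.j)) → ℤ) : c.P.Cw (SD s (D0 c.o.Q c.j)) → ℤ :=
  c.P.hm _ _ (phi s (D0 c.o.Q c.j) (D1 c.o.Q c.j) c.j.succ.succ c.o.Q) y
end Hc

/-- tails of centred lattice Gaussians -/
def SUBG : Prop := ∀ (I : Type) [Fintype I] [DecidableEq I] (N : Matrix I I ℝ) (R : ℝ),
  (Nᵀ * N).PosDef → 0 ≤ R →
  ∑' n : I → ℤ, {n : I → ℤ | ∃ i, R < |(N *ᵥ zc n) i|}.indicator (fun n => gs (Nᵀ * N) (zc n)) n ≤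
    2 * Fintype.card I * Real.exp (-(Real.pi * R ^ 2)) * th (Nᵀ * N) 0

/-- **the end**: an almost constant density does not change the bias -/
def FINA : Prop := ∀ (L C : Type) [Fintype L] [DecidableEq L] [Fintype C] [DecidableEq C]
  (U : TT L C) (S : Finset L) (x : L) (F : Fm L C)
  (N : (C → ℤ) → (Fin 2 → (U.dls S).Bl x → ℤ) → ℝ) (g : (C → ℤ) → ℂ) (u : ℕ) (b : ℝ),
  U.Ok → x ∉ S → U.Dat (univ \ S) {x} F → 10 ≤ u → Fintype.card C ≤ 2 ^ u →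
  (∀ w n, 0 ≤ N w n ∧ N w n ≤ b) →
  (∀ w, g w = ∑' n : Fin 2 → (U.dls S).Bl x → ℤ, (((∏ i, mq U S x w (n i)) * N w n : ℝ) : ℂ) *
    ee (F (pt U x w (ex U S x (n 1))) - F (pt U x w (ex U S x (n 0))))) →
  (∀ r ≤ 2, |U.Ex (fun w => ∑' n : Fin 2 → (U.dls S).Bl x → ℤ,
    (∏ i, mq U S x w (n i)) * N w n ^ r) - 1| ≤ (1 / 2) ^ (25 * u ^ 5)) →
  U.pr {w | (1 / 2 : ℝ) ^ (6 * u ^ 5) ≤ ‖g w‖ ∧ ¬ U.Rel (univ \ S) {x} w 1 (2 ^ (3 * u ^ 5)) F} ≤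
    (1 / 2) ^ (6 * u ^ 5)

section
variable (s d : ℕ)

/-- normalisers exist -/
def LAM : Prop := ∀ (c : Hc s d) (ε : ℝ) (h κ : ℕ), c.o.Ok ε →
  Emb c.o.cx.B (Wt d c.o.Q) bk c.T c.ι c.f c.e → Mor c.T c.o.cx.SY c.ι (2 ^ κ) → c.f.Ok s h →
  Tg c.o.cx.B bk s c.f →
  (∀ (w : Gd.Lv c.T) (i : Fin c.o.Q), some (c.j, i) ∈ (c.e w).1.2 → c.fn w.1 = i) →
  ∃ lam δ, Hc.Ok { c with lam := lam, δ := δ } ε h κ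

/-- the weights of the directions are normalised -/
def DT : Prop := ∀ (c : Hc s d) (ε : ℝ) (h κ : ℕ) (S : Finset c.L) (w : c.CU → ℤ)
  (n : c.XW S → ℤ), c.Ok ε h κ → c.x ∉ S → c.mu S w n = mq c.U S c.x w n

/-- the morphism is local in the fine words; the reading is exact on integer points -/
def IOT : Prop := ∀ (c : Hc s d) (ε : ℝ) (h κ : ℕ), c.Ok ε h κ →
  (∀ p p' (y : c.o.cx.B.SC (Wt d c.o.Q)), (∀ ℓ ∈ y.1.2.image bk, p (.inr ℓ) = p' (.inr ℓ)) →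
    (∀ v : Gd.Lv c.T, (c.e v).1.2 ⊆ y.1.2 → p (.inl v.1) = p' (.inl v.1)) →
      c.ι p (.inl y) = c.ι p' (.inl y)) ∧
  ∀ p, IntP p → ∀ F A, (c.rd p F A : ℝ) =
    Sy.sx c.o.cx.B.T _ (Wt d c.o.Q) (fun w => c.ι p (.inl w)) F A

/-- short directions have half of the mass; most backgrounds are central -/
def CUT : Prop := ∀ (c : Hc s d) (ε : ℝ) (h κ : ℕ) (R : ℝ), c.Ok ε h κ → 0 ≤ R →
  c.U.Rd c.S5 (c.Cn R) ∧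
  c.U.pr (c.Cn R)ᶜ ≤ 2 * Fintype.card c.CU * Real.exp (-(Real.pi * R ^ 2)) ∧
  (4 * Fintype.card c.CU * Real.exp (-(Real.pi * R ^ 2)) ≤ 1 →
    ∀ w, 1 / 2 ≤ ∑' n, c.mu c.S5 w n * c.sh R w n)

/-- **the witness** -/
def WIT : Prop := ∀ (c : Hc s d) (ε : ℝ) (h κ : ℕ) (b R : ℝ) (a : Fin c.o.D) (w : c.CU → ℤ),
  c.Ok ε h κ → c.Fb b → 0 ≤ R → 9 * 4 ^ κ * R ^ 2 ≤ 2 ^ (c.o.n / 4) →
  (∃ y ∈ c.o.cx.H, c.ι (cf (c.T.cor c.j.succ 0 w)) = cf y) →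
  1 / 2 ≤ ∑' n, c.mu c.S5 w n * c.sh R w n →
  (1 / 2 : ℝ) ^ (4 * c.o.n + 3) ≤ ∑' n : Fin 2 → c.XW c.S5 → ℤ,
    (∏ i, c.mu c.S5 w (n i) * c.sh R w (n i)) * (c.ph a w n).re *
      hs s c.P _ c.δ c.V0 0 (c.bg0 w (c.vs c.S5 n)) (pf s c.P _ (c.fb b) c.Ω)

/-- the backgrounds are compatible -/
def PHB : Prop := ∀ (c : Hc s d) (ε : ℝ) (h κ : ℕ) (k : Fin c.o.Q) (w : c.CU → ℤ)
  (v : ℕ → c.CU → ℤ) (y : c.P.Cw (SD s (D0 c.o.Q c.j))), c.Ok ε h κ → kw y.1.2 →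
  c.bg0 w v y = c.hφ (c.bg k w v) y

/-- the kept words of the new clone have small errors -/
def SMG : Prop := ∀ (c : Hc s d) (ε : ℝ) (h κ : ℕ) (R : ℝ) (k : Fin c.o.Q) (w : c.CU → ℤ)
  (n : Fin 2 → c.XW c.S5 → ℤ) (y : c.P.Cw (SD s (D1 c.o.Q c.j))), c.Ok ε h κ → 0 ≤ R →
  w ∈ c.Cn R → (∀ i, c.sh R w (n i) ≠ 0) → kw y.1.2 → Br.Wd.tr y.1.2 c.j.succ.succ = some c.o.Q →
  |(c.P.sh _).u (zc (c.bg k w (c.vs c.S5 n))) y| ≤ 2 ^ (κ + 1 + 2 * c.o.n * s) * R / 2 ^ c.a2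

/-- **lifting**: one more clone, with narrow hidden words -/
def LFT : Prop := ∀ (c : Hc s d) (ε0 : ℝ) (X : Type) [Countable X] (ω : X → ℝ)
  (b : X → c.P.Cw (SD s (D1 c.o.Q c.j)) → ℤ) (b0 : X → c.P.Cw (SD s (D0 c.o.Q c.j)) → ℤ)
  (f : (c.P.C → ℤ) → ℝ) (m : ℕ) (ε k σ : ℝ), c.o.Ok ε0 → Dl c.P c.δ → Summable ω →
  (∀ y, |f y| ≤ 1) → (∀ a y, kw y.1.2 → b0 a y = c.hφ (b a) y) →
  (∀ a, ω a ≠ 0 → ∀ y, kw y.1.2 → Br.Wd.tr y.1.2 c.j.succ.succ = some c.o.Q →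
    |(c.P.sh _).u (zc (b a)) y| ≤ σ) → Fintype.card (c.P.Cw (SD s (D1 c.o.Q c.j))) ≤ m → 1 ≤ m →
  0 < ε → 0 ≤ k → k ≤ 1 / (100 * m) → 2 ^ c.o.n * m ^ 2 * ε ≤ k ^ 2 →
  2 ^ c.o.n * m ^ 3 * σ ^ 2 ≤ k ^ 2 →
  ∃ x, ∑' a, ω a * hs s c.P _ c.δ c.V0 0 (b0 a) (pf s c.P _ f c.Ω) ≤
    ∑' a, ω a * hs s c.P _ c.δ (c.V1 ε 1) x (b a) (pf s c.P _ f c.Ω) +
      200 * m * k * ∑' a, |ω a| * hs s c.P _ c.δ (c.V1 ε ((m + 1) / m)) x (b a) fun _ => 1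

/-- hidden sums are bounded -/
def HSB : Prop := ∀ (c : Hc s d) (ε : ℝ) (D : Finset (Pt (Fin (d + 2)))) (V : Br.Wd s D → ℝ)
  (x : c.P.Cw (SD s D) → ℝ), c.o.Ok ε → Dl c.P c.δ → Dc D → (∀ w, 0 < V w) →
  ∃ B, ∀ b G, (∀ y, |G y| ≤ 1) → |hs s c.P D c.δ V x b G| ≤ hs s c.P D c.δ V x b (fun _ => 1) ∧
    hs s c.P D c.δ V x b (fun _ => 1) ≤ B

/-- the directions have bounded mass -/
def MUB : Prop := ∀ (c : Hc s d) (ε : ℝ) (h κ : ℕ) (S : Finset c.L), c.Ok ε h κ → c.x ∉ S →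
  ∃ B, ∀ w, (∀ n, 0 ≤ c.mu S w n) ∧ Summable (c.mu S w) ∧ ∑' n, c.mu S w n ≤ B

/-- the factors of the weight read only their class -/
def LOC : Prop := ∀ (c : Hc s d) (ε : ℝ) (h κ : ℕ) (k : Fin c.o.Q) (V x) (w w' : c.CU → ℤ)
  (y y' : c.E → ℤ) (i : Fin 3), c.Ok ε h κ →
  (∀ z, c.cls k z = 0 ∨ c.cls k z = i → y z = y' z) →
  (∀ v, Disjoint (c.U.ty v) c.S5 → (c.sl false k ∈ c.U.ty v → i = 1) →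
    (c.tl false 0 ∈ c.U.ty v → i = 2) → w v = w' v) →
  (∀ z, c.cls k z = 0 ∨ c.cls k z = i → c.om k V x w y z = c.om k V x w' y' z) ∧
  (∀ q, c.cls k (.inl q) = 0 ∨ c.cls k (.inl q) = i → c.ed w y q = c.ed w' y' q) ∧
    ∀ p : c.P.Cw (SD s (D1 c.o.Q c.j)), (∀ n, Br.Wd.tr p.1.2 c.j.succ.succ = some n →
      i = if n = k then 1 else 2) → c.cy k w y p = c.cy k w' y' p

/-- the systems are admissible -/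
def SOK : Prop := ∀ (c : Hc s d) (ε : ℝ) (h κ : ℕ) (k : Fin c.o.Q) (a : Fin c.o.D) (b R : ℝ) (V x),
  c.Ok ε h κ → c.Fb b → (∀ w, 0 < V w) → (c.sys k a b R V x).Ok

/-- the systems are blind -/
def BLD : Prop := ∀ (c : Hc s d) (ε : ℝ) (h κ : ℕ) (k : Fin c.o.Q) (a : Fin c.o.D) (b R : ℝ) (V x)
  (r : ℕ), c.Ok ε h κ → (c.sys k a b R V x).Ok →
  (∀ Γ Δ, Mo c.U r ((c.sys k a b R V x).N (· ∘ c.τ k) (· ∘ c.σ) Γ Δ)) →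
  Gs c.U c.sl c.tl c.τ c.σ k r (c.sys k a b R V x)

/-- the correlation and the mass of a system -/
def ASM : Prop := ∀ (c : Hc s d) (ε : ℝ) (h κ : ℕ) (k : Fin c.o.Q) (a : Fin c.o.D) (b R : ℝ) (V x)
  (w : c.CU → ℤ) (τ σ), c.Ok ε h κ → (c.sys k a b R V x).Ok →
  HasSum (fun n : Fin 2 → c.XW c.S5 → ℤ => (((∏ i, c.mu c.S5 w (n i) * c.sh R w (n i)) *
    hs s c.P _ c.δ V x (c.bg k w (c.vs c.S5 n)) (pf s c.P _ (c.fb b) c.Ω) : ℝ) : ℂ) * c.ph a w n)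
    ((c.sys k a b R V x).c1.c w) ∧
  HasSum (fun n : Fin 2 → c.XW c.S5 → ℤ => (∏ i, c.mu c.S5 w (n i)) *
    hs s c.P _ c.δ V x (c.bg k w (c.vs c.S5 n)) fun _ => 1)
    ((c.sys k a b R V x).N τ σ {false} {false} w)

/-- **the start** -/
def STA : Prop := ∀ (c : Hc s d) (ε0 : ℝ) (h κ : ℕ) (k : Fin c.o.Q) (a : Fin c.o.D) (b R ε t : ℝ)
  (m : ℕ) (H : Set (c.CU → ℤ)), c.Ok ε0 h κ → c.Fb b → 0 ≤ R →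
  9 * 4 ^ κ * R ^ 2 ≤ 2 ^ (c.o.n / 4) →
  4 * Fintype.card c.CU * Real.exp (-(Real.pi * R ^ 2)) ≤ 1 →
  (∀ w ∈ H, w ∈ c.Cn R ∧ ∃ y ∈ c.o.cx.H, c.ι (cf (c.T.cor c.j.succ 0 w)) = cf y) →
  Fintype.card (c.P.Cw (SD s (D1 c.o.Q c.j))) ≤ m → 1 ≤ m → 0 < ε → 0 ≤ t → t ≤ 1 / (100 * m) →
  2 ^ c.o.n * m ^ 2 * ε ≤ t ^ 2 →
  2 ^ c.o.n * m ^ 3 * (2 ^ (κ + 1 + 2 * c.o.n * s) * R / 2 ^ c.a2) ^ 2 ≤ t ^ 2 →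
  (∀ x, c.U.Ex ((c.sys k a b R (c.V1 ε ((m + 1) / m)) x).N id id {false} {false}) ≤ 2) →
  ∃ x, (1 / 2 : ℝ) ^ (4 * c.o.n + 3) * c.U.pr H - 400 * m * t ≤
    c.U.Ex (H.indicator fun w => ((c.sys k a b R (c.V1 ε 1) x).c1.c w).re)

/-- **moments are masses** -/
def MOM : Prop := ∀ (c : Hc s d) (ε : ℝ) (h κ : ℕ) (k : Fin c.o.Q) (a : Fin c.o.D) (b R : ℝ) (V x)
  (r : ℕ) (Γ Δ : Finset Bool), c.Ok ε h κ → (c.sys k a b R V x).Ok →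
  ∃ V' x', (∀ t', ∃ t, V' t' = V t) ∧ ∀ w,
    (c.sys k a b R V x).N (· ∘ c.τ k) (· ∘ c.σ) Γ Δ w ^ r =
      c.tm k r (2 * r) (fun o n => decide (n / 2 = o)) Γ Δ V' x' w

/-- **the last kernel** -/
def GEX : Prop := ∀ (c : Hc s d) (ε : ℝ) (h κ : ℕ) (k : Fin c.o.Q) (a : Fin c.o.D) (b R : ℝ) (V x),
  c.Ok ε h κ → (c.sys k a b R V x).Ok → (∀ w, 0 < V w) →
  ∃ (N : (c.CU → ℤ) → (Fin 2 → c.XW (c.Sx k univ univ) → ℤ) → ℝ) (B : ℝ),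
    (∀ w n, 0 ≤ N w n ∧ N w n ≤ B) ∧
    (∀ w, ((c.sys k a b R V x).c2 (· ∘ c.σ)).g (· ∘ c.τ k) w =
      ∑' n : Fin 2 → c.XW (c.Sx k univ univ) → ℤ, (((∏ i, c.mu _ w (n i)) * N w n : ℝ) : ℂ) *
        ee (df (c.τ k) (Ft.Gt c.T c.j.succ (c.F a)) (pt c.U c.x w (ex c.U _ c.x (n 1))) -
          df (c.τ k) (Ft.Gt c.T c.j.succ (c.F a)) (pt c.U c.x w (ex c.U _ c.x (n 0))))) ∧
    ∀ r ≤ 2, ∃ V' x', (∀ t', ∃ t, V' t' = V t) ∧ ∀ w,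
      ∑' n : Fin 2 → c.XW (c.Sx k univ univ) → ℤ, (∏ i, c.mu _ w (n i)) * N w n ^ r =
        c.tm k r 2 (fun _ _ => true) univ univ V' x' w

/-- **the masses are close to one** -/
def JZI : Prop := ∀ M : ℕ, ∃ K : ℕ, ∀ (c : Hc s d) (ε : ℝ) (h κ y : ℕ) (k : Fin c.o.Q) (r r' : ℕ)
  (al : ℕ → ℕ → Bool) (Γ Δ : Finset Bool) (V x), c.Ok ε h κ → c.f.M ≤ M → 2 ≤ y →
  2 * c.o.n ≤ y → h ≤ y → c.a1 ≤ y → c.a2 ≤ y → r ≤ y → r' ≤ y →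
  c.f.Rg 1 (y ^ K) (1 / 2 ^ y ^ K) (1 / 2 ^ y ^ K) → (∀ t, 1 / 2 ^ y ≤ V t) →
  |c.U.Ex (c.tm k r r' al Γ Δ V x) - 1| ≤ 1 / 2 ^ y

/-- **the transitions, with explicit parameters** -/
def COR : Prop := ∀ (c : Hc s d) (ε0 : ℝ) (h κ u m : ℕ) (b R ε t : ℝ) (H : Set (c.C → ℤ)),
  c.Ok ε0 h κ → Fine c.T c.j.succ c.fn → c.Fb b → 0 ≤ R → 9 * 4 ^ κ * R ^ 2 ≤ 2 ^ (c.o.n / 4) →
  4 * Fintype.card c.CU * Real.exp (-(Real.pi * R ^ 2)) ≤ 1 → Ov c.ι H c.o.cx.H →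
  Fintype.card (c.P.Cw (SD s (D1 c.o.Q c.j))) ≤ m → 1 ≤ m → 0 < ε → 0 ≤ t → t ≤ 1 / (100 * m) →
  2 ^ c.o.n * m ^ 2 * ε ≤ t ^ 2 →
  2 ^ c.o.n * m ^ 3 * (2 ^ (κ + 1 + 2 * c.o.n * s) * R / 2 ^ c.a2) ^ 2 ≤ t ^ 2 →
  10 ≤ u → c.o.Q * (c.o.D + 1) ≤ u → 4 * c.o.n + 4 ≤ u → Fintype.card c.CU ≤ 2 ^ u →
  (1 / 2 : ℝ) ^ u ≤ ((1 / 2) ^ (4 * c.o.n + 5)) ^ (c.o.Q * c.o.D) *
    (c.U.pr {w | c.T.cor c.j.succ 0 w ∈ H} -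
      2 * Fintype.card c.CU * Real.exp (-(Real.pi * R ^ 2))) -
    (c.o.Q * c.o.D : ℕ) * (400 * m * t + 4 / 2 ^ (10 * u ^ 6)) →
  (∀ k r r' al Γ Δ V x, r ≤ 20 * u ^ 6 → r' ≤ 20 * u ^ 6 → (∀ t, min ε (1 / 2 ^ c.o.n) ≤ V t) →
    |c.U.Ex (c.tm k r r' al Γ Δ V x) - 1| ≤ (1 / 2) ^ (25 * u ^ 5)) →
  Trn c.U c.x c.sl c.τ (fun a => Ft.Gt c.T c.j.succ (c.F a)) {w | c.T.cor c.j.succ 0 w ∈ H} (u ^ 5)
end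

end Crest.Agent.N49.He

end
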