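import Crest.Agent.N49.He.Db
import Crest.Agent.N49.Sd.Tile
import Crest.Agent.N49.Sd.Ogc
import Crest.Agent.N49.Ft.Rld
import Crest.Agent.N49.Br.Vis

/-!
# Row 49 (helper39): the systems are well formed
-/

set_option autoImplicit false
set_option linter.unusedSectionVars false

open Finset Matrix

noncomputable section

namespace Crest.Agent.N49.He

open Po Tw Br Rm Rm.TT Ft Md Sd

namespace Sk

theorem ga_nn {δ : ℝ} (h : 0 ≤ δ) (V e : ℝ) : 0 ≤ ga δ V e := by unfold ga; positivity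

theorem prod_ga {J : Type} [Fintype J] [DecidableEq J] (δ V e : J → ℝ) :
    ∏ j, ga (δ j) (V j) (e j) = (∏ j, δ j / √(V j)) * gs (diagonal fun j => (V j)⁻¹) e := by
  simp only [ga, prod_mul_distrib, gs, qf, ← Real.exp_sum, dotProduct, mulVec_diagonal, mul_sum,
    ← sum_neg_distrib]
  congr 2
  exact sum_congr rfl fun j _ => by ring

/-- triangular errors with the linear part `A` -/
def Tg {J : Type} [Fintype J] (lev : J → ℕ) (A : Matrix J J ℝ) (e : (J → ℤ) → J → ℝ) : Prop :=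
  ∀ n n' j, (∀ j', lev j' < lev j → n j' = n' j') →
    e n j - (A *ᵥ zc n) j = e n' j - (A *ᵥ zc n') j

/-- **a uniform bound for triangular products** -/
theorem gb {J : Type} [Fintype J] [DecidableEq J] {lev : J → ℕ} {A : Matrix J J ℝ}
    (hi : ∀ v, A *ᵥ v = 0 → v = 0) (hb : Rw.Blk lev A) {δ V : J → ℝ} (hδ : ∀ j, 0 ≤ δ j)
    (hV : ∀ j, 0 < V j) : ∃ B, ∀ e, Tg lev A e →
      (Summable fun n => ∏ j, ga (δ j) (V j) (e n j)) ∧ ∑' n, ∏ j, ga (δ j) (V j) (e n j) ≤ B := by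
  have inj : Function.Injective A.mulVec := fun n n' a =>
    sub_eq_zero.1 (hi _ (by rw [mulVec_sub, a, sub_self]))
  have hd : IsUnit A.det := (isUnit_iff_isUnit_det _).1 (mulVec_injective_iff_isUnit.1 inj)
  have pd : (Aᵀ * diagonal (fun j => (V j)⁻¹) * A).PosDef :=
    posDef_conj (PosDef.diagonal fun j => inv_pos.2 (hV j)) inj
  have bk : Rw.Blk lev (Aᵀ * diagonal (fun j => (V j)⁻¹) * A) :=
    blk_mul (blk_mul (blk_tr hb) fun i j e => diagonal_apply_ne _ fun z => e (z ▸ rfl)) hb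
  obtain ⟨B, h⟩ := Tl.bd pd bk
  have c0 : 0 ≤ ∏ j, δ j / √(V j) := prod_nonneg fun j _ => div_nonneg (hδ j) (Real.sqrt_nonneg _)
  refine ⟨(∏ j, δ j / √(V j)) * B, fun e t => ?_⟩
  have t' : Rw.Tri lev fun n => A⁻¹ *ᵥ (A *ᵥ zc n - e n) := fun n n' i a => by
    refine sum_congr rfl fun j _ => ?_
    by_cases k : lev i = lev j
    · have := t n n' j fun j' b => a j' (k ▸ b)
      simp only [Pi.sub_apply]
      rw [show (A *ᵥ zc n) j - e n j = (A *ᵥ zc n') j - e n' j by linarith]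
    · simp [blk_inv hb i j k]
  have q : ∀ n, ∏ j, ga (δ j) (V j) (e n j) = (∏ j, δ j / √(V j)) *
      gs (Aᵀ * diagonal (fun j => (V j)⁻¹) * A) (zc n - A⁻¹ *ᵥ (A *ᵥ zc n - e n) - 0) := fun n => by
    rw [prod_ga, gs, gs, qf_conj, sub_zero, mulVec_sub, mulVec_mulVec, mul_nonsing_inv _ hd,
      one_mulVec, sub_sub_cancel]
  simp only [q]
  exact ⟨(h _ t' 0).1.mul_left _, tsum_mul_left.trans_le (mul_le_mul_of_nonneg_left (h _ t' 0).2 c0)⟩

theorem ssub {ι : Type} [Fintype ι] {p : ι → Prop} [DecidablePred p] (f : ι → ℝ)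
    (h : ∀ i, ¬ p i → f i = 0) : ∑ i : {i // p i}, f i = ∑ i, f i := by
  rw [← Finset.sum_subtype (Finset.univ.filter p) (by simp) f, Finset.sum_filter]
  exact Finset.sum_congr rfl fun i _ => by split_ifs with k; exacts [rfl, (h i k).symm]

theorem inj_sub {E : Type} [Fintype E] {A : Matrix E E ℝ} (hi : ∀ v, A *ᵥ v = 0 → v = 0)
    (P : E → Prop) [DecidablePred P] (hP : ∀ y y', A y y' ≠ 0 → (P y ↔ P y'))
    (v : {y // P y} → ℝ) 
    (a : A.submatrix (Subtype.val : {y // P y} → E) Subtype.val *ᵥ v = 0) : v = 0 := by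
  have := hi (glue P v 0) (funext fun y => ?_)
  · exact funext fun j => (glue_val v 0 j).symm.trans (congrFun this j.1)
  by_cases k : P y
  · refine Eq.trans ?_ (congrFun a ⟨y, k⟩)
    simp only [mulVec, dotProduct, submatrix_apply]
    rw [← ssub (p := P) _ fun i b => by rw [glue_neg _ _ b]; simp]
    exact sum_congr rfl fun i _ => by rw [glue_val]
  · refine sum_eq_zero fun i _ => ?_
    by_cases b : P i
    · exact mul_eq_zero_of_left (by_contra fun z => k ((hP _ _ z).2 b)) _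
    · rw [glue_neg _ _ b]; simp

/-- the same for a class of coordinates, the others being fixed -/
theorem gbc {E : Type} [Fintype E] [DecidableEq E] {lev : E → ℕ} {A : Matrix E E ℝ}
    (hi : ∀ v, A *ᵥ v = 0 → v = 0) (hb : Rw.Blk lev A) {δ V : E → ℝ} (hδ : ∀ j, 0 ≤ δ j)
    (hV : ∀ j, 0 < V j) (P : E → Prop) [DecidablePred P] (hP : ∀ y y', A y y' ≠ 0 → (P y ↔ P y')) :
    ∃ B, ∀ e, Tg lev A e → ∀ φ : ({y // P y} → ℤ) → E → ℤ, (∀ n j, φ n j.1 = n j) →
      (∀ n n' y, ¬ P y → φ n y = φ n' y) →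
      (Summable fun n => ∏ j : {y // P y}, ga (δ j.1) (V j.1) (e (φ n) j.1)) ∧
        ∑' n, ∏ j : {y // P y}, ga (δ j.1) (V j.1) (e (φ n) j.1) ≤ B := by
  obtain ⟨B, h⟩ := gb (lev := fun j : {y // P y} => lev j.1) (inj_sub hi P hP)
    (fun i j e => hb i.1 j.1 e) (fun j => hδ j.1) fun j => hV j.1
  refine ⟨B, fun e t φ h1 h2 => h (fun n j => e (φ n) j.1) fun n n' j a => ?_⟩
  have q : ∀ n, (A.submatrix Subtype.val Subtype.val *ᵥ zc n) j = (A *ᵥ zc (φ n)) j.1 := fun n => by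
    simp only [mulVec, dotProduct, submatrix_apply]
    rw [← ssub (p := P) _ fun i b => by
      rw [show A j.1 i = 0 from by_contra fun z => b ((hP _ _ z).1 j.2), zero_mul]]
    exact sum_congr rfl fun i _ => by simp [zc, h1]
  rw [q, q]
  refine t _ _ _ fun y b => ?_
  by_cases k : P y
  · exact (h1 n ⟨y, k⟩).trans ((a ⟨y, k⟩ b).trans (h1 n' ⟨y, k⟩).symm)
  · exact h2 _ _ _ k

section dir
variable {L C : Type} [Fintype L] [DecidableEq L] [Fintype C] [DecidableEq C] {U : TT L C}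

/-- the diagonal blocks of a direction -/
def Nd (U : TT L C) (x : L) : Matrix (U.Bl x) (U.Bl x) ℝ :=
  of fun c c' => if #(U.ty c.1) = #(U.ty c'.1) then U.Nm x (cf 0) c c' else 0

theorem nd_ty (h : U.Ok) {x : L} {c c' : U.Bl x} (a : Nd U x c c' ≠ 0) : U.ty c'.1 = U.ty c.1 := by
  simp only [Nd, of_apply, ne_eq, ite_eq_right_iff, Classical.not_imp] at a
  exact eq_of_subset_of_card_le (by_contra fun z => a.2 (h.Nm_tri _ z)) a.1.le

theorem nd_inj (h : U.Ok) (x : L) (v : U.Bl x → ℝ) (a : Nd U x *ᵥ v = 0) : v = 0 := by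
  have b : (Nd U x)ᵀ.BlockTriangular fun c => #(U.ty c.1) := fun _ _ a => if_neg a.ne
  have d : (Nd U x).det = (U.Nm x (cf 0)).det := by
    rw [← det_transpose, b.det, ← det_transpose (U.Nm x _), (h.Nm_bt x _).det]
    refine prod_congr rfl fun a _ => congrArg _ ?_
    ext c c'
    exact if_pos (c'.2.trans c.2.symm)
  by_contra z
  exact h.det_ne x _ (d ▸ exists_mulVec_eq_zero_iff.1 ⟨v, z, a⟩)

theorem nd_tri (h : U.Ok) (x : L) (p : C ⊕ L → ℝ) (n n' : U.Bl x → ℝ) (c : U.Bl x)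
    (a : ∀ c' : U.Bl x, #(U.ty c'.1) < #(U.ty c.1) → n c' = n' c') :
    (U.Nm x p *ᵥ n) c - (Nd U x *ᵥ n) c = (U.Nm x p *ᵥ n') c - (Nd U x *ᵥ n') c := by
  simp only [mulVec, dotProduct, ← sum_sub_distrib, ← sub_mul]
  refine sum_congr rfl fun c' _ => ?_
  rcases lt_trichotomy #(U.ty c'.1) #(U.ty c.1) with k | k | k
  · rw [a c' k]
  · simp [Nd, k, h.Nm_blk p (cf 0) k]
  · simp [Nd, k.ne, h.Nm_tri p fun b => absurd (card_le_card b) (not_le.2 k)]

theorem phi_pt (h : U.Ok) (S : Finset L) (x : L) (w : C → ℤ) (n : (U.dls S).Bl x → ℤ)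
    (c : (U.dls S).Bl x) :
    U.Φ (pt U x w (ex U S x n)) c.1 = ((U.dls S).Nm x (cf w) *ᵥ zc n) c := by
  have k := mem_dls.1 c.2
  rw [h.phi_cg fun v a => Rd.pt_eq n (k.2.mono_left a), ← dls_Φ k.2, (Rd.ok_dls h S).phi_in,
    zero_mul, add_zero]
end dir

variable {s d : ℕ} (c : Hc s d)

/-- the levels of the free coordinates -/
def lv : c.E → ℕ := Sum.elim (fun z => #((c.U.dls c.S5).ty z.2.1))
  fun z => Fintype.card c.L + 1 + c.P.lev z.1.1.1
/-- the linear part of the hidden words -/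
def A2 : Matrix (HW s c.P (D1 c.o.Q c.j)) (HW s c.P (D1 c.o.Q c.j)) ℝ :=
  of fun z z' => (c.P.sh (SD s (D1 c.o.Q c.j))).A z.1 z'.1
/-- the linear part -/
def AE : Matrix c.E c.E ℝ := fromBlocks
  (of fun z z' => if z.1 = z'.1 then Nd (c.U.dls c.S5) c.x z.2 z'.2 else 0) 0 0 (A2 c)
/-- the errors -/
def er (k : Fin c.o.Q) (x : c.P.Cw (SD s (D1 c.o.Q c.j)) → ℝ) (w : c.CU → ℤ) (y : c.E → ℤ) :
    c.E → ℝ := Sum.elim (c.ed w y) fun z => (c.P.sh _).u (zc (c.cy k w y)) z.1 - x z.1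
/-- the normalisers -/
def dE : c.E → ℝ := Sum.elim (fun z => c.lu z.2.1) fun z => c.δ z.1.1.1
/-- the variances -/
def vE (V : Br.Wd s (D1 c.o.Q c.j) → ℝ) : c.E → ℝ := Sum.elim 1 fun z => V z.1.1.2

theorem om_eq (k : Fin c.o.Q) (V x w y) (z : c.E) :
    c.om k V x w y z = ga (dE c z) (vE c V z) (er c k x w y z) := by cases z <;> rfl

theorem so : (SD s (D1 c.o.Q c.j)).Ok := tw_ok (dc_grid _) fun _ _ => one_pos

theorem pt_tri : (c.P.sh (SD s (D1 c.o.Q c.j))).Tri :=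
  TS.sh_tri (Oc.un_stg c.o.h.stg c.o.h.wh).cl (so c)

theorem a_wd {p p' : c.P.Cw (SD s (D1 c.o.Q c.j))} (a : (c.P.sh (SD s (D1 c.o.Q c.j))).A p p' ≠ 0) :
    p.1.2 = p'.1.2 := by
  rw [TS.sh_A' (so c)] at a
  exact by_contra fun z => a (by simp [TS.kw, one_apply_ne z])

theorem ae1 (v : c.E → ℝ) (z : Fin 2 × c.XW c.S5) :
    (AE c *ᵥ v) (.inl z) = (Nd (c.U.dls c.S5) c.x *ᵥ fun y => v (.inl (z.1, y))) z.2 := by
  simp [AE, mulVec, dotProduct, Fintype.sum_sum_type, Fintype.sum_prod_type]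

theorem ae2 (v : c.E → ℝ) (z : HW s c.P (D1 c.o.Q c.j)) : (AE c *ᵥ v) (.inr z) =
    (A2 c *ᵥ fun y => v (.inr y)) z := by
  simp [AE, mulVec, dotProduct, Fintype.sum_sum_type]

variable {c}

theorem ae_inj (h : c.U.Ok) (v : c.E → ℝ) (a : AE c *ᵥ v = 0) : v = 0 := by
  funext z
  cases z with
  | inl z =>
    exact congrFun (nd_inj (Rd.ok_dls h _) c.x (fun y => v (.inl (z.1, y)))
      (funext fun y => (ae1 c v (z.1, y)).symm.trans (congrFun a _))) z.2
  | inr z =>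
    refine congrFun (inj_sub (fun v b => by_contra fun n =>
      (pt_tri c).det (exists_mulVec_eq_zero_iff.1 ⟨v, n, b⟩))
      (fun p : c.P.Cw (SD s (D1 c.o.Q c.j)) => ¬ kw p.1.2) (fun y y' b => ?_)
      (fun y => v (.inr y)) (funext fun y => (ae2 c v y).symm.trans (congrFun a _))) z
    rw [a_wd c b]

theorem ae_blk : Rw.Blk (lv c) (AE c) := by
  rintro (z | z) (z' | z') e
  · simp only [lv, Sum.elim_inl] at e
    simp [AE, Nd, e]
  · rfl
  · rfl
  · refine TS.blk_A _ _ _ fun a => e ?_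
    rw [TS.sh_lev, TS.sh_lev] at a
    simp only [lv, Sum.elim_inr, a]

theorem ae_cls (h : c.U.Ok) (k : Fin c.o.Q) (y y' : c.E) (a : AE c y y' ≠ 0) :
    c.cls k y = c.cls k y' := by
  rcases y with z | z <;> rcases y' with z' | z'
  · have b : Nd (c.U.dls c.S5) c.x z.2 z'.2 ≠ 0 := fun b => a (by simp [AE, b])
    have := nd_ty (Rd.ok_dls h _) b
    rw [dls_ty (mem_dls.1 z.2.2).2, dls_ty (mem_dls.1 z'.2.2).2] at this
    simp only [Hc.cls, this]
  · exact absurd rfl a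
  · exact absurd rfl a
  · simp only [Hc.cls, a_wd c a]

theorem er_tg (h : c.U.Ok) (k : Fin c.o.Q) (x w) : Tg (lv c) (AE c) (er c k x w) := by
  rintro y y' (z | z) a
  · have e : ∀ y : c.E → ℤ, c.ed w y z =
        ((c.U.dls c.S5).Nm c.x (cf w) *ᵥ zc fun t => y (.inl (z.1, t))) z.2 := fun y => by
      rw [← phi_pt h]
      rw [Hc.ed, Hc.vy, Hc.vs, dif_pos z.1.2]
    simp only [er, Sum.elim_inl, e, ae1]
    exact nd_tri (Rd.ok_dls h _) _ _ _ _ _ fun t b => congrArg Int.cast (a (.inl (z.1, t)) b)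
  · have v : c.vy y = c.vy y' := congrArg (c.vs c.S5 (r := 2))
      (funext fun i => funext fun t => a (.inl (i, t)) (by
        have := card_le_univ ((c.U.dls c.S5).ty t.1)
        simp only [lv, Sum.elim_inl, Sum.elim_inr]; omega))
    have e : ∀ y : c.E → ℤ, ((c.P.sh (SD s (D1 c.o.Q c.j))).A *ᵥ zc (c.cy k w y)) z.1 =
        (AE c *ᵥ zc y) (.inr z) := fun y => by
      refine Eq.trans ?_ (ae2 c _ z).symm
      refine (ssub (p := fun p : c.P.Cw (SD s (D1 c.o.Q c.j)) => ¬ kw p.1.2)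
        (fun i => (c.P.sh (SD s (D1 c.o.Q c.j))).A z.1 i * zc (c.cy k w y) i) fun i b =>
          mul_eq_zero_of_left (by_contra fun n => b (a_wd c n ▸ z.2)) _).symm.trans ?_
      exact sum_congr rfl fun i _ => congrArg (fun t : ℤ => A2 c z i * (t : ℝ))
        (glue_val (p := fun p : c.P.Cw (SD s (D1 c.o.Q c.j)) => ¬ kw p.1.2)
          (fun z => y (.inr z)) (c.bg k w (c.vy y)) i)
    have l := (pt_tri c).eval_low (y := zc (c.cy k w y)) (y' := zc (c.cy k w y')) (c := z.1)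
      fun p b => congrArg Int.cast (by
        by_cases n : kw p.1.2
        · simp only [Hc.cy, Sd.gl, glue, n, not_true, dif_neg, not_false_iff, v]
        · simp only [Hc.cy, Sd.gl, glue, n, not_false_iff, dif_pos]
          exact a _ (Nat.add_lt_add_left ((TS.sh_lev p).symm.trans_lt
            (b.trans_eq (TS.sh_lev z.1))) _))
    have f := fun y : c.E → ℤ => congrFun (TS.u_low (c.P.sh (SD s (D1 c.o.Q c.j)))
      (zc (c.cy k w y))) z.1
    have f1 := (f y).trans (congrArg₂ (· + ·) (e y) l)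
    have f2 := (f y').trans (congrArg₂ (· + ·) (e y') rfl)
    exact (congrArg (· - x z.1 - _) f1).trans (Eq.trans (by ring)
      (congrArg (· - x z.1 - _) f2).symm)

theorem om_bd {ε : ℝ} {h κ : ℕ} (o : c.Ok ε h κ) (u : c.U.Ok) {V : Br.Wd s (D1 c.o.Q c.j) → ℝ}
    (hV : ∀ w, 0 < V w) (k : Fin c.o.Q) (i : Fin 3) :
    ∃ B, ∀ x w (φ : c.Cf k i → c.E → ℤ), (∀ n j, φ n j.1 = n j) →
      (∀ n n' y, ¬ c.cls k y = i → φ n y = φ n' y) →
      (Summable fun n => ∏ j : {y // c.cls k y = i}, c.om k V x w (φ n) j.1) ∧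
        ∑' n, ∏ j : {y // c.cls k y = i}, c.om k V x w (φ n) j.1 ≤ B := by
  classical
  obtain ⟨B, b⟩ := gbc (ae_inj u) ae_blk (δ := dE c) (V := vE c V)
    (by
      rintro (⟨_, (z | z), _⟩ | z)
      · exact (o.l0 z).le
      · exact mul_nonneg (by positivity) (o.l0 _).le
      · exact (o.δ.1 _).le)
    (by rintro (z | z); exacts [one_pos, hV _]) (fun y => c.cls k y = i)
    fun y y' a => by rw [ae_cls u k y y' a]
  exact ⟨B, fun x w φ h1 h2 => by simpa only [om_eq] using b _ (er_tg u k x w) φ h1 h2⟩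

theorem om_nn {ε : ℝ} {h κ : ℕ} (o : c.Ok ε h κ) (k : Fin c.o.Q) (V x w y) (z : c.E) :
    0 ≤ c.om k V x w y z := by
  rw [om_eq]
  refine ga_nn ?_ _ _
  rcases z with ⟨_, (z | z), _⟩ | z
  · exact (o.l0 z).le
  · exact mul_nonneg (by positivity) (o.l0 _).le
  · exact (o.δ.1 _).le

theorem ct_pf {b : ℝ} (hb : 0 < b) (hf : ∀ y, |c.o.f y| ≤ b) (k : Fin c.o.Q) (R I w y Ω y') :
    ‖((c.ct k R I w y * pf s c.P (D1 c.o.Q c.j) (c.fb b) Ω y' : ℝ) : ℂ)‖ ≤ 1 := by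
  rw [Complex.norm_real, Real.norm_eq_abs, abs_mul, pf, abs_prod]
  refine mul_le_one₀ ?_ (prod_nonneg fun _ _ => abs_nonneg _) (prod_le_one (fun _ _ => abs_nonneg _)
    fun ω _ => ?_)
  · unfold Hc.ct; split_ifs <;> simp
  · rw [Hc.fb, abs_div, abs_of_pos hb, div_le_one hb]; exact hf _

end Sk

open Sk in
/-- **the systems are well formed** -/
theorem sys_ok {s d : ℕ} {c : Hc s d} {ε : ℝ} {h κ : ℕ} (o : c.Ok ε h κ) (u : c.U.Ok)
    {V : Br.Wd s (D1 c.o.Q c.j) → ℝ} (hV : ∀ w, 0 < V w) {b : ℝ} (hb : 0 < b)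
    (hf : ∀ y, |c.o.f y| ≤ b) (k : Fin c.o.Q) (a : Fin c.o.D) (R : ℝ) (x) :
    (c.sys k a b R V x).Ok where
  p0 _ _ := prod_nonneg fun _ _ => om_nn o _ _ _ _ _ _
  l0 _ _ _ := prod_nonneg fun _ _ => om_nn o _ _ _ _ _ _
  k0 _ _ _ := prod_nonneg fun _ _ => om_nn o _ _ _ _ _ _
  a1 _ _ _ := ct_pf hb hf _ _ _ _ _ _ _
  b1 _ _ _ := ct_pf hb hf _ _ _ _ _ _ _
  φ1 _ _ _ _ := (norm_ee _).le
  bd := by
    obtain ⟨B0, h0⟩ := om_bd o u hV k 0
    obtain ⟨B1, h1⟩ := om_bd o u hV k 1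
    obtain ⟨B2, h2⟩ := om_bd o u hV k 2
    refine ⟨max B0 (max B1 B2), fun w => ⟨?_, fun ρ => ⟨?_, ?_⟩⟩⟩
    · exact (h0 x w (fun n => c.as n 0 0) (fun n j => by simp [Hc.as, j.2])
        fun n n' y a => by simp [Hc.as, a]).imp id fun t => t.trans (le_max_left _ _)
    · exact (h1 x w (fun n => c.as ρ n 0) (fun n j => by simp [Hc.as, j.2])
        fun n n' y a => by simp [Hc.as, a]).imp id
          fun t => t.trans ((le_max_left _ _).trans (le_max_right _ _))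
    · exact (h2 x w (fun n => c.as ρ 0 n) (fun n j => by simp [Hc.as, j.2])
        fun n n' y a => by simp [Hc.as, a]).imp id
          fun t => t.trans ((le_max_right _ _).trans (le_max_right _ _))

end Crest.Agent.N49.He

end
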