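import Crest.Agent.N49.He.Fin0
import Crest.Agent.N49.He.Sok
import Crest.Agent.N49.He.Dc

/-!
# Row 49 (helper96): the end
-/

set_option autoImplicit false
set_option linter.unusedSectionVars false

open Finset Matrix

noncomputable section

namespace Crest.Agent.N49.He

open Po Rm Rm.TT Ft

variable {L C : Type} [Fintype L] [DecidableEq L] [Fintype C] [DecidableEq C] {U : TT L C}

/-- the theta values of the fibres are uniformly bounded -/
theorem gs_bd (h : U.Ok) (x : L) : ∃ B, ∀ w, ∑' n, gs (U.Mm x w) (zc n) ≤ B := by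
  obtain ⟨B, k⟩ := Sk.gb (lev := fun c : U.Bl x => #(U.ty c.1)) (Sk.nd_inj h x)
    (fun _ _ e => if_neg e) (δ := 1) (V := 1) (fun _ => zero_le_one) fun _ => one_pos
  refine ⟨B, fun w => le_of_eq_of_le (tsum_congr fun n => ?_)
    (k (fun n => U.Nm x (cf w) *ᵥ zc n) fun n n' j a => Sk.nd_tri h x _ _ _ j fun c l =>
      congrArg _ (a c l)).2⟩
  rw [Sk.prod_ga, gs, gs, Mm, ← qf_conj]
  simp

theorem dfina : FINA := by
  intro L C _ _ _ _ U S x F N g u b h hx hF hu hC hN hg hr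
  have o := (rld L C U S x 0 F h hx hF).1
  obtain ⟨B, hB⟩ := gs_bd o x
  have d := dt_pos (o.Mm_pd x 0)
  have e : ∀ w n, mq U S x w n = (dt (Mx U S x 0))⁻¹ * gs (Mx U S x w) (zc n) := fun w n => by
    rw [mq, o.dt_eq x w 0, div_eq_inv_mul]
  have p : ∀ w n, 0 ≤ mq U S x w n := fun w n => e w n ▸ mul_nonneg (inv_pos.2 d).le (gs_pos _ _).le
  have s : ∀ w, Summable (mq U S x w) := fun w => by
    rw [funext (e w)]
    simpa using (summable_gs (o.Mm_pd x w) 0).mul_left _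
  have hM : ∀ w, ∑' n, mq U S x w n ≤ (dt (Mx U S x 0))⁻¹ * B := fun w => by
    simp only [e, tsum_mul_left]
    exact mul_le_mul_of_nonneg_left (hB w) (inv_pos.2 d).le
  obtain ⟨M, eM⟩ : ∃ M, M = (dt (Mx U S x 0))⁻¹ * B := ⟨_, rfl⟩
  rw [← eM] at hM
  have b0 : 0 ≤ b := (hN 0 0).1.trans (hN 0 0).2
  have m := fun w => Fi0.mass (s w) (p w)
  have p' : ∀ w (v : Fin 2 → _), 0 ≤ ∏ i, mq U S x w (v i) := fun w v => prod_nonneg fun i _ => p w _
  have q : ∀ w r (v : Fin 2 → _), (∏ i, mq U S x w (v i)) * N w v ^ r ≤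
      (∏ i, mq U S x w (v i)) * b ^ r := fun w r v =>
    mul_le_mul_of_nonneg_left (pow_le_pow_left₀ (hN w v).1 (hN w v).2 r) (p' w v)
  have q0 : ∀ w r (v : Fin 2 → _), 0 ≤ (∏ i, mq U S x w (v i)) * N w v ^ r := fun w r v =>
    mul_nonneg (p' w v) (pow_nonneg (hN w v).1 r)
  have t : ∀ w r, Summable fun v : Fin 2 → _ => (∏ i, mq U S x w (v i)) * N w v ^ r := fun w r =>
    ((m w).summable.mul_right _).of_nonneg_of_le (q0 w r) (q w r)
  let T := fun r w => ∑' v : Fin 2 → _, (∏ i, mq U S x w (v i)) * N w v ^ r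
  have tb : ∀ r w, |T r w| ≤ M ^ 2 * b ^ r := fun r w => by
    rw [abs_of_nonneg (tsum_nonneg (q0 w r))]
    exact (hasSum_le (q w r) (t w r).hasSum ((m w).mul_right _)).trans (mul_le_mul_of_nonneg_right
      (pow_le_pow_left₀ (tsum_nonneg (p w)) (hM w) 2) (pow_nonneg b0 r))
  have r0 := abs_le.1 (hr 0 (by omega))
  have r1 := abs_le.1 (hr 1 (by omega))
  have r2 := abs_le.1 (hr 2 le_rfl)
  have u5 : u + 5 ≤ u ^ 5 := by
    have := Nat.pow_le_pow_right (show 1 ≤ u by omega) (show 2 ≤ 5 by omega)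
    nlinarith
  have η : (1 / 2 : ℝ) ^ (25 * u ^ 5) * 4 ≤ (1 / 2) ^ (4 * (6 * u ^ 5) + 3) :=
    (show _ = (1 / 2 : ℝ) ^ (25 * u ^ 5 - 2) by
      rw [show 25 * u ^ 5 = 25 * u ^ 5 - 2 + 2 by omega, pow_add]; simp; ring).trans_le
      (pow_le_pow_of_le_one (by norm_num) (by norm_num) (by omega))
  have η' : (1 / 2 : ℝ) ^ (25 * u ^ 5) ≤ 1 := pow_le_one₀ (by norm_num) (by norm_num)
  refine le_trans (h.pr_mono fun w z => ?_) (Fi0.fin_abs h hx hF
    (inv_pos.2 d) e (b := max M b) (fun w v => (abs_of_nonneg (hN w v).1).trans_le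
      ((hN w v).2.trans (le_max_right _ _))) (fun w => (hM w).trans (le_max_left _ _))
    (fun w => (congrArg norm (hg w)).le) hC ?_ ?_)
  · refine ⟨z.1, fun r => z.2 (r.mono ?_)⟩
    have a : 2 ^ u + 2 * (6 * u ^ 5 + 1) ≤ 2 ^ (3 * u ^ 5) := by
      have := Nat.pow_le_pow_right two_pos (show u ≤ u ^ 5 by omega)
      have := (u ^ 5).lt_two_pow_self
      have := Nat.pow_le_pow_right two_pos (show u ^ 5 + 4 ≤ 3 * u ^ 5 by omega)
      rw [pow_add] at this
      omega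
    exact_mod_cast a
  · simp only [pow_zero, mul_one, fun w => (m w).tsum_eq] at r0
    linarith
  · have e : (fun w => ∑' v : Fin 2 → _, (∏ i, mq U S x w (v i)) * (N w v - 1) ^ 2) =
        fun w => T 2 w + (-2 * T 1 w + T 0 w) := funext fun w => by
      refine (((t w 2).hasSum.add (((t w 1).hasSum.mul_left (-2)).add
        (t w 0).hasSum)).congr_fun fun v => ?_).tsum_eq
      ring
    have a : ∀ w, |-2 * T 1 w| ≤ 2 * (M ^ 2 * b ^ 1) := fun w => by
      rw [abs_mul]; have := tb 1 w; norm_num at this ⊢; linarith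
    rw [e, h.Ex_add (tb 2) fun w => (abs_add_le _ _).trans (add_le_add (a w) (tb 0 w)),
      h.Ex_add a (tb 0), Ex_smul]
    linarith

end Crest.Agent.N49.He

end
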