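import Crest.Agent.N49.Ft.Rld

/-!
# Row 49 (helper96): a biased direction sum gives a relation
-/

set_option autoImplicit false
set_option linter.unusedSectionVars false

open Finset Matrix

noncomputable section

namespace Crest.Agent.N49.He.Fi0

open Po Rm Rm.TT Ft

variable {L C : Type} [Fintype L] [DecidableEq L] [Fintype C] [DecidableEq C] {U : TT L C}
  {S : Finset L} {x : L} {F : Fm L C}

theorem gs_eq (h : U.Ok) (hx : x ∉ S) (w : C → ℤ) (n : (U.dls S).Bl x → ℤ) :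
    gs (Mx U S x w) (zc n) =
      ∏ y : (U.dls S).Bl x, Real.exp (-(Real.pi * U.Φ (pt U x w (ex U S x n)) y.1 ^ 2)) := by
  rw [(rld L C U S x w (fun _ => 0) h hx Dat.zero).2.2.2.1, ← Real.exp_sum,
    sum_subtype_eq_sum_filter (p := fun c => x ∈ (U.dls S).ty c)
      (f := fun c => U.Φ (pt U x w (ex U S x n)) c ^ 2) |>.symm, mul_sum]
  simp

/-- a biased sum -/
theorem rel_bias (h : U.Ok) (hx : x ∉ S) (hF : U.Dat (univ \ S) {x} F) (w : C → ℤ) {κ : ℝ}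
    (hκ : 0 < κ) {μ : ((U.dls S).Bl x → ℤ) → ℝ} (hμ : ∀ n, μ n = κ * gs (Mx U S x w) (zc n))
    {n m : ℕ} (hC : Fintype.card C ≤ 2 ^ n) (b : (1 / 2) ^ m * ∑' v, μ v <
      ‖∑' v, (μ v : ℂ) * ee (F (pt U x w (ex U S x v)))‖) :
    U.Rel (univ \ S) {x} w 1 (2 ^ n + 2 * m) F := by
  obtain ⟨o, l, e, -, r⟩ := rld L C U S x w F h hx hF
  have hc : (Fintype.card ((U.dls S).Bl x) : ℝ) ≤ 2 ^ n := by
    exact_mod_cast (Fintype.card_subtype_le _).trans hC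
  simp only [hμ, e, Complex.ofReal_mul, mul_assoc, tsum_mul_left, norm_mul, Complex.norm_real,
    Real.norm_of_nonneg hκ.le] at b
  rw [mul_left_comm, mul_lt_mul_iff_right₀ hκ] at b
  have z : bz ((U.dls S).Bl x) (2 ^ n + m) ≤ (1 / 2) ^ m := by
    refine (bz_le (L := m) (by linarith) (by positivity)).trans ?_
    rw [Real.exp_neg, ← Real.exp_one_pow, ← inv_pow, one_div]
    gcongr
    linarith [Real.add_one_le_exp 1]
  refine r _ (o.rel_of_thc (fun _ _ => subset_univ _) l (R := 2 ^ n + m) (θ := 0)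
    (by positivity) ?_ ((mul_le_mul_of_nonneg_right z
      (th_nonneg _ _)).trans_lt (by simpa only [th, thc, sub_zero] using b)))
  calc _ ≤ (2 : ℝ) ^ n * (2 ^ n + m) := by gcongr
    _ ≤ _ := by nlinarith [pow_pos (two_pos (α := ℝ)) n, Nat.cast_nonneg (α := ℝ) m]

theorem ee_cj (a b : ℝ) : ee a * (starRingEnd ℂ) (ee b) = ee (a - b) := by
  simp only [ee, ← Complex.exp_conj, ← Complex.exp_add, map_mul, Complex.conj_ofReal,
    Complex.conj_I, map_ofNat]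
  push_cast
  ring_nf

/-- two independent copies -/
theorem two {X : Type} {μ : X → ℝ} (s : Summable μ) (p : ∀ v, 0 ≤ μ v) {φ : X → ℂ}
    (q : ∀ v, ‖φ v‖ ≤ 1) : HasSum (fun v : Fin 2 → X => ((∏ i, μ (v i) : ℝ) : ℂ) *
      (φ (v 1) * (starRingEnd ℂ) (φ (v 0)))) ((‖∑' v, (μ v : ℂ) * φ v‖ ^ 2 : ℝ) : ℂ) := by
  have a : Summable fun v => ‖(μ v : ℂ) * φ v‖ := s.of_nonneg_of_le (fun _ => norm_nonneg _)
    fun v => by
      rw [norm_mul, Complex.norm_real, Real.norm_of_nonneg (p v)]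
      exact mul_le_of_le_one_right (p v) (q v)
  have a' : Summable fun v => ‖(starRingEnd ℂ) ((μ v : ℂ) * φ v)‖ := by
    simpa only [Complex.norm_conj] using a
  have b := (summable_mul_of_summable_norm a' a).hasSum
  rw [← tsum_mul_tsum_of_summable_norm a' a, ← Complex.conj_tsum, mul_comm, Complex.mul_conj,
    Complex.normSq_eq_norm_sq] at b
  refine (finTwoArrowEquiv X).symm.hasSum_iff.1 ?_
  refine b.congr_fun fun v => ?_
  simp [Fin.prod_univ_two]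
  ring

theorem mass {X : Type} {μ : X → ℝ} (s : Summable μ) (p : ∀ v, 0 ≤ μ v) :
    HasSum (fun v : Fin 2 → X => ∏ i, μ (v i)) ((∑' v, μ v) ^ 2) := by
  have := two s p (φ := fun _ => 1) (by simp)
  simp only [map_one, mul_one, ← Complex.ofReal_tsum, Complex.norm_real, Real.norm_eq_abs,
    sq_abs] at this
  exact_mod_cast this

/-- the pointwise bound -/
theorem pw {X : Type} {μ : X → ℝ} (s : Summable μ) (p : ∀ v, 0 ≤ μ v) {φ : X → ℂ}
    (q : ∀ v, ‖φ v‖ ≤ 1) {N : (Fin 2 → X) → ℝ} {b t : ℝ} (hN : ∀ v, |N v| ≤ b) (ht : 0 < t) :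
    ‖∑' v : Fin 2 → X, (((∏ i, μ (v i)) * N v : ℝ) : ℂ) * (φ (v 1) * (starRingEnd ℂ) (φ (v 0)))‖ ≤
      ‖∑' v, (μ v : ℂ) * φ v‖ ^ 2 + (t / 2 * (∑' v, μ v) ^ 2 +
        (∑' v : Fin 2 → X, (∏ i, μ (v i)) * (N v - 1) ^ 2) / (2 * t)) := by
  have a := two s p q
  have m := mass s p
  have p' : ∀ v : Fin 2 → X, 0 ≤ ∏ i, μ (v i) := fun v => prod_nonneg fun i _ => p _
  have v2 : Summable fun v : Fin 2 → X => (∏ i, μ (v i)) * (N v - 1) ^ 2 :=
    (m.summable.mul_right ((b + 1) ^ 2)).of_nonneg_of_le (fun v => mul_nonneg (p' v) (sq_nonneg _))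
      fun v => mul_le_mul_of_nonneg_left (sq_le_sq' (by linarith [(abs_le.1 (hN v)).1])
        (by linarith [(abs_le.1 (hN v)).2])) (p' v)
  have c := (m.mul_left (t / 2)).add (v2.hasSum.div_const (2 * t))
  have e : ∀ v : Fin 2 → X, ‖(((∏ i, μ (v i)) * (N v - 1) : ℝ) : ℂ) *
      (φ (v 1) * (starRingEnd ℂ) (φ (v 0)))‖ ≤
        t / 2 * ∏ i, μ (v i) + (∏ i, μ (v i)) * (N v - 1) ^ 2 / (2 * t) := fun v => by
    rw [norm_mul, norm_mul, Complex.norm_conj, Complex.norm_real, norm_mul,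
      Real.norm_of_nonneg (p' v), Real.norm_eq_abs, mul_div_assoc, mul_comm (t / 2), ← mul_add]
    refine (mul_le_of_le_one_right (mul_nonneg (p' v) (abs_nonneg _))
      (mul_le_one₀ (q _) (norm_nonneg _) (q _))).trans (mul_le_mul_of_nonneg_left ?_ (p' v))
    rw [← sq_abs, ← sub_nonneg, show t / 2 + |N v - 1| ^ 2 / (2 * t) - |N v - 1| =
      (|N v - 1| - t) ^ 2 / (2 * t) by field_simp; ring]
    positivity
  have d := (Summable.of_norm_bounded c.summable e).hasSum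
  rw [((a.add d).congr_fun (g := fun v => (((∏ i, μ (v i)) * N v : ℝ) : ℂ) *
    (φ (v 1) * (starRingEnd ℂ) (φ (v 0)))) fun v => by push_cast; ring).tsum_eq]
  refine (norm_add_le _ _).trans (add_le_add (by simp) (tsum_of_norm_bounded c e))

/-- **a correlated pair of directions gives a relation** -/
theorem fin_abs (h : U.Ok) (hx : x ∉ S) (hF : U.Dat (univ \ S) {x} F) {κ : ℝ} (hκ : 0 < κ)
    {μ : (C → ℤ) → ((U.dls S).Bl x → ℤ) → ℝ} (hμ : ∀ w n, μ w n = κ * gs (Mx U S x w) (zc n))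
    {N : (C → ℤ) → (Fin 2 → (U.dls S).Bl x → ℤ) → ℝ} {b : ℝ} (hN : ∀ w v, |N w v| ≤ b)
    (hM : ∀ w, ∑' v, μ w v ≤ b) {g : (C → ℤ) → ℂ} (hg : ∀ w, ‖g w‖ ≤ ‖∑' v : Fin 2 → _,
      (((∏ i, μ w (v i)) * N w v : ℝ) : ℂ) *
        ee (F (pt U x w (ex U S x (v 1))) - F (pt U x w (ex U S x (v 0))))‖) {n m : ℕ}
    (hC : Fintype.card C ≤ 2 ^ n) (h2 : U.Ex (fun w => (∑' v, μ w v) ^ 2) ≤ 2)
    (hV : U.Ex (fun w => ∑' v : Fin 2 → _, (∏ i, μ w (v i)) * (N w v - 1) ^ 2) ≤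
      (1 / 2) ^ (4 * m + 3)) :
    U.pr {w | (1 / 2 : ℝ) ^ m ≤ ‖g w‖ ∧ ¬ U.Rel (univ \ S) {x} w 1 (2 ^ n + 2 * (m + 1 : ℕ)) F} ≤
      (1 / 2) ^ m := by
  have o := (rld L C U S x 0 F h hx hF).1
  have p : ∀ w v, 0 ≤ μ w v := fun w v => hμ w v ▸ mul_nonneg hκ.le (gs_pos _ _).le
  have s : ∀ w, Summable (μ w) := fun w => by
    rw [funext (hμ w)]
    simpa using (summable_gs (o.Mm_pd x w) 0).mul_left κ
  obtain ⟨δ, hδ⟩ : ∃ δ : ℝ, δ = (1 / 2) ^ m := ⟨_, rfl⟩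
  have d0 : 0 < δ := by rw [hδ]; positivity
  let M := fun w => (∑' v, μ w v) ^ 2
  let V := fun w => ∑' v : Fin 2 → _, (∏ i, μ w (v i)) * (N w v - 1) ^ 2
  have M0 : ∀ w, 0 ≤ M w ∧ M w ≤ b ^ 2 := fun w =>
    ⟨sq_nonneg _, pow_le_pow_left₀ (tsum_nonneg (p w)) (hM w) 2⟩
  have V0 : ∀ w, 0 ≤ V w ∧ V w ≤ b ^ 2 * (b + 1) ^ 2 := fun w => by
    have p' : ∀ v : Fin 2 → _, 0 ≤ ∏ i, μ w (v i) := fun v => prod_nonneg fun i _ => p w _
    have m := (mass (s w) (p w)).mul_right ((b + 1) ^ 2)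
    refine ⟨tsum_nonneg fun v => mul_nonneg (p' v) (sq_nonneg _), le_trans ?_
      (mul_le_mul_of_nonneg_right (M0 w).2 (sq_nonneg _))⟩
    have k : ∀ v, (∏ i, μ w (v i)) * (N w v - 1) ^ 2 ≤ (∏ i, μ w (v i)) * (b + 1) ^ 2 := fun v =>
      mul_le_mul_of_nonneg_left (sq_le_sq' (by linarith [(abs_le.1 (hN w v)).1])
        (by linarith [(abs_le.1 (hN w v)).2])) (p' v)
    exact hasSum_le k (m.summable.of_nonneg_of_le (fun v => mul_nonneg (p' v) (sq_nonneg _))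
      k).hasSum m
  have k := h.markov (g := fun w => 3 * δ ^ 2 / 8 * M w + 2 / δ ^ 2 * V w)
    (B := 3 * δ ^ 2 / 8 * b ^ 2 + 2 / δ ^ 2 * (b ^ 2 * (b + 1) ^ 2)) (fun w =>
      ⟨by have := (M0 w).1; have := (V0 w).1; positivity,
        by have := (M0 w).2; have := (V0 w).2; gcongr⟩) d0.le
  rw [h.Ex_add (B := 3 * δ ^ 2 / 8 * b ^ 2) (B' := 2 / δ ^ 2 * (b ^ 2 * (b + 1) ^ 2))
    (fun w => by rw [abs_of_nonneg (by have := (M0 w).1; positivity)]; have := (M0 w).2; gcongr)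
    (fun w => by rw [abs_of_nonneg (by have := (V0 w).1; positivity)]; have := (V0 w).2; gcongr),
    Ex_smul, Ex_smul] at k
  rw [show (1 / 2 : ℝ) ^ (4 * m + 3) = δ ^ 4 / 8 by rw [hδ, pow_add, pow_mul']; norm_num; ring] at hV
  have k2 : 2 / δ ^ 2 * U.Ex V ≤ δ ^ 2 / 4 :=
    (mul_le_mul_of_nonneg_left hV (by positivity)).trans_eq (by field_simp; norm_num)
  rw [← hδ]
  refine (h.pr_mono fun w z => ?_).trans (le_of_mul_le_mul_left (k.trans ?_) d0)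
  · obtain ⟨a, r⟩ := z
    have c := pow_le_pow_left₀ (norm_nonneg _)
      (not_lt.1 fun c => r (rel_bias h hx hF w hκ (hμ w) hC c)) 2
    have e := pw (s w) (p w) (φ := fun v => ee (F (pt U x w (ex U S x v)))) (fun _ => (norm_ee _).le)
      (hN w) (t := δ ^ 2 / 4) (by positivity)
    simp only [ee_cj] at e
    rw [pow_succ (1 / 2 : ℝ) m, ← hδ] at c
    refine a.trans ((hg w).trans (e.trans ((add_le_add c le_rfl).trans_eq ?_)))
    simp only [M, V]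
    field_simp
    ring
  · nlinarith [mul_le_mul_of_nonneg_left h2 (show 0 ≤ 3 * δ ^ 2 / 8 by positivity)]

end Crest.Agent.N49.He.Fi0

end
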