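import Crest.Agent.N49.He.Dmom
import Crest.Agent.N49.He.Fin0

/-!
# Row 49 (helper89): the last kernel
-/

set_option autoImplicit false
set_option linter.unusedSectionVars false

open Finset
open scoped ComplexConjugate

noncomputable section

namespace Crest.Agent.N49.He

open Po Tw Br Rm Rm.TT Ft Md Sd As

namespace G9
open Hc
variable {s d : ℕ} {c : Hc s d} {k : Fin c.o.Q}

variable (c) in
/-- the first corner -/
def cn (q : c.CU ⊕ c.L → ℝ) : c.C ⊕ Lb d → ℝ := c.T.pos c.j.succ (fun _ => false) 1 (cv 0) (co q)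

theorem cn_loc {q q' : c.CU ⊕ c.L → ℝ} (e : ∀ z, Disjoint (c.U.ty z) c.S5 → q (.inl z) = q' (.inl z))
    (e' : ∀ ℓ, q (.inr ℓ) = q' (.inr ℓ)) : cn c q = cn c q' := by
  have a0 : c.T.p0 c.j.succ (co q) = c.T.p0 c.j.succ (co q') := funext fun y => by
    rcases y with y | y
    exacts [e _ (dis_inl9 y), e' _]
  have a1 : ∀ l : Fin 4, l = 0 ∨ l = 2 → c.T.px c.j.succ (fun _ => false) l (co q) =
      c.T.px c.j.succ (fun _ => false) l (co q') := fun l hl => funext fun y => by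
    rcases y with y | y
    · simp only [px]
      split_ifs
      exacts [e _ (dis_inr9 _ hl), e _ (dis_inl9 y)]
    · exact if_congr Iff.rfl rfl (e' _)
  funext v
  simp [cn, pos, Fin.sum_univ_four, TT.cv, a0, a1 0 (.inl rfl), a1 2 (.inr rfl)]

theorem cn_σ (k : Fin c.o.Q) (q : c.CU ⊕ c.L → ℝ) :
    cn c (Ft.pm c.σ q) = c.T.pos c.j.succ (fun _ => false) 1 (cv 1) (co q) := by
  have a0 := p0_th (k := k) (b1 := false) (b2 := true) q
  have a2 := px2_th (k := k) (b1 := false) (b2 := true) q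
  have a1 : c.T.px c.j.succ (fun _ => false) 0 (co (Ft.pm (c.th k false true) q)) =
      c.T.px c.j.succ (fun _ => false) 0 (co q) := funext fun y => by
    rcases y with y | y
    · exact px_th q fun _ => (th_0 _).trans (by simp)
    · rfl
  rw [th_ft] at a0 a1 a2
  funext v
  simp [cn, pos, Fin.sum_univ_four, TT.cv, a0, a1, a2]

variable {ε : ℝ} {h κ : ℕ}

theorem fp (o : c.Ok ε h κ) (a : Fin c.o.D) (w : c.CU → ℤ) (Y : c.E' k univ univ → ℤ) (b1 b2 : Bool)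
    (i : Fin 2) : c.Fp a (w ∘ c.th k b1 b2) (c.vy (c.as (cb' o.sw2 Y).1 ((cb' o.sw2 Y).2.1 (As.cp b1))
      ((cb' o.sw2 Y).2.2 (As.cp b2))) i) =
      c.F a (cn c (Ft.pm (c.th k b1 b2) (pt c.U c.x w (vY9 Y i)))) := by
  rw [← pt_th]
  refine congrArg (c.F a) (cn_loc (fun z m => pt_congr9 _ fun p => ?_) fun _ => rfl)
  have p' : c.x ∈ (c.U.dls c.S5).ty z := mem_dls.2 ⟨p, m⟩
  have u : ∀ b, b = ![false, b1, b2] (cx c.U c.sl c.tl k z) → ∀ m',
      Y (up o.sw2 (.inl (i, ⟨z, p'⟩)) b m') = vY9 Y i (c.th k b1 b2 z) := fun b e m' => by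
    subst e
    rw [th_tx9 o.sw2 b1 b2 m]
    exact ((congrFun (dif_pos i.2 : vY9 Y i = _) _).trans (dif_pos (tx_mem o.sw2 p' m'))).symm
  refine ((congrFun (vy_eq _ i) z).trans (dif_pos p')).trans ?_
  rcases c.cls3 (k := k) (.inl (i, ⟨z, p'⟩)) with e | e | e
  · exact (c.as0 _ _ _ ⟨_, e⟩).trans (u false (congrArg ![false, b1, b2] e).symm
      (e ▸ mem_singleton_self _))
  · exact (c.as1 _ _ _ ⟨_, e⟩).trans (u b1 (congrArg ![false, b1, b2] e).symm (e ▸ mem_univ _))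
  · exact (c.as2 _ _ _ ⟨_, e⟩).trans (u b2 (congrArg ![false, b1, b2] e).symm (e ▸ mem_univ _))

theorem df_eq (a : Fin c.o.D) (q : c.CU ⊕ c.L → ℝ) :
    df (c.τ k) (Ft.Gt c.T c.j.succ (c.F a)) q =
      c.F a (cn c (Ft.pm (c.th k false false) q)) - c.F a (cn c (Ft.pm (c.th k false true) q)) -
      (c.F a (cn c (Ft.pm (c.th k true false) q)) - c.F a (cn c (Ft.pm (c.th k true true) q))) := by
  have e0 : Ft.pm (c.th k false false) q = q := funext fun y => by cases y <;> rfl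
  have e1 : Ft.pm (c.th k true true) q = Ft.pm c.σ (Ft.pm (c.τ k) q) := rfl
  rw [e0, e1, th_ft, th_tf, cn_σ k, cn_σ k]
  rfl
end G9
open G9 Hc

theorem G9.ker {s d : ℕ} {c : Hc s d} {k : Fin c.o.Q} {ε : ℝ} {h κ : ℕ} (l : LOC s d)
    (o : c.Ok ε h κ) {a b R V x} (p : (c.sys k a b R V x).Ok) (w : c.CU → ℤ) :
    HasSum (fun q : (Fin 2 → c.XW (c.Sx k univ univ) → ℤ) × (HW s c.P (c.DK k univ univ) → ℤ) =>
      (((∏ i, c.mu _ w (q.1 i)) * ∏ y : HW s c.P (c.DK k univ univ), ga (c.δ y.1.1.1)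
        (c.Vk9 k univ univ V y.1.1.2) ((c.P.sh _).u (zc (Sd.gl c.P (SD s (c.DK k univ univ))
          (fun w => ¬ Sd.kw w) q.2 (c.bg k w (c.vs _ q.1)))) y.1 - c.xk9 k univ univ x y.1) : ℝ) : ℂ) *
        ee (df (c.τ k) (Ft.Gt c.T c.j.succ (c.F a)) (pt c.U c.x w (ex c.U _ c.x (q.1 1))) -
          df (c.τ k) (Ft.Gt c.T c.j.succ (c.F a)) (pt c.U c.x w (ex c.U _ c.x (q.1 0)))))
      (((c.sys k a b R V x).c2 (· ∘ c.σ)).g (· ∘ c.τ k) w) := by
  refine (congrArg (HasSum · _) (funext fun q => ?_)).mp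
    (((c.eY9 k univ univ).trans (cb' o.sw2)).hasSum_iff.2 (p.hs_g (· ∘ c.τ k) (· ∘ c.σ) w))
  refine congrArg₂ (· * ·) (congrArg _ ((wt_cb9 l o a b R V x w
    (c.eY9 k univ univ q)).trans (prod_oY9 V x w q.1 q.2))) ?_
  have f := fun b1 b2 => congrArg ee (congrArg₂ (· - ·)
    (fp o a w (c.eY9 k univ univ q) b1 b2 1) (fp o a w (c.eY9 k univ univ q) b1 b2 0))
  refine (congrArg₂ (fun u v : ℂ => u * conj v)
    (congrArg₂ (fun u v : ℂ => u * conj v) (f false false) (f false true))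
    (congrArg₂ (fun u v : ℂ => u * conj v) (f true false) (f true true))).trans ?_
  have v : ∀ i : Fin 2, vY9 (c.eY9 k univ univ q) i = ex c.U _ c.x (q.1 i) := fun i => dif_pos i.2
  rw [Fi0.ee_cj, Fi0.ee_cj, Fi0.ee_cj, df_eq, df_eq, ← v 0, ← v 1]
  exact congrArg ee (by ring)

theorem dgex9 (s d : ℕ) (l : LOC s d) : GEX s d := fun c ε h κ k a b R V x o p hV => by
  have hδ : ∀ F, 0 ≤ c.δ F := fun F => (o.δ.1 F).le
  obtain ⟨B, -, hB⟩ := hs_bd Pd.dc_DD hδ (V := c.Vk9 k univ univ V) fun _ => hV _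
  refine ⟨fun w n => hs s c.P _ c.δ (c.Vk9 k univ univ V) (c.xk9 k univ univ x)
    (c.bg k w (c.vs _ n)) fun _ => 1, B, fun w n => ⟨hs_nonneg hδ _ _ _, hB _ _⟩, fun w => ?_,
    fun r _ => ⟨c.Vc k r 2 _ _ _ (c.Vk9 k univ univ V), c.xc k r 2 _ _ _ (c.xk9 k univ univ x),
      fun _ => ⟨_, rfl⟩, fun w => (tm_two hδ _ _ r w).symm⟩⟩
  have := G9.ker l o p w
  rw [← this.tsum_eq, this.summable.tsum_prod]
  refine tsum_congr fun n => ?_
  simp only [hs, mul_one, ← tsum_mul_left, Complex.ofReal_tsum, ← tsum_mul_right]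

end Crest.Agent.N49.He

end
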