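import Crest.Agent.N49.Sd.Stc
import Crest.Agent.N49.Tn.Mul
import Crest.Agent.N49.Ir.Ty
import Crest.Agent.N49.Rf.Ext

/-!
# Row 49 (helper31): partition functions of kept words with hidden words (FROZEN statements)
-/

set_option autoImplicit false

open Matrix MvPolynomial Finset

noncomputable section

namespace Crest.Agent.N49.He

open Po Tw Sd

/-- a subsystem is an exact mixture of offset laws -/
def EXK : Prop := ∀ (σ V : Type) [Fintype V] [DecidableEq V] (X : TS σ) (w : X.C → ℝ)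
  (e : V → X.C) (Φ : (V → ℝ) → V → ℝ) (g : (V → ℤ) → ℝ), X.Tri → (∀ c, w c ≠ 0) →
  X.K⁻¹ = diagonal (fun c => w c ^ 2) → Function.Injective e →
  (∀ y v, Φ (y ∘ e) v = w (e v) * X.u y (e v)) → Φ 0 = 0 → Bb g →
  ∃ x, |(Ir.lp Φ).det| * ∑' b, Ir.wt Φ b * g b ≤ (X.off x).N fun y => g (y ∘ e)

/-- lifting of the hidden words along a morphism that is split on them -/
def LFX : Prop := ∀ (τ τ' X : Type) [Countable X] (T : TS Unit) (S : Sh Unit τ) (R : Sh Unit τ')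
  (p : S.W → Prop) (q : R.W → Prop) [DecidablePred p] [DecidablePred q] (st : T.C → ℕ) (M : ℕ)
  (φ : Matrix R.W S.W ℤ) (σ : {w // ¬ q w} → S.W) (V : Matrix {w // ¬ q w} {w // ¬ q w} ℤ)
  (Ψ : T.Twd S) (Ψ' : T.Twd R) (o : T.Cw R → ℝ) (ω : X → ℝ) (b : X → T.Cw S → ℤ)
  (G : X → (T.Cw R → ℤ) → ℝ) (B : ℝ), S.Ok → R.Ok → S.Hm0 R φ →
  (∀ w' w, φ w' w ≠ 0 → (q w' ↔ p w)) → (∀ h, ¬ p (σ h) ∧ S.dg (σ h) = R.dg h.1) →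
  V * (of fun h h' => φ h.1 (σ h')) = 1 → (∀ h h', V h h' ≠ 0 → R.dg h.1 = R.dg h'.1) →
  T.Stg st M → T.Adm S st Ψ → T.Adm R st Ψ' →
  (∀ y (c : T.Cw R), ¬ q c.1.2 → (T.tw R Ψ').u y c = (T.tw R (T.tp S R φ Ψ)).u y c - o c) →
  (∀ u : Kc T S (fun w => ¬ p w) → ℝ, 2 * qf (fb T R (fun w => ¬ q w) st Ψ' 0).K⁻¹
    (fun c => (T.hmM S R (rl φ) *ᵥ gl T S (fun w => ¬ p w) u 0) c.1) ≤
      qf (fb T S (fun w => ¬ p w) st Ψ 0).K⁻¹ u) → Summable ω → (∀ a y, |G a y| ≤ B) →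
  ∃ x : T.Cw S → ℝ, (∀ c, p c.1.2 → x c = 0) ∧
    ∑' a, ω a * hid T R q st Ψ' (T.hm S R φ (b a)) (G a) ≤
      ∑' a, ω a * hid T S p st (Ho.ot Ψ x) (b a) fun y => G a (T.hm S R φ y)

/-- the hypotheses of the insertion, with a regular cover -/
structure Cv {τ : Type} {T1 T2 : TS Unit} (S : Sh Unit τ) (p : S.W → Prop) [DecidablePred p]
    (st1 : T1.C → ℕ) (st2 : T2.C → ℕ) (D : Tan T1 T2 S.W) (Ψ1 : T1.Twd S)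
    (K2 : Matrix S.W S.W ℝ) (η : ℝ) : Prop where
  ok : S.Ok
  o2 : (S.setK K2).Ok
  idl : S.Idl p
  s1 : ∃ M, T1.Stg st1 M
  dok : D.Ok S.dg st1 st2 0
  adq : D.Adq st1 st2
  rid : D.Rid S
  adm : T1.Adm S st1 Ψ1
  tp : ∀ y (c : T1.Cw S), p c.1.2 → (T1.tw S Ψ1).u y c = (T1.tw S (tpw T1 S)).u y c
  cv : ∃ (K' : Matrix S.W S.W ℝ) (M : ℕ), T2.Stg st2 M ∧ (S.setK K').Ok ∧
    (∀ Ψ, T2.Adm (S.setK K') st2 Ψ → (T2.lw (S.setK K') st2 Ψ).Mas η) ∧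
    ∀ u : T2.Cw S → ℝ, 2 * (qf (fb T2 (S.setK K2) p st2 (tpw T2 _) 0).K⁻¹ (fun c => u c.1) +
      qf (fb T1 S (fun w => ¬ p w) st1 Ψ1 0).K⁻¹ fun c => D.L S u c.1) ≤
        qf (T2.kw S T2.K K')⁻¹ u

/-- all the hidden words over an offset law -/
def JZC : Prop := ∀ (τ : Type) (T1 T2 : TS Unit) (S : Sh Unit τ) (p : S.W → Prop) [DecidablePred p]
  (st1 : T1.C → ℕ) (st2 : T2.C → ℕ) (D : Tan T1 T2 S.W) (Ψ1 : T1.Twd S) (K2 : Matrix S.W S.W ℝ)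
  (η : ℝ) (x : Kc T2 S p → ℝ), Cv S p st1 st2 D Ψ1 K2 η →
  |((fb T2 (S.setK K2) p st2 (tpw T2 _) 0).off x).N
    (fun b => hid T1 S p st1 Ψ1 (D.kap S (gl T2 S p b 0)) fun _ => 1) - 1| ≤ η

/-- **the partition function of kept words `V` with the hidden words of the ring `R`** -/
def JZ : Prop := ∀ (τ τ' V : Type) [Fintype V] [DecidableEq V] (T1 T2 : TS Unit) (S : Sh Unit τ)
  (R : Sh Unit τ') (p : S.W → Prop) (q : R.W → Prop) [DecidablePred p] [DecidablePred q]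
  (st1 : T1.C → ℕ) (st2 : T2.C → ℕ) (D : Tan T1 T2 S.W) (Ψ1 : T1.Twd S) (K2 : Matrix S.W S.W ℝ)
  (η : ℝ) (φ : Matrix R.W S.W ℤ) (σ : {w // ¬ q w} → S.W)
  (N : Matrix {w // ¬ q w} {w // ¬ q w} ℤ) (Ψ' : T1.Twd R) (o : T1.Cw R → ℝ) (w : Kc T2 S p → ℝ)
  (e : V → Kc T2 S p) (Φ : (V → ℝ) → V → ℝ) (bg : (V → ℤ) → T1.Cw R → ℤ),
  Cv S p st1 st2 D Ψ1 K2 η → R.Ok → S.Hm0 R φ → (∀ w' w, φ w' w ≠ 0 → (q w' ↔ p w)) →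
  (∀ h, ¬ p (σ h) ∧ S.dg (σ h) = R.dg h.1) → N * (of fun h h' => φ h.1 (σ h')) = 1 →
  (∀ h h', N h h' ≠ 0 → R.dg h.1 = R.dg h'.1) → T1.Adm R st1 Ψ' →
  (∀ y (c : T1.Cw R), ¬ q c.1.2 → (T1.tw R Ψ').u y c = (T1.tw R (T1.tp S R φ Ψ1)).u y c - o c) →
  (∀ u : Kc T1 S (fun w => ¬ p w) → ℝ, 2 * qf (fb T1 R (fun w => ¬ q w) st1 Ψ' 0).K⁻¹
    (fun c => (T1.hmM S R (rl φ) *ᵥ gl T1 S (fun w => ¬ p w) u 0) c.1) ≤
      qf (fb T1 S (fun w => ¬ p w) st1 Ψ1 0).K⁻¹ u) → (∀ c, w c ≠ 0) →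
  (fb T2 (S.setK K2) p st2 (tpw T2 _) 0).K⁻¹ = diagonal (fun c => w c ^ 2) → Function.Injective e →
  (∀ y v, Φ (y ∘ e) v = w (e v) * (fb T2 (S.setK K2) p st2 (tpw T2 _) 0).u y (e v)) → Φ 0 = 0 →
  (∀ (y : Kc T2 S p → ℤ) (c : T1.Cw R), q c.1.2 →
    bg (y ∘ e) c = T1.hm S R φ (D.kap S (gl T2 S p y 0)) c) →
  |(|(Ir.lp Φ).det| * ∑' b, Ir.wt Φ b * hid T1 R q st1 Ψ' (bg b) fun _ => 1) - 1| ≤ η

end Crest.Agent.N49.He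

end
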