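import Crest.Agent.N49.He.Db
import Crest.Agent.N49.He.Jz
import Crest.Agent.N49.Sd.Eb
import Crest.Agent.N49.Md.Xq

/-!
# Row 49 (helper6): the cover of the systems of the rectangle hypothesis (FROZEN statements)
-/

set_option autoImplicit false
set_option linter.unusedSectionVars false

open Finset Matrix

noncomputable section

namespace Crest.Agent.N49.He

open Po Tw Br Rm Rm.TT Ft Md Sd

namespace Ji

section ring
variable (Λ : Type) [Fintype Λ] [DecidableEq Λ] (s : ℕ)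
/-- the free ring -/
abbrev CS (ε : Λ → ℤ) (κ : (Λ →₀ ℕ) → ℝ) : Sh Unit Λ := Sh.mono (fun _ => ()) (full Λ s) ε (dk κ)
variable {Λ} {ι : Type} [Fintype ι] [LinearOrder ι]
/-- the value of a monomial on a transversal -/
def pv (b : Λ → ι) (α : Λ → ℕ → ℤ) (t : Pt ι) (μ : Λ →₀ ℕ) : ℤ :=
  μ.prod fun a n => ((t (b a)).elim 0 (α a)) ^ n
/-- the morphism `a ↦ ∑ α a n • (clone n of the block b a)` -/
def ph (D : Finset (Pt ι)) (b : Λ → ι) (α : Λ → ℕ → ℤ) :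
    Matrix (Br.Wd s D) (Sh.MW (full Λ s)) ℤ := Matrix.of fun w μ =>
  if μ.1.degree = w.lv ∧ Fill (μ.1.support.image b) (bl w.tr) then pv b α w.tr μ.1 else 0
variable {s}
/-- the kept monomials -/
def kp {d : ℕ} (b : Λ → Fin (d + 2)) (μ : Sh.MW (full Λ s)) : Prop :=
  (∀ a ∈ μ.1.support, b a ≠ 0 ∧ μ.1 a = 1) ∧ ∀ a ∈ μ.1.support, ∀ a' ∈ μ.1.support,
    b a = b a' → a = a'
instance {d : ℕ} (b : Λ → Fin (d + 2)) : DecidablePred (kp (s := s) b) := fun _ => by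
  unfold kp; infer_instance
/-- a letter as a word -/
def wd1 (hs : 0 < s) (a : Λ) : Sh.MW (full Λ s) :=
  ⟨Finsupp.single a 1, mem_erase.2 ⟨by simp, mem_full.2 (by simpa using Nat.succ_le_of_lt hs)⟩⟩
end ring

/-- the letters: old letters, directions in the fat block, marked directions, locations -/
abbrev La (d Q r r' : ℕ) : Type := Lx d Q ⊕ (Fin 4 × Fin Q) ⊕ Fin r' ⊕ Fin r

section letters
variable {d Q r r' : ℕ} (j : Fin d)
/-- their blocks -/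
def lb : La d Q r r' → Fin (d + 2)
  | .inl a => (bk a).succ
  | .inr (.inl _) => j.succ.succ
  | .inr (.inr (.inl _)) => 1
  | .inr (.inr (.inr _)) => 0
/-- their masses -/
def ms : La d Q r r' → ℤ
  | .inr (.inr (.inr _)) => 1
  | _ => 0
/-- their images -/
def al (k : ℕ) : La d Q r r' → ℕ → ℤ
  | .inl none, _ => 0
  | .inl (some t), n => if (if t.1 = j then n % (Q + 1) else n) = t.2 then 1 else 0
  | .inr (.inl t), n =>
    if t.1 = 0 then (if n % (Q + 1) = t.2 ∧ (t.2.1 ≠ k ∨ cb Q n = false) then 1 else 0)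
    else if t.1 = 1 then (if n % (Q + 1) = t.2 ∧ t.2.1 = k ∧ cb Q n = true then 1 else 0)
    else if t.1 = (bif cb Q n then 3 else 2) then
      (if t.2.1 = k then (if n % (Q + 1) = k then 0 else -1)
        else if n % (Q + 1) = t.2 then 1 else 0) else 0
  | .inr (.inr (.inl i)), n => if n = i then 1 else 0
  | .inr (.inr (.inr o)), n => if n = o then 1 else 0
/-- the sections -/
def p0 (ox : Option (Fin r')) (oj : Option (Fin 4)) : Lx d Q → La d Q r r'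
  | none => ox.elim (.inl none) fun i => .inr (.inr (.inl i))
  | some t => if t.1 = j then oj.elim (.inl (some t)) fun l => .inr (.inl (l, t.2))
      else .inl (some t)
/-- the old letter below a letter -/
def q0 : La d Q r r' → Lx d Q
  | .inl a => a
  | .inr (.inl t) => some (j, t.2)
  | _ => none
theorem q0_p0 (ox : Option (Fin r')) (oj : Option (Fin 4)) (a : Lx d Q) :
    q0 j (p0 (r := r) j ox oj a) = a := by
  rcases a with _ | ⟨i, e⟩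
  · cases ox <;> rfl
  · by_cases h : i = j
    · subst h; cases oj <;> simp [p0, q0]
    · simp [p0, q0, h]
/-- the sections as embeddings -/
def pe (r : ℕ) (ox : Option (Fin r')) (oj : Option (Fin 4)) : Lx d Q ↪ La d Q r r' :=
  ⟨p0 j ox oj, Function.LeftInverse.injective (q0_p0 j ox oj)⟩
end letters

end Ji

open Ji

namespace Hc
variable {s d : ℕ} (c : Hc s d)

/-- the word of `T` below a word of the rectangle, and its direction -/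
def b0 : c.CU → c.C := Sum.elim id fun w => w.1.1
def dr : c.CU → Option (Fin 4) := Sum.elim (fun _ => none) fun w => some w.2
theorem lv_b0 (u : Gd.Lv c.U) : (c.T.ty (c.b0 u.1)).Nonempty := by
  obtain ⟨u | u, h⟩ := u
  · exact image_nonempty.1 h
  · exact ⟨_, u.1.2⟩
/-- the words of a direction are live -/
def xl {S : Finset c.L} (y : c.XW S) : Gd.Lv c.U := ⟨y.1, by
  have := y.2
  by_contra e
  rw [not_nonempty_iff_eq_empty] at e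
  simp [TT.dls, e] at this⟩

variable (S : Finset c.L) (r r' : ℕ)
/-- the kept coordinates -/
abbrev KV : Type := Gd.Lv c.U ⊕ Fin r' × c.XW S
instance : DecidableEq (c.KV S r') := Classical.decEq _
variable {S r'}
def vu : c.KV S r' → Gd.Lv c.U := Sum.elim id fun y => c.xl y.2
def vo : c.KV S r' → Option (Fin r') := Sum.elim (fun _ => none) fun y => some y.1
/-- their symbol words -/
def sw (v : c.KV S r') : c.f.X := c.e ⟨c.b0 (c.vu v).1, c.lv_b0 _⟩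
/-- their monomials -/
def mo (v : c.KV S r') : La d c.o.Q r r' →₀ ℕ :=
  Sy.ind ((c.sw v).1.2.map (pe c.j r (c.vo v) (c.dr (c.vu v).1)))
/-- the configuration of the rectangle -/
def wb {R : Type} [Zero R] (z : c.KV S r' → R) (u : c.CU) : R :=
  if h : (c.U.ty u).Nonempty then z (.inl ⟨u, h⟩) else 0
/-- the directions -/
def nb {R : Type} (z : c.KV S r' → R) (i : Fin r') (y : c.XW S) : R := z (.inr (i, y))
/-- the errors -/
def Ph (z : c.KV S r' → ℝ) : c.KV S r' → ℝ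
  | .inl u => c.U.Φ (Sum.elim (c.wb z) fun _ => 1) u.1
  | .inr y => c.U.Φ (c.U.jr c.x (Sum.elim (c.wb z) fun _ => 1) (fun u =>
      if h : c.x ∈ (c.U.dls S).ty u.1 then z (.inr (y.1, ⟨u.1, h⟩)) else 0) 0) y.2.1
variable (S r') in
/-- the normalised sum over the kept coordinates -/
def ZV (g : (c.KV S r' → ℤ) → ℝ) : ℝ :=
  (∏ v : c.KV S r', c.lu (c.vu v).1) * ∑' z, Ir.wt c.Ph z * g z

/-- the inverse widths of the letters -/
def wl : La d c.o.Q r r' → ℝ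
  | .inl a => c.f.la (bk a)
  | .inr (.inl t) => 2 ^ (![c.a1, c.a1, c.a2, c.a2] t.1) * c.f.la c.j.succ
  | .inr (.inr (.inl _)) => c.f.la 0
  | .inr (.inr (.inr _)) => 1
/-- the variances of the kept words -/
def k2 (μ : La d c.o.Q r r' →₀ ℕ) : ℝ := ((∏ a ∈ μ.support, c.wl r a) ^ 2)⁻¹
/-- the fine tower -/
abbrev T2 : TS Unit := c.f.T.scl c.f.θ.xs
variable (r') in
/-- the cover -/
abbrev SS (κ : ℝ) : Sh Unit (La d c.o.Q r r') := CS (La d c.o.Q r r') s ms fun _ => κ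
/-- the law of the kept words of the cover -/
abbrev FB (κ : ℝ) : TS Unit := Sd.fb c.T2 ((c.SS r r' κ).setK (CS _ s ms (c.k2 r)).K) (kp (lb c.j))
  c.f.st (tpw c.T2 _) 0
/-- `e` names the kept coordinates -/
def Ev {κ : ℝ} (e : c.KV S r' → Kc c.T2 (c.SS r r' κ) (kp (lb c.j))) : Prop :=
  ∀ v, (e v).1.1.1 = (c.sw v).1.1 ∧ (e v).1.1.2.1 = c.mo r v
end Hc

namespace Ji

/-- leaf: the morphism -/
def PHZ : Prop := ∀ (d s : ℕ) (Λ : Type) [Fintype Λ] [DecidableEq Λ] (D : Finset (Pt (Fin (d + 2))))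
  (V : ℕ → Pt (Fin (d + 2)) → ℝ) (b : Λ → Fin (d + 2)) (α : Λ → ℕ → ℤ) (ε : Λ → ℤ)
  (κ : (Λ →₀ ℕ) → ℝ), Dc D → (CS Λ s ε κ).Hm0 (Br.tw s D V) (ph s D b α) ∧
    (∀ w μ, ph s D b α w μ ≠ 0 → (kw w ↔ kp b μ)) ∧
    ((∀ a n, |α a n| ≤ 1) → ∀ w μ, |ph s D b α w μ| ≤ 1)

/-- leaf: the mass, the section on the hidden words -/
def SGN : Prop := ∀ (s d Q r r' : ℕ) (j : Fin d) (k : Fin Q) (a : ℕ → ℕ → Bool) (Γ Δ : Finset Bool)
  (V : ℕ → Pt (Fin (d + 2)) → ℝ) (κ : (La d Q r r' →₀ ℕ) → ℝ), Dc (DD Q j k r r' a Γ Δ) ∧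
  (∀ (x : La d Q r r') n, |al j k x n| ≤ 1) ∧
  ph s (DD Q j k r r' a Γ Δ) (lb j) (al j k) *ᵥ (CS (La d Q r r') s ms κ).ε =
    (Br.tw s (DD Q j k r r' a Γ Δ) V).ε ∧
  ∀ [Fintype {w : (Br.tw s (DD Q j k r r' a Γ Δ) V).W // ¬ kw w}]
    [DecidableEq {w : (Br.tw s (DD Q j k r r' a Γ Δ) V).W // ¬ kw w}],
  ∃ (σ : {w : (Br.tw s (DD Q j k r r' a Γ Δ) V).W // ¬ kw w} → Sh.MW (full (La d Q r r') s))
    (N : Matrix {w : (Br.tw s (DD Q j k r r' a Γ Δ) V).W // ¬ kw w}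
      {w : (Br.tw s (DD Q j k r r' a Γ Δ) V).W // ¬ kw w} ℤ),
    (∀ h, ¬ kp (lb j) (σ h) ∧ (σ h).1.degree = Br.Wd.lv h.1) ∧
    N * (of fun h h' => ph s _ (lb j) (al j k) h.1 (σ h')) = 1 ∧
    ∀ h h', N h h' ≠ 0 → Br.Wd.lv h.1 = Br.Wd.lv h'.1

/-- leaf: the norm of the morphism on the hidden words -/
def FNH : Prop := ∀ (τ τ' : Type) (T : TS Unit) (S : Sh Unit τ) (R : Sh Unit τ') (p : S.W → Prop)
  (q : R.W → Prop) [DecidablePred p] [DecidablePred q] (st : T.C → ℕ) (φ : Matrix R.W S.W ℤ)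
  (Ψ : T.Twd S) (Ψ' : T.Twd R) (V : R.W → ℝ) (κ a : ℝ), T.K = 1 → S.K = diagonal (fun _ => κ) →
  R.K = diagonal V → (∀ w, a ≤ V w) → 0 < κ → 0 < a → (∀ w μ, |φ w μ| ≤ 1) →
  2 * κ * Fintype.card S.W * Fintype.card R.W ≤ a → ∀ u : Kc T S (fun w => ¬ p w) → ℝ,
    2 * qf (Sd.fb T R (fun w => ¬ q w) st Ψ' 0).K⁻¹
      (fun c => (T.hmM S R (rl φ) *ᵥ Sd.gl T S (fun w => ¬ p w) u 0) c.1) ≤
        qf (Sd.fb T S (fun w => ¬ p w) st Ψ 0).K⁻¹ u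

/-- leaf: the free ring is a regular cover -/
def CVF : Prop := ∀ (d s : ℕ) (hs : 0 < s) (Λ Lt : Type) [Fintype Λ] [DecidableEq Λ]
  (b : Λ → Fin (d + 2)) (ε : Λ → ℤ) (lt : Lt → Λ) (T1 T2 : TS Unit) (st1 : T1.C → ℕ)
  (st2 : T2.C → ℕ) (M1 M2 C n : ℕ) (D : Sd.Tan T1 T2 Lt) (X κ κ' a η : ℝ) (k2 : (Λ →₀ ℕ) → ℝ),
  (∀ x, ε x ≠ 0 → b x = 0) → T1.Stg st1 M1 → T2.Stg st2 M2 → D.Ok (fun _ => 1) st1 st2 0 →
  D.Adq st1 st2 → D.Id → D.Nb X → MAST M2 C → T2.RgS st2 M2 C n κ' η → 0 < η → η ≤ 1 →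
  (Fintype.card Λ + 1) ^ s ≤ n → 0 < κ' → a ≤ κ → (∀ μ ∈ full Λ s, a ≤ k2 μ) →
  2 * κ' * (1 + X ^ 2 * ((Fintype.card Λ + 1) ^ s) ^ 2 * Fintype.card T2.C) ≤ a →
  Cv (CS Λ s ε fun _ => κ) (kp b) st1 st2 (D.rn fun t => wd1 hs (lt t)) (T1.tw0 _)
    (CS Λ s ε k2).K η

/-- leaf: the kept coordinates are a subsystem of the cover -/
def EMV : Prop := ∀ (s d : ℕ) (c : Hc s d) (ε κ : ℝ) (h m r r' : ℕ) (S : Finset c.L), c.Ok ε h m →
  ∃ (e : c.KV S r' → Kc c.T2 (c.SS r r' κ) (kp (lb c.j))) (w : Kc c.T2 (c.SS r r' κ) (kp (lb c.j)) → ℝ),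
    c.Ev r e ∧ Function.Injective e ∧ (∀ x, w x ≠ 0) ∧
    (c.FB r κ).K⁻¹ = diagonal (fun x => w x ^ 2) ∧
    (∀ y v, c.Ph (y ∘ e) v = w (e v) * (c.FB r κ).u y (e v)) ∧ c.Ph (S := S) (r' := r') 0 = 0

/-- leaf: the normaliser of the kept coordinates -/
def DETV : Prop := ∀ (s d : ℕ) (c : Hc s d) (ε : ℝ) (h m r' : ℕ) (S : Finset c.L), c.Ok ε h m →
  |(Ir.lp (c.Ph (S := S) (r' := r'))).det| = ∏ v : c.KV S r', c.lu (c.vu v).1

/-- leaf: the background is the image of the configuration of the cover -/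
def BGV : Prop := ∀ (s d : ℕ) (hs : 0 < s) (c : Hc s d) (ε κ : ℝ) (h m r r' : ℕ) (k : Fin c.o.Q)
  (a : ℕ → ℕ → Bool) (Γ Δ : Finset Bool) (V : ℕ → Pt (Fin (d + 2)) → ℝ)
  (D : Sd.Tan c.P c.T2 (Fin d × Fin c.o.Q))
  (e : c.KV (c.Sx k Γ Δ) r' → Kc c.T2 (c.SS r r' κ) (kp (lb c.j))), c.Ok ε h m →
  Xr id c.f.θ 1 D.fam D.mon D.be → c.Ev r e →
  ∀ (y : Kc c.T2 (c.SS r r' κ) (kp (lb c.j)) → ℤ)
    (x : c.P.Cw (Br.tw s (DD c.o.Q c.j k r r' a Γ Δ) V)), kw x.1.2 →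
    c.bg k (c.wb (y ∘ e)) (c.vs _ (c.nb (y ∘ e))) x =
      c.P.hm (c.SS r r' κ) (Br.tw s (DD c.o.Q c.j k r r' a Γ Δ) V) (ph s _ (lb c.j) (al c.j k))
        ((D.rn fun t => wd1 hs (.inl (some t))).kap (c.SS r r' κ) (Sd.gl c.T2 _ (kp (lb c.j)) y 0)) x

/-- leaf: the dead words do not matter for the background -/
def BGD : Prop := ∀ (s d : ℕ) (c : Hc s d) (ε : ℝ) (h m k : ℕ) (D : Finset (Pt (Fin (d + 2))))
  (w w' : c.CU → ℤ) (v : ℕ → c.CU → ℤ), c.Ok ε h m → (∀ u, (c.U.ty u).Nonempty → w u = w' u) →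
  c.bg (D := D) k w v = c.bg k w' v

/-- leaf: expectations as sums over the kept coordinates -/
def SUMV : Prop := ∀ (s d : ℕ) (c : Hc s d) (ε B : ℝ) (h m r' : ℕ) (S : Finset c.L)
  (g : (c.CU → ℤ) → (Fin r' → c.XW S → ℤ) → ℝ), c.Ok ε h m → (∀ w n, 0 ≤ g w n ∧ g w n ≤ B) →
  (∀ w w' n, (∀ u, (c.U.ty u).Nonempty → w u = w' u) → g w n = g w' n) →
  c.U.Ex (fun w => ∑' n : Fin r' → c.XW S → ℤ, (∏ i, c.mu S w (n i)) * g w n) *
    c.ZV S 0 (fun _ => 1) = c.ZV S r' fun z => g (c.wb z) (c.nb z)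

/-- leaf: the empty tower -/
def EMP : Prop := ∀ (s d : ℕ) (c : Hc s d) (ε : ℝ) (h m r r' : ℕ) (k : Fin c.o.Q)
  (a : ℕ → ℕ → Bool) (Γ Δ : Finset Bool) (V : Br.Wd s (DD c.o.Q c.j k r r' a Γ Δ) → ℝ)
  (x : c.P.Cw (SD s (DD c.o.Q c.j k r r' a Γ Δ)) → ℝ), c.Ok ε h m → IsEmpty c.P.C →
  c.U.Ex (c.tm k r r' a Γ Δ V x) = 1

/-- the size of the cover -/
def NB (s d m : ℕ) : ℕ :=
  (4 * s + 6) * m + 4 * ((d * m + 6 * m + 2) ^ s + s * (4 * m + 3) ^ (d + 2)) + 3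

end Ji

/-- **the total masses are one** -/
def JZT : Prop := ∀ (s d : ℕ) (c : Hc s d) (ε : ℝ) (h κ m r r' C N : ℕ) (k : Fin c.o.Q)
  (a : ℕ → ℕ → Bool) (Γ Δ : Finset Bool) (V : Br.Wd s (DD c.o.Q c.j k r r' a Γ Δ) → ℝ)
  (x : c.P.Cw (SD s (DD c.o.Q c.j k r r' a Γ Δ)) → ℝ), c.Ok ε h κ → MAST c.f.M C →
  c.f.Rg C N (1 / 2 ^ N) (1 / 2 ^ N) → h ≤ m → c.a1 ≤ m → c.a2 ≤ m → c.o.Q ≤ m → r ≤ m → r' ≤ m →
  Fintype.card c.f.T.C ≤ 2 ^ m → (∀ w, 1 / 2 ^ m ≤ V w) → Ji.NB s d m ≤ N →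
  |c.U.Ex (c.tm k r r' a Γ Δ V x) - 1| ≤ 4 / 2 ^ N

end Crest.Agent.N49.He

end
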