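import Crest.Agent.N49.He.Dc
import Crest.Agent.N49.He.Ji
import Crest.Agent.N49.Md.Tpc
import Crest.Agent.N49.Top.Pl
import Crest.Agent.N49.Tw.Fin

/-!
# Row 49 (helper10): the masses are close to one, numerics
-/

set_option autoImplicit false

open Finset

noncomputable section

namespace Crest.Agent.N49.He

open Po Tw Br Rm Md Sd N49.Top

theorem djzi (hz : JZT) (s d : ℕ) : JZI s d := by
  intro M
  choose Cm hm using mastA
  obtain ⟨a, ha⟩ : Pl fun y => Ji.NB s d (3 * y) + y + 2 := by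
    have p : Pl fun y => 3 * y := (Pl.const 3).mul Pl.id
    exact (((((Pl.const _).mul p).add ((Pl.const 4).mul ((((((Pl.const d).mul p).add
      ((Pl.const 6).mul p)).add (Pl.const 2)).pow s).add ((Pl.const s).mul
        ((((Pl.const 4).mul p).add (Pl.const 3)).pow (d + 2)))))).add (Pl.const 3)).add
          Pl.id).add (Pl.const 2)
  obtain ⟨K, hK⟩ : Pl fun y => (y ^ a + 1) ^ ((range (M + 1)).sup Cm + 1) :=
    ((Pl.id.pow a).add (Pl.const 1)).pow _
  refine ⟨K, fun c ε h κ y k r r' al Γ Δ V x o hM h2 hn hh h1 h3 hr hr' rg hV => ?_⟩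
  have a1 : Ji.NB s d (3 * y) + y + 2 ≤ y ^ a := ha y h2
  have k1 : (y ^ a + 1) ^ ((range (M + 1)).sup Cm + 1) ≤ y ^ K := hK y h2
  have cm : Cm c.f.M ≤ (range (M + 1)).sup Cm + 1 :=
    (le_sup (mem_range.2 (Nat.lt_succ_of_le hM))).trans (Nat.le_succ _)
  have q : c.o.Q ≤ 3 * y := by have := o.o.Qn; omega
  have cd : Fintype.card c.f.T.C ≤ 2 ^ (3 * y) := by
    have b := o.o.cx.ok.old
    have e := o.f.co.R 1 le_rfl
    have e2 := Idf.rc_succ c.o.cx.B.T s 1
    rw [Idf.rc_one o.f.old.ok.toTri o.f.old.lev, Idf.rc_one b.ok.toTri b.lev] at e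
    rw [Idf.rc_one b.ok.toTri b.lev] at e2
    have e3 : Fintype.card c.o.cx.B.T.C ≤ 2 ^ y :=
      o.o.cx.C.trans (Nat.pow_le_pow_right two_pos hn)
    have e4 : y < 2 ^ y := Nat.lt_two_pow_self
    have e5 : 2 ^ (3 * y) = 2 ^ y * 2 ^ y * 2 ^ y := by ring
    have e6 : h * (Rc c.o.cx.B.T s (1 + 1) + 1) ≤ y * (2 ^ y + 1) :=
      Nat.mul_le_mul hh (Nat.succ_le_succ (e2.trans e3))
    refine (e.trans (Nat.add_le_add e3 e6)).trans ?_
    rw [e5]
    generalize 2 ^ y = z at e4 ⊢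
    have : z * z * 2 ≤ z * z * z := Nat.mul_le_mul_left _ (by omega)
    nlinarith
  refine (hz s d c ε h κ (3 * y) r r' (Cm c.f.M) (y ^ a) k al Γ Δ V x o (hm _).1
    (rg_C o.f.old rg ((Nat.pow_le_pow_right (Nat.succ_pos _) cm).trans k1)
      ((Nat.le_succ _).trans ((Nat.le_self_pow (Nat.succ_ne_zero _) _).trans k1)))
    (by omega) (by omega) (by omega) q (by omega) (by omega) cd (fun w => le_trans
      (one_div_le_one_div_of_le (by positivity) (pow_le_pow_right₀ one_le_two (by omega))) (hV w))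
    (by omega)).trans ?_
  rw [div_le_div_iff₀ (by positivity) (by positivity), one_mul,
    show (4 : ℝ) * 2 ^ y = 2 ^ (y + 2) by ring]
  exact pow_le_pow_right₀ one_le_two (by omega)

end Crest.Agent.N49.He

end
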