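import Crest.Agent.N49.He.Dc
import Crest.Agent.N49.He.Dt
import Crest.Agent.N49.Sd.Ogc

/-!
# Row 49 (helper36): the leaves `LAM` and `DT`
-/

set_option autoImplicit false

noncomputable section

namespace Crest.Agent.N49.He

theorem dlam (s d : ℕ) : LAM s d := fun c _ _ _ o em mor hf tg hn => by
  obtain ⟨lam, l0, l1⟩ := ex_lam (B := c.f.toBs) hf.toOk em.toEm
  obtain ⟨δ, hδ⟩ := ex_dl (Sd.Oc.un_stg c.o.h.stg c.o.h.wh).cl.1
  exact ⟨lam, δ, o, em, mor, hf, tg, hn, l0, l1, hδ⟩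

theorem ddt (s d : ℕ) : DT s d := fun c _ _ _ _ w n k hx =>
  (Hc.mu_gd k hx w n).trans (by rw [Br.gd, sub_zero]; rfl)

end Crest.Agent.N49.He

end
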