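import Crest.Agent.N49.He.Lfh
import Crest.Agent.N49.He.Dc
import Crest.Agent.N49.Sd.Ogc

/-!
# Row 49 (helper49): `LFT`
-/

set_option autoImplicit false

open Finset Matrix

noncomputable section

namespace Crest.Agent.N49.He

open Po Tw Br Sd

theorem Lf.ex9 {d : ℕ} (Q : ℕ) (j : Fin d) : Ex (D0 Q j) (D1 Q j) j.succ.succ Q ∧
    ∀ w ∈ D1 Q j, w j.succ.succ ≠ some Q → w ∈ D0 Q j := by
  have n0 : j.succ.succ ≠ 0 := Fin.succ_ne_zero _
  have n1 : j.succ.succ ≠ 1 := fun e => Fin.succ_ne_zero j (Fin.succ_injective _ e)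
  have a : qq Q j 1 2 Q j.succ.succ = Q := by simp [qq, n0, n1]
  have b : qq Q j 1 2 (Q + 1) = Function.update (qq Q j 1 2 Q) j.succ.succ (Q + 1) :=
    funext fun i => by
      by_cases e : i = j.succ.succ
      · subst e; simp [qq, n0, n1]
      · simp [qq, e]
  have := ex_grid (qq Q j 1 2 Q) j.succ.succ
  rw [a, ← b] at this
  refine ⟨this, fun w h n => mem_grid.2 fun i x e => ?_⟩
  have k := mem_grid.1 h i x e
  rw [b] at k
  by_cases r : i = j.succ.succ
  · subst r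
    rw [Function.update_self] at k
    exact a.symm ▸ lt_of_le_of_ne (Nat.le_of_lt_succ k) fun z => n (z ▸ e)
  · rwa [Function.update_of_ne r] at k

theorem Lf.v0b {s d : ℕ} (c : Hc s d) {ε : ℝ} (o : c.o.Ok ε) {D : Finset (Pt (Fin (d + 2)))}
    (w : Br.Wd s D) : 1 / 2 ^ c.o.n ≤ c.V0 w := by
  have a := (o.v w.lv (bl w.tr)).1
  have p := o.cp
  unfold Hc.V0
  split_ifs
  · exact a.trans (le_div_self (le_trans (by positivity) a) (by linarith [p.1]) p.2)
  · rwa [div_one]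

theorem dlft (s d : ℕ) : LFT s d := by
  intro c ε0 X _ ω b b0 f m ε k σ o hδ sω hf hb he hN hm e0 k0 k1 n1 n2
  obtain ⟨h, hc⟩ := Lf.ex9 c.o.Q c.j
  have v0 : (0 : ℝ) < 1 / 2 ^ c.o.n := by positivity
  have p : (0 : ℝ) < 2 ^ c.o.n := by positivity
  obtain ⟨x, hx⟩ := Lf.lft0 (Oc.un_stg c.o.h.stg c.o.h.wh).cl.1 hδ h hc (Fin.succ_ne_zero _)
    (c.V1 ε 1) (fun w => mul_pos one_pos (by
      split_ifs
      exacts [e0, v0.trans_le (Lf.v0b c o w)])) (ε := ε) (η := σ) (m := m) v0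
    (fun w r => (Lf.v0b c o w).trans_eq ((one_mul _).trans (if_neg r)).symm)
    (fun w r => ((one_mul _).trans (if_pos r)).le) (Nat.one_le_cast.2 hm) (Nat.cast_le.2 hN) k0 k1
    (by rw [mul_one_div, le_div_iff₀ p]; linarith) (by rw [mul_one_div, le_div_iff₀ p]; linarith)
    sω b (fun _ => pf s c.P _ f c.Ω) (fun _ y => by
      rw [pf, abs_prod]; exact prod_le_one (fun _ _ => abs_nonneg _) fun _ _ => hf _) he
  refine ⟨x, le_of_eq_of_le (tsum_congr fun a => congrArg _ ((Lf.hs_kw (hb a) _).trans ?_))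
    (hx.trans_eq (congrArg₂ _ (tsum_congr fun a => congrArg _ (congrArg _ (funext fun y =>
      Lf.pf_phi h f (fun t ht => ⟨pts_grid ht, eq_univ_of_forall fun i => ?_⟩) y)))
      (congrArg _ (tsum_congr fun a => congrArg _ ?_))))⟩
  · exact congrArg (fun V => hs s c.P _ c.δ V 0 _ _) (funext fun w =>
      ((one_mul _).trans (if_neg (h.ng _ w.mem))).symm)
  · obtain ⟨z, -, e⟩ := mem_pts.1 ht i
    exact mem_bl.2 (e ▸ nofun)
  · exact congrArg (fun V => hs s c.P _ c.δ V x _ _) (funext fun w => congrArg _ (one_mul _))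

end Crest.Agent.N49.He

end
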