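import Crest.Agent.N49.He.Db
import Crest.Agent.N49.Ft.Fine
import Crest.Agent.N49.Md.Morf

/-!
# Row 49 (helper61): reading the symbol coordinates of the base
-/

set_option autoImplicit false
set_option linter.unusedSectionVars false
set_option maxHeartbeats 400000

open Finset Matrix

noncomputable section

namespace Crest.Agent.N49.He

open Po Tw Br Rm Rm.TT Ft Md Sd

namespace Rk
variable {τ L : Type} [Fintype τ] [DecidableEq τ] [Fintype L] [DecidableEq L]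

/-- the morphism of a frame reads only the subwords -/
theorem ka_loc (B : Bs L) (W : Finset (Finset τ)) (blk : τ → L) (f : Fr B.T τ L)
    {p p' : f.SC W ⊕ L → ℝ} (w : B.SC W)
    (h : ∀ v : f.SC W, v.1.2 ⊆ w.1.2 → p (.inl v) = p' (.inl v))
    (h' : ∀ a ∈ w.1.2, p (.inr (blk a)) = p' (.inr (blk a))) :
    ka B W blk f p (.inl w) = ka B W blk f p' (.inl w) := by
  rw [Uf.ka_inl, Uf.ka_inl, prod_congr rfl h']
  refine congrArg _ (sum_congr rfl fun G _ => sum_congr rfl fun A a => ?_)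
  rw [prod_congr rfl fun t b => h' t (mem_powerset.1 a b)]
  exact congrArg (fun z => _ * (_ * (_ * z))) (Sy.sy_congr' _ _ fun c A' b _ =>
    Sy.sx_ext fun _ => h _ (b.trans sdiff_subset))

theorem intP_p0 {C ρ : Type} {T : TT L C} {j : L} {q : T.CC j ρ ⊕ (L ⊕ ρ) → ℝ} (h : IntP q) :
    IntP (T.p0 j q) := by
  rintro (c | l)
  exacts [h _, h _]

theorem intP_px {C ρ : Type} {T : TT L C} {j : L} {q : T.CC j ρ ⊕ (L ⊕ ρ) → ℝ} (h : IntP q)
    (pt : ρ → Bool) (x : ρ) : IntP (T.px j pt x q) := by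
  rintro (c | l) <;> simp only [px] <;> split_ifs
  exacts [h _, h _, h _, ⟨0, by simp⟩, h _]

theorem intP_pos {C ρ : Type} [Fintype ρ] {T : TT L C} {j : L} {q : T.CC j ρ ⊕ (L ⊕ ρ) → ℝ}
    (h : IntP q) (pt : ρ → Bool) (α0 : ℤ) (α : ρ → ℤ) : IntP (T.pos j pt α0 α q) := fun v => by
  obtain ⟨a, e⟩ := intP_p0 h v
  choose b e' using fun x => intP_px h pt x v
  unfold pos
  split_ifs
  · exact ⟨α0 * a + ∑ x, α x * b x, by simp [e, e']⟩
  · exact ⟨a, e⟩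

theorem intP_pt {C : Type} [Fintype C] [DecidableEq C] (U : TT L C) (x : L) (w v : C → ℤ) :
    IntP (pt U x w v) := by
  rintro (c | l) <;> simp only [pt, jr] <;> split_ifs
  exacts [⟨_, rfl⟩, ⟨_, rfl⟩, ⟨0, by simp⟩, ⟨1, by simp [cf]⟩]

theorem intP_co {C' : Type} {Q : ℕ} {p : C' ⊕ LR L Q → ℝ} (h : IntP p) : IntP (co p) := by
  rintro (c | l)
  exacts [h _, h _]
end Rk

namespace Hc
variable {s d : ℕ} (c : Hc s d)

/-- the real symbol coordinate -/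
def rv (p : c.C ⊕ Lb d → ℝ) (F : c.P.C) (A : Finset (Lx d c.o.Q)) : ℝ :=
  Sy.sx c.o.cx.B.T _ (Wt d c.o.Q) (fun w => c.ι p (.inl w)) F A

theorem rd_eq (p : c.C ⊕ Lb d → ℝ) (F : c.P.C) (A : Finset (Lx d c.o.Q)) :
    c.rd p F A = round (c.rv p F A) := rfl

theorem rv_at (p : c.C ⊕ Lb d → ℝ) (w : c.o.cx.B.SC (Wt d c.o.Q)) :
    c.rv p w.1.1 w.1.2 = c.ι p (.inl w) := dif_pos w.2

theorem intP_pp (w : c.CU → ℤ) (v : ℕ → c.CU → ℤ) (t : Pt (Fin (d + 2))) : IntP (c.pp w v t) :=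
  Rk.intP_co (Rk.intP_pt _ _ _ _)

variable {c} {ε : ℝ} {h κ : ℕ} (k : c.Ok ε h κ)
include k

theorem Ok.rd_cast {p : c.C ⊕ Lb d → ℝ} (hp : IntP p) (F : c.P.C) (A : Finset (Lx d c.o.Q)) :
    (c.rd p F A : ℝ) = c.rv p F A := by
  obtain ⟨n, e⟩ : ∃ n : ℤ, c.rv p F A = n := by
    unfold rv Sy.sx
    split_ifs
    exacts [k.mor.int p hp _, ⟨0, by simp⟩]
  rw [rd_eq, e, round_intCast]

theorem Ok.rd_at {p : c.C ⊕ Lb d → ℝ} (hp : IntP p) (w : c.o.cx.B.SC (Wt d c.o.Q)) :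
    (c.rd p w.1.1 w.1.2 : ℝ) = c.ι p (.inl w) := (k.rd_cast hp _ _).trans (c.rv_at p w)

/-- the refinement is the morphism of the frame -/
theorem Ok.io_ka (p : c.C ⊕ Lb d → ℝ) (w : c.o.cx.B.SC (Wt d c.o.Q)) :
    c.ι p (.inl w) = ka c.o.cx.B (Wt d c.o.Q) bk c.f (Fi.fw c.e p) (.inl w) := by
  refine Eq.trans ?_ (congrFun (k.emb.ι 0 (Fi.fw c.e p)) (.inl w))
  refine (k.mor.dat w ((Sy.sc_ne k.o.cx.ok.old.ok.toTri w).image bk)).1 _ _ fun v _ hv => ?_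
  rcases v with v | v
  · have hv' : (c.T.ty v).Nonempty := hv
    exact ((dif_pos hv').trans (Fi.fw_e k.emb.inj p ⟨v, hv'⟩)).symm
  · rfl

/-- **locality at the level of the letters** -/
theorem Ok.rv_loc {p p' : c.C ⊕ Lb d → ℝ} (F : c.P.C) (A : Finset (Lx d c.o.Q))
    (h1 : ∀ w : Gd.Lv c.T, (c.e w).1.2 ⊆ A → p (.inl w.1) = p' (.inl w.1))
    (h2 : ∀ a ∈ A, p (.inr (bk a)) = p' (.inr (bk a))) : c.rv p F A = c.rv p' F A := by
  refine Sy.sx_ext fun m => (k.io_ka p _).trans (Eq.trans ?_ (k.io_ka p' _).symm)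
  refine Rk.ka_loc _ _ _ _ _ (fun v a => ?_) h2
  by_cases e : ∃ w, c.e w = v
  · obtain ⟨w, rfl⟩ := e
    exact (Fi.fw_e k.emb.inj p w).trans ((h1 w a).trans (Fi.fw_e k.emb.inj p' w).symm)
  · exact (show Fi.fw c.e p (.inl v) = 0 from dif_neg e).trans
      (show Fi.fw c.e p' (.inl v) = 0 from dif_neg e).symm

theorem Ok.rd_loc {p p' : c.C ⊕ Lb d → ℝ} (F : c.P.C) (A : Finset (Lx d c.o.Q))
    (h1 : ∀ w : Gd.Lv c.T, (c.e w).1.2 ⊆ A → p (.inl w.1) = p' (.inl w.1))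
    (h2 : ∀ a ∈ A, p (.inr (bk a)) = p' (.inr (bk a))) : c.rd p F A = c.rd p' F A :=
  congrArg round (k.rv_loc F A h1 h2)

theorem Ok.ty_e (w : Gd.Lv c.T) : c.T.ty w.1 = (c.e w).1.2.image bk := (k.emb.ty w).symm

/-- linearity in a block -/
theorem Ok.rv_pos {ρ : Type} [Fintype ρ] [DecidableEq ρ] (j : Lb d) (pt : ρ → Bool) (α0 : ℤ)
    (α : ρ → ℤ) (q : c.T.CC j ρ ⊕ (Lb d ⊕ ρ) → ℝ) (F : c.P.C) (A : Finset (Lx d c.o.Q)) :
    c.rv (c.T.pos j pt α0 α q) F A = if j ∈ A.image bk then α0 * c.rv (c.T.p0 j q) F A +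
      ∑ x, α x * c.rv (c.T.px j pt x q) F A else c.rv (c.T.p0 j q) F A := by
  by_cases m : c.o.cx.B.st F < c.o.cx.B.M + 1 ∧ A ∈ Wt d c.o.Q ∧ #A = c.o.cx.B.T.lev F
  · have e : ∀ p, c.rv p F A = c.ι p (.inl ⟨(F, A), m⟩) := fun p => c.rv_at p ⟨(F, A), m⟩
    simp only [e]
    rw [← k.mor.toLm.pos_clm, ← k.mor.toLm.p0_clm (pt := pt)]
    simp only [← k.mor.toLm.px_clm]
    rfl
  · have e : ∀ p, c.rv p F A = 0 := fun p => dif_neg m
    simp [e]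

theorem Ok.rd_pos {ρ : Type} [Fintype ρ] [DecidableEq ρ] (j : Lb d) (pt : ρ → Bool) (α0 : ℤ)
    (α : ρ → ℤ) {q : c.T.CC j ρ ⊕ (Lb d ⊕ ρ) → ℝ} (hq : IntP q) (F : c.P.C)
    (A : Finset (Lx d c.o.Q)) :
    c.rd (c.T.pos j pt α0 α q) F A = if j ∈ A.image bk then α0 * c.rd (c.T.p0 j q) F A +
      ∑ x, α x * c.rd (c.T.px j pt x q) F A else c.rd (c.T.p0 j q) F A := by
  refine Int.cast_injective (α := ℝ) ?_
  rw [k.rd_cast (Rk.intP_pos hq _ _ _), k.rv_pos]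
  split_ifs
  · push_cast
    simp only [k.rd_cast (Rk.intP_p0 hq), k.rd_cast (Rk.intP_px hq _ _)]
  · exact (k.rd_cast (Rk.intP_p0 hq) _ _).symm

/-- the first corner -/
theorem Ok.rd_cv0 {q : c.CU ⊕ (Lb d ⊕ Fin 4) → ℝ} (hq : IntP q) (F : c.P.C)
    (A : Finset (Lx d c.o.Q)) :
    c.rd (c.T.pos c.j.succ (fun _ => false) 1 (cv 0) q) F A = c.rd (c.T.p0 c.j.succ q) F A +
      if c.j.succ ∈ A.image bk then c.rd (c.T.px c.j.succ (fun _ => false) 0 q) F A +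
        c.rd (c.T.px c.j.succ (fun _ => false) 2 q) F A else 0 := by
  rw [k.rd_pos _ _ _ _ hq]
  split_ifs
  · simp [TT.cv, Fin.sum_univ_four]
  · rw [add_zero]

/-- words without the block are read at the base point -/
theorem Ok.rd_px_out {ρ : Type} (j : Lb d) (pt : ρ → Bool) (x : ρ)
    (q : c.T.CC j ρ ⊕ (Lb d ⊕ ρ) → ℝ) (F : c.P.C) {A : Finset (Lx d c.o.Q)} (m : j ∉ A.image bk) :
    c.rd (c.T.px j pt x q) F A = c.rd (c.T.p0 j q) F A := by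
  refine k.rd_loc F A (fun w a => dif_neg fun z => m ?_) fun a b => if_neg fun z => m ?_
  · exact image_subset_image a (k.ty_e w ▸ z)
  · exact z ▸ mem_image_of_mem _ b

/-- linearity in any block of the word -/
theorem Ok.rv_lin (F : c.P.C) {A : Finset (Lx d c.o.Q)} {l : Lb d} (m : l ∈ A.image bk) :
    c.T.Lin l fun p => c.rv p F A := by
  by_cases z : c.o.cx.B.st F < c.o.cx.B.M + 1 ∧ A ∈ Wt d c.o.Q ∧ #A = c.o.cx.B.T.lev F
  · have e : (fun p => c.rv p F A) = fun p => c.ι p (.inl ⟨(F, A), z⟩) :=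
      funext fun p => c.rv_at p ⟨(F, A), z⟩
    rw [e]
    exact (k.mor.dat ⟨(F, A), z⟩ ⟨l, m⟩).2 l m
  · have e : (fun p => c.rv p F A) = fun _ => 0 := funext fun p => dif_neg z
    rw [e]
    exact fun _ _ _ _ _ => by simp
end Hc

end Crest.Agent.N49.He

end
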