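import Crest.Agent.N49.He.Sk0
import Crest.Agent.N49.He.Rd
import Crest.Agent.N49.He.Loc
import Crest.Agent.N49.He.As0

/-!
# Row 49 (helper70): every factor of a system reads only its own class and the common class
-/

set_option autoImplicit false
set_option linter.unusedSectionVars false

open Finset Matrix

noncomputable section

namespace Crest.Agent.N49.He

open Po Tw Br Rm Rm.TT Ft Md Sd

namespace Hc
variable {s d : ℕ} {c : Hc s d} {ε : ℝ} {h κ : ℕ}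

theorem mem_lA' {t : Pt (Fin (d + 2))} {o : Option ℕ} {i : Fin c.o.Q}
    (m : some (c.j, i) ∈ lA c.o.Q c.j t o) : o = some i.val := by
  have := (mem_filter.1 m).2
  rwa [show (Br.gl (some (c.j, i) : Lx d c.o.Q)).1 = c.j.succ.succ from rfl,
    Function.update_self] at this

theorem Ok.r0_loc (o : c.Ok ε h κ) {q q' : c.CU ⊕ (Lb d ⊕ Fin 4) → ℝ}
    (h1 : ∀ w, q (.inl (.inl w)) = q' (.inl (.inl w)))
    (h2 : ∀ l, q (.inr (.inl l)) = q' (.inr (.inl l))) (F t e) : c.r0 q F t e = c.r0 q' F t e :=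
  o.rd_loc F _ (fun w _ => h1 w.1) fun _ _ => h2 _

theorem Ok.rx_loc (o : c.Ok ε h κ) {q q' : c.CU ⊕ (Lb d ⊕ Fin 4) → ℝ}
    (h1 : ∀ w, q (.inl (.inl w)) = q' (.inl (.inl w)))
    (h2 : ∀ l, q (.inr (.inl l)) = q' (.inr (.inl l))) (l : Fin 4) (F t) (e : ℕ)
    (h3 : ∀ w : c.T.Bl c.j.succ, (c.fn w.1).val = e → q (.inl (.inr (w, l))) = q' (.inl (.inr (w, l)))) :
    c.rx q l F t e = c.rx q' l F t e := by
  refine o.rd_loc F _ (fun w m => ?_) fun a _ => ?_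
  · simp only [px]
    split_ifs with z
    · refine h3 ⟨w.1, z⟩ ?_
      obtain ⟨a, p, r⟩ := mem_image.1 (o.ty_e w ▸ z)
      rcases a with _ | ⟨j, i⟩
      · exact ((Fin.succ_ne_zero _) r.symm).elim
      · obtain rfl : j = c.j := Fin.succ_inj.1 r
        rw [o.fn w i p]
        exact (Option.some.inj (mem_lA' (m p))).symm
    · exact h1 _
  · simp only [px, Bool.false_eq_true, if_false, h2]

variable (c) in
/-- the cloned words read by the background of a word with the clone `n` -/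
def Rb (k n : ℕ) (w : c.T.Bl c.j.succ) (l : Fin 4) : Prop :=
  if n % (c.o.Q + 1) = k then (c.fn w.1).val = k ∧ l = bif cb c.o.Q n then 1 else 0
  else l = (bif cb c.o.Q n then 3 else 2) ∨ (l = 0 ∧ (c.fn w.1).val ≠ k)

/-- **locality of the background** -/
theorem Ok.bg_loc (o : c.Ok ε h κ) (k : ℕ) {w w' : c.CU → ℤ} {v v' : ℕ → c.CU → ℤ}
    {D : Finset (Pt (Fin (d + 2)))} (y : c.P.Cw (SD s D))
    (h1 : ∀ z, c.pp w v (Br.Wd.tr y.1.2) (.inl (.inl z)) = c.pp w' v' (Br.Wd.tr y.1.2) (.inl (.inl z)))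
    (h3 : ∀ n, Br.Wd.tr y.1.2 c.j.succ.succ = some n → ∀ z l, c.Rb k n z l →
      c.pp w v (Br.Wd.tr y.1.2) (.inl (.inr (z, l))) =
        c.pp w' v' (Br.Wd.tr y.1.2) (.inl (.inr (z, l)))) : c.bg k w v y = c.bg k w' v' y := by
  have h2 : ∀ l, c.pp w v (Br.Wd.tr y.1.2) (.inr (.inl l)) =
      c.pp w' v' (Br.Wd.tr y.1.2) (.inr (.inl l)) := fun _ => rfl
  have a := o.r0_loc h1 h2 y.1.1 (Br.Wd.tr y.1.2)
  have b := fun l => o.rx_loc h1 h2 l y.1.1 (Br.Wd.tr y.1.2)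
  unfold bg
  rcases e : Br.Wd.tr y.1.2 c.j.succ.succ with _ | n
  · simp only [e, Option.elim, a]
  · have h3 := h3 n e
    simp only [e, Option.elim, a]
    by_cases p : n % (c.o.Q + 1) = k
    · rw [if_pos p, if_pos p, b _ k fun z r => h3 z _ ((if_pos p).mpr ⟨r, rfl⟩)]
    · rw [if_neg p, if_neg p, b _ k fun z _ => h3 z _ ((if_neg p).mpr (.inl rfl)),
        b _ (n % (c.o.Q + 1)) fun z _ => h3 z _ ((if_neg p).mpr (.inl rfl)),
        b 0 (n % (c.o.Q + 1)) fun z r => h3 z _ ((if_neg p).mpr (.inr ⟨rfl, fun u => p (r ▸ u)⟩))]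

variable (c) in
/-- the class of a word of the rectangle -/
def clz (k : Fin c.o.Q) (z : c.CU) : Fin 3 :=
  if c.sl false k ∈ c.U.ty z then 1 else if c.tl false 0 ∈ c.U.ty z then 2 else 0

theorem cls_inl (k : Fin c.o.Q) (z : Fin 2 × c.XW c.S5) : c.cls k (.inl z) = c.clz k z.2.1 := rfl

theorem clz_inl (k : Fin c.o.Q) (z : c.C) : c.clz k (.inl z) = 0 := by
  rw [clz, if_neg, if_neg]
  · rw [Rt.mem_tl]; simp
  · rw [Rs.mem_sl]; simp

theorem clz_0 (k : Fin c.o.Q) (z : c.T.Bl c.j.succ) :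
    c.clz k (.inr (z, 0)) = if c.fn z.1 = k then 1 else 0 := by
  rw [clz, if_neg (c := c.tl false 0 ∈ _)]
  · refine if_congr ?_ rfl rfl
    rw [Rs.mem_sl]; simp
  · rw [Rt.mem_tl]; simp

theorem clz_2 (k : Fin c.o.Q) (z : c.T.Bl c.j.succ) : c.clz k (.inr (z, 2)) = 2 := by
  rw [clz, if_neg, if_pos]
  · rw [Rt.mem_tl]; simp
  · rw [Rs.mem_sl]; simp

theorem Ok.clz_sub (o : c.Ok ε h κ) (k : Fin c.o.Q) {z z' : c.CU} (i : c.U.ty z' ⊆ c.U.ty z) :
    c.clz k z' = 0 ∨ c.clz k z' = c.clz k z := by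
  unfold clz
  by_cases a : c.sl false k ∈ c.U.ty z'
  · rw [if_pos a, if_pos (i a)]; exact .inr rfl
  by_cases b : c.tl false 0 ∈ c.U.ty z'
  · rw [if_neg a, if_pos b, if_neg fun u => o.sw2.dis z _ _ _ u (i b), if_pos (i b)]
    exact .inr rfl
  · rw [if_neg a, if_neg b]; exact .inl rfl

/-- the class of a word of the ring -/
def clw (k : ℕ) (o : Option ℕ) : Fin 3 := o.elim 0 fun n => if n = k then 1 else 2

theorem cls_inr (k : Fin c.o.Q) (z : HW s c.P (D1 c.o.Q c.j)) :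
    c.cls k (.inr z) = clw k (Br.Wd.tr z.1.1.2 c.j.succ.succ) := rfl

theorem clw_le (k : ℕ) {t t' : Pt (Fin (d + 2))} (l : Le t' t) (i : Fin (d + 2)) :
    clw k (t' i) = 0 ∨ clw k (t' i) = clw k (t i) := by
  by_cases a : t' i = none
  · rw [a]; exact .inl rfl
  · rw [l i a]; exact .inr rfl

theorem lt_D1 (y : Br.Wd s (D1 c.o.Q c.j)) {n : ℕ} (e : y.tr c.j.succ.succ = some n) :
    n < c.o.Q + 1 := by
  have := mem_grid.1 (Wd.mem y) _ n e
  rwa [qq, if_neg (Fin.succ_ne_zero _), if_neg (ss_ne c.j), if_pos rfl] at this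

section loc
variable {k : Fin c.o.Q} {I : Finset (Fin 3)} {y y' : c.E → ℤ}

theorem vy_loc (e : ∀ z, c.cls k z ∈ I → y z = y' z) (i : ℕ) {z : c.CU} (m : c.clz k z ∈ I) :
    c.vy y i z = c.vy y' i z := by
  unfold vy vs
  split_ifs with a
  · simp only [ex, jn]
    split_ifs with b
    exacts [e (.inl (⟨i, a⟩, ⟨z, b⟩)) m, rfl]
  · rfl

theorem pt_loc (w : c.CU → ℤ) {v v' : c.CU → ℤ} {z : c.CU} (e : v z = v' z) :
    pt c.U c.x w v (.inl z) = pt c.U c.x w v' (.inl z) := by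
  simp only [pt, jr]
  split_ifs
  exacts [congrArg Int.cast e, rfl]

theorem pp_loc (e : ∀ z, c.cls k z ∈ I → y z = y' z) (w : c.CU → ℤ) (t : Pt (Fin (d + 2)))
    {z : c.CU} (m : c.clz k z ∈ I) : c.pp w (c.vy y) t (.inl z) = c.pp w (c.vy y') t (.inl z) := by
  refine pt_loc w ?_
  rcases t 1 with _ | i
  exacts [rfl, vy_loc e i m]

/-- the errors of the directions -/
theorem Ok.ed_loc (o : c.Ok ε h κ) (I0 : 0 ∈ I) (e : ∀ z, c.cls k z ∈ I → y z = y' z) (w : c.CU → ℤ)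
    (z : Fin 2 × c.XW c.S5) (m : c.cls k (.inl z) ∈ I) : c.ed w y z = c.ed w y' z := by
  refine o.U.phi_cg fun v a => ?_
  rcases v with z' | l
  · refine pt_loc w (vy_loc e _ ?_)
    rcases o.clz_sub k a with r | r <;> rw [r]
    exacts [I0, m]
  · rfl

/-- the configuration on the ring -/
theorem Ok.cy_loc (o : c.Ok ε h κ) (I0 : 0 ∈ I) (e : ∀ z, c.cls k z ∈ I → y z = y' z) (w : c.CU → ℤ)
    (q : c.P.Cw (SD s (D1 c.o.Q c.j))) (m : clw k (Br.Wd.tr q.1.2 c.j.succ.succ) ∈ I) :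
    c.cy k w y q = c.cy k w y' q := by
  by_cases a : ¬ Sd.kw q.1.2
  · simp only [cy, Sd.gl, glue, dif_pos a]
    exact e (.inr ⟨q, a⟩) m
  simp only [cy, Sd.gl, glue, dif_neg a]
  refine o.bg_loc k q (fun z => pp_loc e w _ (by rwa [clz_inl])) fun n r z l b => pp_loc e w _ ?_
  have n1 := lt_D1 q.1.2 r
  have n2 : cb c.o.Q n = false := decide_eq_false (by omega)
  rw [r] at m
  rw [Rb, Nat.mod_eq_of_lt n1, n2] at b
  by_cases p : n = k
  · obtain ⟨b1, rfl⟩ := (if_pos p).mp b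
    rw [show (bif false then 1 else 0 : Fin 4) = 0 from rfl, clz_0, if_pos (Fin.ext b1)]
    rwa [show clw k (some n) = 1 from if_pos p] at m
  · rcases (if_neg p).mp b with rfl | ⟨rfl, b1⟩
    · rw [show (bif false then 3 else 2 : Fin 4) = 2 from rfl, clz_2]
      rwa [show clw k (some n) = 2 from if_neg p] at m
    · rwa [clz_0, if_neg fun u => b1 (congrArg Fin.val u)]

/-- **the factors of the weight** -/
theorem Ok.om_loc (o : c.Ok ε h κ) (I0 : 0 ∈ I) (e : ∀ z, c.cls k z ∈ I → y z = y' z) (V x)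
    (w : c.CU → ℤ) (z : c.E) (m : c.cls k z ∈ I) : c.om k V x w y z = c.om k V x w y' z := by
  rcases z with z | z
  · simp only [om, o.ed_loc I0 e w z m]
  · refine congrArg (fun r => ga _ _ (r - x z.1)) (u_loc1 (dc_grid _) fun q l =>
      congrArg Int.cast (o.cy_loc I0 e w q ?_))
    exact (clw_le k l c.j.succ.succ).elim (fun r => (congrArg (· ∈ I) r).mpr I0)
      fun r => (congrArg (· ∈ I) r).mpr m

theorem Ok.ct_loc (o : c.Ok ε h κ) (I0 : 0 ∈ I) (e : ∀ z, c.cls k z ∈ I → y z = y' z) (R : ℝ)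
    {J : Finset (Fin 3)} (i : J ⊆ I) (w : c.CU → ℤ) : c.ct k R J w y = c.ct k R J w y' := by
  unfold ct
  exact if_congr (forall₂_congr fun z m => by rw [o.ed_loc I0 e w z (i m)]) rfl rfl

theorem Ok.pf_loc (o : c.Ok ε h κ) (I0 : 0 ∈ I) (e : ∀ z, c.cls k z ∈ I → y z = y' z)
    (f : (c.P.C → ℤ) → ℝ) {Ω : Finset (Pt (Fin (d + 2)))}
    (m : ∀ ω ∈ Ω, clw k (ω c.j.succ.succ) ∈ I) (w : c.CU → ℤ) :
    pf s c.P _ f Ω (c.cy k w y) = pf s c.P _ f Ω (c.cy k w y') := by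
  refine prod_congr rfl fun ω a => congrArg f (pw_loc1 fun q l => o.cy_loc I0 e w q ?_)
  exact (clw_le k l c.j.succ.succ).elim (fun r => (congrArg (· ∈ I) r).mpr I0)
    fun r => (congrArg (· ∈ I) r).mpr (m ω a)
end loc

section sys
variable {k : Fin c.o.Q} (ρ : c.Cf k 0) (α α' : c.Cf k 1) (β β' : c.Cf k 2)

theorem as_e0 (z : c.E) (m : c.cls k z ∈ ({0} : Finset (Fin 3))) :
    c.as ρ α β z = c.as ρ α' β' z := by
  simp only [as, dif_pos (mem_singleton.1 m)]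

theorem as_e1 (z : c.E) (m : c.cls k z ∈ ({0, 1} : Finset (Fin 3))) :
    c.as ρ α β z = c.as ρ α β' z := by
  rw [as_2, as_2 ρ α β']
  have : c.cls k z ≠ 2 := fun q => by rw [q] at m; exact absurd m (by decide)
  simp only [glue, dif_neg this]

theorem as_e2 (z : c.E) (m : c.cls k z ∈ ({0, 2} : Finset (Fin 3))) :
    c.as ρ α β z = c.as ρ α' β z := by
  rw [as_1, as_1 ρ α' β]
  have : c.cls k z ≠ 1 := fun q => by rw [q] at m; exact absurd m (by decide)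
  simp only [glue, dif_neg this]

variable (o : c.Ok ε h κ) (a : Fin c.o.D) (b R : ℝ) (V : Br.Wd s (D1 c.o.Q c.j) → ℝ)
  (x : c.P.Cw (SD s (D1 c.o.Q c.j)) → ℝ) (w : c.CU → ℤ)
include o

theorem Ok.ϖ_eq : (c.sys k a b R V x).ϖ w ρ =
    ∏ y : {y // c.cls k y = 0}, c.om k V x w (c.as ρ α β) y.1 :=
  prod_congr rfl fun y _ => o.om_loc (I := {0}) (by simp) (as_e0 ρ _ _ _ _) V x w y.1
    (by simp [y.2])

theorem Ok.la_eq : (c.sys k a b R V x).la w ρ α =
    ∏ y : {y // c.cls k y = 1}, c.om k V x w (c.as ρ α β) y.1 :=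
  prod_congr rfl fun y _ => o.om_loc (I := {0, 1}) (by simp) (as_e1 ρ _ _ _) V x w y.1
    (by simp [y.2])

theorem Ok.ka_eq : (c.sys k a b R V x).ka w ρ β =
    ∏ y : {y // c.cls k y = 2}, c.om k V x w (c.as ρ α β) y.1 :=
  prod_congr rfl fun y _ => o.om_loc (I := {0, 2}) (by simp) (as_e2 ρ _ _ _) V x w y.1
    (by simp [y.2])

/-- **the weight of a system** -/
theorem Ok.wt_eq : (c.sys k a b R V x).ϖ w ρ * (c.sys k a b R V x).la w ρ α *
    (c.sys k a b R V x).ka w ρ β = ∏ y, c.om k V x w (c.as ρ α β) y := by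
  rw [o.ϖ_eq ρ α β, o.la_eq ρ α β, o.ka_eq ρ α β, c.prod_cls k]

theorem ct_mul (y : c.E → ℤ) : c.ct k R {0, 1} w y * c.ct k R {2} w y = c.ct k R univ w y := by
  unfold ct
  rw [ite_zero_mul_ite_zero, mul_one]
  refine if_congr ⟨fun p z _ => ?_, fun p => ⟨fun z _ => p z (mem_univ _),
    fun z _ => p z (mem_univ _)⟩⟩ rfl rfl
  rcases c.cls3 (k := k) (.inl z) with r | r | r
  exacts [p.1 z (by simp [r]), p.1 z (by simp [r]), p.2 z (by simp [r])]

theorem Ok.fa_eq : (c.sys k a b R V x).fa w ρ α = (c.ct k R {0, 1} w (c.as ρ α β) *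
    pf s c.P _ (c.fb b) {ω ∈ pts (qq c.o.Q c.j 1 2 c.o.Q) | ω c.j.succ.succ = some k}
      (c.cy k w (c.as ρ α β)) : ℝ) := by
  refine congrArg Complex.ofReal (congrArg₂ (· * ·)
    (o.ct_loc (I := {0, 1}) (by simp) (as_e1 ρ _ _ _) R Subset.rfl w)
    (o.pf_loc (I := {0, 1}) (by simp) (as_e1 ρ _ _ _) _ (fun ω m => ?_) w))
  rw [show ω c.j.succ.succ = some k.val from (mem_filter.1 m).2,
    show clw k (some k.val) = 1 from if_pos rfl]; simp

theorem Ok.fb_eq : (c.sys k a b R V x).fb w ρ β = (c.ct k R {2} w (c.as ρ α β) *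
    pf s c.P _ (c.fb b) {ω ∈ pts (qq c.o.Q c.j 1 2 c.o.Q) | ω c.j.succ.succ ≠ some k}
      (c.cy k w (c.as ρ α β)) : ℝ) := by
  refine congrArg Complex.ofReal (congrArg₂ (· * ·)
    (o.ct_loc (I := {0, 2}) (by simp) (as_e2 ρ _ _ _) R (by simp) w)
    (o.pf_loc (I := {0, 2}) (by simp) (as_e2 ρ _ _ _) _ (fun ω m => ?_) w))
  have := (mem_filter.1 m).2
  rcases e : ω c.j.succ.succ with _ | n
  · exact mem_insert_self _ _
  · rw [show clw k (some n) = 2 from if_neg fun q => this (e.trans (congrArg some q))]; simp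

/-- **the phases of a system** -/
theorem Ok.fab_eq : (c.sys k a b R V x).fa w ρ α * (c.sys k a b R V x).fb w ρ β =
    (c.ct k R univ w (c.as ρ α β) * pf s c.P _ (c.fb b) (pts (qq c.o.Q c.j 1 2 c.o.Q))
      (c.cy k w (c.as ρ α β)) : ℝ) := by
  rw [o.fa_eq ρ α β, o.fb_eq ρ α β, ← Complex.ofReal_mul, mul_mul_mul_comm, ct_mul o]
  exact congrArg (fun r : ℝ => ((_ * r : ℝ) : ℂ)) (prod_filter_mul_prod_filter_not _ _ _)

/-- **the correlation of a system as one sum** -/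
theorem Ok.hasSum_c1 (hY : (c.sys k a b R V x).Ok) :
    HasSum (fun y : c.E → ℤ => (((∏ z, c.om k V x w y z) * (c.ct k R univ w y *
      pf s c.P _ (c.fb b) (pts (qq c.o.Q c.j 1 2 c.o.Q)) (c.cy k w y)) : ℝ) : ℂ) *
        ee (c.Fp a w (c.vy y 1) - c.Fp a w (c.vy y 0))) ((c.sys k a b R V x).c1.c w) := by
  rw [← (c.eqv k).hasSum_iff]
  refine (congrArg (HasSum · _) (funext fun q => ?_)).mp (hY.hs_c1 w)
  rw [o.wt_eq, o.fab_eq, ← mul_assoc, ← Complex.ofReal_mul]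
  rfl
end sys

end Hc

end Crest.Agent.N49.He

end
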