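import Crest.Agent.N49.He.Dc
import Crest.Agent.N49.He.Ocl

/-!
# Row 49 (helper70): the factors of the weight read only their class
-/

set_option autoImplicit false
set_option linter.unusedSectionVars false

open Finset Matrix

noncomputable section

namespace Crest.Agent.N49.He

open Po Tw Br Rm Rm.TT Ft Md Sd Hc

namespace Dl0
variable {s d : ℕ} {c : Hc s d} {ε : ℝ} {h κ : ℕ} {k : Fin c.o.Q} {I : Finset (Fin 3)}
  {w w' : c.CU → ℤ}

theorem pt_w (v : c.CU → ℤ) {z : c.CU} (e : w z = w' z) :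
    pt c.U c.x w v (.inl z) = pt c.U c.x w' v (.inl z) := by
  simp only [pt, jr]
  split_ifs
  exacts [rfl, congrArg Int.cast e]

variable (o : c.Ok ε h κ) (I0 : 0 ∈ I)
  (e : ∀ v, Disjoint (c.U.ty v) c.S5 → c.clz k v ∈ I → w v = w' v) (y : c.E → ℤ)
include o I0 e

theorem ed_w (z : Fin 2 × c.XW c.S5) (m : c.cls k (.inl z) ∈ I) : c.ed w y z = c.ed w' y z := by
  refine o.U.phi_cg fun v a => ?_
  rcases v with z' | l
  · refine pt_w _ (e _ ((xw_iff.1 z.2.2).1.mono_left a) ?_)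
    rcases o.clz_sub k a with r | r <;> rw [r]
    exacts [I0, m]
  · rfl

theorem cy_w (q : c.P.Cw (SD s (D1 c.o.Q c.j))) (m : clw k (Br.Wd.tr q.1.2 c.j.succ.succ) ∈ I) :
    c.cy k w y q = c.cy k w' y q := by
  by_cases a : ¬ Sd.kw q.1.2
  · simp only [cy, Sd.gl, glue, dif_pos a]
  simp only [cy, Sd.gl, glue, dif_neg a]
  refine o.bg_loc k q (fun z => pt_w _ (e _ (Rt.dis5 (by simp)) (by rwa [clz_inl])))
    fun n r z l b => pt_w _ ?_
  have n1 := lt_D1 q.1.2 r
  have n2 : cb c.o.Q n = false := decide_eq_false (by omega)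
  rw [r] at m
  rw [Rb, Nat.mod_eq_of_lt n1, n2] at b
  by_cases p : n = k
  · obtain ⟨b1, rfl⟩ := (if_pos p).mp b
    refine e _ (Rt.dis5 (by simp)) ?_
    rw [show (bif false then 1 else 0 : Fin 4) = 0 from rfl, clz_0, if_pos (Fin.ext b1)]
    rwa [show clw k (some n) = 1 from if_pos p] at m
  · rcases (if_neg p).mp b with rfl | ⟨rfl, b1⟩ <;> refine e _ (Rt.dis5 (by simp)) ?_
    · rw [show (bif false then 3 else 2 : Fin 4) = 2 from rfl, clz_2]
      rwa [show clw k (some n) = 2 from if_neg p] at m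
    · rwa [clz_0, if_neg fun u => b1 (congrArg Fin.val u)]

theorem om_w (V x) (z : c.E) (m : c.cls k z ∈ I) : c.om k V x w y z = c.om k V x w' y z := by
  rcases z with z | z
  · simp only [om, ed_w o I0 e y z m]
  · refine congrArg (fun r => ga _ _ (r - x z.1)) (u_loc1 (dc_grid _) fun q l =>
      congrArg Int.cast (cy_w o I0 e y q ?_))
    exact (clw_le k l c.j.succ.succ).elim (fun r => (congrArg (· ∈ I) r).mpr I0)
      fun r => (congrArg (· ∈ I) r).mpr m
end Dl0

theorem dloc3 (s d : ℕ) : LOC s d := by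
  intro c ε h κ k V x w w' y y' i o hy hw
  have I0 : 0 ∈ ({0, i} : Finset (Fin 3)) := mem_insert_self _ _
  have mm : ∀ {a : Fin 3}, a ∈ ({0, i} : Finset (Fin 3)) ↔ a = 0 ∨ a = i := by simp
  have e : ∀ z, c.cls k z ∈ ({0, i} : Finset (Fin 3)) → y z = y' z := fun z m => hy z (mm.1 m)
  have e' : ∀ v, Disjoint (c.U.ty v) c.S5 → c.clz k v ∈ ({0, i} : Finset (Fin 3)) → w v = w' v :=
    fun v a m => hw v a (fun b => by
      rw [clz, if_pos b, mm] at m
      exact (m.resolve_left (by decide)).symm) fun b => by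
      rw [clz, if_neg fun u => o.sw2.dis v _ _ _ u b, if_pos b, mm] at m
      exact (m.resolve_left (by decide)).symm
  refine ⟨fun z m => (o.om_loc I0 e V x w z (mm.2 m)).trans (Dl0.om_w o I0 e' y' V x z (mm.2 m)),
    fun q m => (o.ed_loc I0 e w q (mm.2 m)).trans (Dl0.ed_w o I0 e' y' q (mm.2 m)), fun p m => ?_⟩
  have : clw k (Br.Wd.tr p.1.2 c.j.succ.succ) ∈ ({0, i} : Finset (Fin 3)) := by
    rcases r : Br.Wd.tr p.1.2 c.j.succ.succ with _ | n
    exacts [I0, mm.2 (.inr (m n r).symm)]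
  exact (o.cy_loc I0 e w p this).trans (Dl0.cy_w o I0 e' y' p this)

end Crest.Agent.N49.He

end
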