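import Crest.Agent.N49.He.As0
import Crest.Agent.N49.Br.Hom
import Crest.Agent.N49.Br.Vis

/-!
# Row 49 (helper42): the words of a system with copies
-/

set_option autoImplicit false
set_option linter.unusedSectionVars false

open Finset

noncomputable section

namespace Crest.Agent.N49.He

open Po Tw Br Rm Rm.TT Ft Md Sd

namespace As

/-- the copies of a class -/
def al (Γ Δ : Finset Bool) : Fin 3 → Finset Bool := ![{false}, Γ, Δ]

section
variable {L C : Type} [Fintype L] [DecidableEq L] [Fintype C] [DecidableEq C] {Q : ℕ}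
  {U : TT L C} {s : Bool → Fin Q → L} {t : Bool → Fin 1 → L} {x : L} {τ : Fin Q → C → C}
  {σ0 σ : C → C} {k e : Fin Q} {c : C} {b : Bool} {Γ Δ : Finset Bool}

theorem mem_sw (h : Sw U x s τ σ) (ℓ : L) :
    ℓ ∈ U.ty (τ k c) ↔ Equiv.swap (s false k) (s true k) ℓ ∈ U.ty c := by
  rw [h.ty, mem_image]
  exact ⟨fun ⟨a, ha, e⟩ => by rwa [← e, Equiv.swap_apply_self],
    fun m => ⟨_, m, Equiv.swap_apply_self ..⟩⟩

theorem sw_out (h : Sw U x s τ σ) {ℓ : L} (n : ∀ b, ℓ ≠ s b k) : ℓ ∈ U.ty (τ k c) ↔ ℓ ∈ U.ty c := by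
  rw [mem_sw h, Equiv.swap_apply_of_ne_of_ne (n _) (n _)]

theorem sw_in (h : Sw U x s τ σ) : s b k ∈ U.ty (τ k c) ↔ s (!b) k ∈ U.ty c := by
  rw [mem_sw h]; cases b <;> simp

theorem sw_ne (h : Sw U x s τ σ) (n : e ≠ k) : s b e ∈ U.ty (τ k c) ↔ s b e ∈ U.ty c :=
  sw_out h fun _ z => n (h.inj _ _ _ _ z).2

theorem x_τ (h : Sw2 U s t x τ σ0 σ) : x ∈ U.ty (τ k c) ↔ x ∈ U.ty c :=
  sw_out h.s1 fun _ => (h.s1.nx _ _).symm
theorem x_σ (h : Sw2 U s t x τ σ0 σ) : x ∈ U.ty (σ c) ↔ x ∈ U.ty c :=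
  sw_out (k := 0) h.s2 fun _ => (h.s2.nx _ _).symm
theorem t_τ (h : Sw2 U s t x τ σ0 σ) : t b 0 ∈ U.ty (τ k c) ↔ t b 0 ∈ U.ty c :=
  sw_out h.s1 fun _ => (h.ne _ _ _).symm
theorem s_σ (h : Sw2 U s t x τ σ0 σ) : s b e ∈ U.ty (σ c) ↔ s b e ∈ U.ty c :=
  sw_out (k := 0) h.s2 fun _ => h.ne _ _ _
theorem t_σ (h : Sw2 U s t x τ σ0 σ) : t b 0 ∈ U.ty (σ c) ↔ t (!b) 0 ∈ U.ty c :=
  sw_in (k := 0) h.s2

theorem dis_S5 : Disjoint (U.ty c) (S5 s t) ↔ t true 0 ∉ U.ty c ∧ ∀ e, s true e ∉ U.ty c := by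
  simp [S5, S1, disjoint_right]

theorem dis_Sx (h : Sw2 U s t x τ σ0 σ) : Disjoint (U.ty c) (S4 s k ∪ (univ \ Γ).image
    (fun b => s b k) ∪ (univ \ Δ).image fun b => t b 0) ↔ (∀ e ≠ k, s true e ∉ U.ty c) ∧
      (∀ b, s b k ∈ U.ty c → b ∈ Γ) ∧ ∀ b, t b 0 ∈ U.ty c → b ∈ Δ := by
  rw [disjoint_union_right, disjoint_union_right, and_assoc]
  refine and_congr ⟨fun a e n m => disjoint_left.1 a m (mem_erase.2
    ⟨fun z => n (h.s1.inj _ _ _ _ z).2, mem_S1 e⟩), fun a => disjoint_right.2 fun ℓ m => ?_⟩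
    (and_congr ?_ ?_)
  · obtain ⟨e, -, rfl⟩ := mem_image.1 (mem_erase.1 m).2
    exact a e fun z => (mem_erase.1 m).1 (z ▸ rfl)
  all_goals simp only [disjoint_right, forall_mem_image, mem_sdiff, mem_univ, true_and, not_imp_not]

variable (U s t τ σ k) in
/-- the copy `b` of a word -/
def tx (b : Bool) (c : C) : C := bif b then (if s false k ∈ U.ty c then τ k c else σ c) else c
variable (U s t k) in
/-- the class of a word -/
def cx (c : C) : Fin 3 := if s false k ∈ U.ty c then 1 else if t false 0 ∈ U.ty c then 2 else 0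

theorem tx_case (m : true ∈ al Γ Δ (cx U s t k c)) :
    (s false k ∈ U.ty c ∧ true ∈ Γ ∧ tx U s τ σ k true c = τ k c) ∨
      (s false k ∉ U.ty c ∧ t false 0 ∈ U.ty c ∧ true ∈ Δ ∧ tx U s τ σ k true c = σ c) := by
  unfold cx at m
  split_ifs at m with a a'
  exacts [.inl ⟨a, m, if_pos a⟩, .inr ⟨a, a', m, if_neg a⟩, absurd m (by simp [al])]

theorem tx_mem (h : Sw2 U s t x τ σ0 σ) (p : x ∈ (U.dls (S5 s t)).ty c)
    (m : b ∈ al Γ Δ (cx U s t k c)) : x ∈ (U.dls (S4 s k ∪ (univ \ Γ).image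
      (fun b => s b k) ∪ (univ \ Δ).image fun b => t b 0)).ty (tx U s τ σ k b c) := by
  rw [mem_dls, dis_S5] at p
  rw [mem_dls, dis_Sx h]
  obtain ⟨p1, p2, p3⟩ := p
  cases b
  · refine ⟨p1, fun e _ => p3 e, fun b a => ?_, fun b a => ?_⟩
    · cases b
      · rwa [cx, if_pos (show _ ∈ U.ty c from a)] at m
      · exact absurd a (p3 k)
    · cases b
      · rwa [cx, if_neg fun z => h.dis c _ _ _ z a, if_pos (show _ ∈ U.ty c from a)] at m
      · exact absurd a p2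
  rcases tx_case (τ := τ) (σ := σ) m with ⟨a, m, e⟩ | ⟨a, a', m, e⟩ <;> rw [e]
  · refine ⟨(x_τ h).2 p1, fun e n z => p3 e ((sw_ne h.s1 n).1 z), fun b z => ?_,
      fun b z => absurd ((t_τ h).1 z) (h.dis _ _ _ _ a)⟩
    cases b
    exacts [absurd ((sw_in h.s1).1 z) (p3 k), m]
  · refine ⟨(x_σ h).2 p1, fun e _ z => p3 e ((s_σ h).1 z),
      fun b z => absurd a' (h.dis _ _ _ _ ((s_σ h).1 z)), fun b z => ?_⟩
    cases b
    exacts [absurd ((t_σ h).1 z) p2, m]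

theorem tx_inj (h : Sw2 U s t x τ σ0 σ) {c' : C} {b' : Bool} (p : x ∈ (U.dls (S5 s t)).ty c)
    (p' : x ∈ (U.dls (S5 s t)).ty c') (m : b ∈ al Γ Δ (cx U s t k c))
    (m' : b' ∈ al Γ Δ (cx U s t k c')) (e : tx U s τ σ k b c = tx U s τ σ k b' c') :
    c = c' ∧ b = b' := by
  rw [mem_dls, dis_S5] at p p'
  have f : ∀ {c c' : C}, t true 0 ∉ U.ty c → (∀ e, s true e ∉ U.ty c) →
      true ∈ al Γ Δ (cx U s t k c') → c ≠ tx U s τ σ k true c' := fun p2 p3 m z => by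
    rcases tx_case (τ := τ) (σ := σ) m with ⟨a, -, e⟩ | ⟨-, a, -, e⟩ <;> rw [e] at z
    exacts [p3 k (z ▸ (sw_in h.s1).2 a), p2 (z ▸ (t_σ h).2 a)]
  cases b <;> cases b'
  · exact ⟨e, rfl⟩
  · exact absurd e (f p.2.1 p.2.2 m')
  · exact absurd e.symm (f p'.2.1 p'.2.2 m)
  refine ⟨?_, rfl⟩
  rcases tx_case (τ := τ) (σ := σ) m with ⟨a, -, z⟩ | ⟨a, -, -, z⟩ <;>
    rcases tx_case (τ := τ) (σ := σ) m' with ⟨a', -, z'⟩ | ⟨a', -, -, z'⟩ <;> rw [z, z'] at e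
  · rw [← h.s1.inv k c, e, h.s1.inv]
  · exact absurd ((s_σ h).1 (e ▸ (sw_in (b := true) h.s1).2 a)) (p'.2.2 k)
  · exact absurd ((s_σ h).1 (e ▸ (sw_in (b := true) h.s1).2 a')) (p.2.2 k)
  · rw [← h.s2.inv 0 c, e, h.s2.inv 0]

theorem tx_sur (h : Sw2 U s t x τ σ0 σ) (p : x ∈ (U.dls (S4 s k ∪ (univ \ Γ).image
      (fun b => s b k) ∪ (univ \ Δ).image fun b => t b 0)).ty c) : ∃ c' b,
    x ∈ (U.dls (S5 s t)).ty c' ∧ b ∈ al Γ Δ (cx U s t k c') ∧ tx U s τ σ k b c' = c := by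
  rw [mem_dls, dis_Sx h] at p
  obtain ⟨p1, p2, p3, p4⟩ := p
  simp only [mem_dls, dis_S5]
  by_cases a : s true k ∈ U.ty c
  · have a' : s false k ∈ U.ty (τ k c) := (sw_in h.s1).2 a
    refine ⟨τ k c, true, ⟨(x_τ h).2 p1, h.dis _ _ _ _ a', fun e z => ?_⟩, ?_,
      (if_pos a').trans (h.s1.inv k c)⟩
    · exact absurd (h.s1.one _ _ _ _ _ a' z).1 nofun
    · rw [cx, if_pos a']; exact p3 _ a
  have q : ∀ e, s true e ∉ U.ty c := fun e => if n : e = k then n ▸ a else p2 e n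
  by_cases a1 : t true 0 ∈ U.ty c
  · have a' : t false 0 ∈ U.ty (σ c) := (t_σ h).2 a1
    have n : s false k ∉ U.ty (σ c) := fun z => h.dis _ _ _ _ z a'
    refine ⟨σ c, true, ⟨(x_σ h).2 p1, fun z => ?_, fun e z => q e ((s_σ h).1 z)⟩, ?_,
      (if_neg n).trans (h.s2.inv 0 c)⟩
    · exact absurd (h.s2.one _ _ _ _ _ a' z).1 nofun
    · rw [cx, if_neg n, if_pos a']; exact p4 _ a1
  refine ⟨c, false, ⟨p1, a1, q⟩, ?_, rfl⟩
  unfold cx
  split_ifs with z z'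
  exacts [p3 _ z, p4 _ z', mem_singleton_self _]
end

section
variable {d : ℕ} {Q : ℕ} {j : Fin d} {k : ℕ} {b b' : Bool} {t t' : Pt (Fin (d + 2))}
  {Γ Δ : Finset Bool}

variable (Q j) in
/-- the copy `b` of a transversal -/
def ul (b : Bool) : Pt (Fin (d + 2)) → Pt (Fin (d + 2)) :=
  Br.cm fun i n => if i = j.succ.succ then n + bif b then Q + 1 else 0 else n
variable (j k) in
/-- its class -/
def ch (t : Pt (Fin (d + 2))) : Fin 3 := (t j.succ.succ).elim 0 fun n => if n = k then 1 else 2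

theorem ul_ne {i : Fin (d + 2)} (n : i ≠ j.succ.succ) : ul Q j b t i = t i := by
  simp [ul, Br.cm, n]
theorem ul_j : ul Q j b t j.succ.succ = (t j.succ.succ).map (· + bif b then Q + 1 else 0) := by
  simp [ul, Br.cm]
theorem ul_0 : ul Q j b t 0 = t 0 := ul_ne (Fin.succ_ne_zero _).symm
theorem ul_false : ul Q j false t = t := funext fun i => by simp [ul, Br.cm]
theorem bl_ul : bl (ul Q j b t) = bl t := bl_cm _ _

theorem j1 : (j.succ.succ : Fin (d + 2)) ≠ 1 := fun e =>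
  Fin.succ_ne_zero j (Fin.succ_injective _ (e.trans Fin.succ_zero_eq_one.symm))
theorem qq_j {r r' n : ℕ} : qq Q j r r' n j.succ.succ = n := by
  rw [qq, if_neg (Fin.succ_ne_zero _), if_neg j1, if_pos rfl]
theorem qq_ne {r r' n n' : ℕ} {i : Fin (d + 2)} (e : i ≠ j.succ.succ) :
    qq Q j r r' n i = qq Q j r r' n' i := by simp only [qq, if_neg e]

theorem mem_DD : t ∈ DD Q j k 1 2 (fun _ _ => true) Γ Δ ↔ t ∈ grid (qq Q j 1 2 (2 * (Q + 1))) ∧
    ∀ n, t j.succ.succ = some n → cb Q n ∈ if n % (Q + 1) = k then Γ else Δ := by simp [DD]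

theorem cb_add {n : ℕ} (h : n < Q + 1) : cb Q (n + bif b then Q + 1 else 0) = b ∧
    (n + bif b then Q + 1 else 0) % (Q + 1) = n := by
  cases b <;> simp [cb, Nat.mod_eq_of_lt h]; omega

theorem lt_j (m : t ∈ D1 Q j) {n : ℕ} (e : t j.succ.succ = some n) : n < Q + 1 :=
  (Br.mem_grid.1 m _ _ e).trans_eq qq_j

theorem ul_mem (m : t ∈ D1 Q j) (a : b ∈ al Γ Δ (ch j k t)) :
    ul Q j b t ∈ DD Q j k 1 2 (fun _ _ => true) Γ Δ := by
  refine mem_DD.2 ⟨Br.mem_grid.2 fun i n e => ?_, fun n e => ?_⟩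
  · by_cases z : i = j.succ.succ
    · subst z
      rw [ul_j, Option.map_eq_some_iff] at e
      obtain ⟨n', e, rfl⟩ := e
      have := lt_j m e
      rw [qq_j]; cases b <;> simp <;> omega
    · exact (Br.mem_grid.1 m i n ((ul_ne z).symm.trans e)).trans_eq (qq_ne z)
  · rw [ul_j, Option.map_eq_some_iff] at e
    obtain ⟨n', e, rfl⟩ := e
    rw [(cb_add (lt_j m e)).1, (cb_add (lt_j m e)).2]
    rw [ch, e, Option.elim_some] at a
    split_ifs at a ⊢ <;> exact a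

theorem ul_inj (m : t ∈ D1 Q j) (m' : t' ∈ D1 Q j) (a : b ∈ al Γ Δ (ch j k t))
    (a' : b' ∈ al Γ Δ (ch j k t')) (e : ul Q j b t = ul Q j b' t') : t = t' ∧ b = b' := by
  have z := congrFun e j.succ.succ
  rw [ul_j, ul_j] at z
  have : t j.succ.succ = t' j.succ.succ ∧ b = b' := by
    rcases h : t j.succ.succ with _ | n <;> rcases h' : t' j.succ.succ with _ | n' <;>
      rw [h, h'] at z
    · rw [ch, h] at a; rw [ch, h'] at a'
      exact ⟨rfl, (mem_singleton.1 a).trans (mem_singleton.1 a').symm⟩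
    · exact absurd z nofun
    · exact absurd z nofun
    · have z := Option.some.inj z
      have u := cb_add (b := b) (lt_j m h)
      have u' := cb_add (b := b') (lt_j m' h')
      dsimp only at z
      rw [z] at u
      exact ⟨congrArg some (u.2.symm.trans u'.2), u.1.symm.trans u'.1⟩
  refine ⟨funext fun i => ?_, this.2⟩
  by_cases n : i = j.succ.succ
  exacts [n ▸ this.1, (ul_ne n).symm.trans ((congrFun e i).trans (ul_ne n))]

theorem ul_sur (m : t' ∈ DD Q j k 1 2 (fun _ _ => true) Γ Δ) :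
    ∃ t b, t ∈ D1 Q j ∧ b ∈ al Γ Δ (ch j k t) ∧ ul Q j b t = t' := by
  obtain ⟨m, a⟩ := mem_DD.1 m
  have g : ∀ o : Option ℕ, (∀ n, o = some n → n < Q + 1) →
      Function.update t' j.succ.succ o ∈ D1 Q j := fun o ho => Br.mem_grid.2 fun i n e => by
    by_cases z : i = j.succ.succ
    · subst z; rw [qq_j]; exact ho n (by simpa using e)
    · exact (Br.mem_grid.1 m i n (by simpa [z] using e)).trans_eq (qq_ne z)
  rcases h : t' j.succ.succ with _ | n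
  · refine ⟨t', false, by simpa [← h] using g none nofun, ?_, ul_false⟩
    rw [ch, h]; exact mem_singleton_self _
  have l : n < 2 * (Q + 1) := (Br.mem_grid.1 m _ _ h).trans_eq qq_j
  refine ⟨Function.update t' j.succ.succ (some (n % (Q + 1))), cb Q n,
    g _ fun n' e => Option.some.inj e ▸ Nat.mod_lt _ Q.succ_pos, ?_, funext fun i => ?_⟩
  · have := a n h
    rw [ch, Function.update_self, Option.elim_some]
    split_ifs at this ⊢ <;> exact this
  · by_cases z : i = j.succ.succ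
    · subst z
      rw [ul_j, Function.update_self, h, Option.map_some]
      congr 1
      by_cases u : Q + 1 ≤ n
      · rw [Nat.mod_eq_sub_mod u, Nat.mod_eq_of_lt (by omega)]; simp [cb, u]
      · rw [Nat.mod_eq_of_lt (by omega)]; simp [cb, u]
    · rw [ul_ne z, Function.update_of_ne z]
end
end As
open As

namespace Hc
variable {s d : ℕ} (c : Hc s d) (k : Fin c.o.Q) (Γ Δ : Finset Bool)

/-- the ring of the system with copies -/
abbrev DK : Finset (Pt (Fin (d + 2))) := DD c.o.Q c.j k 1 2 (fun _ _ => true) Γ Δ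
/-- its free coordinates -/
abbrev E' : Type := Fin 2 × c.XW (c.Sx k Γ Δ) ⊕ HW s c.P (c.DK k Γ Δ)
/-- the symmetries -/
abbrev SW : Prop := Sw2 c.U c.sl c.tl c.x c.τ (sg c.T c.j.succ) c.σ
/-- the copies of the three classes -/
abbrev IX : Type := {y // c.cls k y = 0} ⊕ (Γ × {y // c.cls k y = 1}) ⊕ Δ × {y // c.cls k y = 2}

variable {c k Γ Δ}
/-- the copy `b` of a ring word -/
def uw (b : Bool) (z : c.P.Cw (SD s (D1 c.o.Q c.j))) (m : b ∈ al Γ Δ (ch c.j k (Br.Wd.tr z.1.2))) :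
    c.P.Cw (SD s (c.DK k Γ Δ)) :=
  ⟨(z.1.1, Br.Wd.mk' z.1.2 _ (ul_mem (Br.Wd.mem z.1.2) m) (by rw [bl_ul])), z.2⟩

/-- the copy `b` of a free coordinate -/
def up (h : c.SW) : (y : c.E) → (b : Bool) → b ∈ al Γ Δ (c.cls k y) → c.E' k Γ Δ
  | .inl z, b, m => .inl (z.1, ⟨tx c.U c.sl c.τ c.σ k b z.2.1, tx_mem h z.2.2 m⟩)
  | .inr z, b, m => .inr ⟨uw b z.1 m, fun e => z.2 (ul_0.symm.trans e)⟩

theorem up_inj (h : c.SW) {y y' : c.E} {b b' : Bool} {m : b ∈ al Γ Δ (c.cls k y)}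
    {m' : b' ∈ al Γ Δ (c.cls k y')} (e : up h y b m = up h y' b' m') : y = y' ∧ b = b' := by
  rcases y with z | z <;> rcases y' with z' | z'
  · have e := Prod.mk.inj (Sum.inl.inj e)
    have := tx_inj h z.2.2 z'.2.2 m m' (congrArg Subtype.val e.2)
    exact ⟨congrArg Sum.inl (Prod.ext e.1 (Subtype.ext this.1)), this.2⟩
  · exact absurd e nofun
  · exact absurd e nofun
  · have e : uw b z.1 m = uw b' z'.1 m' := congrArg Subtype.val (Sum.inr.inj e)
    have := ul_inj (Br.Wd.mem z.1.1.2) (Br.Wd.mem z'.1.1.2) m m'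
      (congrArg (fun z : c.P.Cw (SD s (c.DK k Γ Δ)) => Br.Wd.tr z.1.2) e)
    exact ⟨congrArg Sum.inr (Subtype.ext (Subtype.ext (Prod.ext
      (congrArg (fun z : c.P.Cw (SD s (c.DK k Γ Δ)) => z.1.1) e) (Br.Wd.ext'
        (congrArg (fun z : c.P.Cw (SD s (c.DK k Γ Δ)) => Br.Wd.lv z.1.2) e) this.1)))), this.2⟩

theorem uw_sur (z : c.P.Cw (SD s (c.DK k Γ Δ))) : ∃ z' b m, uw b z' m = z := by
  obtain ⟨t, b, m, a, e⟩ := ul_sur (Br.Wd.mem z.1.2)
  exact ⟨⟨(z.1.1, Br.Wd.mk' z.1.2 t m (by rw [← e, bl_ul])), z.2⟩, b, a,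
    Subtype.ext (Prod.ext rfl (Br.Wd.ext' rfl e))⟩

theorem up_sur (h : c.SW) (y : c.E' k Γ Δ) : ∃ y' b m, up h y' b m = y := by
  rcases y with z | z
  · obtain ⟨z', b, p, m, e⟩ := tx_sur h z.2.2
    exact ⟨.inl (z.1, ⟨z', p⟩), b, m, congrArg Sum.inl (Prod.ext rfl (Subtype.ext e))⟩
  · obtain ⟨z', b, m, e⟩ := uw_sur z.1
    exact ⟨.inr ⟨z', fun n => z.2 (e ▸ ul_0.trans n)⟩, b, m, congrArg Sum.inr (Subtype.ext e)⟩

/-- the coordinate of an index -/
def wf (h : c.SW) : c.IX k Γ Δ → c.E' k Γ Δ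
  | .inl y => up h y.1 false (by rw [y.2]; exact mem_singleton_self _)
  | .inr (.inl y) => up h y.2.1 y.1.1 (by rw [y.2.2]; exact y.1.2)
  | .inr (.inr y) => up h y.2.1 y.1.1 (by rw [y.2.2]; exact y.1.2)

theorem wf_bij (h : c.SW) : Function.Bijective (wf (k := k) (Γ := Γ) (Δ := Δ) h) := by
  constructor
  · rintro (y | y | y) (y' | y' | y') e <;> obtain ⟨e1, e2⟩ := up_inj h e
    · exact congrArg Sum.inl (Subtype.ext e1)
    · exact absurd (y.2.symm.trans (e1 ▸ y'.2.2)) (by decide)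
    · exact absurd (y.2.symm.trans (e1 ▸ y'.2.2)) (by decide)
    · exact absurd (y.2.2.symm.trans (e1 ▸ y'.2)) (by decide)
    · rw [Prod.ext (Subtype.ext e2) (Subtype.ext e1 : y.2 = y'.2)]
    · exact absurd (y.2.2.symm.trans (e1 ▸ y'.2.2)) (by decide)
    · exact absurd (y.2.2.symm.trans (e1 ▸ y'.2)) (by decide)
    · exact absurd (y.2.2.symm.trans (e1 ▸ y'.2.2)) (by decide)
    · rw [Prod.ext (Subtype.ext e2) (Subtype.ext e1 : y.2 = y'.2)]
  · intro y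
    obtain ⟨y', b, m, rfl⟩ := up_sur h y
    rcases c.cls3 (k := k) y' with e | e | e
    · obtain rfl : b = false := mem_singleton.1 (show b ∈ al Γ Δ 0 from e ▸ m)
      exact ⟨.inl ⟨y', e⟩, rfl⟩
    · exact ⟨.inr (.inl (⟨b, show b ∈ al Γ Δ 1 from e ▸ m⟩, ⟨y', e⟩)), rfl⟩
    · exact ⟨.inr (.inr (⟨b, show b ∈ al Γ Δ 2 from e ▸ m⟩, ⟨y', e⟩)), rfl⟩

/-- **the word bijection** -/
def wbj (h : c.SW) : c.IX k Γ Δ ≃ c.E' k Γ Δ := .ofBijective _ (wf_bij h)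

/-- **configurations with copies** -/
def cb' (h : c.SW) : (c.E' k Γ Δ → ℤ) ≃ c.Cf k 0 × (Γ → c.Cf k 1) × (Δ → c.Cf k 2) where
  toFun Y := (fun y => Y (wf h (.inl y)), fun b y => Y (wf h (.inr (.inl (b, y)))),
    fun b y => Y (wf h (.inr (.inr (b, y)))))
  invFun q y := Sum.elim q.1 (Sum.elim (fun z => q.2.1 z.1 z.2) fun z => q.2.2 z.1 z.2)
    ((wbj h).symm y)
  left_inv Y := funext fun y => by
    obtain ⟨i, rfl⟩ := (wbj h).surjective y
    simp only [Equiv.symm_apply_apply]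
    rcases i with i | i | i <;> rfl
  right_inv q := by
    have e : ∀ i : c.IX k Γ Δ, (wbj h).symm (wf h i) = i := (wbj h).symm_apply_apply
    simp only [e]; rfl

theorem prod_wf (h : c.SW) {M : Type} [CommMonoid M] (f : c.E' k Γ Δ → M) : ∏ y, f y =
    (∏ y, f (wf h (.inl y))) * ((∏ b : Γ, ∏ y, f (wf h (.inr (.inl (b, y))))) *
      ∏ b : Δ, ∏ y, f (wf h (.inr (.inr (b, y))))) := by
  let _ : Fintype (Γ × {y // c.cls k y = 1}) := inferInstance
  let _ : Fintype (Δ × {y // c.cls k y = 2}) := inferInstance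
  let _ : Fintype (Γ × {y // c.cls k y = 1} ⊕ Δ × {y // c.cls k y = 2}) := instFintypeSum _ _
  let _ : Fintype (c.IX k Γ Δ) := instFintypeSum _ _
  rw [← (wbj h).prod_comp, Fintype.prod_sum_type, Fintype.prod_sum_type, Fintype.prod_prod_type,
    Fintype.prod_prod_type]; rfl
end Hc

end Crest.Agent.N49.He

end
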