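import Crest.Agent.N49.He.Rd
import Crest.Agent.N49.He.Loc
import Crest.Agent.N49.He.Rft

/-!
# Row 49 (helper51): transport of the systems along the copies
-/

set_option autoImplicit false

open Finset Matrix

noncomputable section

namespace Crest.Agent.N49.He

open Po Tw Br Rm Rm.TT Ft Md Sd

/-- the copy of a clone -/
def cp (Q k : ℕ) (b1 b2 : Bool) (n : ℕ) : ℕ :=
  n + bif (if n = k then b1 else b2) then Q + 1 else 0

theorem cp_mod {Q k n : ℕ} (b1 b2 : Bool) (h : n ≤ Q) : cp Q k b1 b2 n % (Q + 1) = n := by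
  unfold cp
  cases (if n = k then b1 else b2)
  · exact Nat.mod_eq_of_lt (by simpa using Nat.lt_succ_of_le h)
  · simpa using Nat.mod_eq_of_lt (Nat.lt_succ_of_le h)

theorem cp_cb {Q k n : ℕ} (b1 b2 : Bool) (h : n ≤ Q) :
    cb Q (cp Q k b1 b2 n) = if n = k then b1 else b2 := by
  unfold cp cb
  cases (if n = k then b1 else b2)
  · simpa using Nat.lt_succ_of_le h
  · simp

theorem cb_le {Q n : ℕ} (h : n ≤ Q) : cb Q n = false := by simpa [cb] using Nat.lt_succ_of_le h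

theorem lA_eq {d : ℕ} (Q : ℕ) (j : Fin d) {t t' : Pt (Fin (d + 2))} {g : ℕ → ℕ}
    (h1 : t' 1 = (t 1).map g) (h : ∀ i, i ≠ 0 → i ≠ 1 → i ≠ j.succ.succ → t' i = t i)
    (e : Option ℕ) : lA Q j t' e = lA Q j t e := by
  ext a
  rw [lA, lA, mem_lw, mem_lw]
  by_cases a1 : (Br.gl a).1 = j.succ.succ
  · rw [a1, Function.update_self, Function.update_self]
  rw [Function.update_of_ne a1, Function.update_of_ne a1]
  by_cases a2 : (Br.gl a).1 = 1
  · rw [a2, Function.update_self, Function.update_self, h1, Option.map_map]; rfl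
  rw [Function.update_of_ne a2, Function.update_of_ne a2, h (Br.gl a).1 (Fin.succ_ne_zero _) a2 a1]

theorem mem_lA {d Q : ℕ} {j : Fin d} {t : Pt (Fin (d + 2))} {e : ℕ} {i : Fin Q}
    (h : some (j, i) ∈ lA Q j t (some e)) : (i : ℕ) = e := by
  rw [lA, mem_lw] at h
  rw [show (Br.gl (some (j, i))).1 = j.succ.succ from rfl, Function.update_self] at h
  exact (Option.some.inj h).symm

namespace Hc
variable {s d : ℕ} (c : Hc s d)

/-- the exchange of the copies -/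
def th (k : Fin c.o.Q) (b1 b2 : Bool) (z : c.CU) : c.CU :=
  (bif b1 then c.τ k else id) ((bif b2 then c.σ else id) z)

variable {c} {k : Fin c.o.Q} {b1 b2 : Bool}

theorem th_ff : c.th k false false = id := rfl
theorem th_tf : c.th k true false = c.τ k := rfl
theorem th_ft : c.th k false true = c.σ := rfl
theorem bif_τ (b : Bool) (w : c.CU → ℤ) : (bif b then w ∘ c.τ k else w) = w ∘ c.th k b false := by
  cases b <;> rfl
theorem bif_σ (b : Bool) (w : c.CU → ℤ) : (bif b then w ∘ c.σ else w) = w ∘ c.th k false b := by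
  cases b <;> rfl

theorem th_inl (a : c.C) : c.th k b1 b2 (.inl a) = .inl a := by cases b1 <;> cases b2 <;> rfl

theorem th_inr (a : c.T.Bl c.j.succ) (l : Fin 4) : c.th k b1 b2 (.inr (a, l)) =
    .inr (a, (if b1 ∧ c.fn a.1 = k then Equiv.swap 0 1 else 1)
      ((bif b2 then Equiv.swap 2 3 else 1 : Equiv.Perm (Fin 4)) l)) := by
  by_cases e : c.fn a.1 = k
  · cases b1 <;> cases b2 <;> simp [th, ta, sg, st, e]
  · cases b1 <;> cases b2 <;> simp [th, ta, sg, st, e]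

theorem th_0 (a : c.T.Bl c.j.succ) :
    c.th k b1 b2 (.inr (a, 0)) = .inr (a, if b1 ∧ c.fn a.1 = k then 1 else 0) := by
  rw [th_inr]; split_ifs <;> cases b2 <;> rfl

theorem th_2 (a : c.T.Bl c.j.succ) :
    c.th k b1 b2 (.inr (a, 2)) = .inr (a, bif b2 then 3 else 2) := by
  rw [th_inr]; split_ifs <;> cases b2 <;> rfl

theorem th_th (z : c.CU) : c.th k b1 b2 (c.th k b1 b2 z) = z := by
  rcases z with a | ⟨a, l⟩
  · rw [th_inl, th_inl]
  · rw [th_inr, th_inr]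
    congr 2
    revert l
    split_ifs <;> cases b2 <;> decide

theorem x_inr (a : c.T.Bl c.j.succ) (l : Fin 4) :
    c.x ∈ c.U.ty (.inr (a, l)) ↔ 0 ∈ (c.T.ty a.1).erase c.j.succ := by
  rw [Rs.ty_ins, mem_insert]
  refine ⟨fun h => h.elim (fun e => ?_) fun e => ?_, fun h => .inr (mem_image_of_mem _ h)⟩
  · revert e; unfold Rs.lam; split_ifs <;> simp
  · obtain ⟨ℓ, m, e⟩ := mem_image.1 e
    exact Rs.i_inj e ▸ m

theorem x_th (z : c.CU) : c.x ∈ c.U.ty (c.th k b1 b2 z) ↔ c.x ∈ c.U.ty z := by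
  rcases z with a | ⟨a, l⟩
  · rw [th_inl]
  · rw [th_inr, x_inr, x_inr]

theorem lu_th (z : c.CU) : c.lu (c.th k b1 b2 z) = c.lu z := by
  rcases z with a | ⟨a, l⟩
  · rw [th_inl]
  · rw [th_inr]
    refine congrArg (fun n : ℕ => (2 : ℝ) ^ n * c.lam a.1) ?_
    split_ifs <;> cases b2 <;> fin_cases l <;> rfl

theorem pt_th (w v : c.CU → ℤ) : pt c.U c.x (w ∘ c.th k b1 b2) (v ∘ c.th k b1 b2) =
    Ft.pm (c.th k b1 b2) (pt c.U c.x w v) := by
  funext z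
  rcases z with z | ℓ
  · by_cases h : c.x ∈ c.U.ty z
    · simp only [pt, Ft.pm, jr, Sum.elim_inl, dif_pos h, dif_pos ((x_th z).2 h)]
      rfl
    · simp only [pt, Ft.pm, jr, Sum.elim_inl, dif_neg h, dif_neg (mt (x_th z).1 h)]
      rfl
  · rfl

/-- the errors of the directions -/
theorem Φ_th {σ0 : c.CU → c.CU} (h : Sw2 c.U c.sl c.tl c.x c.τ σ0 c.σ) (w v : c.CU → ℤ)
    (z : c.CU) : c.U.Φ (pt c.U c.x (w ∘ c.th k b1 b2) (v ∘ c.th k b1 b2)) z =
      c.U.Φ (pt c.U c.x w v) (c.th k b1 b2 z) := by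
  rw [pt_th]
  cases b1 <;> cases b2
  · exact congrArg (c.U.Φ · z) (funext fun y => by cases y <;> rfl)
  · exact h.s2.Φ 0 _ z
  · exact h.s1.Φ k _ z
  · refine Eq.trans ?_ ((h.s2.Φ 0 (Ft.pm (c.τ k) (pt c.U c.x w v)) z).trans (h.s1.Φ k _ _))
    exact congrArg (c.U.Φ · z) (funext fun y => by cases y <;> rfl)

theorem p0_th (q : c.CU ⊕ c.L → ℝ) :
    c.T.p0 c.j.succ (co (Ft.pm (c.th k b1 b2) q)) = c.T.p0 c.j.succ (co q) := by
  funext z
  rcases z with a | ℓ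
  · exact congrArg (fun y => q (.inl y)) (th_inl a)
  · rfl

theorem px_th (q : c.CU ⊕ c.L → ℝ) {l l' : Fin 4} {a : c.C}
    (h : ∀ m, c.th k b1 b2 (.inr (⟨a, m⟩, l)) = .inr (⟨a, m⟩, l')) :
    c.T.px c.j.succ (fun _ => false) l (co (Ft.pm (c.th k b1 b2) q)) (.inl a) =
      c.T.px c.j.succ (fun _ => false) l' (co q) (.inl a) := by
  by_cases m : c.j.succ ∈ c.T.ty a
  · simp only [px, dif_pos m]
    exact congrArg (fun y => q (.inl y)) (h m)
  · simp only [px, dif_neg m]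
    exact congrArg (fun y => q (.inl y)) (th_inl a)

theorem px2_th (q : c.CU ⊕ c.L → ℝ) :
    c.T.px c.j.succ (fun _ => false) 2 (co (Ft.pm (c.th k b1 b2) q)) =
      c.T.px c.j.succ (fun _ => false) (bif b2 then 3 else 2) (co q) := by
  funext z
  rcases z with a | ℓ
  · exact px_th q fun _ => th_2 _
  · rfl

variable {ε : ℝ} {h κ : ℕ}

theorem Ok.fn_eq (o : c.Ok ε h κ) {w : Gd.Lv c.T} (m : c.j.succ ∈ c.T.ty w.1)
    {t : Pt (Fin (d + 2))} {e : ℕ} (a : (c.e w).1.2 ⊆ lA c.o.Q c.j t (some e)) :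
    (c.fn w.1 : ℕ) = e := by
  rw [← o.emb.ty] at m
  obtain ⟨_ | ⟨i, n⟩, b, f⟩ := mem_image.1 m
  · exact (Fin.succ_ne_zero _ f.symm).elim
  · obtain rfl : i = c.j := Fin.succ_inj.1 f
    rw [o.fn w n b]
    exact mem_lA (a b)

theorem rx0_th (o : c.Ok ε h κ) (q : c.CU ⊕ c.L → ℝ) (F : c.P.C)
    (t : Pt (Fin (d + 2))) (e : ℕ) : c.rx (co (Ft.pm (c.th k b1 b2) q)) 0 F t e =
      c.rx (co q) (bif (if e = k then b1 else false) then 1 else 0) F t e := by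
  refine o.rd_loc _ _ (fun w a => px_th q fun m => ?_) fun _ _ => rfl
  rw [th_0, ← o.fn_eq m a]
  by_cases f : c.fn w.1 = k
  · cases b1 <;> simp [f]
  · simp [f, Fin.val_inj]

/-- **the backgrounds of the copies** -/
theorem bg_th (o : c.Ok ε h κ) (w : c.CU → ℤ) (v : ℕ → c.CU → ℤ) (g : ℕ → ℕ)
    {D D' : Finset (Pt (Fin (d + 2)))} {y : c.P.Cw (SD s D)} {y' : c.P.Cw (SD s D')}
    (hF : y'.1.1 = y.1.1) (h1 : Br.Wd.tr y'.1.2 1 = (Br.Wd.tr y.1.2 1).map g)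
    (h2 : ∀ i, i ≠ 0 → i ≠ 1 → i ≠ c.j.succ.succ → Br.Wd.tr y'.1.2 i = Br.Wd.tr y.1.2 i)
    (h3 : Br.Wd.tr y'.1.2 c.j.succ.succ = (Br.Wd.tr y.1.2 c.j.succ.succ).map (cp c.o.Q k b1 b2))
    (h4 : ∀ n, Br.Wd.tr y.1.2 c.j.succ.succ = some n → n ≤ c.o.Q) :
    c.bg k w v y' = c.bg k (w ∘ c.th k b1 b2) (fun i => v (g i) ∘ c.th k b1 b2) y := by
  have p : c.pp (w ∘ c.th k b1 b2) (fun i => v (g i) ∘ c.th k b1 b2) (Br.Wd.tr y.1.2) =
      co (Ft.pm (c.th k b1 b2) (pt c.U c.x w ((Br.Wd.tr y'.1.2 1).elim 0 v))) := by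
    rw [← pt_th, h1, pp]
    cases Br.Wd.tr y.1.2 1 <;> rfl
  have l := lA_eq c.o.Q c.j h1 h2
  have r0 : ∀ q e, c.r0 (co (Ft.pm (c.th k b1 b2) q)) y.1.1 (Br.Wd.tr y.1.2) e =
      c.r0 (co q) y'.1.1 (Br.Wd.tr y'.1.2) e := fun q e => by
    rw [Hc.r0, Hc.r0, p0_th, l, hF]
  have r2 : ∀ q e, c.rx (co (Ft.pm (c.th k b1 b2) q)) 2 y.1.1 (Br.Wd.tr y.1.2) e =
      c.rx (co q) (bif b2 then 3 else 2) y'.1.1 (Br.Wd.tr y'.1.2) e := fun q e => by
    rw [Hc.rx, Hc.rx, px2_th, l, hF]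
  have r1 : ∀ q e, c.rx (co (Ft.pm (c.th k b1 b2) q)) 0 y.1.1 (Br.Wd.tr y.1.2) e =
      c.rx (co q) (bif (if e = k then b1 else false) then 1 else 0) y'.1.1 (Br.Wd.tr y'.1.2) e :=
    fun q e => by rw [rx0_th o, Hc.rx, Hc.rx, l, hF]
  unfold bg
  dsimp only
  rw [p, h3]
  rcases e : Br.Wd.tr y.1.2 c.j.succ.succ with _ | n
  · exact (r0 _ _).symm
  · have n1 := h4 n e
    simp only [Option.map_some, Option.elim_some, cp_mod b1 b2 n1, cp_cb b1 b2 n1, cb_le n1,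
      Nat.mod_eq_of_lt (Nat.lt_succ_of_le n1), cond_false, r0, r1, r2]
    by_cases a : n = k
    · simp only [a, if_true, pp]
    · simp only [a, if_false, cond_false, pp]

end Hc

end Crest.Agent.N49.He

end
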