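import Crest.Agent.N49.He.Prd
import Crest.Agent.N49.He.Sk0

/-!
# Row 49 (helper89): bounds, moments and the variance of the total masses
-/

set_option autoImplicit false
set_option linter.unusedSectionVars false

open Finset Matrix

noncomputable section

namespace Crest.Agent.N49.He

open Po Tw Br Rm Rm.TT Ft Md Sd

namespace Vr

theorem sm {X : Type} {m N : X → ℝ} {B b : ℝ} (m0 : ∀ v, 0 ≤ m v) (h : Summable m)
    (hB : ∑' v, m v ≤ B) (b0 : 0 ≤ b) (hN : ∀ v, |N v| ≤ b) :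
    (Summable fun v => m v * N v) ∧ |∑' v, m v * N v| ≤ B * b := by
  have e : ∀ v, ‖m v * N v‖ ≤ m v * b := fun v => by
    rw [norm_mul, Real.norm_of_nonneg (m0 v)]; exact mul_le_mul_of_nonneg_left (hN v) (m0 v)
  exact ⟨.of_norm_bounded (h.mul_right b) e,
    (tsum_of_norm_bounded (h.hasSum.mul_right b) e).trans (mul_le_mul_of_nonneg_right hB b0)⟩

/-- the variance from three moments -/
theorem var {L C X : Type} [Fintype L] [DecidableEq L] [Fintype C] [DecidableEq C] {U : TT L C}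
    (h : U.Ok) {m N : (C → ℤ) → X → ℝ} {B b η : ℝ} (m0 : ∀ w v, 0 ≤ m w v)
    (hm : ∀ w, Summable (m w) ∧ ∑' v, m w v ≤ B) (hN : ∀ w v, 0 ≤ N w v ∧ N w v ≤ b) (b0 : 0 ≤ b)
    (hJ : ∀ r ≤ 2, |U.Ex (fun w => ∑' v, m w v * N w v ^ r) - 1| ≤ η) :
    U.Ex (fun w => ∑' v, m w v * (N w v - 1) ^ 2) ≤ 4 * η := by
  have s : ∀ r w, (Summable fun v => m w v * N w v ^ r) ∧ |∑' v, m w v * N w v ^ r| ≤ B * b ^ r :=
    fun r w => sm (m0 w) (hm w).1 (hm w).2 (pow_nonneg b0 r) fun v => by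
      rw [abs_of_nonneg (pow_nonneg (hN w v).1 r)]; exact pow_le_pow_left₀ (hN w v).1 (hN w v).2 r
  have e : ∀ w, ∑' v, m w v * (N w v - 1) ^ 2 = (∑' v, m w v * N w v ^ 2 + ∑' v, m w v * N w v ^ 0)
      + -2 * ∑' v, m w v * N w v ^ 1 := fun w => by
    rw [← tsum_mul_left, ← (s 2 w).1.tsum_add (s 0 w).1,
      ← ((s 2 w).1.add (s 0 w).1).tsum_add ((s 1 w).1.mul_left _)]
    exact tsum_congr fun v => by ring
  rw [funext e, h.Ex_add (fun w => (abs_add_le _ _).trans (add_le_add (s 2 w).2 (s 0 w).2))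
    (B' := 2 * (B * b ^ 1)) fun w => by
      rw [abs_mul, abs_neg, abs_two]; exact mul_le_mul_of_nonneg_left (s 1 w).2 zero_le_two,
    h.Ex_add (fun w => (s 2 w).2) fun w => (s 0 w).2, Ex_smul]
  linarith [abs_le.1 (hJ 0 (by omega)), abs_le.1 (hJ 1 (by omega)), abs_le.1 (hJ 2 le_rfl)]
end Vr

namespace Hc
variable {s d : ℕ} {c : Hc s d}

/-- the weights of a direction are uniformly summable -/
theorem mu_bd (o : c.U.Ok) (hl : ∀ w, 0 ≤ c.lam w) (S : Finset c.L) :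
    ∃ B, ∀ w, Summable (c.mu S w) ∧ ∑' n, c.mu S w n ≤ B := by
  obtain ⟨B, h⟩ := tri_bd (fun z : c.XW S => #(c.U.ty z.1)) (c.AX S)
    (inj_sub o.Am_inj _ (xw_blk o S))
    (fun z z' n => by_contra fun q => n (congrArg card (Am_ty o q))) (fun z => c.lu z.1)
    (fun _ => 1) (fun z => lu_nonneg hl _) fun _ => one_pos
  exact ⟨B, fun w => h (fun n z => c.U.Φ (pt c.U c.x w (ex c.U S c.x n)) z.1) fun n n' z e =>
    phi_tri o w n n' z fun z' k => e z' (card_lt_card k)⟩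

/-- the weights of the hidden words are uniformly summable -/
theorem hw_bd {D : Finset (Br.Pt (Fin (d + 2)))} (hD : Dc D) (hδ : ∀ F, 0 ≤ c.δ F)
    {V : Br.Wd s D → ℝ} (hV : ∀ w, 0 < V w) : ∃ B, ∀ (x : c.P.Cw (SD s D) → ℝ) b,
      (Summable fun z : HW s c.P D → ℤ => ∏ y : HW s c.P D, ga (c.δ y.1.1.1) (V y.1.1.2)
        ((c.P.sh (SD s D)).u (zc (Sd.gl c.P (SD s D) _ z b)) y.1 - x y.1)) ∧
      hs s c.P D c.δ V x b (fun _ => 1) ≤ B := by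
  have t := c.sh_tri hD
  obtain ⟨B, h⟩ := tri_bd (fun z : HW s c.P D => (c.P.sh (SD s D)).lev z.1) (c.AH D)
    (inj_sub (mulVec_injective_iff_isUnit.2 ((isUnit_iff_isUnit_det _).2 t.unit)) _ (hw_blk hD))
    (fun z z' n => if_neg n) (fun z => c.δ z.1.1.1) (fun z => V z.1.1.2) (fun _ => hδ _)
    fun _ => hV _
  refine ⟨B, fun x b => ?_⟩
  simp only [hs, mul_one]
  refine h (fun z y => (c.P.sh (SD s D)).u (zc (Sd.gl c.P (SD s D) (fun w => ¬ Sd.kw w) z b)) y.1 -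
    x y.1) fun n n' z e => ?_
  exact (sub_right_comm _ _ _).trans ((congrArg (· - x z.1) (u_tri hD b n n' z e)).trans
    (sub_right_comm _ _ _))

theorem hs_bd {D : Finset (Br.Pt (Fin (d + 2)))} (hD : Dc D) (hδ : ∀ F, 0 ≤ c.δ F)
    {V : Br.Wd s D → ℝ} (hV : ∀ w, 0 < V w) :
    ∃ B, 0 ≤ B ∧ ∀ x b, hs s c.P D c.δ V x b (fun _ => 1) ≤ B :=
  (hw_bd hD hδ hV).imp fun _ h => ⟨(hs_nonneg hδ V 0 0).trans (h 0 0).2, fun x b => (h x b).2⟩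

/-- several directions -/
theorem mus_bd (o : c.U.Ok) (hl : ∀ w, 0 ≤ c.lam w) (S : Finset c.L) (r : ℕ) :
    ∃ B, ∀ w, (Summable fun n : Fin r → c.XW S → ℤ => ∏ i, c.mu S w (n i)) ∧
      ∑' n : Fin r → c.XW S → ℤ, ∏ i, c.mu S w (n i) ≤ B := by
  obtain ⟨B, h⟩ := mu_bd o hl S
  refine ⟨∏ _i : Fin r, B, fun w => ?_⟩
  have := Gw.hasSum_pi_prod (fun _ : Fin r => c.mu S w) fun _ => (h w).1
  exact ⟨this.summable, this.tsum_eq.trans_le (prod_le_prod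
    (fun _ _ => tsum_nonneg (mu_nonneg hl S w)) fun _ _ => (h w).2)⟩

variable {k : Fin c.o.Q} {r r' : ℕ} {al : ℕ → ℕ → Bool} {Γ Δ : Finset Bool}

theorem tm_nonneg (hδ : ∀ F, 0 ≤ c.δ F) (hl : ∀ w, 0 ≤ c.lam w) (V x w) :
    0 ≤ c.tm k r r' al Γ Δ V x w := tsum_nonneg fun _ =>
  mul_nonneg (prod_nonneg fun _ _ => mu_nonneg hl _ _ _) (hs_nonneg hδ _ _ _)

/-- the total masses converge and are bounded -/
theorem tm_bd (o : c.U.Ok) (hδ : ∀ F, 0 ≤ c.δ F) (hl : ∀ w, 0 ≤ c.lam w)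
    {V : Br.Wd s (DD c.o.Q c.j k r r' al Γ Δ) → ℝ} (hV : ∀ w, 0 < V w) : ∃ B, ∀ x w,
      (Summable fun n : Fin r' → c.XW (c.Sx k Γ Δ) → ℤ => (∏ i, c.mu _ w (n i)) *
        hs s c.P _ c.δ V x (c.bg k w (c.vs _ n)) fun _ => 1) ∧ c.tm k r r' al Γ Δ V x w ≤ B := by
  obtain ⟨B, h⟩ := mus_bd o hl (c.Sx k Γ Δ) r'
  obtain ⟨b, b0, hb⟩ := hs_bd Pd.dc_DD hδ hV
  refine ⟨B * b, fun x w => ?_⟩
  have := Vr.sm (fun _ => prod_nonneg fun _ _ => mu_nonneg hl _ _ _) (h w).1 (h w).2 b0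
    fun n => (abs_of_nonneg (hs_nonneg hδ V x (c.bg k w (c.vs _ n)))).trans_le (hb _ _)
  exact ⟨this.1, (le_abs_self _).trans this.2⟩

/-- **moments** -/
theorem mom (o : c.U.Ok) (hδ : ∀ F, 0 ≤ c.δ F) (hl : ∀ w, 0 ≤ c.lam w)
    (ha : ∀ o n, al o n ↔ n / 2 = o) {V : Br.Wd s (c.DO k Γ Δ) → ℝ} (hV : ∀ w, 0 < V w) (x)
    (hJ : c.U.Ex (c.tm k r (2 * r) al Γ Δ (c.Vc k r _ al Γ Δ V) (c.xc k r _ al Γ Δ x)) ≤ 2) :
    Mo c.U r (c.tm k 1 2 (fun _ _ => true) Γ Δ V x) :=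
  ⟨(tm_bd o hδ hl hV).imp fun _ h w => (h x w).2, by simpa only [tm_pow hδ hl ha] using hJ⟩

theorem tm_two (hδ : ∀ F, 0 ≤ c.δ F) (V : Br.Wd s (c.DO k Γ Δ) → ℝ) (x) (r : ℕ) (w : c.CU → ℤ) :
    c.tm k r 2 (fun _ _ => true) Γ Δ (c.Vc k r 2 _ Γ Δ V) (c.xc k r 2 _ Γ Δ x) w =
      ∑' n : Fin 2 → c.XW (c.Sx k Γ Δ) → ℤ, (∏ i, c.mu _ w (n i)) *
        hs s c.P _ c.δ V x (c.bg k w (c.vs _ n)) (fun _ => 1) ^ r :=
  tsum_congr fun _ => congrArg _ (hs_sq hδ V x w _ r)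

/-- **variance** -/
theorem var (o : c.U.Ok) (hδ : ∀ F, 0 ≤ c.δ F) (hl : ∀ w, 0 ≤ c.lam w)
    {V : Br.Wd s (c.DO k Γ Δ) → ℝ} (hV : ∀ w, 0 < V w) (x) {η : ℝ}
    (hJ : ∀ r ≤ 2, |c.U.Ex (c.tm k r 2 (fun _ _ => true) Γ Δ (c.Vc k r 2 _ Γ Δ V)
      (c.xc k r 2 _ Γ Δ x)) - 1| ≤ η) :
    c.U.Ex (fun w => (∑' n, c.mu (c.Sx k Γ Δ) w n) ^ 2) ≤ 1 + η ∧
    c.U.Ex (fun w => ∑' n : Fin 2 → c.XW (c.Sx k Γ Δ) → ℤ, (∏ i, c.mu _ w (n i)) *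
      (hs s c.P _ c.δ V x (c.bg k w (c.vs _ n)) (fun _ => 1) - 1) ^ 2) ≤ 4 * η := by
  obtain ⟨B, h⟩ := mus_bd o hl (c.Sx k Γ Δ) 2
  obtain ⟨b, b0, hb⟩ := hs_bd Pd.dc_DD hδ hV
  simp only [funext (tm_two hδ V x _)] at hJ
  refine ⟨?_, Vr.var o (fun _ _ => prod_nonneg fun _ _ => mu_nonneg hl _ _ _) h
    (fun _ _ => ⟨hs_nonneg hδ _ _ _, hb _ _⟩) b0 hJ⟩
  have := (abs_le.1 (hJ 0 (by omega))).2
  simp only [pow_zero, mul_one, fun w => Pd.tsum_pi (fun _ : Fin 2 => c.mu (c.Sx k Γ Δ) w)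
    fun _ => mu_nonneg hl _ w, Fin.prod_const] at this
  linarith
end Hc

end Crest.Agent.N49.He

end
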