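import Crest.Agent.N49.He.Dc
import Crest.Agent.N49.He.As1
import Crest.Agent.N49.He.Cpy
import Crest.Agent.N49.He.Var

/-!
# Row 49 (helper89): moments are masses
-/

set_option autoImplicit false
set_option linter.unusedSectionVars false

open Finset

noncomputable section

namespace Crest.Agent.N49.He

open Po Tw Br Rm Rm.TT Ft Md Sd As

namespace Mm
variable {d Q : ℕ} {j : Fin d} {k : ℕ} {Γ Δ : Finset Bool}

variable (Q j) in
/-- forget the copies -/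
def fg (i : Fin (d + 2)) (n : ℕ) : ℕ := if i = j.succ.succ then n % (Q + 1) else n

variable (Q j k Γ Δ) in
theorem fg_mem : ∀ t ∈ DD Q j k 1 2 (fun _ _ => true) Γ Δ, Br.cm (fg Q j) t ∈ D1 Q j :=
  fun t m => Br.mem_grid.2 fun i n e => by
    obtain ⟨n', e', rfl⟩ := Option.map_eq_some_iff.1 e
    by_cases z : i = j.succ.succ
    · subst z
      rw [qq_j, fg, if_pos rfl]; exact Nat.mod_lt _ Q.succ_pos
    · rw [fg, if_neg z]
      exact (Br.mem_grid.1 (mem_DD.1 m).1 i n' e').trans_eq (qq_ne z)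

theorem fg_ul {t : Br.Pt (Fin (d + 2))} (m : t ∈ D1 Q j) (b : Bool) :
    Br.cm (fg Q j) (ul Q j b t) = t := funext fun i => by
  by_cases z : i = j.succ.succ
  · subst z
    rw [Br.cm, ul_j]
    rcases e : t j.succ.succ with _ | n
    · rfl
    · exact congrArg some ((if_pos rfl).trans (cb_add (lt_j m e)).2)
  · rw [Br.cm, ul_ne z, show fg Q j i = id from funext fun n => if_neg z, Option.map_id]; rfl
end Mm
open Mm

namespace Hc
variable {s d : ℕ} (c : Hc s d) (k : Fin c.o.Q) (Γ Δ : Finset Bool)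

/-- the variances of the copies -/
def Vk9 (V : Br.Wd s (D1 c.o.Q c.j) → ℝ) (w : Br.Wd s (c.DK k Γ Δ)) : ℝ :=
  V (Br.pw _ (fg_mem c.o.Q c.j k Γ Δ) w)
/-- the offsets of the copies -/
def xk9 (x : c.P.Cw (SD s (D1 c.o.Q c.j)) → ℝ) (q : c.P.Cw (SD s (c.DK k Γ Δ))) : ℝ :=
  x (Pd.cp c.P _ (fg_mem c.o.Q c.j k Γ Δ) q)

variable {c k Γ Δ}
/-- the directions of a configuration with copies -/
def vY9 (Y : c.E' k Γ Δ → ℤ) : ℕ → c.CU → ℤ := c.vs (c.Sx k Γ Δ) fun (i : Fin 2) z => Y (.inl (i, z))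
/-- its configuration on the ring -/
def cY9 (w : c.CU → ℤ) (Y : c.E' k Γ Δ → ℤ) : c.P.Cw (SD s (c.DK k Γ Δ)) → ℤ :=
  Sd.gl c.P (SD s (c.DK k Γ Δ)) (fun w => ¬ Sd.kw w) (fun z => Y (.inr z)) (c.bg k w (vY9 Y))
/-- the factors of its weight -/
def oY9 (V : Br.Wd s (D1 c.o.Q c.j) → ℝ) (x : c.P.Cw (SD s (D1 c.o.Q c.j)) → ℝ) (w : c.CU → ℤ)
    (Y : c.E' k Γ Δ → ℤ) : c.E' k Γ Δ → ℝ
  | .inl z => ga (c.lu z.2.1) 1 (c.U.Φ (pt c.U c.x w (vY9 Y z.1)) z.2.1)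
  | .inr z => ga (c.δ z.1.1.1) (c.Vk9 k Γ Δ V z.1.1.2)
      ((c.P.sh _).u (zc (cY9 w Y)) z.1 - c.xk9 k Γ Δ x z.1)

theorem th_tx9 (h : c.SW) (b1 b2 : Bool) {z : c.CU} (m : Disjoint (c.U.ty z) c.S5) :
    c.th k b1 b2 z = tx c.U c.sl c.τ c.σ k (![false, b1, b2] (cx c.U c.sl c.tl k z)) z := by
  rw [dis_S5] at m
  unfold cx
  split_ifs with a a'
  · have := h.s2.fix 0 z (h.dis _ _ _ _ a) m.1
    cases b1 <;> cases b2 <;> simp [th, tx, a, this]
  · have e := h.s1.fix k z a (m.2 k)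
    have e' := h.s1.fix k (c.σ z) (mt (s_σ h).1 a) (mt (s_σ h).1 (m.2 k))
    cases b1 <;> cases b2 <;> simp [th, tx, a, e, e']
  · have e := h.s1.fix k z a (m.2 k)
    have e' := h.s2.fix 0 z a' m.1
    cases b1 <;> cases b2 <;> simp [th, tx, e, e']

theorem pt_congr9 (w : c.CU → ℤ) {v v' : c.CU → ℤ} {z : c.CU} (e : c.x ∈ c.U.ty z → v z = v' z) :
    pt c.U c.x w v (.inl z) = pt c.U c.x w v' (.inl z) := by
  by_cases a : c.x ∈ c.U.ty z
  · simp only [pt, jr, dif_pos a, e a]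
  · simp only [pt, jr, dif_neg a]

theorem dis_inl9 (a : c.C) : Disjoint (c.U.ty (.inl a)) c.S5 := by
  rw [dis_S5]; simp [RF, Ft.sl, He.tl]

theorem dis_inr9 (a : c.T.Bl c.j.succ) {l : Fin 4} (hl : l = 0 ∨ l = 2) :
    Disjoint (c.U.ty (.inr (a, l))) c.S5 := by
  rw [dis_S5]; rcases hl with rfl | rfl <;> simp [RF, Ft.sl, He.tl]

/-- the background of the system reads only the words that miss the second letters -/
theorem bg_loc9 (w : c.CU → ℤ) {v v' : ℕ → c.CU → ℤ}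
    (e : ∀ i < 2, ∀ z, Disjoint (c.U.ty z) c.S5 → c.x ∈ c.U.ty z → v i z = v' i z)
    (q : c.P.Cw (SD s (D1 c.o.Q c.j))) : c.bg k w v q = c.bg k w v' q := by
  have a : ∀ z, Disjoint (c.U.ty z) c.S5 → c.pp w v (Br.Wd.tr q.1.2) (.inl z) =
      c.pp w v' (Br.Wd.tr q.1.2) (.inl z) := fun z m => pt_congr9 w fun p => by
    rcases f : Br.Wd.tr q.1.2 1 with _ | i
    · rfl
    · exact e i (by simpa [qq] using Br.mem_grid.1 (Br.Wd.mem q.1.2) 1 i f) z m p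
  have a0 : c.T.p0 c.j.succ (c.pp w v (Br.Wd.tr q.1.2)) =
      c.T.p0 c.j.succ (c.pp w v' (Br.Wd.tr q.1.2)) := funext fun y => by
    rcases y with y | y
    exacts [a _ (dis_inl9 y), rfl]
  have a1 : ∀ l : Fin 4, l = 0 ∨ l = 2 → c.T.px c.j.succ (fun _ => false) l
      (c.pp w v (Br.Wd.tr q.1.2)) = c.T.px c.j.succ (fun _ => false) l
      (c.pp w v' (Br.Wd.tr q.1.2)) := fun l hl => funext fun y => by
    rcases y with y | y
    · simp only [px]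
      split_ifs
      exacts [a _ (dis_inr9 _ hl), a _ (dis_inl9 y)]
    · rfl
  unfold bg
  dsimp only
  rcases f : Br.Wd.tr q.1.2 c.j.succ.succ with _ | n
  · simp only [Option.elim_none, r0, a0]
  · simp only [Option.elim_some, cb_le (Nat.le_of_lt_succ (lt_j (Br.Wd.mem q.1.2) f)), cond_false,
      r0, rx, a0, a1 0 (.inl rfl), a1 2 (.inr rfl)]

variable {ε : ℝ} {h κ : ℕ}

/-- **the factors of the copies** -/
theorem om_up9 (l : LOC s d) (o : c.Ok ε h κ) (V x w) (Y : c.E' k Γ Δ → ℤ) (b1 b2 : Bool) (i : Fin 3)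
    (y : c.E → ℤ) (hy : ∀ e, c.cls k e = 0 ∨ c.cls k e = i →
      ∃ m, y e = Y (up o.sw2 e (![false, b1, b2] (c.cls k e)) m)) (e : c.E) (he : c.cls k e = i)
    (m : ![false, b1, b2] (c.cls k e) ∈ al Γ Δ (c.cls k e)) :
    c.om k V x (w ∘ c.th k b1 b2) y e = oY9 V x w Y (up o.sw2 e _ m) := by
  let y' : c.E → ℤ := Sum.elim (fun z => vY9 Y z.1 (c.th k b1 b2 z.2.1)) fun z => y (.inr z)
  have a0 : ∀ z : c.XW c.S5, Disjoint (c.U.ty z.1) c.S5 := fun z => (mem_dls.1 z.2).2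
  have a1 : ∀ i < 2, ∀ z, Disjoint (c.U.ty z) c.S5 → c.x ∈ c.U.ty z →
      c.vy y' i z = vY9 Y i (c.th k b1 b2 z) := fun i hi z a a' =>
    (congrFun (vy_eq y' ⟨i, hi⟩) z).trans (dif_pos (mem_dls.2 ⟨a', a⟩))
  rw [(l c ε h κ k V x _ (w ∘ c.th k b1 b2) y y' i o (fun z a => ?_) fun _ _ _ _ => rfl).1 e (.inr he)]
  · rcases e with z | z
    · have := th_tx9 (k := k) o.sw2 b1 b2 (a0 z.2)
      refine congrArg₂ (ga · 1 ·) ((lu_th _).symm.trans (congrArg c.lu this)) ?_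
      refine Eq.trans ?_ ((Φ_th o.sw2 w (vY9 Y z.1) z.2.1).trans (congrArg _ this))
      refine (o.U.dat _ ⟨_, (mem_dls.1 z.2.2).1⟩).1 _ _ ?_
      rintro (t | t) a -
      · exact pt_congr9 _ (a1 _ z.1.2 t ((a0 z.2).mono_left a))
      · rfl
    · have f : Pd.cp c.P _ (fg_mem c.o.Q c.j k Γ Δ) (uw _ z.1 m) = z.1 :=
        Pd.cw_ext rfl (fg_ul (Br.Wd.mem z.1.1.2) _)
      refine congr (congrArg (ga _) (congrArg (fun q : c.P.Cw (SD s (D1 c.o.Q c.j)) => V q.1.2) f).symm)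
        (congrArg₂ (· - ·) ?_ (congrArg x f).symm)
      refine u_loc (dc_grid _) Pd.dc_DD rfl bl_ul.symm fun q q' p1 p2 p3 p4 => congrArg Int.cast ?_
      have t : Br.Wd.tr q'.1.2 = ul c.o.Q c.j (![false, b1, b2] (c.cls k (.inr z))) (Br.Wd.tr q.1.2) :=
        p3.eq (p2.cm _) (p4.symm.trans bl_ul.symm)
      have u : ∀ n, Br.Wd.tr q.1.2 c.j.succ.succ = some n →
          c.cls k (.inr z) = if n = k then 1 else 2 := fun n a => by
        exact congrArg (Option.elim · (0 : Fin 3) fun n : ℕ => if n = k then 1 else 2)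
          ((p2 _ (a ▸ Option.some_ne_none n)).symm.trans a)
      have k0 : Sd.kw q'.1.2 ↔ Sd.kw q.1.2 := by rw [Sd.kw, t, ul_0]; rfl
      by_cases n : Sd.kw q.1.2
      · refine (dif_neg (not_not.2 n)).trans (Eq.trans ?_ (dif_neg (not_not.2 (k0.2 n))).symm)
        refine (bg_loc9 _ a1 q).trans (bg_th o w (vY9 Y) id p1.symm (by rw [t, ul_ne j1.symm, Option.map_id]; rfl)
          (fun i _ _ a => by rw [t, ul_ne a]) ?_
          fun n a => Nat.le_of_lt_succ (lt_j (Br.Wd.mem q.1.2) a)).symm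
        rw [t, ul_j]
        rcases a : Br.Wd.tr q.1.2 c.j.succ.succ with _ | n
        · rfl
        · rw [u n a, Option.map_some, Option.map_some, He.cp]
          split_ifs <;> rfl
      · refine (dif_pos n).trans (Eq.trans ?_ (dif_pos (mt k0.1 n)).symm)
        have g : c.cls k (.inr ⟨q, n⟩) = 0 ∧ Br.Wd.tr q.1.2 c.j.succ.succ = none ∨
            c.cls k (.inr ⟨q, n⟩) = c.cls k (.inr z) := by
          rcases a : Br.Wd.tr q.1.2 c.j.succ.succ with _ | n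
          · exact .inl ⟨congrArg (Option.elim · (0 : Fin 3) fun n : ℕ => if n = k then 1 else 2) a, rfl⟩
          · exact .inr ((congrArg (Option.elim · (0 : Fin 3) fun n : ℕ => if n = k then 1 else 2) a).trans
              (u _ a).symm)
        obtain ⟨m', a⟩ := hy (.inr ⟨q, n⟩) (g.imp And.left (·.trans he))
        refine a.trans (congrArg Y (congrArg Sum.inr (Subtype.ext (Pd.cw_ext p1 (Eq.trans ?_ t.symm)))))
        show ul _ _ (![false, b1, b2] (c.cls k (.inr ⟨q, n⟩))) (Br.Wd.tr q.1.2) = _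
        rcases g with g | g
        · funext i
          by_cases a : i = c.j.succ.succ
          · rw [a, ul_j, ul_j, g.2]; rfl
          · rw [ul_ne a, ul_ne a]
        · rw [g]
  · rcases z with z | z
    · obtain ⟨m', a⟩ := hy _ a
      refine a.trans (Eq.symm ?_)
      show vY9 Y z.1 (c.th k b1 b2 z.2.1) = _
      rw [th_tx9 o.sw2 b1 b2 (a0 z.2), vY9, vs, dif_pos z.1.2]
      exact dif_pos (tx_mem o.sw2 z.2.2 m')
    · rfl

/-- **the weight of a configuration with copies** -/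
theorem wt_cb9 (l : LOC s d) (o : c.Ok ε h κ) (a b R V x w) (Y : c.E' k Γ Δ → ℤ) :
    (c.sys k a b R V x).ϖ w (cb' o.sw2 Y).1 * ((∏ t : Γ, (c.sys k a b R V x).la
      (bif t.1 then w ∘ c.τ k else w) (cb' o.sw2 Y).1 ((cb' o.sw2 Y).2.1 t)) *
      ∏ t : Δ, (c.sys k a b R V x).ka (bif t.1 then w ∘ c.σ else w) (cb' o.sw2 Y).1
        ((cb' o.sw2 Y).2.2 t)) = ∏ y, oY9 V x w Y y := by
  have u : ∀ e (b b' : Bool) m (_ : b = b'), ∃ m', up (Γ := Γ) (Δ := Δ) o.sw2 e b m =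
      up (k := k) o.sw2 e b' m' := fun e b b' m p => p ▸ ⟨m, rfl⟩
  have z0 : ∀ b1 b2 α β e, c.cls k e = 0 → ∃ m, c.as (cb' o.sw2 Y).1 α β e =
      Y (up o.sw2 e (![false, b1, b2] (c.cls k e)) m) := fun b1 b2 α β e p =>
    (u e false _ _ (by rw [p]; rfl)).imp fun _ f => (c.as0 _ α β ⟨e, p⟩).trans (congrArg Y f)
  rw [prod_wf o.sw2]
  refine congrArg₂ (· * ·) (prod_congr rfl fun e _ => ?_) (congrArg₂ (· * ·)
    (prod_congr rfl fun t _ => prod_congr rfl fun e _ => ?_)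
    (prod_congr rfl fun t _ => prod_congr rfl fun e _ => ?_))
  · obtain ⟨m, f⟩ := u e.1 false (![false, false, false] (c.cls k e.1)) _ (by rw [e.2]; rfl)
    exact (om_up9 l o V x w Y false false 0 _ (fun e p => z0 _ _ _ _ e (p.elim id id)) e.1 e.2
      m).trans (congrArg _ f.symm)
  · obtain ⟨m, f⟩ := u e.1 t.1 (![false, t.1, false] (c.cls k e.1)) _ (by rw [e.2]; rfl)
    rw [bif_τ]
    exact (om_up9 l o V x w Y t.1 false 1 _ (fun e p => p.elim (z0 _ _ _ _ e) fun p =>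
      (u e t.1 _ _ (by rw [p]; rfl)).imp fun _ f => (c.as1 _ _ _ ⟨e, p⟩).trans (congrArg Y f))
      e.1 e.2 m).trans (congrArg _ f.symm)
  · obtain ⟨m, f⟩ := u e.1 t.1 (![false, false, t.1] (c.cls k e.1)) _ (by rw [e.2]; rfl)
    rw [bif_σ]
    exact (om_up9 l o V x w Y false t.1 2 _ (fun e p => p.elim (z0 _ _ _ _ e) fun p =>
      (u e t.1 _ _ (by rw [p]; rfl)).imp fun _ f => (c.as2 _ _ _ ⟨e, p⟩).trans (congrArg Y f))
      e.1 e.2 m).trans (congrArg _ f.symm)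

variable (c k Γ Δ) in
/-- directions and hidden words -/
def eY9 : (Fin 2 → c.XW (c.Sx k Γ Δ) → ℤ) × (HW s c.P (c.DK k Γ Δ) → ℤ) ≃ (c.E' k Γ Δ → ℤ) where
  toFun q := Sum.elim (fun z => q.1 z.1 z.2) q.2
  invFun Y := (fun i z => Y (.inl (i, z)), fun z => Y (.inr z))
  left_inv _ := rfl
  right_inv _ := funext fun y => by cases y <;> rfl

theorem prod_oY9 (V x w) (n : Fin 2 → c.XW (c.Sx k Γ Δ) → ℤ) (z : HW s c.P (c.DK k Γ Δ) → ℤ) :
    ∏ y, oY9 V x w (c.eY9 k Γ Δ (n, z)) y = (∏ i, c.mu _ w (n i)) *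
      ∏ y : HW s c.P (c.DK k Γ Δ), ga (c.δ y.1.1.1) (c.Vk9 k Γ Δ V y.1.1.2) ((c.P.sh _).u (zc
        (Sd.gl c.P (SD s (c.DK k Γ Δ)) (fun w => ¬ Sd.kw w) z (c.bg k w (c.vs _ n)))) y.1 -
          c.xk9 k Γ Δ x y.1) := by
  rw [Fintype.prod_sum_type, Fintype.prod_prod_type]
  refine congrArg₂ (· * ·) (prod_congr rfl fun i _ => prod_congr rfl fun y _ => ?_) rfl
  exact congrArg (fun v => ga _ 1 (c.U.Φ (pt c.U c.x w v) y.1)) (dif_pos i.2)

/-- **the mass with copies** -/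
theorem N_tm9 (l : LOC s d) (o : c.Ok ε h κ) {a b R V x} (p : (c.sys k a b R V x).Ok) (w) :
    (c.sys k a b R V x).N (· ∘ c.τ k) (· ∘ c.σ) Γ Δ w =
      c.tm k 1 2 (fun _ _ => true) Γ Δ (c.Vk9 k Γ Δ V) (c.xk9 k Γ Δ x) w := by
  have := ((c.eY9 k Γ Δ).trans (cb' o.sw2)).hasSum_iff.2 (p.hs_N (· ∘ c.τ k) (· ∘ c.σ) Γ Δ w)
  have e := (congrArg (HasSum · _) (funext fun q => (wt_cb9 l o a b R V x w (c.eY9 k Γ Δ q)).trans
    (prod_oY9 V x w q.1 q.2))).mp this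
  rw [← e.tsum_eq, e.summable.tsum_prod]
  simp only [tsum_mul_left, tm, hs, mul_one]
end Hc

theorem dmom (s d : ℕ) (l : LOC s d) : MOM s d := fun c _ _ _ k _ _ _ V x r Γ Δ o p =>
  ⟨c.Vc k r _ _ Γ Δ (c.Vk9 k Γ Δ V), c.xc k r _ _ Γ Δ (c.xk9 k Γ Δ x), fun _ => ⟨_, rfl⟩, fun w => by
    rw [Hc.N_tm9 l o p]
    exact Hc.tm_pow (fun F => (o.δ.1 F).le) (fun w => (o.l0 w).le) (fun _ _ => decide_eq_true_iff)
      _ _ w⟩

end Crest.Agent.N49.He

end
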