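import Crest.Agent.N49.He.Rt
import Crest.Agent.N49.Sd.Ogc
import Crest.Agent.N49.Sd.Sp
import Crest.Agent.N49.Md.Idf

/-!
# Row 49 (helper36): valid contexts exist
-/

set_option autoImplicit false

open Finset

noncomputable section

namespace Crest.Agent.N49.He

open Tw Br Rm Md Sd Ft

/-- **the hypotheses of `Tr2` give a valid context** -/
theorem ex_hc {s d : ℕ} {o : Og s d} {ε : ℝ} (ho : o.Ok ε) {C : Type} [Fintype C] [DecidableEq C]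
    {T : TT (Lb d) C} {ι} {S k h : ℕ} (r : Ref S o.cx.SY k C T ι) {f : o.cx.Fr}
    {e : Gd.Lv T → f.X} (hf : f.Ok s h) (tg : Tg o.cx.B bk s f)
    (em : Emb o.cx.B (Wt d o.cx.Q) bk T ι f e) (j : Fin d) {fn : C → Fin o.cx.Q}
    (hn : ∀ (v : Gd.Lv T) t, some (j, t) ∈ (e v).1.2 → fn v.1 = t) (a1 a2 : ℕ) :
    ∃ lam δ, (Hc.mk o C T ι f e j fn a1 a2 lam δ).Ok ε h k := by
  obtain ⟨lam, l0, l1⟩ := ex_lam (B := f.toBs) hf.toOk em.toEm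
  obtain ⟨δ, hδ⟩ := ex_dl (Oc.un_stg o.h.stg o.h.wh).cl.1
  exact ⟨lam, δ, ho, em, r.mor (Sy.sok _ _ _ _ _ _ _ _ _ ho.cx.ok.old.stg (Kx.wf ho.cx).dw
    (Kx.wf ho.cx).inj fun A _ => la_pos ho.cx.ok A).1, hf, tg, hn, l0, l1, hδ⟩

end Crest.Agent.N49.He

end
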