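import Crest.Agent.N49.Sd.Top
import Crest.Agent.N49.Ft.All
import Crest.Agent.N49.Ft.Fine

/-!
# Row 49 (helper27): hereditary rectangles from good transitions
-/

set_option autoImplicit false

open Finset

noncomputable section

namespace Crest.Agent.N49.He

open Tw Br Rm Md Sd Ft

/-- good transitions of a context -/
def Tr2 (s c k0 S h M β : ℕ) {d : ℕ} (x : Kx d) : Prop :=
  ∀ (C' : Type) [Fintype C'] [DecidableEq C'] (T' : TT (Lb d) C') ι (k : ℕ),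
    Ref S x.SY k C' T' ι → k ≤ k0 → ∀ (H1 : Set (C' → ℤ)) (n1 a1 a2 : ℕ) (j : Fin d),
    Ov ι H1 x.H → x.n ≤ n1 → k ≤ n1 → Rm.Sz n1 T' H1 → n1 ^ c ≤ a1 → a1 ≤ a2 →
    (n1 + a2) ^ c ≤ S + 1 → G ((n1 + a2) ^ c) T' → ∀ (f : x.Fr) (e : Gd.Lv T' → f.X), f.Ok s h →
    f.M ≤ M → f.m = 1 → Tg x.B bk s f → f.Rg 1 β (1 / 2 ^ β) (1 / 2 ^ β) →
    Emb x.B (Wt d x.Q) bk T' ι f e → ∀ fn : C' → Fin x.Q,
    (∀ (v : Gd.Lv T') t, some (j, t) ∈ (e v).1.2 → fn v.1 = t) → Fine T' j.succ fn →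
    Trn (RF T' j.succ fn a1 a2) (.inl (.inl 0)) (sl (Lb d) x.Q) (ta T' j.succ fn)
      (fun a => Ft.Gt T' j.succ fun p => x.F a (ι p)) {w | T'.cor j.succ 0 w ∈ H1} (n1 ^ c)

/-- **TRN**: the contexts of the origins have good transitions -/
def TRN2 (s d : ℕ) : Prop := ∃ c : ℕ, 1 ≤ c ∧ ∀ k0 Kt : ℕ, ∃ ε0 : ℝ, 0 < ε0 ∧ ∀ M0 E M1 : ℕ,
  ∃ KH : ℕ, ∀ (ε : ℝ) (o : Og s d), 0 < ε → ε ≤ ε0 → o.Ok ε → o.cx.B.M ≤ M0 →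
    o.cx.B.Rg 1 (o.cx.n ^ KH) (1 / 2 ^ o.cx.n ^ KH) (1 / 2 ^ o.cx.n ^ KH) →
    Tr2 s c k0 (o.cx.n ^ Kt) (o.cx.n ^ E) M1 (o.cx.n ^ KH) o.cx

theorem hr2 {s c k0 S h M β d : ℕ} {x : Kx d} (o : x.Ok s) (c1 : 1 ≤ c) (q1 : 1 ≤ x.Q)
    (q2 : x.Q ≤ x.n) (t : Tr2 s c k0 S h M β x) : Hr s (2 * c + 3) k0 S h M β x := by
  intro C' _ _ T' ι k r hk H1 n1 a1 a2 j hj ov hn kn sz b1 b2 b3 g
  obtain ⟨j, rfl⟩ := Fin.exists_succ_eq.2 hj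
  obtain ⟨f, e, c2, c3, c4, c5, c6, em⟩ := g.hook hk
  have n2 := sz.1
  have p1 : n1 ^ c ≤ n1 ^ (2 * c + 3) := Nat.pow_le_pow_right (by omega) (by omega)
  have p2 : (n1 + a2) ^ c ≤ (n1 + a2) ^ (2 * c + 3) := Nat.pow_le_pow_right (by omega) (by omega)
  have p3 : n1 ≤ n1 ^ c := Nat.le_self_pow (by omega) _
  have p4 : 8 * (n1 ^ c) ^ 2 ≤ n1 ^ (2 * c + 3) := by
    rw [pow_add, mul_comm 2 c, pow_mul, mul_comm]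
    exact Nat.mul_le_mul_left _ (Nat.pow_le_pow_left n2 3)
  have p5 : 4 * n1 ^ c ≤ n1 ^ (2 * c + 3) := by nlinarith
  let cl : Lx d x.Q → Fin x.Q := fun a => a.elim ⟨0, q1⟩ Prod.snd
  have fi := fine (B := f.toBs) em.toEm (Kx.wf o) j.succ cl ⟨0, q1⟩
  have := fatr _ _ _ _ T' j.succ 0 _ a1 a2 (fun a p => x.F a (ι p)) H1 (n1 ^ c) g.ok fi
    (Fin.succ_ne_zero j).symm (by omega) (by omega) (fun a => r.dat (o.dat a))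
    (t C' T' ι k r hk H1 n1 a1 a2 j ov hn kn sz (by omega) b2 (by omega) (g.g p2) f e c2 c3 c4 c5 c6
      em _ (fun v t ht => fnc_eq (B := f.toBs) (Kx.wf o) j.succ cl _ v _ ht rfl) fi)
  refine ((half_anti p4).trans this).trans (TT.pr_sub _ fun w hw => ⟨hw.1, fun a => ?_⟩)
  exact (hw.2 a).mono (pow_le_pow_right₀ one_le_two p5)

/-- **HER from TRN** -/
theorem her2 {s d : ℕ} (h : TRN2 s d) : HER s d := by
  obtain ⟨c, c1, h⟩ := h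
  refine ⟨2 * c + 3, by omega, fun k0 Kt => (h k0 Kt).imp fun ε0 h => ⟨h.1, fun M0 E M1 =>
    (h.2 M0 E M1).imp fun KH h ε o e0 e1 k m r => hr2 k.cx c1 k.Q.1 ?_ (h ε o e0 e1 k m r)⟩⟩
  have := k.Qn
  show o.Q ≤ 2 * o.n
  omega

end Crest.Agent.N49.He

end
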