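import Crest.Agent.N49.He.Rft
import Crest.Agent.N49.Ft.Rfr
import Crest.Agent.N49.Rm.Clm
import Crest.Agent.N49.Rm.Mg2
import Crest.Agent.N49.Rm.Mono

/-!
# Row 49 (helper87): the first set of rectangles
-/

set_option autoImplicit false
set_option linter.unusedSectionVars false

open Finset

noncomputable section

namespace Crest.Agent.N49.He

open Rm Rm.TT Ft

variable {L C : Type} [Fintype L] [DecidableEq L] [Fintype C] [DecidableEq C] {Q : ℕ}

theorem rd_cen {U : TT L C} (o : U.Ok) (S : Finset L) (R : ℝ) :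
    U.Rd S {w | ∀ y, Disjoint (U.ty y) S → |U.Φ (cf w) y| ≤ R} := fun w w' e h y k => by
  rcases (U.ty y).eq_empty_or_nonempty with z | z
  · have := h y k
    rw [o.dead y _ z] at this ⊢
    exact (show cf (L := L) w (.inl y) = cf w' (.inl y) from congrArg Int.cast (e y k)) ▸ this
  · refine (congrArg abs ((o.dat y z).1 (cf w) (cf w') ?_)).symm.trans_le (h y k)
    rintro (v | v) a -
    · exact congrArg Int.cast (e v (k.mono_left a))
    · rfl

theorem card_cc (T : TT L C) (j : L) {n : ℕ} (h : Fintype.card C ≤ 2 ^ n) :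
    Fintype.card (T.CC j (Fin 4)) ≤ 2 ^ (n + 3) := by
  have : Fintype.card (T.Bl j) ≤ Fintype.card C := Fintype.card_subtype_le _
  simp only [Fintype.card_sum, Fintype.card_prod, Fintype.card_fin, pow_add]
  omega

/-- **the first set**: the corner is in `H1`, the words that are read are central -/
theorem sta {T : TT L C} {j x : L} {fn : C → Fin Q} {n m b a1 a2 : ℕ} {H1 : Set (C → ℤ)}
    (z : Sz n T H1) (hL : Fintype.card L ≤ n) (fi : Fine T j fn) (hx : x ≠ j) (g : G b T)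
    (hm : n + 2 ≤ m) (h1 : 4 * n + 40 ≤ a1) (h2 : a1 ≤ a2) (h3 : a2 ≤ b) (h4 : 2 * n + m + 16 ≤ b) :
    ∃ H0 ⊆ {w | T.cor j 0 w ∈ H1}, (RF T j fn a1 a2).Rd (S5 (sl L Q) (tl L Q)) H0 ∧
      (1 / 2 : ℝ) ^ (n + 2) ≤ (RF T j fn a1 a2).pr H0 ∧ ∀ w ∈ H0, ∀ y,
        Disjoint ((RF T j fn a1 a2).ty y) (S5 (sl L Q) (tl L Q)) →
          |(RF T j fn a1 a2).Φ (cf w) y| ≤ (n + 3 : ℕ) + m + 4 := by
  obtain ⟨b', rfl⟩ : ∃ b', b = b' + 1 := ⟨b - 1, by omega⟩
  have o : T.Ok := g.1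
  have oU := Rs.ok (a1 := a1) (a2 := a2) o fi
  have wa : ∀ i : Fin 4, ![a1, a1, a2, a2] i ≤ b' + 1 := fun i => by fin_cases i <;> simp <;> omega
  have gr := (g.2.2.1 j 4 (fun _ => false) _ (by norm_num) wa).ok_sm
  have l2 : n < 2 ^ n := Nat.lt_two_pow_self
  have c1 := (clm0 L C T n (b' + 1) (n + 1) j 4 (fun _ => false) ![a1, a1, a2, a2] H1 z.2.1
    (by omega) (by norm_num) wa (by omega) (mono _ _ _ _ _ _ T le_rfl (by omega) g)).1 ![1, 0, 1, 0]
    fun i _ => ⟨rfl, by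
      have : (2 : ℤ) ^ (2 * n + (n + 1) + 10) ≤ 2 ^ a1 := pow_le_pow_right₀ one_le_two (by omega)
      have : (2 : ℤ) ^ a1 ≤ 2 ^ a2 := pow_le_pow_right₀ one_le_two h2
      fin_cases i <;> simp <;> omega⟩
  have c2 := cen2 _ _ (T.rect j a1 a2) (n + 3) (b' + 1) m (card_cc T j z.2.1) (by
    simp only [Fintype.card_sum, Fintype.card_fin, pow_add]; omega) (by omega) gr.1 gr.2
  have e : ∀ H, (RF T j fn a1 a2).pr H = (T.rect j a1 a2).pr H := fun H => rfl
  refine ⟨{w | T.cor j 0 w ∈ H1} ∩ {w | ∀ y, Disjoint ((RF T j fn a1 a2).ty y)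
    (S5 (sl L Q) (tl L Q)) → |(RF T j fn a1 a2).Φ (cf w) y| ≤ (n + 3 : ℕ) + m + 4},
    Set.inter_subset_left, fun w w' k h => ⟨(rft L C Q T j x fn a1 a2 o fi hx).2 H1 w w' k h.1,
      rd_cen oU _ _ w w' k h.2⟩, le_trans ?_ (oU.pr_inter _ _), fun w h => h.2⟩
  have c3 : (RF T j fn a1 a2).pr {w | ∀ y, Disjoint ((RF T j fn a1 a2).ty y)
      (S5 (sl L Q) (tl L Q)) → |(RF T j fn a1 a2).Φ (cf w) y| ≤ (n + 3 : ℕ) + m + 4}ᶜ ≤
      (1 / 2) ^ m := by
    rw [e]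
    refine le_trans (gr.1.pr_mono ?_) c2
    refine fun w h (k : (T.rect j a1 a2).Cen _ w) => h fun y _ => ?_
    have : co (L := L) (Q := Q) (cf w) = cf w := funext fun v => by cases v <;> rfl
    exact (congrArg (fun p => |(T.rect j a1 a2).Φ p y|) this).trans_le (k y)
  have c4 : (T.cl j (fun _ => false) ![a1, a1, a2, a2]).pr {w | T.posZ j 1 ![1, 0, 1, 0] w ∈ H1} =
    (RF T j fn a1 a2).pr {w | T.cor j 0 w ∈ H1} := rfl
  have c5 := half_anti hm
  have c6 := z.2.2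
  rw [c4] at c1
  rw [pow_succ, pow_succ] at c5 ⊢
  rw [pow_succ] at c1
  linarith [(abs_le.1 c1).1]

end Crest.Agent.N49.He

end
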