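import Crest.Agent.N49.He.Dc
import Crest.Agent.N49.He.Hx2
import Crest.Agent.N49.He.Exc
import Crest.Agent.N49.He.Sta
import Crest.Agent.N49.Sd.Edl

/-!
# Row 49 (helper87): the parameters of the transitions
-/

set_option autoImplicit false

open Finset

noncomputable section

namespace Crest.Agent.N49.He

open Po Tw Br Rm Rm.TT Ft Md Sd

namespace Nm

theorem ev (C K : ℕ) : ∃ q0 : ℕ, ∀ q ≥ q0, C * q ^ K ≤ 2 ^ q := by
  obtain ⟨q0, h⟩ := Filter.eventually_atTop.1 ((tendsto_pow_const_div_const_pow_of_one_lt K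
    (one_lt_two (α := ℝ))).eventually (gt_mem_nhds (show (0 : ℝ) < 1 / (C + 1) by positivity)))
  refine ⟨q0, fun q hq => ?_⟩
  have a := h q hq
  rw [div_lt_div_iff₀ (by positivity) (by positivity)] at a
  have : (C : ℝ) * q ^ K ≤ 2 ^ q := by nlinarith [pow_nonneg (Nat.cast_nonneg (α := ℝ) q) K]
  exact_mod_cast this

theorem ev2 (k0 K : ℕ) : ∃ n0 : ℕ, ∀ n ≥ n0, 9 * 4 ^ k0 * ((2 * n) ^ K + 6) ≤ 2 ^ (n / 4) := by
  obtain ⟨q0, h⟩ := ev (9 * 4 ^ k0 * (7 * 14 ^ K)) K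
  refine ⟨4 * q0 + 4, fun n hn => le_trans ?_ (h (n / 4) (by omega))⟩
  rw [mul_assoc (9 * 4 ^ k0), mul_assoc 7, ← mul_pow]
  have a : (2 * n) ^ K ≤ (14 * (n / 4)) ^ K := Nat.pow_le_pow_left (by omega) _
  have b : 1 ≤ (14 * (n / 4)) ^ K := Nat.one_le_pow _ _ (by omega)
  exact Nat.mul_le_mul_left _ (by omega)

theorem ex_le (y : ℕ) : Real.exp (-(Real.pi * √(y : ℝ) ^ 2)) ≤ 1 / 2 ^ (2 * y) := by
  rw [Real.sq_sqrt (Nat.cast_nonneg y), Real.exp_neg, one_div]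
  refine inv_anti₀ (by positivity) ?_
  calc (2 : ℝ) ^ (2 * y) ≤ Real.exp 1 ^ (2 * y) :=
      pow_le_pow_left₀ (by norm_num) (by linarith [Real.add_one_le_exp 1]) _
    _ = Real.exp ((2 * y : ℕ) * 1) := (Real.exp_nat_mul _ _).symm
    _ ≤ _ := Real.exp_le_exp.2 (by
      push_cast; nlinarith [Real.pi_gt_three, Nat.cast_nonneg (α := ℝ) y])

theorem tail {c x : ℕ} (h : c ≤ 2 ^ (x + 3)) :
    (c : ℝ) * Real.exp (-(Real.pi * √((x + 5 : ℕ) : ℝ) ^ 2)) ≤ (1 / 2) ^ (x + 7) := by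
  have a : (c : ℝ) ≤ 2 ^ (x + 3) := by exact_mod_cast h
  refine (mul_le_mul a (ex_le _) (by positivity) (by positivity)).trans_eq ?_
  rw [show 2 * (x + 5) = (x + 3) + (x + 7) by ring, pow_add _ (x + 3), one_div_pow]
  field_simp

theorem n14 {n A u a x : ℕ} (h1 : x ≤ u) (h2 : n + 10 * u + 20 + 2 * A ≤ 2 * a) :
    (2 : ℝ) ^ n * ((2 ^ u : ℕ) : ℝ) ^ 3 * (2 ^ A * √(x : ℝ) / 2 ^ a) ^ 2 ≤
      (1 / 2 ^ (3 * u + 10)) ^ 2 := by
  have e : (2 : ℝ) ^ n * ((2 ^ u : ℕ) : ℝ) ^ 3 * (2 ^ A * √(x : ℝ) / 2 ^ a) ^ 2 =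
      2 ^ (n + 3 * u + 2 * A) * x / 2 ^ (2 * a) := by
    rw [div_pow, mul_pow, Real.sq_sqrt (Nat.cast_nonneg x)]; push_cast; ring
  have b : (x : ℝ) ≤ 2 ^ u := by exact_mod_cast h1.trans Nat.lt_two_pow_self.le
  rw [e, div_pow, one_pow, div_le_div_iff₀ (by positivity) (by positivity), one_mul]
  calc _ ≤ (2 : ℝ) ^ (n + 3 * u + 2 * A) * 2 ^ u * (2 ^ (3 * u + 10)) ^ 2 := by gcongr
    _ = 2 ^ (n + 10 * u + 20 + 2 * A) := by ring
    _ ≤ _ := pow_le_pow_right₀ one_le_two h2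

theorem n19 {a P x u : ℕ} {p q : ℝ} (hp : (1 / 2 : ℝ) ^ (x + 2) ≤ p) (hq : q ≤ (1 / 2) ^ (x + 7))
    (h : a * P + x + 4 ≤ u) (hP : P ≤ u) :
    (1 / 2 : ℝ) ^ u ≤ ((1 / 2) ^ a) ^ P * (p - 2 * q) -
      P * (400 * ((2 ^ u : ℕ) : ℝ) * (1 / 2 ^ (3 * u + 10)) + 4 / 2 ^ (10 * u ^ 6)) := by
  obtain ⟨v, rfl⟩ : ∃ v, u = v + 1 := ⟨u - 1, by omega⟩
  have a1 : (1 / 2 : ℝ) ^ (x + 3) ≤ p - 2 * q := by
    have : (0 : ℝ) < (1 / 2) ^ x := by positivity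
    simp only [pow_add] at hp hq ⊢
    norm_num at hp hq ⊢
    linarith
  have a2 : (1 / 2 : ℝ) ^ v ≤ ((1 / 2) ^ a) ^ P * (p - 2 * q) :=
    (half_anti (show a * P + (x + 3) ≤ v by omega)).trans (by
      rw [pow_add, pow_mul]; gcongr)
  generalize hu : v + 1 = u at *
  have a3 : (P : ℝ) ≤ 2 ^ u := by exact_mod_cast hP.trans Nat.lt_two_pow_self.le
  have a4 : 2 * u + 3 ≤ 10 * u ^ 6 := by
    have := Nat.le_self_pow (n := 6) (by norm_num) u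
    omega
  have a5 : (4 : ℝ) / 2 ^ (10 * u ^ 6) ≤ 4 / 2 ^ (2 * u + 3) := by
    gcongr; norm_num
  have a6 : (P : ℝ) * (400 * ((2 ^ u : ℕ) : ℝ) * (1 / 2 ^ (3 * u + 10)) + 4 / 2 ^ (10 * u ^ 6)) ≤
      2 ^ u * (400 * ((2 ^ u : ℕ) : ℝ) * (1 / 2 ^ (3 * u + 10)) + 4 / 2 ^ (2 * u + 3)) := by gcongr
  have a7 : (2 : ℝ) ^ u * (400 * ((2 ^ u : ℕ) : ℝ) * (1 / 2 ^ (3 * u + 10)) +
      4 / 2 ^ (2 * u + 3)) = 57 / 64 * (1 / 2) ^ u := by
    push_cast; rw [one_div_pow]; field_simp; ring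
  have a8 : (1 / 2 : ℝ) ^ v = 2 * (1 / 2) ^ u := by rw [← hu, pow_succ]; ring
  have : (0 : ℝ) < (1 / 2) ^ u := by positivity
  linarith

theorem card_cw {s d Q a : ℕ} (T : TS Unit) (j : Fin d) (q : 1 ≤ Q)
    (h : Fintype.card T.C ≤ 2 ^ a) :
    Fintype.card (T.Cw (SD s (D1 Q j))) ≤ 2 ^ (a + (s + (Q + 2) * (d + 2))) := by
  have a1 : #(D1 Q j) ≤ (Q + 1 + 1) ^ (d + 2) :=
    card_grid_le (fun i => by unfold qq; split_ifs <;> omega) (by simp)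
  have a2 : (Q + 1 + 1) ^ (d + 2) ≤ (2 ^ (Q + 2)) ^ (d + 2) :=
    Nat.pow_le_pow_left Nat.lt_two_pow_self.le _
  have a3 : Fintype.card (Br.Wd s (D1 Q j)) ≤ s * #(D1 Q j) :=
    (Fintype.card_subtype_le _).trans_eq (by simp)
  refine (Fintype.card_subtype_le _).trans ?_
  rw [Fintype.card_prod, pow_add, pow_add, pow_mul]
  exact Nat.mul_le_mul h (a3.trans (Nat.mul_le_mul Nat.lt_two_pow_self.le (a1.trans a2)))

theorem nat {n x s d Q D : ℕ} (h1 : 10 ≤ n) (h2 : 2 * n ≤ x) (h3 : s ≤ n) (h4 : d + 1 ≤ s)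
    (h5 : Q ≤ n) (h6 : D ≤ 2 * n) : 20 * x ≤ x ^ 4 ∧ Q * (D + 1) ≤ x ^ 4 ∧
      (4 * n + 5) * (Q * D) + x + 4 ≤ x ^ 4 ∧ 2 * n + (s + (Q + 2) * (d + 2)) ≤ x ^ 4 ∧
        2 * n * s ≤ x ^ 4 := by
  have a1 : 20 * x ≤ x * x := Nat.mul_le_mul_right _ (by omega)
  have a2 : 20 * (x * x) ≤ x * (x * x) := Nat.mul_le_mul_right _ (by omega)
  have a3 : 20 * (x * (x * x)) ≤ x ^ 4 := by
    rw [show x ^ 4 = x * (x * (x * x)) by ring]; exact Nat.mul_le_mul_right _ (by omega)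
  have b1 : Q * (D + 1) ≤ x * (2 * x) := Nat.mul_le_mul (by omega) (by omega)
  have b2 : Q * D ≤ x * x := Nat.mul_le_mul (by omega) (by omega)
  have b3 : (4 * n + 5) * (Q * D) ≤ 3 * x * (x * x) := Nat.mul_le_mul (by omega) b2
  have b4 : (Q + 2) * (d + 2) ≤ x * x := Nat.mul_le_mul (by omega) (by omega)
  have b5 : 2 * n * s ≤ x * x := Nat.mul_le_mul h2 (by omega)
  rw [mul_left_comm] at b1
  rw [mul_assoc] at b3
  omega

end Nm

open Nm in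
/-- **the parameters** -/
theorem dnum (s d : ℕ) (hj : JZI s d) (hc : COR s d) : TRN2 s d := by
  refine ⟨20, by norm_num, fun k0 Kt => ?_⟩
  obtain ⟨n0, h0⟩ := ev2 k0 Kt
  refine ⟨1 / (n0 + s + 10 : ℕ), by positivity, fun M0 E M1 => ?_⟩
  obtain ⟨K, hK⟩ := hj M1
  refine ⟨(E + 5 + (Kt + 1) * 2) * K, fun ε o e0 e1 ok _ _ => ?_⟩
  intro C' _ _ T' ι k r hk H1 x a1 a2 j ov hn kn sz b1 b2 b3 g f e fo fM fm tg rg em fn hfn fi
  obtain ⟨lam, δ, cok⟩ := ex_hc ok r fo tg em j hfn a1 a2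
  obtain ⟨b, f1, f2, -, f3⟩ := ok.f
  have q0 : n0 + s + 10 ≤ o.Q := by
    have := (inv_anti₀ e0 e1).trans ok.Q.2
    rw [one_div, inv_inv] at this
    exact_mod_cast this
  have q1 := ok.Qn
  have q2 := ok.cx.ds
  have q3 : o.D ≤ 2 * o.n := ok.cx.D
  have eN : o.cx.n = 2 * o.n := rfl
  rw [pow_mul] at rg
  rw [eN] at hn b3 fo cok rg
  obtain ⟨u1, u2, u3, u4, u5⟩ := nat (show 10 ≤ o.n by omega) hn (show s ≤ o.n by omega) q2 q1 q3
  have e5 : x ^ 20 = (x ^ 4) ^ 5 := by rw [← pow_mul]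
  have x1 : x ^ 20 ≤ (x + a2) ^ 20 := Nat.pow_le_pow_left (by omega) _
  have x2 : x + a2 ≤ (x + a2) ^ 20 := Nat.le_self_pow (by norm_num) _
  have cU := card_cc T' j.succ sz.2.1
  obtain ⟨H0, s1, -, s2, -⟩ := sta (x := 0) (m := x + 2) (a1 := a1) (a2 := a2) sz
    (by simp only [Fintype.card_fin]; omega) fi (Fin.succ_ne_zero j).symm g le_rfl (by
      have := Nat.le_self_pow (n := 5) (by norm_num) (x ^ 4)
      omega) b2 (by omega) (by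
      have := Nat.le_self_pow (n := 5) (by norm_num) (x ^ 4)
      omega)
  replace s2 := s2.trans ((Rs.ok (a1 := a1) (a2 := a2) g.ok_sm.1 fi).pr_mono s1)
  have t1 := tail cU
  rw [e5] at b1 x1 ⊢
  generalize x ^ 4 = u at *
  have v1 : 100 * u ≤ u ^ 5 := by
    rw [show u ^ 5 = u ^ 4 * u by ring]
    exact Nat.mul_le_mul_right _ (le_trans (by omega) (Nat.le_self_pow (by norm_num) u))
  have z1 : (2 * o.n) ^ Kt + 1 ≤ (2 * o.n) ^ (Kt + 1) := by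
    have : 1 ≤ (2 * o.n) ^ Kt := Nat.one_le_pow _ _ (by omega)
    rw [pow_succ]; nlinarith
  have z2 : (2 * o.n) ^ E ≤ (2 * o.n) ^ (E + 5 + (Kt + 1) * 2) :=
    Nat.pow_le_pow_right (by omega) (by omega)
  have z3 : 32 * ((2 * o.n) ^ (Kt + 1) * (2 * o.n) ^ (Kt + 1)) ≤
      (2 * o.n) ^ (E + 5 + (Kt + 1) * 2) := by
    rw [pow_add _ (E + 5), pow_mul, sq]
    refine Nat.mul_le_mul_right _ ((Nat.pow_le_pow_left (show 2 ≤ 2 * o.n by omega) 5).trans ?_)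
    exact Nat.pow_le_pow_right (by omega) (by omega)
  have z4 := h0 o.n (by omega)
  generalize (2 * o.n) ^ (E + 5 + (Kt + 1) * 2) = y at *
  generalize (2 * o.n) ^ (Kt + 1) = Z at *
  have z5 : Z ≤ Z * Z := Nat.le_mul_self Z
  have z6 : u ^ 6 ≤ Z * Z := by
    rw [pow_succ]; exact Nat.mul_le_mul (by omega) (by omega)
  refine hc (Hc.mk o C' T' ι f e j fn a1 a2 lam δ) ε _ k u (2 ^ u) b √((x + 5 : ℕ) : ℝ)
    (1 / 2 ^ (o.n + 8 * u + 20)) (1 / 2 ^ (3 * u + 10)) H1 cok fi ⟨f1, f2, f3⟩ (Real.sqrt_nonneg _)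
    ?_ ?_ ov ?_ Nat.one_le_two_pow (by positivity) (by positivity) ?_ ?_
    (n14 (by omega) (show o.n + 10 * u + 20 + 2 * (k + 1 + 2 * o.n * s) ≤ 2 * a2 by omega))
    (by omega) u2 (show 4 * o.n + 4 ≤ u by omega)
    (cU.trans (Nat.pow_le_pow_right (by norm_num) (by omega))) ?_ ?_
  · rw [Real.sq_sqrt (Nat.cast_nonneg _)]
    have : 9 * 4 ^ k * (x + 5) ≤ 2 ^ (o.n / 4) := le_trans (Nat.mul_le_mul (Nat.mul_le_mul_left _
      (Nat.pow_le_pow_right (by norm_num) hk)) (by omega)) z4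
    exact_mod_cast this
  · have := half_anti (show 2 ≤ x + 7 by omega)
    rw [mul_assoc]
    norm_num at this
    refine le_trans (mul_le_mul_of_nonneg_left t1 (by norm_num)) ?_
    norm_num
    linarith
  · exact (card_cw _ j ok.Q.1 ok.cx.C).trans (Nat.pow_le_pow_right (by norm_num) u4)
  · refine one_div_le_one_div_of_le (by positivity) ?_
    have : 100 * 2 ^ u ≤ 2 ^ (3 * u + 10) := by
      rw [show 3 * u + 10 = 2 * u + 10 + u by ring, pow_add]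
      exact Nat.mul_le_mul_right _ (le_trans (by norm_num)
        (Nat.pow_le_pow_right (by norm_num) (show 10 ≤ 2 * u + 10 by omega)))
    exact_mod_cast this
  · refine le_of_eq ?_
    show (2 : ℝ) ^ o.n * _ * _ = _
    push_cast; field_simp; ring
  · rw [mul_assoc 2]
    exact n19 s2 t1 u3 (le_trans (Nat.mul_le_mul_left _ (Nat.le_succ _)) u2)
  · intro k' r r' al Γ Δ V p h1 h2 h3
    refine (hK (Hc.mk o C' T' ι f e j fn a1 a2 lam δ) ε _ k y k' r r' al Γ Δ V p cok fM (by omega)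
      (show 2 * o.n ≤ y by omega) z2 (show a1 ≤ y by omega) (show a2 ≤ y by omega) (by omega)
      (by omega) rg fun t => le_trans (le_min ?_ ?_) (h3 t)).trans ?_
    · exact one_div_le_one_div_of_le (by positivity) (pow_le_pow_right₀ one_le_two (by omega))
    · exact one_div_le_one_div_of_le (by positivity) (pow_le_pow_right₀ one_le_two
        (show o.n ≤ y by omega))
    · rw [← one_div_pow]; exact half_anti (by omega)

end Crest.Agent.N49.He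

end
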