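import Crest.Agent.N49.He.Dc
import Crest.Agent.N49.He.Rd

/-!
# Row 49 (helper93): the backgrounds are compatible
-/

set_option autoImplicit false

open Finset Matrix

noncomputable section

namespace Crest.Agent.N49.He

open Po Tw Br Rm Rm.TT Ft Md Sd

namespace Pb
variable {s d : ℕ} {D D' : Finset (Pt (Fin (d + 2)))} {j : Fin (d + 2)} {g : ℕ}

/-- the row of a kept word on the words with the new clone -/
theorem phi_kw {u : Br.Wd s D} {v : Br.Wd s D'} (k : u.tr 0 = none) (h : v.tr j = some g) :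
    phi s D D' j g u v =
      if u.lv = v.lv ∧ u.tr j ≠ none ∧ v.tr = Function.update u.tr j (some g) then -1 else 0 := by
  rw [phi_g h]
  by_cases c : u.lv = v.lv ∧ Le (Function.update v.tr j none) u.tr
  · have n : ¬ Fill ((bl v.tr).erase j) (bl u.tr) := fun f => by
      obtain ⟨a, a1, a2⟩ := exists_mem_notMem_of_card_lt_card (s := (bl v.tr).erase j)
        (t := bl u.tr) (by rw [u.card, c.1, ← v.card]; exact card_erase_lt_of_mem (Ph.j_mem h))
      rcases (Fin.zero_le a).eq_or_lt with e | e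
      · exact mem_bl.1 (e ▸ a1) k
      · exact mem_bl.1 (f.2 a a1 a2 0 e) k
    rw [if_pos c, if_neg n, zero_sub]
    by_cases e : bl u.tr = bl v.tr
    · rw [if_pos e]
      refine (if_pos ⟨c.1, mem_bl.1 (e ▸ Ph.j_mem h), funext fun i => ?_⟩).symm
      by_cases z : i = j
      · rw [z, h, Function.update_self]
      have a := c.2 i
      rw [Function.update_of_ne z] at a ⊢
      by_cases y : v.tr i = none
      · rw [y]; exact (of_not_not fun t => mem_bl.1 (e ▸ mem_bl.2 t) y).symm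
      · exact a y
    · rw [if_neg e, if_neg fun z => e (Finset.ext fun i => ?_), neg_zero]
      rw [z.2.2]
      by_cases y : i = j
      · simp [mem_bl, y, z.2.1]
      · simp [mem_bl, y]
  · rw [if_neg c, if_neg fun z => c ⟨z.1, fun i a => ?_⟩]
    rw [z.2.2, Function.update_idem] at a ⊢
    by_cases y : i = j
    · simp [y] at a
    · rw [Function.update_of_ne y]

/-- the image of a background on a kept word -/
theorem hm_kw (h : Ex D D' j g) (T : TS Unit) (β : T.C → Pt (Fin (d + 2)) → ℤ)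
    (y : T.Cw (SD s D)) (k : Br.Wd.tr y.1.2 0 = none)
    (m : Br.Wd.tr y.1.2 j ≠ none → Function.update (Br.Wd.tr y.1.2) j (some g) ∈ D') :
    T.hm (SD s D') (SD s D) (phi s D D' j g) (fun p => β p.1.1 (Br.Wd.tr p.1.2)) y =
      β y.1.1 (Br.Wd.tr y.1.2) - if Br.Wd.tr y.1.2 j = none then 0
        else β y.1.1 (Function.update (Br.Wd.tr y.1.2) j (some g)) := by
  obtain ⟨⟨F, u⟩, hu⟩ := y
  change Br.Wd s D at u
  change u.tr 0 = none at k
  change u.tr j ≠ none → Function.update u.tr j (some g) ∈ D' at m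
  have cd : ∀ v : Br.Wd s D', v.lv = u.lv → (SD s D').cd v = T.deg F := fun v e =>
    ((tw_cd v).trans (e ▸ (tw_cd u).symm)).trans hu
  let p1 : T.Cw (SD s D') := ⟨(F, Ph.inc h u), cd _ rfl⟩
  change ∑ p : T.Cw (SD s D') with p.1.1 = F, phi s D D' j g u p.1.2 * β p.1.1 (Br.Wd.tr p.1.2) =
    β F u.tr - if u.tr j = none then 0 else β F (Function.update u.tr j (some g))
  have e1 : phi s D D' j g u p1.1.2 * β p1.1.1 (Br.Wd.tr p1.1.2) = β F u.tr := by
    change phi s D D' j g u (Ph.inc h u) * β F u.tr = _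
    rw [phi_inc, if_pos rfl, one_mul]
  have o : ∀ p : T.Cw (SD s D'), p.1.1 = F → p ≠ p1 → phi s D D' j g u p.1.2 ≠ 0 →
      u.lv = Br.Wd.lv p.1.2 ∧ u.tr j ≠ none ∧
        Br.Wd.tr p.1.2 = Function.update u.tr j (some g) := fun p a b c => by
    rcases phi_ne h c with e | e
    · exact absurd (Subtype.ext (Prod.ext a e)) b
    · rw [phi_kw k e] at c
      exact of_not_not fun z => c (if_neg z)
  by_cases t : u.tr j = none
  · rw [if_pos t, sub_zero, sum_eq_single p1 (fun p a b => of_not_not fun z =>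
      (o p (mem_filter.1 a).2 b (left_ne_zero_of_mul z)).2.1 t) (by simp [p1]), e1]
  have b : bl (Function.update u.tr j (some g)) = bl u.tr := Finset.ext fun i => by
    by_cases y : i = j
    · simp [mem_bl, y, t]
    · simp [mem_bl, y]
  let p2 : T.Cw (SD s D') := ⟨(F, u.mk' _ (m t) (congrArg _ b)), cd _ rfl⟩
  have g2 : Br.Wd.tr p2.1.2 j = some g := Function.update_self ..
  rw [if_neg t, sum_eq_add_of_mem p1 p2 (by simp [p1]) (by simp [p2])
    (fun e => h.ng _ u.mem ((congrArg (fun p : T.Cw (SD s D') => Br.Wd.tr p.1.2 j) e).trans g2))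
    fun p a n => of_not_not fun z => ?_, e1, phi_kw k g2, if_pos ⟨rfl, t, rfl⟩, neg_one_mul,
    sub_eq_add_neg]
  · rfl
  · have := o p (mem_filter.1 a).2 n.1 (left_ne_zero_of_mul z)
    exact n.2 (Subtype.ext (Prod.ext (mem_filter.1 a).2 (Br.Wd.ext' this.1.symm this.2.2)))

theorem qq_up (Q : ℕ) (j : Fin d) (r r' n : ℕ) : Function.update (qq Q j r r' n) j.succ.succ
    (qq Q j r r' n j.succ.succ + 1) = qq Q j r r' (n + 1) ∧ qq Q j r r' n j.succ.succ = n := by
  have a : j.succ.succ ≠ 1 := fun e => Fin.succ_ne_zero _ (Fin.succ_injective _ e)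
  have b : ∀ n, qq Q j r r' n j.succ.succ = n := fun n => by simp [qq, a]
  refine ⟨funext fun i => ?_, b n⟩
  by_cases e : i = j.succ.succ
  · rw [e, Function.update_self, b, b]
  · rw [Function.update_of_ne e]; simp [qq, e]

theorem ex01 (Q : ℕ) (j : Fin d) : Ex (D0 Q j) (D1 Q j) j.succ.succ Q := by
  have := ex_grid (qq Q j 1 2 Q) j.succ.succ
  rwa [(qq_up Q j 1 2 Q).1, (qq_up Q j 1 2 Q).2] at this

theorem mem_bk {Q : ℕ} {j : Fin d} (t : Pt (Fin (d + 2))) (e : Option ℕ) :
    j.succ ∈ (lA Q j t e).image bk ↔ ∃ i : Fin Q, e = some i := by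
  simp only [mem_image, lA, mem_lw]
  refine ⟨fun ⟨a, h, k⟩ => ?_, fun ⟨i, h⟩ => ⟨some (j, i), by simp [Br.gl, gk, h], rfl⟩⟩
  rcases a with _ | ⟨j', i⟩
  · exact absurd k.symm (Fin.succ_ne_zero _)
  · obtain rfl : j' = j := Fin.succ_injective _ k
    exact ⟨i, by simpa [Br.gl, gk] using h⟩

theorem lA_up {Q : ℕ} {j : Fin d} (t : Pt (Fin (d + 2))) (e e' : Option ℕ) :
    lA Q j (Function.update t j.succ.succ e') e = lA Q j t e := by
  have a : j.succ.succ ≠ 1 := fun e => Fin.succ_ne_zero _ (Fin.succ_injective _ e)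
  rw [lA, lA, Function.update_of_ne a.symm, Function.update_comm a, Function.update_idem]

end Pb

open Pb in
theorem dphb (s d : ℕ) : PHB s d := by
  intro c ε h κ k w v y ok ky
  have a : c.j.succ.succ ≠ 1 := fun e => Fin.succ_ne_zero _ (Fin.succ_injective _ e)
  have lt := mem_grid.1 (Br.Wd.mem y.1.2)
  let β : c.P.C → Pt (Fin (d + 2)) → ℤ := fun F t =>
    (t c.j.succ.succ).elim (c.r0 (c.pp w v t) F t none) fun n =>
      if n % (c.o.Q + 1) = k then c.r0 (c.pp w v t) F t (some k) +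
        c.rx (c.pp w v t) (bif cb c.o.Q n then 1 else 0) F t k
      else if n % (c.o.Q + 1) = c.o.Q then -c.rx (c.pp w v t) (bif cb c.o.Q n then 3 else 2) F t k
      else c.r0 (c.pp w v t) F t (some (n % (c.o.Q + 1))) +
        c.rx (c.pp w v t) 0 F t (n % (c.o.Q + 1)) +
        c.rx (c.pp w v t) (bif cb c.o.Q n then 3 else 2) F t (n % (c.o.Q + 1)) -
        c.rx (c.pp w v t) (bif cb c.o.Q n then 3 else 2) F t k
  refine Eq.trans ?_ (hm_kw (ex01 c.o.Q c.j) c.P β y ky fun _ => mem_grid.2 fun i x e => ?_).symm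
  swap
  · by_cases z : i = c.j.succ.succ
    · rw [z, Function.update_self] at e
      rw [z, (qq_up _ _ _ _ _).2, ← Option.some.inj e]
      exact Nat.lt_succ_self _
    · rw [Function.update_of_ne z] at e
      simpa [qq, z] using lt i x e
  rw [Hc.bg0, ok.rd_cv0 (c.intP_pp _ _ _)]
  simp only [mem_bk]
  have lj := lt c.j.succ.succ
  rw [(qq_up _ _ _ _ _).2] at lj
  generalize Br.Wd.tr y.1.2 = t at lj
  have kq := k.2
  have pq : c.pp w v (Function.update t c.j.succ.succ (some c.o.Q)) = c.pp w v t := by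
    rw [Hc.pp, Function.update_of_ne a.symm]; rfl
  have c1 : cb c.o.Q c.o.Q = false := by simp [cb]
  rcases e : t c.j.succ.succ with _ | n
  · simp [β, e, Hc.r0]
  have n1 := lj n e
  have c2 : cb c.o.Q n = false := by simp [cb]; omega
  have m1 : n % (c.o.Q + 1) = n := Nat.mod_eq_of_lt (by omega)
  have m2 : c.o.Q % (c.o.Q + 1) = c.o.Q := Nat.mod_eq_of_lt (by omega)
  rw [if_pos ⟨⟨n, n1⟩, rfl⟩, if_neg nofun]
  simp only [β, e, Function.update_self, Option.elim_some, m1, m2, c1, c2, pq, Hc.r0, Hc.rx, lA_up,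
    if_neg kq.ne', if_true, if_neg n1.ne, cond_false]
  split_ifs with z
  · rw [z]; ring
  · ring

end Crest.Agent.N49.He

end
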