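import Crest.Agent.N49.He.Dc
import Crest.Agent.N49.He.Sk0

/-!
# Row 49 (helper34): the start of the systems
-/

set_option autoImplicit false
set_option linter.unusedSectionVars false

open Finset Matrix

noncomputable section

namespace Crest.Agent.N49.He

open Po Tw Br Rm Rm.TT Ft Md Sd

namespace Sa0

theorem fub {Ω N : Type} {p : Ω → ℝ} {ν g : Ω → N → ℝ} {B B' : ℝ} (hp : Summable p)
    (p0 : ∀ w, 0 ≤ p w) (n0 : ∀ w n, 0 ≤ ν w n) (ns : ∀ w, Summable (ν w))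
    (nb : ∀ w, ∑' n, ν w n ≤ B) (hg : ∀ w n, |g w n| ≤ B' * ν w n) :
    (Summable fun a : Ω × N => p a.1 * g a.1 a.2) ∧ (∀ w, |∑' n, g w n| ≤ |B'| * B) ∧
      ∑' a : Ω × N, p a.1 * g a.1 a.2 = ∑' w, p w * ∑' n, g w n := by
  have a : Summable fun a : Ω × N => p a.1 * ν a.1 a.2 := by
    refine (summable_prod_of_nonneg fun a => mul_nonneg (p0 _) (n0 _ _)).2
      ⟨fun w => (ns w).mul_left (p w), ?_⟩
    refine (hp.mul_right B).of_nonneg_of_le (fun w => tsum_nonneg fun n =>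
      mul_nonneg (p0 _) (n0 _ _)) fun w => ?_
    show ∑' n, p w * ν w n ≤ _
    rw [tsum_mul_left]
    exact mul_le_mul_of_nonneg_left (nb w) (p0 w)
  have b : Summable fun a : Ω × N => p a.1 * g a.1 a.2 :=
    (a.mul_left B').of_norm_bounded fun a => by
      rw [norm_mul, Real.norm_of_nonneg (p0 _), mul_left_comm]
      exact mul_le_mul_of_nonneg_left (hg _ _) (p0 _)
  refine ⟨b, fun w => ?_, ?_⟩
  · have := tsum_of_norm_bounded (f := g w) ((ns w).mul_left |B'|).hasSum fun n =>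
      (hg w n).trans (mul_le_mul_of_nonneg_right (le_abs_self _) (n0 w n))
    rw [tsum_mul_left] at this
    exact this.trans (mul_le_mul_of_nonneg_left (nb w) (abs_nonneg _))
  · rw [b.tsum_prod]
    exact tsum_congr fun w => (tsum_mul_left : ∑' n, p w * g w n = _)

section core
variable {L C : Type} [Fintype L] [DecidableEq L] [Fintype C] [DecidableEq C] {N : Type}
  (U : TT L C) (H : Set (C → ℤ)) (ρ : (C → ℤ) → N → ℝ)

/-- the joint weight -/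
def om (z : (C → ℤ) × N) : ℝ := U.wt z.1 / U.Z * (H.indicator 1 z.1 * ρ z.1 z.2)

variable {U H ρ} {ν h0 h1 h2 : (C → ℤ) → N → ℝ} {B B0 B1 B2 δ τ : ℝ} {c1 N2 : (C → ℤ) → ℝ}

theorem om_ne {z : (C → ℤ) × N} (h : om U H ρ z ≠ 0) : z.1 ∈ H ∧ ρ z.1 z.2 ≠ 0 :=
  have z1 := right_ne_zero_of_mul h
  ⟨by_contra fun q => left_ne_zero_of_mul z1 (Set.indicator_of_notMem q _),
    right_ne_zero_of_mul z1⟩

theorem core (u : U.Ok) (n0 : ∀ w n, 0 ≤ ν w n) (ns : ∀ w, Summable (ν w))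
    (nb : ∀ w, ∑' n, ν w n ≤ B) (r1 : ∀ w n, |ρ w n| ≤ ν w n) : Summable (om U H ρ) ∧
    ((∀ w n, |h0 w n| ≤ B0) → (∀ w n, |h1 w n| ≤ B1) → (∀ w n, 0 ≤ h2 w n ∧ h2 w n ≤ B2) →
    0 ≤ τ → 0 ≤ δ → (∀ w ∈ H, δ ≤ ∑' n, ρ w n * h0 w n) → (∀ w, ∑' n, ρ w n * h1 w n = c1 w) →
    (∀ w, ∑' n, ν w n * h2 w n = N2 w) → U.Ex N2 ≤ 2 →
    ∑' z, om U H ρ z * h0 z.1 z.2 ≤ ∑' z, om U H ρ z * h1 z.1 z.2 +
      τ * ∑' z, |om U H ρ z| * h2 z.1 z.2 → δ * U.pr H - 2 * τ ≤ U.Ex (H.indicator c1)) := by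
  obtain ⟨p, hp⟩ : ∃ p : (C → ℤ) → ℝ, ∀ w, p w = U.wt w / U.Z := ⟨_, fun _ => rfl⟩
  have p0 : ∀ w, 0 ≤ p w := fun w => (hp w).symm ▸ div_nonneg (wt_pos w).le u.Z_pos.le
  have ps : Summable p := (funext hp).symm ▸ u.summable.div_const _
  have ex : ∀ g, U.Ex g = ∑' w, p w * g w := fun g => by
    rw [TT.Ex, ← tsum_div_const]
    exact tsum_congr fun w => by rw [hp, div_mul_eq_mul_div]
  obtain ⟨r, hr⟩ : ∃ r : (C → ℤ) → N → ℝ, ∀ w n, r w n = H.indicator 1 w * ρ w n :=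
    ⟨_, fun _ _ => rfl⟩
  have e : ∀ z, om U H ρ z = p z.1 * r z.1 z.2 := fun z => by rw [hp, hr, om]
  have ρ1 : ∀ w n, |r w n| ≤ ν w n := fun w n => by
    rw [hr, abs_mul]
    exact (mul_le_of_le_one_left (abs_nonneg _) (abs_ind H w)).trans (r1 w n)
  have fu := fun g B' => fub (g := g) (B' := B') ps p0 n0 ns nb
  have ml : ∀ w n (x B' : ℝ), |x| ≤ B' → |r w n * x| ≤ B' * ν w n := fun w n x B' e => by
    rw [abs_mul, mul_comm]
    exact mul_le_mul e (ρ1 w n) (abs_nonneg _) ((abs_nonneg _).trans e)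
  refine ⟨(funext e).symm ▸ (fu r 1 fun w n => (ρ1 w n).trans_eq (one_mul _).symm).1,
    fun b0 b1 b2 t0 d0 w0 w1 w2 hN hx => ?_⟩
  have k0 := fu (fun w n => r w n * h0 w n) B0 fun w n => ml w n _ _ (b0 w n)
  have k1 := fu (fun w n => r w n * h1 w n) B1 fun w n => ml w n _ _ (b1 w n)
  have k2 := fu (fun w n => ν w n * h2 w n) B2 fun w n => by
    rw [abs_of_nonneg (mul_nonneg (n0 _ _) (b2 _ _).1), mul_comm]
    exact mul_le_mul_of_nonneg_right (b2 _ _).2 (n0 _ _)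
  have k3 := fu (fun w n => |r w n| * h2 w n) B2 fun w n => by
    rw [abs_mul, abs_abs, ← abs_mul]
    exact ml w n _ _ ((abs_of_nonneg (b2 _ _).1).trans_le (b2 _ _).2)
  simp only [e, mul_assoc (p _), abs_mul (p _), abs_of_nonneg (p0 _)] at hx
  rw [k0.2.2, k1.2.2, ← ex, ← ex] at hx
  have c3 := Summable.tsum_le_tsum (fun z : (C → ℤ) × N => mul_le_mul_of_nonneg_left
    (mul_le_mul_of_nonneg_right (ρ1 z.1 z.2) (b2 z.1 z.2).1) (p0 z.1)) k3.1 k2.1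
  rw [k2.2.2, ← ex, funext w2] at c3
  have c4 := mul_le_mul_of_nonneg_left (c3.trans hN) t0
  have c1' : δ * U.pr H ≤ U.Ex fun w => ∑' n, r w n * h0 w n := by
    rw [pr_eq, ← Ex_smul]
    refine u.Ex_mono (B := δ) (fun w => ?_) k0.2.1 fun w => ?_
    · rw [abs_mul, abs_of_nonneg d0]
      exact mul_le_of_le_one_right d0 (abs_ind H w)
    · by_cases q : w ∈ H
      · simpa [hr, q] using w0 w q
      · simp [hr, q]
  have c2 : (fun w => ∑' n, r w n * h1 w n) = H.indicator c1 := by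
    funext w
    by_cases q : w ∈ H
    · simp [hr, q, w1]
    · simp [hr, q]
  rw [c2] at hx
  linarith
end core

variable {s d : ℕ} {c : Hc s d} {ε0 : ℝ}

theorem V0_pos (o : c.o.Ok ε0) {D : Finset (Pt (Fin (d + 2)))} (w : Br.Wd s D) : 0 < c.V0 w := by
  have a : 0 < c.o.g.v w.lv (bl w.tr) := lt_of_lt_of_le (by positivity) (o.v _ _).1
  have := o.cp.1
  unfold Hc.V0
  split_ifs
  · exact div_pos a (by linarith)
  · simpa using a

theorem V1_pos (o : c.o.Ok ε0) {ε m : ℝ} (e : 0 < ε) (hm : 0 < m) (w) : 0 < c.V1 ε m w := by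
  unfold Hc.V1
  split_ifs
  exacts [mul_pos hm e, mul_pos hm (V0_pos o w)]

theorem sh_bd (R : ℝ) (w n) : 0 ≤ c.sh R w n ∧ c.sh R w n ≤ 1 := by
  unfold Hc.sh; split_ifs <;> simp

theorem pf_bd {T : TS Unit} {D : Finset (Pt (Fin (d + 2)))} {f : (T.C → ℤ) → ℝ}
    (h : ∀ y, |f y| ≤ 1) (Ω y) : |pf s T D f Ω y| ≤ 1 := by
  rw [pf, abs_prod]
  exact prod_le_one (fun _ _ => abs_nonneg _) fun _ _ => h _

end Sa0

open Sa0 in
/-- **the start** -/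
theorem dsta {s d : ℕ} (wit : WIT s d) (cut : CUT s d) (lft : LFT s d) (smg : SMG s d)
    (phb : PHB s d) (asm : ASM s d) (sok : SOK s d) (hsb : HSB s d) (mub : MUB s d) :
    STA s d := by
  intro c ε0 h κ k a b R ε t m H o fb R0 r1 r2 hH cm m1 e0 t0 t1 e1 e2 hN
  have U := o.U
  have xs : c.x ∉ c.S5 := by simp [Hc.S5, S5, S1, Hc.tl, Hc.sl, tl, Ft.sl]
  obtain ⟨B, hB⟩ := mub c ε0 h κ c.S5 o xs
  have m0 : (0 : ℝ) < m := by exact_mod_cast m1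
  have f1 : ∀ y, |c.fb b y| ≤ 1 := fun y => by
    have := fb.1
    rw [Hc.fb, abs_of_nonneg (div_nonneg (fb.2.2 y).1 (by linarith))]
    exact div_le_one_of_le₀ (fb.2.2 y).2 (by linarith)
  have n1 : ∀ w, HasSum (fun n : Fin 2 → c.XW c.S5 → ℤ => ∏ i, c.mu c.S5 w (n i))
      (∏ _i : Fin 2, ∑' n, c.mu c.S5 w n) := fun w =>
    Gw.hasSum_pi_prod (fun _ : Fin 2 => c.mu c.S5 w) fun _ => (hB w).2.1
  have v1 := V1_pos o.o e0 one_pos
  have v2 := V1_pos o.o e0 (div_pos (add_pos m0 one_pos) m0)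
  have one : ∀ {Y : Type} (y : Y), |(fun _ => (1 : ℝ)) y| ≤ 1 := fun _ => abs_one.le
  have co := fun h0 h1 h2 B0 B1 B2 c1 N2 => core (H := H) (B := B ^ 2) (h0 := h0) (h1 := h1)
    (h2 := h2) (B0 := B0) (B1 := B1) (B2 := B2) (c1 := c1) (N2 := N2)
    (δ := (1 / 2 : ℝ) ^ (4 * c.o.n + 3)) (τ := 200 * m * t)
    (ρ := fun w (n : Fin 2 → c.XW c.S5 → ℤ) =>
      (∏ i, c.mu c.S5 w (n i) * c.sh R w (n i)) * (c.ph a w n).re) U
    (fun w n => prod_nonneg fun i _ => (hB w).1 (n i)) (fun w => (n1 w).summable)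
    (fun w => by
      rw [(n1 w).tsum_eq, prod_const, card_univ, Fintype.card_fin]
      exact pow_le_pow_left₀ (tsum_nonneg (hB w).1) (hB w).2.2 2)
    fun w n => by
      have a1 : |(c.ph a w n).re| ≤ 1 := (Complex.abs_re_le_norm _).trans (norm_ee _).le
      have a2 : ∀ i, 0 ≤ c.mu c.S5 w (n i) * c.sh R w (n i) := fun i =>
        mul_nonneg ((hB w).1 _) (sh_bd ..).1
      have a4 := prod_nonneg fun i (_ : i ∈ (univ : Finset (Fin 2))) => a2 i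
      rw [abs_mul, abs_of_nonneg a4]
      exact (mul_le_of_le_one_right a4 a1).trans (prod_le_prod (fun i _ => a2 i)
        fun i _ => mul_le_of_le_one_right ((hB w).1 _) (sh_bd ..).2)
  have sm := (co 0 0 0 0 0 0 0 0).1
  have l1 := lft c ε0 ((c.CU → ℤ) × (Fin 2 → c.XW c.S5 → ℤ)) _
    (fun z => c.bg k z.1 (c.vs c.S5 z.2)) (fun z => c.bg0 z.1 (c.vs c.S5 z.2)) (c.fb b) m ε t
    (2 ^ (κ + 1 + 2 * c.o.n * s) * R / 2 ^ c.a2) o.o o.δ sm f1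
  have l2 := l1 fun z y => phb c ε0 h κ k z.1 (c.vs c.S5 z.2) y o
  obtain ⟨x, hx⟩ := l2 (fun z hz y => smg c ε0 h κ R k z.1 z.2 y o R0
      (hH _ (om_ne hz).1).1 fun i => right_ne_zero_of_mul (prod_ne_zero_iff.1
        (left_ne_zero_of_mul (om_ne hz).2) i (mem_univ _))) cm m1 e0 t0 t1 e1 e2
  obtain ⟨B0, b0⟩ := hsb c ε0 (D0 c.o.Q c.j) c.V0 0 o.o o.δ (dc_grid _) (V0_pos o.o)
  obtain ⟨B1, b1⟩ := hsb c ε0 (D1 c.o.Q c.j) _ x o.o o.δ (dc_grid _) v1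
  obtain ⟨B2, b2⟩ := hsb c ε0 (D1 c.o.Q c.j) _ x o.o o.δ (dc_grid _) v2
  refine ⟨x, le_trans (le_of_eq (by ring)) ((co
    (fun w n => hs s c.P _ c.δ c.V0 0 (c.bg0 w (c.vs c.S5 n)) (pf s c.P _ (c.fb b) c.Ω))
    (fun w n => hs s c.P _ c.δ (c.V1 ε 1) x (c.bg k w (c.vs c.S5 n)) (pf s c.P _ (c.fb b) c.Ω))
    (fun w n => hs s c.P _ c.δ (c.V1 ε ((m + 1) / m)) x (c.bg k w (c.vs c.S5 n)) fun _ => 1)
    B0 B1 B2 _ _).2 (fun w n => (b0 _ _ (pf_bd f1 c.Ω)).1.trans (b0 _ _ one).2)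
    (fun w n => (b1 _ _ (pf_bd f1 c.Ω)).1.trans (b1 _ _ one).2)
    (fun w n => ⟨(abs_nonneg _).trans (b2 _ _ one).1, (b2 _ _ one).2⟩) (by positivity)
    (by positivity)
    (fun w q => wit c ε0 h κ b R a w o fb R0 r1 (hH w q).2 ((cut c ε0 h κ R o R0).2.2 r2 w))
    (fun w => ?_) (fun w => (asm c ε0 h κ k a b R _ x w id id o
      (sok c ε0 h κ k a b R _ x o fb v2)).2.tsum_eq) (hN x) hx)⟩
  rw [← (Complex.hasSum_re (asm c ε0 h κ k a b R _ x w id id o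
    (sok c ε0 h κ k a b R _ x o fb v1)).1).tsum_eq]
  exact tsum_congr fun n => by rw [Complex.re_ofReal_mul, mul_right_comm]

end Crest.Agent.N49.He

end
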