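import Crest.Agent.N49.Br.Kzr
import Crest.Agent.N49.Sd.Fs

/-!
# Row 49 (helper74): robust witnesses as hidden sums
-/

set_option autoImplicit false
set_option linter.unusedSectionVars false

open Matrix Finset

noncomputable section

namespace Crest.Agent.N49.He

open Po Tw Br N49.Top Sd

variable {d Q : ℕ} {B : Bd (Fin (d + 2))}

/-- the hidden sum of `Cell` -/
def hR (s d Q n : ℕ) (T : TS Unit) (st : T.C → ℕ) (v : ℕ → Finset (Fin (d + 2)) → ℝ)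
    (f : (T.C → ℤ) → ℝ) (y : T.Cw (R1 s d Q n v) → ℤ) : ℝ :=
  @Sd.hid _ T (R1 s d Q n v) kw (inferInstance : DecidablePred (kw (D := grid (q1 d Q n)))) st
    (T.tw0 _) y (PF T s (q1 d Q n) v fun _ => f)

/-- the hidden sum over the location -/
theorem hid_R1 (g : Gq Q B) (h : B.Ok) {st : B.T.C → ℕ} {M : ℕ} (hs : B.T.Stg st M)
    {v : ℕ → Finset (Fin (d + 2)) → ℝ} (hv : ∀ j A, 0 < v j A) {c : ℝ} (hc : 0 < c)
    (hV : ∀ j t, t 0 ≠ none → v j (bl t) = B.V c 1 j t) {f : (B.T.C → ℤ) → ℝ} {b : ℝ}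
    (hf : ∀ y, 0 ≤ f y ∧ f y ≤ b) {n : ℕ} (y : B.T.Cw (R1 B.s d Q n v) → ℤ) {z : B.Zc}
    {x : Fin n → B.I → ℤ} (hz : ∀ p, y (g.co h v n ⟨.inl (), p⟩) = z p)
    (hx : ∀ a (p : B.I), y (g.co h v n ⟨.inr (.inr (.inl a)), p⟩) = x a p) :
    hR B.s d Q n B.T st v f y = ∑' P, gd (c • h.M z) (h.ce z) P *
      ∏ a : Fin n, h.av (B.eg (zp 0 1 fun _ => Q) f) z (P + x a) := by
  have hG : ∀ z a η, 0 ≤ B.eg (zp 0 1 fun _ => Q) f z a η ∧ B.eg (zp 0 1 fun _ => Q) f z a η ≤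
      ∏ _ω ∈ zp (0 : Fin (d + 2)) 1 fun _ => Q, b := fun z a η =>
    ⟨prod_nonneg fun _ _ => (hf _).1, prod_le_prod (fun _ _ => (hf _).1) fun _ _ => (hf _).2⟩
  obtain ⟨q, hq⟩ := (h.cE (Γ := (univ : Finset (Fin 1 × Fin n))) c 1).surjective
    fun a => y (Ce.cv B.T (g.D h n) _ (fun j w => v j (bl w)) a)
  have k : ∀ r, q.at r = y (g.co h v n r) := fun r =>
    (h.cE_eC c 1 q r).symm.trans (congrFun hq _)
  have z1 : q.1 = z := funext fun p => (k ⟨.inl (), p⟩).trans (hz p)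
  have x1 : ∀ a, q.2.1.2 a = x a := fun a =>
    funext fun p => (k ⟨.inr (.inr (.inl a)), p⟩).trans (hx a p)
  refine (Ce.hid_cv h hs hc one_pos (fun j t => hv j (bl t)) (fun j t m => hV j t (g.x ▸ m)) hG
    (g.D h n) (p := Sd.kw) (fun w => by rw [g.x]; rfl) q y hq fun y' => ?_).trans ?_
  · obtain ⟨q', hq'⟩ := (h.cE (Γ := (univ : Finset (Fin 1 × Fin n))) c 1).surjective
      fun a => y' (Ce.cv B.T (g.D h n) _ (fun j w => v j (bl w)) a)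
    rw [← hq', Bd.Ok.PG, Equiv.symm_apply_apply]
    refine (Ce.prod_pts h (k := 1) (l := n) (by simp [g.x, q1]) (by simp [g.y, q1]) _).trans
      (prod_congr rfl fun e _ => ?_)
    rw [g.x, g.y, zp, zq1]
    refine prod_congr rfl fun ω _ => congrArg f ?_
    rw [← h.pts _ _ _ c 1 q' e ω, hq']
    exact Ce.pw_cv B.T (g.D h n) _ _ _ _
  · rw [← (Equiv.funUnique (Fin 1) (B.I → ℤ)).symm.tsum_eq, ← z1]
    refine tsum_congr fun P => congrArg₂ (· * ·) (Fin.prod_univ_one _) ?_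
    rw [prod_coe_sort univ fun e : Fin 1 × Fin n => h.av (B.eg (zp 0 1 fun _ => Q) f) q.1
      ((Equiv.funUnique (Fin 1) (B.I → ℤ)).symm P e.1 + q.2.1.2 e.2), Fintype.prod_prod_type,
      Fin.prod_univ_one]
    simp only [x1]; rfl

variable {s : ℕ} (o : Og s d)

/-- the variances of the ring of the location -/
def v1 (j : ℕ) (A : Finset (Fin (d + 2))) : ℝ := if 1 ∈ A then o.g.v j A else o.g.v j A / o.cp

/-- the coordinates of the ring with `n` clones of the marked letter -/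
def co (n : ℕ) (q : Σ j : Jc (univ : Finset (Fin 1 × Fin n)), (gS s o.g o.Q).Cl (ja j) (jb j)) :
    o.g.V.T.Cw (R1 s d o.Q n (v1 o)) :=
  (gq_gB (fun _ _ _ => rfl) s o.g.V.T o.g.v).co o.h.ok (v1 o) n q

variable {o} {ε : ℝ} (k : o.Ok ε)
include k

theorem v1_pos (j : ℕ) (A : Finset (Fin (d + 2))) : 0 < v1 o j A := by
  have a : 0 < o.g.v j A := lt_of_lt_of_le (by positivity) (k.v j A).1
  have := k.cp.1
  unfold v1; split_ifs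
  exacts [a, div_pos a (by linarith)]

theorem G_bd (z : (gS s o.g o.Q).Zc) : ∃ b, ∀ x, 0 ≤ o.G z x ∧ o.G z x ≤ b := by
  obtain ⟨b, -, -, -, hf⟩ := k.f
  obtain ⟨b', hb⟩ := o.h.ok.hid.2.2.2
  have hG : ∀ z a η, 0 ≤ (gS s o.g o.Q).eg (zp 0 1 fun _ => o.Q) o.f z a η ∧
      (gS s o.g o.Q).eg (zp 0 1 fun _ => o.Q) o.f z a η ≤
        ∏ _ω ∈ zp (0 : Fin (d + 2)) 1 fun _ => o.Q, b := fun z a η =>
    ⟨prod_nonneg fun _ _ => (hf _).1, prod_le_prod (fun _ _ => (hf _).1) fun _ _ => (hf _).2⟩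
  exact ⟨_, fun x => ⟨(o.h.ok.av_le o.h.ok.hid hG z x).1, (o.h.ok.av_le o.h.ok.hid hG z x).2.trans
    (mul_le_mul_of_nonneg_left (by simpa only [Bd.Ok.av, mul_one] using hb z x)
      ((hG z 0 0).1.trans (hG z 0 0).2))⟩⟩

/-- the hidden sum of an origin -/
theorem hid_og {n : ℕ} (y : o.g.V.T.Cw (R1 s d o.Q n (v1 o)) → ℤ) {z : (gS s o.g o.Q).Zc}
    {x : Fin n → (gS s o.g o.Q).I → ℤ} (hz : ∀ p, y (co o n ⟨.inl (), p⟩) = z p)
    (hx : ∀ a (p : (gS s o.g o.Q).I), y (co o n ⟨.inr (.inr (.inl a)), p⟩) = x a p) :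
    hR s d o.Q n o.g.V.T o.g.st (v1 o) o.f y = ∑' P, o.μ z P * ∏ a, o.G z (P + x a) := by
  obtain ⟨b, -, -, -, hf⟩ := k.f
  exact hid_R1 (gq_gB (fun _ _ _ => rfl) s o.g.V.T o.g.v) o.h.ok o.h.stg (v1_pos k)
    (by linarith [k.cp.1]) (V_gB fun _ _ _ => rfl) hf y hz hx

omit k in
theorem tav_push {I X : Type} [Fintype I] [DecidableEq I] {g : (I → ℤ) → ℝ} {b : ℝ}
    (g0 : ∀ y, 0 ≤ g y) (g1 : ∀ y, g y ≤ b) {μ : X → ℝ} (μ0 : ∀ i, 0 ≤ μ i) (μ1 : Summable μ)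
    (x : X → I → ℤ) (η : I → ℝ) (t : ℝ) (P : I → ℤ) :
    ∑' ξ, (((∑' i : {i // x i = ξ}, μ i) / t : ℝ) : ℂ) * (g (P + ξ) * ee (-(η ⬝ᵥ zc ξ))) =
      tav g η μ x P / t := by
  have s := (Equiv.sigmaFiberEquiv x).hasSum_iff.2
    (sm_tav g0 g1 μ0 μ1 (fun i => P + x i) fun i => -(η ⬝ᵥ zc (x i))).hasSum
  have s' := s.sigma (g := fun ξ => ((∑' i : {i // x i = ξ}, μ i : ℝ) : ℂ) *
    (g (P + ξ) * ee (-(η ⬝ᵥ zc ξ)))) fun ξ => by
      have := (Complex.hasSum_ofReal.2 (μ1.subtype {i | x i = ξ}).hasSum).mul_right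
        (g (P + ξ) * ee (-(η ⬝ᵥ zc ξ)))
      refine cast (congrArg (fun F => HasSum F _) (funext ?_)) this
      rintro ⟨i, rfl⟩
      rfl
  rw [tav, ← s'.tsum_eq, ← tsum_div_const]
  exact tsum_congr fun ξ => by push_cast; ring

/-- **the robust witness for weights on any index type** -/
theorem wit_l1 {z : (gS s o.g o.Q).Zc} (hz : z ∈ o.W) (a : Fin o.D) {X : Type} {μ : X → ℝ}
    {x : X → (gS s o.g o.Q).I → ℤ} (μ0 : ∀ i, 0 ≤ μ i) (μ1 : Summable μ)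
    (hx : ∀ i, μ i ≠ 0 → qf (o.Mz z) (zc (x i)) ≤ 1 / 2 ^ (o.n / 4)) :
    1 / 2 ^ o.n * ∑' i, μ i ≤ ∑' P, o.μ z P * ‖tav (o.G z) (o.η a z) μ x P‖ := by
  obtain ⟨b, hb⟩ := G_bd k z
  have hL : (o.cp • o.Mz z).PosDef := (o.h.ok.lin z).1.smul (by linarith [k.cp.1])
  rcases (tsum_nonneg μ0 : 0 ≤ ∑' i, μ i).eq_or_lt with t0 | t0
  · rw [← t0, mul_zero]
    exact tsum_nonneg fun P => mul_nonneg (gd_nonneg hL _ _) (norm_nonneg _)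
  have e := (Equiv.sigmaFiberEquiv x).hasSum_iff.2 μ1.hasSum
  have f : ∀ ξ, Summable fun i : {i // x i = ξ} => μ i := fun ξ => μ1.subtype {i | x i = ξ}
  have w := k.wit z hz a (fun ξ => (∑' i : {i // x i = ξ}, μ i) / ∑' i, μ i)
    ⟨fun ξ => div_nonneg (tsum_nonneg fun i => μ0 _) t0.le, by
      simpa only [div_self t0.ne'] using (e.sigma fun ξ => (f ξ).hasSum).div_const (∑' i, μ i)⟩
    fun ξ m => by
      by_contra c
      refine m (by rw [tsum_congr fun i : {i // x i = ξ} => (by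
        by_contra c'; exact c (i.2 ▸ hx i c') : μ i = 0), tsum_zero, zero_div])
  rw [← le_div_iff₀ t0, ← tsum_div_const]
  refine w.trans_eq (tsum_congr fun P => ?_)
  rw [tav_push (fun y => (hb y).1) (fun y => (hb y).2) μ0 μ1, norm_div, Complex.norm_real,
    Real.norm_of_nonneg t0.le, mul_div_assoc]

theorem μ_mass {z : (gS s o.g o.Q).Zc} (hz : z ∈ o.W) :
    (∀ P, 0 ≤ o.μ z P) ∧ ∃ t, 9 / 10 ≤ t ∧ t ≤ 11 / 10 ∧ HasSum (o.μ z) t := by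
  obtain ⟨lam, l1, -, sm⟩ := k.sm
  have hM := (o.h.ok.lin z).1
  have hL : (o.cp • o.Mz z).PosDef := hM.smul (by linarith [k.cp.1])
  have u := Kg.sm_anti hL ((hM.smul (by linarith)).smul two_pos) (fun x => by
    simp only [qf_smul, Og.Mz]; nlinarith [qf_nonneg hM x, k.cp.2]) (sm z hz).1
  exact ⟨gd_nonneg hL _, _, (le_div_iff₀ (dt_pos hL)).2 (Kg.th_lo hL u _),
    (div_le_iff₀ (dt_pos hL)).2 (Kg.th_up hL u _), (Lf.ms_gd hL _).2⟩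

/-- second moment -/
theorem wit_sq {z : (gS s o.g o.Q).Zc} (hz : z ∈ o.W) (a : Fin o.D) {X : Type} {μ : X → ℝ}
    {x : X → (gS s o.g o.Q).I → ℤ} (μ0 : ∀ i, 0 ≤ μ i) (μ1 : Summable μ)
    (hx : ∀ i, μ i ≠ 0 → qf (o.Mz z) (zc (x i)) ≤ 1 / 2 ^ (o.n / 4)) :
    (1 / 2 ^ o.n * ∑' i, μ i) ^ 2 / 2 ≤ ∑' P, o.μ z P * ‖tav (o.G z) (o.η a z) μ x P‖ ^ 2 := by
  obtain ⟨b, hb⟩ := G_bd k z
  obtain ⟨m0, t, -, t1, m1⟩ := μ_mass k hz
  exact l1_l2 m0 m1 (by linarith) (fun _ => norm_nonneg _)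
    (tav_le (fun y => (hb y).1) (fun y => (hb y).2) μ0 μ1)
    (mul_nonneg (by positivity) (tsum_nonneg μ0)) (wit_l1 k hz a μ0 μ1 hx)

/-- **the robust witness as a hidden sum** -/
theorem wit_hid {z : (gS s o.g o.Q).Zc} (hz : z ∈ o.W) (a : Fin o.D) {X : Type} {μ : X → ℝ}
    {x : X → (gS s o.g o.Q).I → ℤ} (μ0 : ∀ i, 0 ≤ μ i) (μ1 : Summable μ)
    (hx : ∀ i, μ i ≠ 0 → qf (o.Mz z) (zc (x i)) ≤ 1 / 2 ^ (o.n / 4))
    (y : X × X → o.g.V.T.Cw (R1 s d o.Q 2 (v1 o)) → ℤ)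
    (h0 : ∀ q p, y q (co o 2 ⟨.inl (), p⟩) = z p)
    (h1 : ∀ q (p : (gS s o.g o.Q).I), y q (co o 2 ⟨.inr (.inr (.inl 0)), p⟩) = x q.1 p)
    (h2 : ∀ q (p : (gS s o.g o.Q).I), y q (co o 2 ⟨.inr (.inr (.inl 1)), p⟩) = x q.2 p) :
    ∃ t, (1 / 2 ^ o.n * ∑' i, μ i) ^ 2 / 2 ≤ t ∧ HasSum (fun q : X × X => μ q.1 * μ q.2 *
      ((ee (o.η a z ⬝ᵥ zc (x q.2 - x q.1))).re *
        hR s d o.Q 2 o.g.V.T o.g.st (v1 o) o.f (y q))) t := by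
  obtain ⟨b, hb⟩ := G_bd k z
  obtain ⟨m0, t, -, -, m1⟩ := μ_mass k hz
  refine ⟨_, wit_sq k hz a μ0 μ1 hx, Lf.hcg (tav_exp (fun y => (hb y).1) (fun y => (hb y).2) μ0 μ1
    m0 m1.summable) fun q => ?_⟩
  rw [hid_og k (y q) (x := ![x q.1, x q.2]) (h0 q) (Fin.forall_fin_two.2 ⟨h1 q, h2 q⟩)]
  simp only [Fin.prod_univ_two, Matrix.cons_val_zero, Matrix.cons_val_one]

end Crest.Agent.N49.He

end
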