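import Crest.Agent.N49.He.Hs
import Crest.Agent.N49.He.Rw
import Crest.Agent.N49.Sd.Ogc
import Crest.Agent.N49.Ft.Rfr

/-!
# Row 49 (helper85): the witness of an origin on the ring of a rectangle
-/

set_option autoImplicit false

open Finset Matrix

noncomputable section

namespace Crest.Agent.N49.He

open Po Tw Br Rm Rm.TT Ft Md Sd

variable {s d : ℕ}

theorem qq_eq (Q n : ℕ) (j : Fin d) : qq Q j 1 n Q = q1 d Q n := funext fun i => by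
  simp [qq, q1]

/-- the hidden sum of an origin in product form -/
theorem hs_og {o : Og s d} {ε : ℝ} (k : o.Ok ε) {δ : o.g.V.T.C → ℝ}
    (hδ : Dl (o.g.V.T.un o.Nw) δ) {n : ℕ} {q : Fin (d + 2) → ℕ} (e : q = q1 d o.Q n)
    {V : Br.Wd s (grid q) → ℝ} (hV : ∀ w, V w = v1 o w.lv (bl w.tr))
    (y : (o.g.V.T.un o.Nw).Cw (SD s (grid q)) → ℤ) {z : (gS s o.g o.Q).Zc}
    {x : Fin n → (gS s o.g o.Q).I → ℤ}
    (hz : ∀ (c : (o.g.V.T.un o.Nw).Cw (SD s (grid q))) (p : (gS s o.g o.Q).Cl false false),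
      c.1.1 = p.1.1.1 → Wd.tr c.1.2 = (gS s o.g o.Q).pu p.1.1.2.tr none none → y c = z p)
    (hx : ∀ (c : (o.g.V.T.un o.Nw).Cw (SD s (grid q))) (a : Fin n) (p : (gS s o.g o.Q).I),
      c.1.1 = p.1.1.1 → Wd.tr c.1.2 = (gS s o.g o.Q).pu p.1.1.2.tr none (some a) → y c = x a p) :
    He.hs s (o.g.V.T.un o.Nw) (grid q) δ V 0 y (pf s _ _ o.f (pts q)) =
      ∑' P, o.μ z P * ∏ a, o.G z (P + x a) := by
  subst e
  obtain rfl : V = fun w => v1 o w.lv (bl w.tr) := funext hV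
  have p : ∀ j t, 0 < v1 o j (bl t) := fun j t => v1_pos k j _
  exact (hs_hid0 (V := fun j t => v1 o j (bl t)) (Oc.un_stg o.h.stg o.h.wh) rfl hδ (dc_grid _) p
    y _).trans ((Oc.hid_un (S := R1 s d o.Q n (v1 o)) o.h.stg o.h.wh (tw_ok (dc_grid _) p) kw y
      (N49.Top.PF o.g.V.T s (q1 d o.Q n) (v1 o) fun _ => o.f)).trans
        (hid_og k y (fun r => hz _ r rfl rfl) fun a r => hx _ a r rfl rfl))

namespace Hc

variable (c : Hc s d)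

/-- the first corner -/
def cn (w v : c.CU → ℤ) : c.C ⊕ Lb d → ℝ :=
  c.T.pos c.j.succ (fun _ => false) 1 (cv 0) (Ft.co (pt c.U c.x w v))
/-- its direction in the fibre of the origin -/
def xv (w v : c.CU → ℤ) (r : (gS s c.o.g c.o.Q).I) : ℤ :=
  round (c.ι (c.cn w v) (.inl (c.o.h.E (.inr r))))

theorem co_fib (w v : c.CU → ℤ) : Ft.co (pt c.U c.x w v) ∈
    (c.T.rect c.j.succ c.a1 c.a2).Fib (({0} : Finset (Lb d)).image .inl) w := by
  refine ⟨fun y h => dif_neg fun m => ?_, fun l => ?_⟩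
  · exact disjoint_left.1 h ((Rr.mem_x y).1 m) (by simp)
  · exact if_congr (by simp) rfl rfl

theorem cp_fib (w v : c.CU → ℤ) : c.cn w v ∈ c.T.Fib {0} (c.T.cor c.j.succ 0 w) :=
  c.T.fib_pos _ _ ![c.a1, c.a1, c.a2, c.a2] _ _ (by simp) (by simp) w _ (c.co_fib w v)

theorem cp_int (w v : c.CU → ℤ) : IntP (c.cn w v) := by
  refine c.T.intP_pos _ _ _ _ ?_
  rintro (y | l) <;> simp only [Ft.co, pt, jr, cf, Sum.elim_inl, Sum.elim_inr] <;> split_ifs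
  exacts [⟨_, rfl⟩, ⟨_, rfl⟩, ⟨0, by simp⟩, ⟨1, by simp⟩]

theorem lA_tr (t : Pt (Fin (d + 2))) : lA c.o.Q c.j t (t c.j.succ.succ) =
    lw Br.gl (Function.update t 1 ((t 1).map fun _ => 0)) := by
  rw [lA, ← Function.update_of_ne (ss_ne c.j) ((t 1).map fun _ => 0) t, Function.update_eq_self]

theorem rd_E (p : c.C ⊕ Lb d → ℝ) (r) : c.rd p (c.o.h.E r).1.1 (c.o.h.E r).1.2 =
    round (c.ι p (.inl (c.o.h.E r))) := congrArg round (dif_pos (c.o.h.E r).2)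

theorem bg0_eq (w : c.CU → ℤ) (v : ℕ → c.CU → ℤ) (y : c.P.Cw (SD s (D0 c.o.Q c.j))) {F : c.P.C}
    {t : Pt (Fin (d + 2))} (a : y.1.1 = F) (b : Wd.tr y.1.2 = t) : c.bg0 w v y =
      c.rd (c.cn w ((t 1).elim 0 v)) F (lw Br.gl (Function.update t 1 ((t 1).map fun _ => 0))) := by
  subst a b
  exact congrArg _ (c.lA_tr _)

theorem up_pu (g : Gq c.o.Q (gS s c.o.g c.o.Q)) (t : Pt (Fin (d + 2))) (b : Option ℕ) :
    Function.update ((gS s c.o.g c.o.Q).pu t none b) 1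
      (((gS s c.o.g c.o.Q).pu t none b 1).map fun _ => 0) =
        (gS s c.o.g c.o.Q).pu t none (b.map fun _ => 0) := by
  funext i
  by_cases m : i = 1
  · subst m
    rw [Function.update_self, (g.pu0 c.o.h.ok t none b).2, (g.pu0 c.o.h.ok t none _).2]
  · rw [Function.update_of_ne m]
    by_cases m' : i = 0
    · subst m'
      rw [(g.pu0 c.o.h.ok t none b).1, (g.pu0 c.o.h.ok t none _).1]
    · rw [Bd.pu_ne (B := gS s c.o.g c.o.Q) t none b m' m, Bd.pu_ne (B := gS s c.o.g c.o.Q) t none _ m' m]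

theorem V0_eq {D : Finset (Pt (Fin (d + 2)))} (t : Br.Wd s D) :
    c.V0 t = v1 c.o t.lv (bl t.tr) := by
  rw [V0, v1]
  by_cases m : t.tr 1 = none
  · rw [if_pos m, if_neg (by simp [mem_bl, m])]
  · rw [if_neg m, if_pos (mem_bl.2 m), div_one]

variable {c} {ε : ℝ} {h κ : ℕ} (k : c.Ok ε h κ) {w : c.CU → ℤ}
  {y0 : c.o.cx.B.SC (Wt d c.o.Q) → ℤ} (e : c.ι (cf (c.T.cor c.j.succ 0 w)) = cf y0)
include k

theorem xv_cast (w v : c.CU → ℤ) :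
    zc (c.xv w v) = c.o.h.wy fun y => c.ι (c.cn w v) (.inl y) := funext fun r => by
  obtain ⟨n, hn⟩ := k.mor.int _ (c.cp_int w v) (.inl (c.o.h.E (.inr r)))
  exact (congrArg (fun a : ℝ => (round a : ℝ)) hn).trans (by rw [round_intCast]; exact hn.symm)

include e

theorem cp_z (v : c.CU → ℤ) (r) :
    c.ι (c.cn w v) (.inl (c.o.h.E (.inl r))) = c.o.h.zy y0 r :=
  (k.mor.fib e (c.cp_fib w v)).1 _ (disjoint_singleton_right.2 fun m => by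
    simpa using (c.o.h.mem_ty (.inl r)).1 m)

/-- the datum is the frequency -/
theorem Fp_eq (a : Fin c.o.D) (v : c.CU → ℤ) :
    c.Fp a w v = c.o.η a (c.o.h.zy y0) ⬝ᵥ zc (c.xv w v) := by
  rw [xv_cast k]
  exact c.o.h.F_eq (c.o.η a) (cp_z k e v)

/-- the form on the fibre -/
theorem qf_xv (v : c.CU → ℤ) : 2 ^ c.o.n * qf (c.o.Mz (c.o.h.zy y0)) (zc (c.xv w v)) =
    ∑ r : (gS s c.o.g c.o.Q).I, c.o.cx.SY.Φ (c.ι (c.cn w v)) (c.o.h.E (.inr r)) ^ 2 := by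
  rw [xv_cast k, ← qf_smul]
  exact (c.o.h.qf_x (cp_z k e v)).symm

/-- **the hidden sum of the witness** -/
theorem hs_bg0 (v : ℕ → c.CU → ℤ) :
    He.hs s c.P (D0 c.o.Q c.j) c.δ c.V0 0 (c.bg0 w v) (pf s _ _ c.o.f (pts (qq c.o.Q c.j 1 2 c.o.Q))) =
      ∑' P, c.o.μ (c.o.h.zy y0) P * ∏ a : Fin 2, c.o.G (c.o.h.zy y0) (P + c.xv w (v a)) := by
  have g : Gq c.o.Q (gS s c.o.g c.o.Q) := gq_gB (fun _ _ _ => rfl) _ _ _
  refine hs_og k.o k.δ (qq_eq _ 2 _) c.V0_eq _ (fun y p a b => ?_) fun y i p a b => ?_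
  · have t1 := (g.pu0 c.o.h.ok p.1.1.2.tr none none).2
    have := c.rd_E (c.cn w 0) (.inl p)
    rw [cp_z k e, round_intCast, c.o.h.E_z] at this
    refine (c.bg0_eq w v y a b).trans (Eq.trans ?_ this)
    rw [c.up_pu g, t1]
    rfl
  · have t1 := (g.pu0 c.o.h.ok p.1.1.2.tr none (some i)).2
    have := c.rd_E (c.cn w (v i)) (.inr p)
    rw [c.o.h.E_x] at this
    refine (c.bg0_eq w v y a b).trans (Eq.trans ?_ this)
    rw [c.up_pu g, t1]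
    rfl

omit e in
/-- the errors at the corner -/
theorem cp_le (w v : c.CU → ℤ) {R : ℝ} (hR : ∀ y : c.CU, c.x ∈ c.U.ty y →
    (∀ b : c.T.Bl c.j.succ, y ≠ .inr (b, 1) ∧ y ≠ .inr (b, 3)) → |c.U.Φ (pt c.U c.x w v) y| ≤ R)
    (y : c.C) (m : 0 ∈ c.T.ty y) : |c.T.Φ (c.cn w v) y| ≤ 3 * R := by
  have o := k.emb.ok
  have h0 : |c.T.Φ (c.T.p0 c.j.succ (Ft.co (pt c.U c.x w v))) y| ≤ R :=
    hR (.inl y) (mem_image_of_mem _ m) fun _ => ⟨nofun, nofun⟩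
  by_cases b : c.j.succ ∈ c.T.ty y
  · have hx : ∀ l : Fin 4, l ≠ 1 → l ≠ 3 →
        |c.T.Φ (c.T.px c.j.succ (fun _ => false) l (Ft.co (pt c.U c.x w v))) y| ≤ R := fun l p q => by
      have := hR (.inr (⟨y, b⟩, l)) (mem_insert_of_mem (mem_image_of_mem _
        (mem_erase.2 ⟨(Fin.succ_ne_zero _).symm, m⟩))) fun _ => ⟨by simp [p], by simp [q]⟩
      refine le_trans ?_ this
      refine le_of_le_of_eq (le_mul_of_one_le_left (abs_nonneg _) (one_le_pow₀ one_le_two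
        (n := ![c.a1, c.a1, c.a2, c.a2] l))) ?_
      rw [← abs_of_pos (show (0 : ℝ) < 2 ^ (![c.a1, c.a1, c.a2, c.a2] l) by positivity), ← abs_mul]
      rfl
    have h1 := abs_le.1 (hx 0 (by simp) (by simp))
    have h2 := abs_le.1 (hx 2 (by simp) (by simp))
    have h3 := abs_le.1 h0
    rw [cn, o.Φ_pos _ _ _ _ _ b, abs_le]
    simp only [TT.cv, Fin.sum_univ_four, cons_val_zero, cons_val_one, Matrix.cons_val, Int.cast_one,
      Int.cast_zero, one_mul, zero_mul, add_zero]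
    constructor <;> linarith
  · exact ((congrArg abs ((o.ind b).pos _ _ _ _)).trans_le h0).trans
      (by linarith [(abs_nonneg _).trans h0])

/-- **short directions** -/
theorem xv_short (v : c.CU → ℤ) {R : ℝ} (R0 : 0 ≤ R) (hR : ∀ y : c.CU, c.x ∈ c.U.ty y →
    (∀ b : c.T.Bl c.j.succ, y ≠ .inr (b, 1) ∧ y ≠ .inr (b, 3)) → |c.U.Φ (pt c.U c.x w v) y| ≤ R) :
    2 ^ c.o.n * qf (c.o.Mz (c.o.h.zy y0)) (zc (c.xv w v)) ≤
      Fintype.card (gS s c.o.g c.o.Q).I * (2 ^ κ * (3 * R)) ^ 2 := by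
  rw [qf_xv k e, ← nsmul_eq_mul]
  refine sum_le_card_nsmul univ _ _ fun r _ => sq_le_sq' (abs_le.1 ?_).1 (abs_le.1 ?_).2 <;>
  exact k.mor.cube {0} _ _ _ (by positivity) (c.cp_fib w v).2
    (not_disjoint_iff.2 ⟨0, (c.o.h.mem_ty (.inr r)).2 rfl, mem_singleton_self _⟩) fun y _ m =>
      cp_le k w v hR y (by simpa using m)

/-- **the witness on the ring `D0`** -/
theorem wit_hs (hW : y0 ∈ c.o.cx.H) (a : Fin c.o.D) {X : Type} {μ : X → ℝ} (μ0 : ∀ i, 0 ≤ μ i)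
    (μ1 : Summable μ) (v : X → c.CU → ℤ) {R : ℝ} (R0 : 0 ≤ R)
    (hR : ∀ i, μ i ≠ 0 → ∀ y : c.CU, c.x ∈ c.U.ty y →
      (∀ b : c.T.Bl c.j.succ, y ≠ .inr (b, 1) ∧ y ≠ .inr (b, 3)) →
        |c.U.Φ (pt c.U c.x w (v i)) y| ≤ R)
    (hn : Fintype.card (gS s c.o.g c.o.Q).I * (2 ^ κ * (3 * R)) ^ 2 ≤
      2 ^ c.o.n * (1 / 2 ^ (c.o.n / 4))) (vv : X × X → ℕ → c.CU → ℤ)
    (h0 : ∀ q, vv q 0 = v q.1) (h1 : ∀ q, vv q 1 = v q.2) :
    ∃ t, (1 / 2 ^ c.o.n * ∑' i, μ i) ^ 2 / 2 ≤ t ∧ HasSum (fun q : X × X => μ q.1 * μ q.2 *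
      ((ee (c.Fp a w (v q.2) - c.Fp a w (v q.1))).re * He.hs s c.P (D0 c.o.Q c.j) c.δ c.V0 0
        (c.bg0 w (vv q)) (pf s _ _ c.o.f (pts (qq c.o.Q c.j 1 2 c.o.Q))))) t := by
  obtain ⟨b, hb⟩ := G_bd k.o (c.o.h.zy y0)
  obtain ⟨m0, t, -, -, m1⟩ := μ_mass k.o hW
  refine ⟨_, wit_sq k.o hW a (x := fun i => c.xv w (v i)) μ0 μ1 fun i z => le_of_mul_le_mul_left
    ((xv_short k e _ R0 (hR i z)).trans hn) (by positivity), Lf.hcg (tav_exp (fun y => (hb y).1)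
      (fun y => (hb y).2) μ0 μ1 m0 m1.summable) fun q => ?_⟩
  rw [hs_bg0 k e, Fp_eq k e, Fp_eq k e, ← dotProduct_sub, ← zc_sub]
  simp only [Fin.prod_univ_two, Fin.val_zero, Fin.val_one, h0, h1]

end Hc

end Crest.Agent.N49.He

end
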