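import Crest.Agent.N49.He.Dc
import Crest.Agent.N49.He.Wit0
import Crest.Agent.N49.He.Rft

/-!
# Row 49 (helper85): the witness
-/

set_option autoImplicit false

open Finset Matrix

noncomputable section

namespace Crest.Agent.N49.He

open Po Tw Br Rm Rm.TT Ft Md Sd

namespace Dw

theorem num1 {I n : ℕ} (h : (I + 2) ^ 2 ≤ 2 ^ n) {a : ℝ} (h' : a ≤ 2 ^ (n / 4)) :
    I * a ≤ 2 ^ n * (1 / 2 ^ (n / 4)) := by
  have e : (I * 2 ^ (n / 4) * 2 ^ (n / 4)) ^ 2 ≤ (2 ^ n) ^ 2 := by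
    have : (2 ^ (n / 4)) ^ 4 ≤ 2 ^ n := by
      rw [← pow_mul]; exact Nat.pow_le_pow_right two_pos (by omega)
    calc _ = I ^ 2 * (2 ^ (n / 4)) ^ 4 := by ring
      _ ≤ 2 ^ n * 2 ^ n := Nat.mul_le_mul ((Nat.pow_le_pow_left (by omega) 2).trans h) this
      _ = _ := by ring
  have e' : ((I * 2 ^ (n / 4) * 2 ^ (n / 4) : ℕ) : ℝ) ≤ (2 ^ n : ℕ) :=
    Nat.cast_le.2 ((Nat.pow_le_pow_iff_left two_ne_zero).1 e)
  push_cast at e'
  rw [mul_one_div, le_div_iff₀ (by positivity)]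
  exact le_trans (by gcongr) e'

theorem num2 {n : ℕ} {m t B : ℝ} (hm : 1 / 2 ≤ m) (ht : (1 / 2 ^ n * m) ^ 2 / 2 ≤ t)
    (B0 : 0 < B) (B1 : B ≤ 2 ^ n * 2 ^ n) : (1 / 2 : ℝ) ^ (4 * n + 3) ≤ t / B := by
  have a : (1 / 2 ^ n * (1 / 2) : ℝ) ^ 2 / 2 ≤ t := le_trans (by gcongr) ht
  rw [le_div_iff₀ B0]
  refine le_trans (mul_le_mul_of_nonneg_left B1 (by positivity)) (le_of_eq_of_le ?_ a)
  rw [pow_add, mul_comm 4 n, pow_mul, _root_.one_div_pow]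
  field_simp

theorem card_pts {d : ℕ} (Q : ℕ) (j : Fin d) : #(pts (qq Q j 1 2 Q)) = 2 * Q ^ d := by
  rw [qq_eq, pts, Fintype.card_piFinset]
  simp [card_image_of_injective _ (Option.some_injective _), Fin.prod_univ_succ, q1, ss_ne]

end Dw

theorem dwit (s d : ℕ) : WIT s d := by
  rintro c ε h κ b R a w k ⟨b1, b2, -⟩ R0 hR ⟨y0, hW, e⟩ hm
  have μ0 : ∀ n, 0 ≤ c.mu c.S5 w n * c.sh R w n := fun n => mul_nonneg (prod_nonneg fun y _ =>
    (Hs.ga_pos (by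
      rcases y with ⟨y | y, -⟩
      exacts [k.l0 y, mul_pos (by positivity) (k.l0 _)]) one_pos _).le) (by
        unfold Hc.sh; split_ifs <;> norm_num)
  have μ1 : Summable fun n => c.mu c.S5 w n * c.sh R w n := by_contra fun z => by
    rw [tsum_eq_zero_of_not_summable z] at hm; norm_num at hm
  obtain ⟨t, t1, t2⟩ := Hc.wit_hs k e hW a μ0 μ1 (fun n => ex c.U c.S5 c.x n) R0
    (fun n z y m m' => (of_not_not fun u => z (mul_eq_zero_of_right _ (if_neg u)) :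
      ∀ z : c.XW c.S5, |c.U.Φ (pt c.U c.x w (ex c.U c.S5 c.x n)) z.1| ≤ R)
        ⟨y, (dls_ty (Rt.dis5 m')).symm ▸ m⟩)
    (Dw.num1 k.o.I (by rw [mul_pow, ← pow_mul, mul_comm κ, pow_mul]; linarith))
    (fun q => c.vs c.S5 ![q.1, q.2]) (fun _ => rfl) fun _ => rfl
  have B0 : 0 < b ^ (2 * c.o.Q ^ d) := by positivity
  refine (Dw.num2 hm t1 B0 (by rw [two_mul, pow_add]; gcongr)).trans_eq ?_
  rw [← (t2.div_const _).tsum_eq, ← (finTwoArrowEquiv _).symm.tsum_eq]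
  refine tsum_congr fun q => ?_
  have f : pf s c.P (D0 c.o.Q c.j) (c.fb b) c.Ω = fun y =>
      pf s c.P _ c.o.f c.Ω y / b ^ (2 * c.o.Q ^ d) := funext fun y => by
    simp only [pf, Hc.fb, prod_div_distrib, prod_const, Dw.card_pts]
  rw [f, Fin.prod_univ_two, mul_div_assoc, mul_div_assoc, mul_assoc (_ * _) (Complex.re _)]
  refine congrArg₂ (· * ·) rfl (congrArg₂ (· * ·) rfl ?_)
  simp only [He.hs, ← mul_div_assoc, tsum_div_const]
  rfl

end Crest.Agent.N49.He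

end
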