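import Crest.Agent.N49.He.Ji
import Crest.Agent.N49.He.Rd

/-!
# Row 49 (helper63): the background does not read the dead words (`BGD`)
-/

set_option autoImplicit false

open Finset

noncomputable section

namespace Crest.Agent.N49.He.Ji

open Po Tw Br Rm Rm.TT Ft Md Sd

/-- **the dead words do not matter for the background** -/
theorem bgd : BGD := by
  intro s d c ε h m k D w w' v o e
  have a : ∀ t (u : c.CU), (c.U.ty u).Nonempty → c.pp w v t (.inl u) = c.pp w' v t (.inl u) :=
    fun t u n => dite_congr rfl (fun _ => rfl) fun _ => congrArg Int.cast (e u n)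
  have r0 : ∀ t F t' e', c.r0 (c.pp w v t) F t' e' = c.r0 (c.pp w' v t) F t' e' :=
    fun t F t' e' => o.rd_loc _ _ (fun u _ => a t (.inl u.1) (u.2.image _)) fun _ _ => rfl
  have rx : ∀ t l F t' e', c.rx (c.pp w v t) l F t' e' = c.rx (c.pp w' v t) l F t' e' :=
    fun t l F t' e' => o.rd_loc _ _ (fun u _ => dite_congr rfl
      (fun _ => a t (.inr _) (insert_nonempty _ _)) fun _ => a t (.inl u.1) (u.2.image _))
      fun _ _ => rfl
  funext y
  simp only [Hc.bg, r0, rx]

end Crest.Agent.N49.He.Ji

end
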