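import Crest.Agent.N49.He.Jz
import Crest.Agent.N49.Sd.Nrm
import Crest.Agent.N49.Sd.Kwt
import Crest.Agent.N49.Sd.Tanr
import Crest.Agent.N49.Wf.Fnr

/-!
# Row 49 (helper90): the norm clauses of `JZ` and the cover
-/

set_option autoImplicit false
set_option maxHeartbeats 400000

open Matrix MvPolynomial Finset

noncomputable section

namespace Crest.Agent.N49.He

open Po Tw Sd Sd.Nr

section
variable {τ τ' : Type} {T : TS Unit} {S : Sh Unit τ} {R : Sh Unit τ'}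

theorem qf_fb {V : S.W → ℝ} {d : T.C → ℝ} (hS : S.K = diagonal V) (hT : T.K = diagonal d)
    (hV : ∀ w, V w ≠ 0) (hd : ∀ F, d F ≠ 0) (p : S.W → Prop) [DecidablePred p] (st : T.C → ℕ)
    (Ψ : T.Twd S) (b : T.Cw S → ℤ) (u : Kc T S p → ℝ) :
    qf (fb T S p st Ψ b).K⁻¹ u = ∑ c, u c ^ 2 / (d c.1.1.1 * V c.1.1.2) :=
  qf_dg (C := Kc T S p) (d := fun c => d c.1.1.1 * V c.1.1.2)
    (fun c c' => (sh_K hS hT c.1 c'.1).trans (if_congr Subtype.ext_iff.symm rfl rfl))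
    (fun _ => mul_ne_zero (hd _) (hV _)) _

/-- **the norm clause of the morphism** -/
theorem nrm_phi (p : S.W → Prop) (q : R.W → Prop) [DecidablePred p] [DecidablePred q]
    (st : T.C → ℕ) (Ψ : T.Twd S) (Ψ' : T.Twd R) {φ : Matrix R.W S.W ℤ} {V1 : S.W → ℝ}
    {V : R.W → ℝ} {κ a : ℝ} (hT : T.K = 1) (hS : S.K = diagonal V1) (hR : R.K = diagonal V)
    (k0 : 0 < κ) (a0 : 0 < a) (h1 : ∀ w, 0 < V1 w ∧ V1 w ≤ κ) (hV : ∀ w, a ≤ V w)
    (hφ : ∀ w μ, |φ w μ| ≤ 1) (hl : 2 * κ * Fintype.card S.W * Fintype.card R.W ≤ a)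
    (u : Kc T S (fun w => ¬ p w) → ℝ) :
    2 * qf (fb T R (fun w => ¬ q w) st Ψ' 0).K⁻¹
      (fun c => (T.hmM S R (rl φ) *ᵥ gl T S (fun w => ¬ p w) u 0) c.1) ≤
        qf (fb T S (fun w => ¬ p w) st Ψ 0).K⁻¹ u := by
  have t1 : T.K = diagonal fun _ => 1 := hT.trans diagonal_one.symm
  have e := Wf.fnr τ τ' T (S.setK (diagonal fun _ => κ)) (R.setK (diagonal fun _ => a)) φ
    (fun _ => 1) κ a (by simpa using t1) (fun _ => one_ne_zero) rfl rfl k0 a0 hφ hl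
    (gl T S (fun w => ¬ p w) u 0)
  rw [qf_sh (S := R.setK (diagonal fun _ => a)) rfl t1 (fun _ => a0.ne') fun _ => one_ne_zero,
    qf_sh (S := S.setK (diagonal fun _ => κ)) rfl t1 (fun _ => k0.ne') fun _ => one_ne_zero] at e
  have b := qf_fb_le hR t1 a0 hV (fun _ => one_pos) (fun w => ¬ q w) st Ψ' 0
    (T.hmM S R (rl φ) *ᵥ gl T S (fun w => ¬ p w) u 0)
  rw [qf_fb hS t1 (fun w => (h1 w).1.ne') fun _ => one_ne_zero]
  refine (mul_le_mul_of_nonneg_left b two_pos.le).trans (le_trans (le_of_eq ?_) (e.trans ?_))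
  · simp only [div_one, one_mul, sum_div]; rfl
  · refine (Fintype.sum_subtype_add_sum_subtype (fun c : T.Cw S => ¬ p c.1.2) fun c =>
      gl T S (fun w => ¬ p w) u 0 c ^ 2 / (1 * κ)).symm.trans_le ?_
    rw [sum_eq_zero (s := univ) (f := fun c : {c : T.Cw S // ¬¬ p c.1.2} =>
      gl T S (fun w => ¬ p w) u 0 c.1 ^ 2 / (1 * κ)) fun c _ => by
        rw [show gl T S (fun w => ¬ p w) u 0 c.1 = 0 from dif_neg c.2]; simp, add_zero]
    refine sum_le_sum fun c _ => ?_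
    rw [show gl T S (fun w => ¬ p w) u 0 c.1 = u c from dif_pos c.2, one_mul, one_mul]
    exact div_le_div_of_nonneg_left (sq_nonneg _) (h1 _).1 (h1 _).2

theorem dg_lo {W : Type} [Fintype W] [DecidableEq W] {V : W → ℝ} {a : ℝ} (h : ∀ w, a ≤ V w)
    (z : W → ℝ) : a * ∑ w, z w ^ 2 ≤ qf (diagonal V) z := by
  rw [qf, dotProduct, mul_sum]
  refine sum_le_sum fun w _ => ?_
  rw [mulVec_diagonal]
  nlinarith [mul_le_mul_of_nonneg_right (h w) (sq_nonneg (z w))]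

theorem dg_ok (o : S.Ok) {V : S.W → ℝ} (h : ∀ w, 0 < V w) : (S.setK (diagonal V)).Ok :=
  o.setK (posDef_diagonal_iff.2 h) fun w w' n => by
    rw [of_not_not fun e : w ≠ w' => n (diagonal_apply_ne _ e)]

/-- the norm clause of the cover -/
theorem nrm_cv {T1 T2 : TS Unit} {Lt : Type} (D : Tan T1 T2 Lt) (f : Lt → S.W) (p : S.W → Prop)
    [DecidablePred p] (st1 : T1.C → ℕ) (st2 : T2.C → ℕ) (Ψ1 : T1.Twd S) {V1 V2 : S.W → ℝ}
    (Ψ2 : T2.Twd (S.setK (diagonal V2))) {X a lam : ℝ} (hr : ∀ w m, |S.r w m| ≤ 1)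
    (hS : S.K = diagonal V1) (nb : D.Nb X) (hl : 0 < lam) (hV : ∀ w, a ≤ V1 w ∧ a ≤ V2 w)
    (ha : 2 * lam * (1 + X ^ 2 * (Fintype.card S.W : ℝ) ^ 2 * Fintype.card T2.C) ≤ a)
    (u : T2.Cw S → ℝ) :
    2 * (qf (fb T2 (S.setK (diagonal V2)) p st2 Ψ2 0).K⁻¹ (fun c => u c.1) +
      qf (fb T1 S (fun w => ¬ p w) st1 Ψ1 0).K⁻¹ fun c => (D.rn f).L S u c.1) ≤
        qf (T2.kw S T2.K (diagonal fun _ => lam))⁻¹ u := by
  obtain ⟨hK1, sc, hK2, hs⟩ := nb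
  have a0 : 0 < a := lt_of_lt_of_le (by positivity) ha
  obtain ⟨N, hN⟩ : ∃ N, N = ∑ c', (u c' / sc c'.1.1) ^ 2 := ⟨_, rfl⟩
  have N0 : 0 ≤ N := hN ▸ sum_nonneg fun _ _ => sq_nonneg _
  have d0 : ∀ G, 0 < sc G ^ 2 := fun G => sq_pos_of_ne_zero (hs G).1
  have e0 : qf (T2.kw S T2.K (diagonal fun _ => lam))⁻¹ u = N / lam := by
    refine (qf_sh (S := S.setK (diagonal fun _ => lam)) rfl hK2 (fun _ => hl.ne')
      (fun G => (d0 G).ne') u).trans ?_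
    rw [hN, sum_div]
    exact sum_congr rfl fun c _ => by rw [div_pow, div_div]
  have e1 : qf (fb T2 (S.setK (diagonal V2)) p st2 Ψ2 0).K⁻¹ (fun c => u c.1) ≤ N / a := by
    refine (qf_fb_le (S := S.setK (diagonal V2)) rfl hK2 a0 (fun _ => (hV _).2) d0 p st2 Ψ2 0
      u).trans_eq ?_
    simp only [hN, div_pow]
    rfl
  have e2 : qf (fb T1 S (fun w => ¬ p w) st1 Ψ1 0).K⁻¹ (fun c => (D.rn f).L S u c.1) ≤
      X ^ 2 * (Fintype.card S.W : ℝ) ^ 2 * Fintype.card T2.C * N / a := by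
    refine (qf_fb_le hS (hK1.trans diagonal_one.symm) a0
      (fun _ => (hV _).1) (fun _ => one_pos) (fun w => ¬ p w) st1 Ψ1 0 _).trans ?_
    simp only [div_one]
    refine div_le_div_of_nonneg_right ((L_sq hr (D.rn f)
      (fun G => (hs G).1) (fun G => le_trans ?_ (hs G).2) u).trans ?_) a0.le
    · change _ * l1 (MvPolynomial.map _ (rename f (D.mon G))) ≤ _
      rw [map_rename]
      exact mul_le_mul_of_nonneg_left (l1_rename _ _) (abs_nonneg _)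
    · rw [← hN]
  rw [e0, le_div_iff₀ hl]
  calc _ ≤ 2 * (N / a + X ^ 2 * (Fintype.card S.W : ℝ) ^ 2 * Fintype.card T2.C * N / a) * lam := by
        gcongr
    _ = 2 * lam * (1 + X ^ 2 * (Fintype.card S.W : ℝ) ^ 2 * Fintype.card T2.C) * N / a := by ring
    _ ≤ a * N / a := by gcongr
    _ = N := mul_div_cancel_left₀ _ a0.ne'

/-- **the cover** -/
theorem cv_of {T1 T2 : TS Unit} {Lt : Type} {D : Tan T1 T2 Lt} {f : Lt → S.W} {p : S.W → Prop}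
    [DecidablePred p] {st1 : T1.C → ℕ} {st2 : T2.C → ℕ} {V1 V2 : S.W → ℝ} {M1 M C N : ℕ}
    {X a a0 lam η : ℝ} (sz : S.Sz N a0) (hr : ∀ w m, |S.r w m| ≤ 1) (hS : S.K = diagonal V1)
    (idl : S.Idl p) (he : ∀ w, S.ε w ≠ 0 → ¬ p w) (hf : ∀ t, S.dg (f t) = 1)
    (s1 : T1.Stg st1 M1) (s2 : T2.Stg st2 M) (ok : D.Ok (fun _ => 1) st1 st2 0)
    (adq : D.Adq st1 st2) (id : D.Id) (nb : D.Nb X) (ma : MAST M C) (rg : T2.RgS st2 M C N lam η)
    (e0 : 0 < η) (e1 : η ≤ 1) (hl : 0 < lam) (hV : ∀ w, a ≤ V1 w ∧ a ≤ V2 w)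
    (ha : 2 * lam * (1 + X ^ 2 * (Fintype.card S.W : ℝ) ^ 2 * Fintype.card T2.C) ≤ a) :
    Cv S p st1 st2 (D.rn f) (T1.tw0 S) (diagonal V2) η := by
  have p0 : 0 < a := lt_of_lt_of_le (by positivity) ha
  have t := tanr _ _ T1 T2 D S f st1 st2 0 sz.toOk s1.cl.1 s2.cl.1
    (by rw [show (fun t => S.dg (f t)) = fun _ => 1 from funext hf]; exact ok)
  have o := dg_ok sz.toOk (V := fun _ => lam) fun _ => hl
  exact ⟨sz.toOk, dg_ok sz.toOk fun w => p0.trans_le (hV w).2, idl, ⟨M1, s1⟩, t.1,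
    fun F μ h => adq F μ fun G k z => h G k (by
      change rename f (D.mon G) = 0
      rw [z, map_zero]), t.2 id, s1.adm sz.toOk, Kw.u_eq idl he s1.cl.1, diagonal fun _ => lam, M,
    s2, o, fun Ψ h => ma _ _ T2 _ st2 Ψ N lam η ⟨s2, h, e0, e1, rg,
      ⟨o, sz.card, sz.ht, dg_lo fun _ => le_rfl, sz.gen⟩⟩,
    nrm_cv D f p st1 st2 _ _ hr hS nb hl hV ha⟩
end

end Crest.Agent.N49.He

end
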