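import Crest.Agent.N49.He.Ji
import Crest.Agent.N49.He.Cvg
import Crest.Agent.N49.En.CntA

/-!
# Row 49 (helper90): the leaves `FNH` and `CVF`
-/

set_option autoImplicit false
set_option maxHeartbeats 400000

open Matrix Finset

noncomputable section

namespace Crest.Agent.N49.He.Ji

open Po Tw Sd

theorem fnh : FNH := fun _ _ _ _ _ p q _ _ st _ Ψ Ψ' _ _ _ hT hS hR hV k0 a0 hφ hl u =>
  nrm_phi p q st Ψ Ψ' hT hS hR k0 a0 (fun _ => ⟨k0, le_rfl⟩) hV hφ hl u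

theorem cs_K {Λ : Type} [Fintype Λ] [DecidableEq Λ] (s : ℕ) (ε : Λ → ℤ) (κ : (Λ →₀ ℕ) → ℝ) :
    (CS Λ s ε κ).K = diagonal fun w => κ w.1 := by
  ext w w'
  rw [diagonal_apply]
  exact if_congr Subtype.ext_iff.symm rfl rfl

theorem cvf : CVF := by
  intro d s hs Λ Lt _ _ b ε lt T1 T2 st1 st2 M1 M2 C n D X κ κ' a η k2 he s1 s2 ok adq id nb ma rg
    e0 e1 hn k0 ak hk ha
  have a0 : 0 < a := lt_of_lt_of_le (by positivity) ha
  have sz : ∀ {m}, (Fintype.card Λ + 1) ^ s ≤ m → (CS Λ s ε fun _ => κ).Sz m κ := fun h =>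
    Sh.mono_sz dn_full (kb_dk (b := κ) fun _ _ => ⟨le_rfl, le_rfl⟩) (a0.trans_le ak) (Sh.dk_blk _)
      ((En.card_full Λ s).trans h)
  have c : (Fintype.card (CS Λ s ε fun _ => κ).W : ℝ) ≤ (Fintype.card Λ + 1) ^ s := by
    exact_mod_cast (sz le_rfl).card
  refine (congrArg (fun K => Cv (CS Λ s ε fun _ => κ) (kp b) st1 st2 _ _ K η) (cs_K s ε k2)).mpr
    (cv_of (a := a) (sz hn) (fun w m => ?_) (cs_K s ε _) (Sh.mono_idl fun w w' k l => ?_)
      (fun w z k => ?_) (fun t => ?_) s1 s2 ok adq id nb ma rg e0 e1 k0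
      (fun w => ⟨ak, hk _ (Sh.MW.mem w)⟩) (le_trans (by gcongr) ha))
  · change |if _ then (1 : ℤ) else 0| ≤ 1
    split_ifs <;> simp
  · have u := Finsupp.support_mono l
    exact ⟨fun x h => ⟨(k.1 x (u h)).1, le_antisymm ((l x).trans_eq (k.1 x (u h)).2)
      (Nat.one_le_iff_ne_zero.2 (Finsupp.mem_support_iff.1 h))⟩,
      fun x h y h' => k.2 x (u h) y (u h')⟩
  · obtain ⟨x, h, z⟩ := exists_ne_zero_of_sum_ne_zero z
    exact (k.1 x h).1 (he x (ite_ne_right_iff.1 z).2)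
  · exact Finsupp.degree_single _ _

end Crest.Agent.N49.He.Ji

end
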