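import Crest.Agent.N49.He.Ji
import Crest.Agent.N49.He.Dt

/-! # Row 49 (helper54): the normaliser of the kept coordinates -/

set_option autoImplicit false
set_option linter.unusedSectionVars false

open Finset Matrix

noncomputable section

namespace Crest.Agent.N49.He.Ji

open Po Tw Br Rm Rm.TT Ft Md Sd

namespace Dv

/-- a subsystem of a homogeneous tower is homogeneous -/
theorem em_hm {L C V : Type} [Fintype L] [DecidableEq L] [Fintype C] [DecidableEq C] [Fintype V]
    [DecidableEq V] {T : TT L C} {e : Gd.Lv T → V} {T2 : TT L V} (m : Em T e T2) (h : Gd.Hm T2) :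
    Gd.Hm T := fun p p' k => funext fun c => by
  rcases (T.ty c).eq_empty_or_nonempty with z | z
  · rw [m.ok.dead c p z, m.ok.dead c p' z, k]
  · have a : ∀ q : C ⊕ L → ℝ, T.Φ q c = T2.Φ (Sum.elim
        (Function.extend e (fun c => q (.inl c.1)) 0) fun ℓ => q (.inr ℓ)) (e ⟨c, z⟩) := fun q => by
      rw [← m.Φ 0]
      refine (m.ok.dat c z).1 _ _ ?_
      rintro (v | v) _ n
      · have n' : (T.ty v).Nonempty := n
        simp only [rr, Sum.elim_inl, dif_pos n', m.inj.extend_apply]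
      · rfl
    rw [a, a]
    exact congrFun (h _ _ fun v => by simp only [Sum.elim_inl, k]) _

variable {s d : ℕ} {c : Hc s d} {ε : ℝ} {h m r' : ℕ} {S : Finset c.L}

theorem hmT (k : c.Ok ε h m) : Gd.Hm c.T :=
  em_hm k.emb.toEm fun _ _ e => congrArg (Sy.sΦ c.f.T (fun F => c.f.st F < c.f.M + 1) _
    fun A => ∏ a ∈ A, c.f.la (bk a)) (funext e)

theorem hmU (k : c.Ok ε h m) : Gd.Hm c.U := fun p p' e => funext fun u => by
  rcases u with u | u
  · exact congrFun (hmT k _ _ fun v => e _) u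
  · refine congrArg (_ * ·) (congrFun (hmT k _ _ fun v => ?_) _)
    simp only [px, Ft.co, Sum.elim_inl, e]

theorem zero (k : c.Ok ε h m) (p : c.CU ⊕ c.L → ℝ) {u : c.CU} (hu : c.x ∈ c.U.ty u)
    {n : c.U.Bl c.x → ℝ} (hn : ∀ y, n y = 0) : c.U.Φ (c.U.jr c.x p n 0) u = 0 := by
  have := (Hc.dt_U k).lin hu 0 0 p p fun _ _ => rfl
  rw [zero_mul, add_zero] at this
  refine Eq.trans (congrArg (fun q => c.U.Φ q u) (funext ?_)) this
  rintro (v | v)
  · by_cases g : c.x ∈ c.U.ty v <;> simp [jr, cmb, tv, g, hn]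
  · by_cases g : v = c.x
    · simp [jr, cmb, tv, g]
    · simp [jr, cmb, tv, g, Ne.symm g]

theorem lp_eq (k : c.Ok ε h m) (v v' : c.KV S r') : Ir.lp (c.Ph (S := S) (r' := r')) v v' =
    if c.vo v = c.vo v' then c.U.Am (c.vu v).1 (c.vu v').1 else 0 := by
  rcases v with u | y <;> rcases v' with u' | y'
  · refine Eq.trans ?_ (if_pos rfl).symm
    refine congrFun (hmU k _ _ fun v => ?_) _
    by_cases g : (c.U.ty v).Nonempty
    · simp [Hc.wb, g, Pi.single_apply, Hc.vu, Subtype.ext_iff]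
    · have : v ≠ u'.1 := fun r => g (r ▸ u'.2)
      simp [Hc.wb, g, this, Hc.vu]
  · refine Eq.trans ?_ (if_neg (by simp [Hc.vo])).symm
    refine (congrFun (hmU k _ 0 fun v => ?_) _).trans (Dt.phi0 (Hc.dt_U k) _)
    simp [Hc.wb]
  · refine Eq.trans ?_ (if_neg (by simp [Hc.vo])).symm
    exact zero k _ (mem_dls.1 y.2.2).1 fun _ => by simp
  · by_cases g : y.1 = y'.1
    · refine Eq.trans ?_ (if_pos (congrArg some g)).symm
      refine congrFun (hmU k _ _ fun v => ?_) _
      by_cases a : c.x ∈ (c.U.dls S).ty v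
      · simp [jr, (mem_dls.1 a).1, a, Pi.single_apply, Hc.vu, Hc.xl, Prod.ext_iff, g,
          Subtype.ext_iff]
      · have : v ≠ y'.2.1 := fun r => a (r ▸ y'.2.2)
        by_cases b : c.x ∈ c.U.ty v <;> simp [jr, a, b, this, Hc.vu, Hc.xl, Hc.wb]
    · refine Eq.trans ?_ (if_neg fun r => g (Option.some_injective _ r)).symm
      exact zero k _ (mem_dls.1 y.2.2).1 fun _ => by simp [Prod.ext_iff, g]
end Dv

theorem detv : DETV := by
  intro s d c ε h m r' S k
  rw [det_cls c.vo _ fun v v' n => (Dv.lp_eq k v v').trans (if_neg n), abs_prod,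
    ← Fintype.prod_fiberwise c.vo]
  refine prod_congr rfl fun o _ => ?_
  have e : (Ir.lp (c.Ph (S := S) (r' := r'))).submatrix (Subtype.val : {v // c.vo v = o} → _)
      Subtype.val = c.U.Am.submatrix (fun v : {v // c.vo v = o} => (c.vu v.1).1)
      fun v : {v // c.vo v = o} => (c.vu v.1).1 :=
    Matrix.ext fun v v' => (Dv.lp_eq k v.1 v'.1).trans (if_pos (Eq.trans v.2 (Eq.symm v'.2)))
  rw [e]
  refine Hc.det_lu k ?_ (fun A => o.elim A.Nonempty fun _ => c.x ∈ A ∧ Disjoint A S)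
    (by cases o <;> simp) fun y => ?_
  · rintro ⟨u | u, a⟩ ⟨u' | u', b⟩ r
    · exact Subtype.ext (congrArg Sum.inl (Subtype.ext r))
    · cases a.trans b.symm
    · cases a.trans b.symm
    · exact Subtype.ext (congrArg Sum.inr (Prod.ext (Option.some_injective _ (a.trans b.symm))
        (Subtype.ext r)))
  · constructor
    · rintro ⟨⟨u | u, rfl⟩, rfl⟩
      exacts [u.2, mem_dls.1 u.2.2]
    · cases o with
      | none => exact fun a => ⟨⟨.inl ⟨y, a⟩, rfl⟩, rfl⟩
      | some i => exact fun a => ⟨⟨.inr (i, ⟨y, mem_dls.2 a⟩), rfl⟩, rfl⟩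

end Crest.Agent.N49.He.Ji

end
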