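import Crest.Agent.N49.He.Ji
import Crest.Agent.N49.He.Sk0

/-!
# Row 49 (helper70): the empty tower
-/

set_option autoImplicit false

open Finset

noncomputable section

namespace Crest.Agent.N49.He.Ji

open Tw Br Rm Ft Md Sd

theorem tg_emp {τ L : Type} [Fintype τ] [DecidableEq τ] [Fintype L] [DecidableEq L] {B : Bs L}
    {blk : τ → L} {s : ℕ} {f : Md.Fr B.T τ L} (t : Tg B blk s f) (e : IsEmpty B.T.C) :
    IsEmpty f.T.C := by
  induction t with
  | id => exact e
  | tan lam la' J b hp _ _ _ ih => exact ⟨fun G => ih.false G.1.1⟩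

theorem emp2 : EMP := by
  intro s d c ε h m r r' k a Γ Δ V x o e
  have e1 : IsEmpty c.f.T.C := tg_emp o.tg e
  have e2 : ∀ S, IsEmpty (c.XW S) := fun S =>
    ⟨fun y => e1.false (c.sw (r' := 0) (S := S) (.inl (c.xl y))).1.1⟩
  have e3 : IsEmpty (HW s c.P (DD c.o.Q c.j k r r' a Γ Δ)) := ⟨fun z => e.false z.1.1.1⟩
  rw [← o.U.Ex_const 1]
  refine congrArg _ (funext fun w => ?_)
  have := e2 (c.Sx k Γ Δ)
  simp [Hc.tm, Hc.mu, hs]

end Crest.Agent.N49.He.Ji

end
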