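import Crest.Agent.N49.Ft.Fine
import Crest.Agent.N49.Sy.Sun

/-!
# Row 49 (helper9): the clones of a subsystem of a symbol tower are symbols on the clone alphabet
-/

set_option autoImplicit false
set_option linter.unusedSectionVars false

open Finset

noncomputable section

namespace Crest.Agent.N49.He

open Rm Md Sy Gd

variable {τ L C1 Λ L' : Type} [Fintype τ] [DecidableEq τ] [Fintype L] [DecidableEq L] [Fintype C1]
  [DecidableEq C1] [Fintype Λ] [DecidableEq Λ] [Fintype L'] [DecidableEq L'] {B : Bs L}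
  {W : Finset (Finset τ)} {blk : τ → L} {T1 : TT L C1} {e : Lv T1 → B.SC W}

/-- **pointwise form**: the error of a live word is a symbol on any copy of its word -/
theorem em_sy (h : Em T1 e (B.SY W blk)) (hW : Dw W) (hp : ∀ F, B.st F < B.M + 1) (g : τ ↪ Λ)
    (Y : B.T.C → Finset Λ → ℝ) (q : C1 ⊕ L → ℝ) (c : Lv T1)
    (hq : ∀ c' : Lv T1, (e c').1.2 ⊆ (e c).1.2 → q (.inl c'.1) = Y (e c').1.1 ((e c').1.2.map g)) :
    T1.Φ q c.1 = (∏ a ∈ (e c).1.2, B.la (blk a)) *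
      sy B.T.lev (B.T.Φ (e c).1.1) Y ((e c).1.2.map g) := by
  classical
  let P : B.SC W ⊕ L → ℝ := Sum.elim (fun v => if k : ∃ c, e c = v then q (.inl k.choose.1) else
    Y v.1.1 (v.1.2.map g)) fun ℓ => q (.inr ℓ)
  have p1 : ∀ c', P (.inl (e c')) = q (.inl c'.1) := fun c' => by
    have k : ∃ c'', e c'' = e c' := ⟨c', rfl⟩
    simp only [P, Sum.elim_inl, dif_pos k, h.inj k.choose_spec]
  have p2 : T1.Φ q c.1 = (B.SY W blk).Φ P (e c) := by
    rw [← h.Φ 0 P c]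
    refine (h.ok.dat c.1 c.2).1 _ _ fun v _ hv => ?_
    rcases v with v | v
    · have hv' : (T1.ty v).Nonempty := hv
      simp only [rr, Sum.elim_inl, dif_pos hv']
      exact (p1 ⟨v, hv'⟩).symm
    · rfl
  rw [p2, ← sy_map]
  simp only [Bs.SY, symT, sΦ, sP]
  congr 1
  refine sy_congr' _ _ fun F A a k => ?_
  have m : B.st F < B.M + 1 ∧ A ∈ W ∧ #A = B.T.lev F := ⟨hp F, hW _ (e c).2.2.1 _ a, k⟩
  rw [sx, dif_pos m]
  by_cases r : ∃ c', e c' = ⟨(F, A), m⟩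
  · obtain ⟨c', r⟩ := r
    rw [← r, p1, hq c' (by rw [r]; exact a), r]
  · simp only [P, Sum.elim_inl, dif_neg r]

variable (e blk) in
/-- the word of a cloned word -/
def cw (o : L' → Option L) (w : UC T1 o) : Finset (τ × L') :=
  ((e ⟨w.1.1, w.2.1⟩).1.2 ×ˢ w.1.2).filter fun x => o x.2 = some (blk x.1)

section
variable {o : L' → Option L} {w w' : UC T1 o}

theorem mem_cw {x : τ × L'} : x ∈ cw blk e o w ↔
    (x.1 ∈ (e ⟨w.1.1, w.2.1⟩).1.2 ∧ x.2 ∈ w.1.2) ∧ o x.2 = some (blk x.1) := by simp [cw]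

variable (h : Em T1 e (B.SY W blk))
include h

theorem em_ty (c : Lv T1) : T1.ty c.1 = (e c).1.2.image blk := (h.ty c).symm

theorem cw_fst : (cw blk e o w).image Prod.fst = (e ⟨w.1.1, w.2.1⟩).1.2 :=
  Subset.antisymm (image_subset_iff.2 fun _ a => (mem_cw.1 a).1.1) fun a b => by
    obtain ⟨x, k, r⟩ := w.2.ex' ((em_ty h ⟨w.1.1, w.2.1⟩).ge (mem_image_of_mem blk b))
    exact mem_image.2 ⟨(a, x), mem_cw.2 ⟨⟨b, k⟩, r⟩, rfl⟩

theorem cw_snd : (cw blk e o w).image Prod.snd = w.1.2 :=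
  Subset.antisymm (image_subset_iff.2 fun _ a => (mem_cw.1 a).1.2) fun x b => by
    obtain ⟨l, k, r⟩ := w.2.ex b
    rw [em_ty h ⟨w.1.1, w.2.1⟩] at k
    obtain ⟨a, k', rfl⟩ := mem_image.1 k
    exact mem_image.2 ⟨(a, x), mem_cw.2 ⟨⟨k', b⟩, r⟩, rfl⟩

omit h in
theorem cw_card : #((cw blk e o w).image Prod.fst) = #(cw blk e o w) :=
  card_image_of_injOn fun _ a _ a' r => Prod.ext r (w.2.inj (mem_cw.1 a).1.2 (mem_cw.1 a').1.2
    ((mem_cw.1 a).2.trans (r ▸ (mem_cw.1 a').2.symm)))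

theorem cw_mem : cw blk e o w ∈ clW W blk o :=
  mem_clW.2 ⟨by rw [cw_fst h]; exact (e _).2.2.1, cw_card, fun _ a => (mem_cw.1 a).2⟩

/-- **the cloned words as symbol coordinates on the clone alphabet** -/
def ce (w : UC T1 o) : B.SC (clW W blk o) :=
  ⟨((e ⟨w.1.1, w.2.1⟩).1.1, cw blk e o w), (e _).2.1, cw_mem h,
    cw_card.symm.trans (by rw [cw_fst h]; exact (e _).2.2.2)⟩

theorem ce_inj : Function.Injective (ce (o := o) h) := fun w w' r => by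
  have r1 : (e ⟨w.1.1, w.2.1⟩).1.1 = (e ⟨w'.1.1, w'.2.1⟩).1.1 := congrArg (·.1.1) r
  have r2 : cw blk e o w = cw blk e o w' := congrArg (·.1.2) r
  have r3 := h.inj (Subtype.ext (Prod.ext r1 ((cw_fst h).symm.trans (r2 ▸ cw_fst h))))
  exact Subtype.ext (Prod.ext (congrArg Subtype.val r3) ((cw_snd h).symm.trans (r2 ▸ cw_snd h)))

/-- **the clone system of a subsystem**, at any point `q` that reads `Y` below the word -/
theorem ce_Φ (hW : Dw W) (hp : ∀ F, B.st F < B.M + 1)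
    (Y : B.T.C → Finset (τ × L') → ℝ) (q : C1 ⊕ L → ℝ) (w : UC T1 o)
    (hq : ∀ w' : UC T1 o, cw blk e o w' ⊆ cw blk e o w →
      q (.inl w'.1.1) = Y (e ⟨w'.1.1, w'.2.1⟩).1.1 (cw blk e o w')) :
    T1.Φ q w.1.1 = (∏ a ∈ (e ⟨w.1.1, w.2.1⟩).1.2, B.la (blk a)) *
      sy B.T.lev (B.T.Φ (e ⟨w.1.1, w.2.1⟩).1.1) Y (cw blk e o w) := by
  obtain ⟨x0, -⟩ := w.2.ne
  have : Nonempty L' := ⟨x0⟩
  choose! ξ k using fun a (b : a ∈ (e ⟨w.1.1, w.2.1⟩).1.2) => (show ∃ x, (a, x) ∈ cw blk e o w by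
    obtain ⟨x, k, r⟩ := mem_image.1 ((cw_fst h (w := w)).ge b)
    exact ⟨x.2, r ▸ k⟩)
  let g : τ ↪ τ × L' := ⟨fun a => (a, ξ a), fun _ _ r => congrArg Prod.fst r⟩
  have s : ∀ A ⊆ (e ⟨w.1.1, w.2.1⟩).1.2, A.map g ⊆ cw blk e o w := fun A b x a => by
    obtain ⟨a', m, rfl⟩ := mem_map.1 a
    exact k a' (b m)
  have r : (e ⟨w.1.1, w.2.1⟩).1.2.map g = cw blk e o w :=
    eq_of_subset_of_card_le (s _ le_rfl) (by rw [card_map, ← cw_card, cw_fst h])
  rw [← r]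
  refine em_sy h hW hp g Y q ⟨w.1.1, w.2.1⟩ fun c' a => ?_
  have t : T1.ty c'.1 ⊆ T1.ty w.1.1 := by
    rw [em_ty h c', em_ty h ⟨w.1.1, w.2.1⟩]; exact image_subset_image a
  let w' : UC T1 o := ⟨(c'.1, rs o (T1.ty c'.1) w.1.2), w.2.rs t c'.2⟩
  have u : (e c').1.2.map g = cw blk e o w' := by
    refine eq_of_subset_of_card_le (fun x m => ?_) (by rw [card_map, ← cw_card, cw_fst h])
    have m' := mem_cw.1 (s _ a m)
    obtain ⟨a', n, rfl⟩ := mem_map.1 m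
    exact mem_cw.2 ⟨⟨n, mem_rs.2 ⟨m'.1.2, _, (em_ty h c').ge (mem_image_of_mem blk n), m'.2⟩⟩, m'.2⟩
  rw [u]
  exact hq w' (u ▸ s _ a)

/-- the universal clone system is a subsystem of the symbol system on the clone alphabet -/
theorem ce_U (hW : Dw W) (hb : ∀ A ∈ W, Set.InjOn blk A) (hp : ∀ F, B.st F < B.M + 1)
    (lam : L' → ℝ) (y : B.SC (clW W blk o) → ℝ) (w : UC T1 o) :
    nar (uty T1 o) lam (U T1 o) (y ∘ ce h) w = sΦ B.T (fun c => B.st c < B.M + 1) (clW W blk o)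
      (fun D => (∏ a ∈ D.image Prod.fst, B.la (blk a)) * ∏ x ∈ D, lam x.2) y (ce h w) := by
  have := ce_Φ h hW hp (sx B.T _ (clW W blk o) y) (pull T1 o w.1.2 (y ∘ ce h)) w fun w' a => by
    have b : w'.1.2 ⊆ w.1.2 := by
      rw [← cw_snd h, ← cw_snd h (w := w)]; exact image_subset_image a
    have r := (w.2.sub w'.2 b).2
    have t : Tv o (T1.ty w'.1.1) (rs o (T1.ty w'.1.1) w.1.2) := r.symm ▸ w'.2
    refine (pull_pos t).trans (Eq.trans ?_ (dif_pos (ce h w').2).symm)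
    exact congrArg (y ∘ ce h) (Subtype.ext (Prod.ext rfl r))
  have r : ∏ i ∈ w.1.2, lam i = ∏ x ∈ cw blk e o w, lam x.2 :=
    (congrArg (∏ i ∈ ·, lam i) (cw_snd h).symm).trans (prod_image fun _ a _ a' =>
      clW_snd hb (cw_mem h) (cw_mem h) le_rfl a a')
  simp only [nar, uty, U, sΦ, sP, this, ce, cw_fst h, r]
  ring
end

end Crest.Agent.N49.He

end
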