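import Crest.Agent.N49.He.Ems
import Crest.Agent.N49.Md.Xq
import Crest.Agent.N49.Md.Comp
import Crest.Agent.N49.Md.Uft
import Crest.Agent.N49.En.Mono
import Crest.Agent.N49.Sy.Swt

/-!
# Row 49 (helper9): sections of a monomial cover
-/

set_option autoImplicit false
set_option linter.unusedSectionVars false

open Finset MvPolynomial

noncomputable section

namespace Crest.Agent.N49.He

open Po Tw Rm Md Sy Sd

variable {τ L Λ Lt : Type} [Fintype τ] [DecidableEq τ] [Fintype L] [DecidableEq L] [Fintype Λ]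
  [DecidableEq Λ] {U : Finset (Λ →₀ ℕ)} {ε : Λ → ℤ} {K : (Λ →₀ ℕ) → (Λ →₀ ℕ) → ℝ}

/-- the value of a configuration at a family and a monomial -/
def yv (T : TS Unit) (S : Sh Unit Λ) (y : T.Cw S → ℝ) (F : T.C) (μ : Λ →₀ ℕ) : ℝ :=
  ∑ q : T.Cw S with q.1.1 = F ∧ S.ty q.1.2 = μ, y q

section yv
variable {T : TS Unit} {S : Sh Unit Λ} {y : T.Cw S → ℝ}

theorem coeff_yv (F : T.C) (μ : Λ →₀ ℕ) : coeff μ (En.rho S ℝ (T.Yw S y F)) = yv T S y F μ := by
  rw [TS.Yw, map_sum, coeff_sum, yv, sum_filter, sum_filter]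
  refine sum_congr rfl fun q _ => ?_
  rw [X, C_mul_monomial, mul_one, En.rho_mon, Finsupp.weight_single, one_smul, coeff_monomial]
  by_cases a : q.1.1 = F <;> simp [a]

theorem yv_zero {F : T.C} {μ : Λ →₀ ℕ} (h : ∀ q : T.Cw S, q.1.1 = F → S.ty q.1.2 = μ → y q = 0) :
    yv T S y F μ = 0 := sum_eq_zero fun q k => h q (mem_filter.1 k).2.1 (mem_filter.1 k).2.2

theorem yv_deg {F : T.C} {μ : Λ →₀ ℕ} (h : μ.degree ≠ T.lev F) : yv T S y F μ = 0 :=
  yv_zero fun q a b => (h (by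
    rw [← a, ← b]; exact (Sh.cd_degree _).symm.trans (congrArg Finsupp.degree q.2))).elim

theorem yv_at {y : T.Cw (Sh.mono (fun _ => ()) U ε K) → ℝ} (q : T.Cw (Sh.mono (fun _ => ()) U ε K)) :
    yv T _ y q.1.1 q.1.2.1 = y q :=
  sum_eq_single_of_mem q (mem_filter.2 ⟨mem_univ _, rfl, rfl⟩) fun _ k n => (n (Subtype.ext
    (Prod.ext (mem_filter.1 k).2.1 (Subtype.ext (mem_filter.1 k).2.2)))).elim

/-- **the errors of the top twist on a squarefree word are symbols** -/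
theorem u_sy (y : T.Cw (Sh.mono (fun _ => ()) U ε K) → ℝ) (c : T.Cw (Sh.mono (fun _ => ()) U ε K))
    {A : Finset Λ} (e : c.1.2.1 = ind A) : (T.tw _ (tpw T _)).u y c =
      sy T.lev (T.top.Φ c.1.1) (fun G B => yv T _ y G (ind B)) A := by
  refine (TS.tw_u _ _).trans ((En.cf_rho _ _).trans ?_)
  have a : ∀ P : MvPolynomial T.C ℝ, En.rho (Sh.mono (fun _ => ()) U ε K) ℝ
      (eval (T.Yw _ y) (MvPolynomial.map C P)) = aeval (fun G => En.rho _ ℝ (T.Yw _ y G)) P :=
    fun P => by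
      induction P using MvPolynomial.induction_on with
      | C r => simp
      | add p q a b => simp only [map_add, a, b]
      | mul_X p c a => simp only [map_mul, a, map_X, eval_X, aeval_X]
  refine (congrArg₂ coeff e (a _)).trans (Uf.coeff_congr _ fun G B _ => ?_)
  rw [coeff_yv, Cm.coeff_Yp]
  split_ifs with k
  · rfl
  · exact yv_deg (by rwa [Swt.deg_ind])

/-- the same for a rescaled homogeneous tower -/
theorem u_scl (o : T.Ok) (xs : T.C → ℝ) (y : (T.scl xs).Cw (Sh.mono (fun _ => ()) U ε K) → ℝ)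
    (c : (T.scl xs).Cw (Sh.mono (fun _ => ()) U ε K)) {A : Finset Λ} (e : c.1.2.1 = ind A) :
    ((T.scl xs).tw _ (tpw _ _)).u y c =
      xs c.1.1 * sy T.lev (T.Φ c.1.1) (fun G B => yv (T.scl xs) _ y G (ind B)) A := by
  refine (u_sy y c e).trans ?_
  have : (T.scl xs).top.Φ c.1.1 = xs c.1.1 • T.Φ c.1.1 :=
    (TS.scl_top (T := T) c.1.1).trans ((congrArg (C (xs c.1.1) * ·)
      (congrFun (top_Φ o) c.1.1)).trans (smul_eq_C_mul _ _).symm)
  exact (congrArg (sy T.lev · _ A) this).trans (sy_smul _ _ _ _ _)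
end yv

theorem ind_map (ψ : τ ↪ Λ) (A : Finset τ) : (ind A).mapDomain ψ = ind (A.map ψ) := by
  ext t
  by_cases h : t ∈ Set.range ψ
  · obtain ⟨a, rfl⟩ := h
    rw [Finsupp.mapDomain_apply ψ.injective, ind_apply, ind_apply]
    simp
  · rw [Finsupp.mapDomain_of_notMem_range _ _ h, ind_apply, if_neg]
    exact fun k => h (by simpa using (mem_map.1 k).imp fun _ a => a.2)

/-- the base letters seen along the section -/
theorem kc_kl (ψ : τ ↪ Λ) (g : τ → Option Lt) (lt : Lt → (Sh.mono (fun _ => ()) U ε K).W)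
    (bs : Lt → Λ) (hl : ∀ t, (lt t).1 = Finsupp.single (bs t) 1) (e : τ → ℝ)
    (h1 : ∀ a t, g a = some t → (bs t = ψ a ∧ e a = 1) ∨ (bs t ∉ Set.range ψ ∧ e a = 0))
    (h0 : ∀ a, g a = none → e a = 0) (P : MvPolynomial τ ℤ) :
    killCompl ψ.injective (En.rho (Sh.mono (fun _ => ()) U ε K) ℝ
      (MvPolynomial.map (Int.castRingHom ℝ) (rename lt (Md.kl g P)))) = scl e (zr P) := by
  induction P using MvPolynomial.induction_on with
  | C r => simp [Md.kl, scl, zr]
  | add p q a b => simp only [zr, map_add] at a b ⊢; rw [a, b]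
  | mul_X p a h =>
    simp only [zr, map_mul] at h ⊢
    refine congrArg₂ (· * ·) h ?_
    rw [Md.kl, aeval_X, map_X, scl, aeval_X]
    cases k : g a with
    | none => simp [h0 a k]
    | some t =>
      rw [Option.elim_some, rename_X, map_X, En.rho_X]
      change killCompl ψ.injective (monomial (lt t).1 1) = _
      rw [hl]
      rcases h1 a t k with ⟨b, c⟩ | ⟨b, c⟩
      · rw [b, c, C_1, one_mul, ← X, ← rename_X, killCompl_rename_app]
      · rw [c, C_0, zero_mul]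
        exact killCompl_monomial_eq_zero_of_notMem_range _ 1 (a := bs t) (by simp) b

/-- **`kap = ka` along a section `ψ` of the alphabet** -/
theorem kap_psi {B : Bs L} {W : Finset (Finset τ)} {blk : τ → L} {f : Fr B.T τ L} (hW : Dw W)
    (hp : ∀ G, f.st G < f.M + 1) (hm : f.m = 1) (ψ : τ ↪ Λ) {g : τ → Option Lt}
    (D : Sd.Tan B.T f.T Lt) (hx : Xr g f.θ 1 D.fam D.mon D.be)
    (lt : Lt → (Sh.mono (fun _ => ()) U ε K).W) (bs : Lt → Λ)
    (hl : ∀ t, (lt t).1 = Finsupp.single (bs t) 1) (p : f.SC W ⊕ L → ℝ)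
    (h1 : ∀ a t, g a = some t → (bs t = ψ a ∧ p (.inr (blk a)) = 1) ∨
      (bs t ∉ Set.range ψ ∧ p (.inr (blk a)) = 0)) (h0 : ∀ a, g a = none → p (.inr (blk a)) = 0)
    (y : f.T.Cw (Sh.mono (fun _ => ()) U ε K) → ℤ) (c : B.T.Cw (Sh.mono (fun _ => ()) U ε K))
    (w : B.SC W) (e1 : c.1.1 = w.1.1) (e2 : c.1.2.1 = ind (w.1.2.map ψ))
    (hy : ∀ v : f.SC W, v.1.2 ⊆ w.1.2 → p (.inl v) = yv f.T _ (zc y) v.1.1 (ind (v.1.2.map ψ))) :
    (((D.rn lt).kap (Sh.mono (fun _ => ()) U ε K) y c : ℤ) : ℝ) = ka B W blk f p (.inl w) := by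
  let κ : MvPolynomial (Sh.mono (fun _ => ()) U ε K).W ℝ →ₐ[ℝ] MvPolynomial τ ℝ :=
    (killCompl ψ.injective).comp (En.rho (Sh.mono (fun _ => ()) U ε K) ℝ)
  have cm : ∀ P : MvPolynomial (Sh.mono (fun _ => ()) U ε K).W ℤ,
      (((Sh.mono (fun _ => ()) U ε K).cf ℤ c.1.2 P : ℤ) : ℝ) =
        coeff (ind w.1.2) (κ (MvPolynomial.map (Int.castRingHom ℝ) P)) := fun P =>
    ((Sh.mono (fun _ => ()) U ε K).cf_map (Int.castRingHom ℝ) c.1.2 P).symm.trans
      ((En.cf_rho _ _).trans ((congrArg (coeff · _) (e2.trans (ind_map ψ _).symm)).trans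
        (coeff_killCompl _).symm))
  have k := kc_kl ψ g lt bs hl (fun a => p (.inr (blk a))) h1 h0
  have a : (((D.rn lt).kap (Sh.mono (fun _ => ()) U ε K) y c : ℤ) : ℝ) = coeff (ind w.1.2)
      (f.θ.Y (fun a => p (.inr (blk a))) (fun a => f.m (blk a))
        (fun G => κ (f.T.Yw _ (zc y) G)) w.1.1) := by
    rw [Md.Tan.Y, coeff_add, ← e1]
    refine (Int.cast_add _ _).trans (congrArg₂ _ ((cm _).trans (congrArg _ ?_))
      ((cm _).trans (congrArg _ ?_)))
    · exact (congrArg (fun P => κ (MvPolynomial.map _ (rename lt P))) (hx.be _)).trans (k _)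
    refine (congrArg _ (map_sum _ _ _)).trans ((map_sum _ _ _).trans ?_)
    have m : ∀ G, κ (MvPolynomial.map (Int.castRingHom ℝ) (MvPolynomial.map (Int.castRingHom ℤ)
        ((D.rn lt).mon G) * f.T.Yw _ y G)) = κ (MvPolynomial.map (Int.castRingHom ℝ)
          (rename lt (D.mon G))) * κ (f.T.Yw _ (zc y) G) := fun G =>
      (congrArg _ (map_mul _ _ _)).trans ((map_mul _ _ _).trans (congrArg₂ _ (congrArg _
        ((MvPolynomial.map_map _ _ _).trans (congrArg (MvPolynomial.map · _)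
          (Subsingleton.elim _ _)))) (congrArg _ (TS.map_Yw (Int.castRingHom ℝ) y G))))
    refine ((sum_congr rfl fun G q => ?_).trans (sum_subset (fun G q => mem_filter.2
      ⟨mem_univ _, (hx.sm G _ (mem_filter.1 q).2).1⟩) fun G q n => ?_)).symm
    · rw [m, (hx.sm G _ (mem_filter.1 q).2).2, one_pow, one_smul, hm]
      refine congrArg₂ _ (k _).symm ?_
      ext μ
      simp [Cm.coeff_scl, Finsupp.prod]
    · have z : D.mon G = 0 := by
        cases r : f.θ.fam G with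
        | none => exact hx.no G r
        | some F => exact (n (mem_filter.2 ⟨mem_univ G, r.trans (congrArg some
            ((hx.sm G F r).1.symm.trans (mem_filter.1 q).2))⟩)).elim
      rw [m, z, map_zero, map_zero, map_zero, zero_mul]
  refine a.trans (Cm.Y_congr _ _ _ (fun G A b => ?_) _)
  refine (coeff_killCompl _).trans ((coeff_yv _ _).trans ?_)
  rw [Cm.coeff_Yp, ind_map]
  split_ifs with q
  · have r : f.st G < f.M + 1 ∧ A ∈ W ∧ #A = f.T.lev G := ⟨hp G, hW _ w.2.2.1 _ b, q⟩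
    rw [sx, dif_pos r, hy ⟨(G, A), r⟩ b]
  · exact yv_deg (by rwa [Swt.deg_ind, card_map])

end Crest.Agent.N49.He

end
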