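import Crest.Agent.N49.He.Ji
import Crest.Agent.N49.He.Kps
import Crest.Agent.N49.He.Ems
import Crest.Agent.N49.He.Dt
import Crest.Agent.N49.He.Rd
import Crest.Agent.N49.Sd.Nrm
import Crest.Agent.N49.Md.Fw2

/-!
# Row 49 (helper84): the kept coordinates are a subsystem of the cover
-/

set_option autoImplicit false
set_option linter.unusedSectionVars false

open Finset Matrix

noncomputable section

namespace Crest.Agent.N49.He.Ji.E2

open Po Tw Br Rm Rm.TT Ft Md Sd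

section letters
variable {d Q r r' : ℕ} {j : Fin d} {ox ox' : Option (Fin r')} {oj oj' : Option (Fin 4)}

theorem lb_p0 (a : Lx d Q) : lb j (p0 (r := r) j ox oj a) = (bk a).succ := by
  rcases a with _ | ⟨i, t⟩
  · cases ox <;> rfl
  · by_cases h : i = j
    · subst h; cases oj <;> simp only [p0, if_true] <;> rfl
    · simp [p0, lb, h]

theorem p0_ox (h : p0 (Q := Q) (r := r) j ox oj none = p0 j ox' oj' none) : ox = ox' := by
  cases ox <;> cases ox' <;> simp_all [p0]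

theorem p0_oj {t : Fin Q} (h : p0 (r := r) j ox oj (some (j, t)) = p0 j ox' oj' (some (j, t))) :
    oj = oj' := by
  cases oj <;> cases oj' <;> simp_all [p0]

theorem p0_cg {a : Lx d Q} (h1 : bk a = 0 → ox = ox') (h2 : bk a = j.succ → oj = oj') :
    p0 (r := r) j ox oj a = p0 j ox' oj' a := by
  rcases a with _ | ⟨i, t⟩
  · rw [h1 rfl]; rfl
  · by_cases h : i = j
    · subst h; rw [h2 rfl]; rfl
    · simp [p0, h]

theorem ex_j {a : Lx d Q} (h : bk a = j.succ) : ∃ t, a = some (j, t) := by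
  rcases a with _ | ⟨i, t⟩
  · exact (Fin.succ_ne_zero j h.symm).elim
  · exact ⟨t, by rw [Fin.succ_injective _ (h : i.succ = j.succ)]⟩
end letters

variable {s d r r' : ℕ} {c : Hc s d} {ε κ : ℝ} {h m : ℕ} {S : Finset c.L}

theorem pe_cg {Q : ℕ} {j : Fin d} {ox ox' : Option (Fin r')} {oj oj' : Option (Fin 4)}
    {A : Finset (Lx d Q)} (h1 : 0 ∈ A.image bk → ox = ox') (h2 : j.succ ∈ A.image bk → oj = oj') :
    A.map (pe j r ox oj) = A.map (pe j r ox' oj') := by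
  rw [map_eq_image, map_eq_image]
  exact image_congr fun a ha => p0_cg (fun z => h1 (mem_image.2 ⟨a, ha, z⟩))
    fun z => h2 (mem_image.2 ⟨a, ha, z⟩)

theorem inv_dg {I : Type} [Fintype I] [DecidableEq I] {w : I → ℝ} (h : ∀ i, w i ≠ 0) :
    (diagonal fun i => (w i ^ 2)⁻¹)⁻¹ = diagonal fun i => w i ^ 2 := by
  refine Matrix.inv_eq_left_inv ?_
  rw [diagonal_mul_diagonal, ← diagonal_one]
  exact congrArg _ (funext fun x => mul_inv_cancel₀ (pow_ne_zero _ (h x)))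

/-- the point seen by a word -/
def pq (q : c.CU ⊕ c.L → ℝ) (u : c.CU) : c.C ⊕ Lb d → ℝ := (c.dr u).elim
  (c.T.p0 c.j.succ (Ft.co q)) fun l => c.T.px c.j.succ (fun _ => false) l (Ft.co q)

theorem U_Φ (q : c.CU ⊕ c.L → ℝ) (u : c.CU) :
    c.U.Φ q u = Dt.sc c.a1 c.a2 (c.dr u) * c.T.Φ (pq q u) (c.b0 u) := by
  rcases u with u | u
  · exact (one_mul _).symm
  · rfl

/-- the word over `w` seen by `u` -/
def su (u : c.CU) (w : c.C) : c.CU := (c.dr u).elim (.inl w) fun l =>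
  if h : c.j.succ ∈ c.T.ty w then .inr (⟨w, h⟩, l) else .inl w

theorem pq_inl (q : c.CU ⊕ c.L → ℝ) (u : c.CU) (w : c.C) :
    pq q u (.inl w) = q (.inl (su u w)) := by
  rcases u with u | u
  · rfl
  · by_cases g : c.j.succ ∈ c.T.ty w <;> simp [pq, su, Hc.dr, px, Ft.co, g]

theorem b0_su (u : c.CU) (w : c.C) : c.b0 (su u w) = w := by
  rcases u with u | u
  · rfl
  · by_cases g : c.j.succ ∈ c.T.ty w <;> simp [su, Hc.dr, Hc.b0, g]

theorem dr_su (u : c.CU) {w : c.C} (g : c.j.succ ∈ c.T.ty w) : c.dr (su u w) = c.dr u := by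
  rcases u with u | u
  · rfl
  · simp [su, Hc.dr, g]

theorem lv_of {u : c.CU} (n : (c.T.ty (c.b0 u)).Nonempty) : (c.U.ty u).Nonempty := by
  rcases u with u | u
  · exact n.image _
  · exact insert_nonempty _ _

theorem x_ty (u : c.CU) : c.x ∈ c.U.ty u ↔ 0 ∈ c.T.ty (c.b0 u) := by
  rcases u with u | ⟨u, l⟩
  · simp [RF, Hc.b0]
  · have : (0 : Lb d) ≠ c.j.succ := (Fin.succ_ne_zero _).symm
    simp only [RF, Hc.b0, Sum.elim_inr, mem_insert, mem_image, mem_erase]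
    split_ifs <;> simp [this]

theorem ty_su (k : c.Ok ε h m) (u : Gd.Lv c.U) (w : Gd.Lv c.T)
    (e : (c.e w).1.2 ⊆ (c.e ⟨_, c.lv_b0 u⟩).1.2) : c.U.ty (su u.1 w.1) ⊆ c.U.ty u.1 := by
  have a : c.T.ty w.1 ⊆ c.T.ty (c.b0 u.1) :=
    (k.ty_e w).trans_subset ((image_subset_image e).trans (k.ty_e ⟨_, c.lv_b0 u⟩).ge)
  obtain ⟨u | ⟨u, l⟩, n⟩ := u
  · exact image_subset_image a
  · by_cases g : c.j.succ ∈ c.T.ty w.1
    · obtain ⟨x, m1, m2⟩ := mem_image.1 ((k.ty_e w).le g)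
      obtain ⟨t, rfl⟩ := ex_j m2
      have f : c.fn w.1 = c.fn u.1 := (k.fn w t m1).trans (k.fn _ t (e m1)).symm
      simp only [su, Hc.dr, Sum.elim_inr, Option.elim_some, dif_pos g, RF, f]
      exact insert_subset_insert _ (image_subset_image (erase_subset_erase _ a))
    · simp only [su, Hc.dr, Sum.elim_inr, Option.elim_some, dif_neg g, RF, Sum.elim_inl]
      exact (image_subset_image (subset_erase.2 ⟨a, g⟩)).trans (subset_insert _ _)

/-- the point of a kept coordinate -/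
def qv (z : c.KV S r' → ℝ) : c.KV S r' → c.CU ⊕ c.L → ℝ
  | .inl _ => Sum.elim (c.wb z) fun _ => 1
  | .inr y => c.U.jr c.x (Sum.elim (c.wb z) fun _ => 1) (fun u =>
      if h : c.x ∈ (c.U.dls S).ty u.1 then z (.inr (y.1, ⟨u.1, h⟩)) else 0) 0

theorem Ph_eq (z : c.KV S r' → ℝ) (v : c.KV S r') : c.Ph z v = c.U.Φ (qv z v) (c.vu v).1 := by
  cases v <;> rfl

theorem sub_v (k : c.Ok ε h m) (v : c.KV S r') (w : Gd.Lv c.T) (e : (c.e w).1.2 ⊆ (c.sw v).1.2) :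
    ∃ v' : c.KV S r', (∀ z, qv z v (.inl (su (c.vu v).1 w.1)) = z v') ∧
      (c.vu v').1 = su (c.vu v).1 w.1 ∧ (0 ∈ c.T.ty w.1 → c.vo v' = c.vo v) := by
  have n : (c.U.ty (su (c.vu v).1 w.1)).Nonempty := lv_of ((b0_su _ _).symm ▸ w.2)
  rcases v with u | ⟨i, y⟩
  · exact ⟨.inl ⟨_, n⟩, fun z => dif_pos n, rfl, fun _ => rfl⟩
  · by_cases g : c.x ∈ c.U.ty (su y.1 w.1)
    · have g' : c.x ∈ (c.U.dls S).ty (su y.1 w.1) :=
        mem_dls.2 ⟨g, (mem_dls.1 y.2).2.mono_left (ty_su k (c.xl y) w e)⟩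
      exact ⟨.inr (i, ⟨_, g'⟩), fun z => (dif_pos g).trans (dif_pos g'), rfl, fun _ => rfl⟩
    · exact ⟨.inl ⟨_, n⟩, fun z => (dif_neg g).trans (dif_pos n), rfl,
        fun z => (g ((x_ty _).2 ((b0_su _ _).symm ▸ z))).elim⟩

theorem mo_deg (v : c.KV S r') : (c.mo r v).degree = c.f.T.lev (c.sw v).1.1 :=
  (Sy.Swt.deg_ind _).trans ((card_map _).trans (c.sw v).2.2.2)

variable (r κ) in
/-- the names -/
def ee (k : c.Ok ε h m) (v : c.KV S r') : Kc c.T2 (c.SS r r' κ) (kp (lb c.j)) :=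
  ⟨⟨((c.sw v).1.1, ⟨c.mo r v, mem_erase.2 ⟨fun z => (k.f.old.ok.lev_pos (c.sw v).1.1).ne'
      ((mo_deg v).symm.trans (by rw [z, map_zero])),
    mem_full.2 ((mo_deg v).trans_le (k.f.old.lev _))⟩⟩),
    Tw.unit_ext ((Sh.cd_degree _).trans (mo_deg v))⟩, fun a ha => by
      obtain ⟨x, -, rfl⟩ := mem_map.1 ha
      exact ⟨(lb_p0 x).trans_ne (Fin.succ_ne_zero _), if_pos ha⟩, fun a ha a' ha' z => by
      obtain ⟨x, u, rfl⟩ := mem_map.1 ha
      obtain ⟨x', u', rfl⟩ := mem_map.1 ha'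
      rw [mem_gW.1 (c.sw v).2.2.1 x u x' u'
        (Fin.succ_injective _ ((lb_p0 x).symm.trans (z.trans (lb_p0 x'))))]⟩

theorem has_x (k : c.Ok ε h m) {v : c.KV S r'} (n : c.vo v ≠ none) : none ∈ (c.sw v).1.2 := by
  rcases v with u | ⟨i, y⟩
  · exact (n rfl).elim
  · obtain ⟨x, a, b⟩ := mem_image.1 ((k.ty_e ⟨_, c.lv_b0 (c.xl y)⟩).le
      ((x_ty _).1 (mem_dls.1 y.2).1))
    exact (gk_eq x).1 b ▸ a

theorem has_j (k : c.Ok ε h m) {v : c.KV S r'} (n : c.dr (c.vu v).1 ≠ none) :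
    ∃ t, some (c.j, t) ∈ (c.sw v).1.2 := by
  have : c.j.succ ∈ c.T.ty (c.b0 (c.vu v).1) := by
    generalize (c.vu v).1 = u at n
    rcases u with u | u
    exacts [(n rfl).elim, u.1.2]
  obtain ⟨x, a, b⟩ := mem_image.1 ((k.ty_e ⟨_, c.lv_b0 (c.vu v)⟩).le this)
  obtain ⟨t, rfl⟩ := ex_j b
  exact ⟨t, a⟩

theorem ee_inj (k : c.Ok ε h m) : Function.Injective (ee (S := S) (r' := r') r κ k) := by
  intro v v' e
  have e1 : (c.sw v).1.1 = (c.sw v').1.1 := congrArg (fun x => x.1.1.1) e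
  have e2 := Sy.ind_inj (congrArg (fun x => x.1.1.2.1) e : c.mo r v = c.mo r v')
  have t : ∀ a ∈ (c.sw v).1.2, a ∈ (c.sw v').1.2 ∧ p0 (r := r) c.j (c.vo v) (c.dr (c.vu v).1) a =
      p0 c.j (c.vo v') (c.dr (c.vu v').1) a := by
    intro a ha
    obtain ⟨x, u, z⟩ := mem_map.1 (e2.le (mem_map_of_mem _ ha))
    have : x = a := (q0_p0 c.j _ _ x).symm.trans ((congrArg (q0 c.j) z).trans (q0_p0 c.j _ _ a))
    exact ⟨this ▸ u, this ▸ z.symm⟩
  have e3 : (c.sw v).1.2 = (c.sw v').1.2 := eq_of_subset_of_card_le (fun a ha => (t a ha).1)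
    (by rw [(c.sw v).2.2.2, (c.sw v').2.2.2, e1])
  have e4 : c.b0 (c.vu v).1 = c.b0 (c.vu v').1 :=
    congrArg Subtype.val (k.emb.inj (Subtype.ext (Prod.ext e1 e3)))
  have e5 : c.vo v = c.vo v' := by
    by_contra z
    refine z (p0_ox (t none ?_).2)
    by_cases n : c.vo v = none
    · exact e3 ▸ has_x k fun n' => z (n.trans n'.symm)
    · exact has_x k n
  have e6 : c.dr (c.vu v).1 = c.dr (c.vu v').1 := by
    by_contra z
    by_cases n : c.dr (c.vu v).1 = none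
    · obtain ⟨x, a⟩ := has_j k fun n' => z (n.trans n'.symm)
      exact z (p0_oj (t _ (e3 ▸ a)).2)
    · obtain ⟨x, a⟩ := has_j k n
      exact z (p0_oj (t _ a).2)
  have e7 : (c.vu v).1 = (c.vu v').1 := Dt.bc_inj e4 e6
  rcases v with u | ⟨i, y⟩ <;> rcases v' with u' | ⟨i', y'⟩
  · exact congrArg _ (Subtype.ext e7)
  · cases e5
  · cases e5
  · exact congrArg _ (Prod.ext (Option.some.inj e5) (Subtype.ext e7))

theorem wl_pos (k : c.Ok ε h m) (a : La d c.o.Q r r') : 0 < c.wl r a := by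
  have l : ∀ i, 0 < c.f.la i := fun i => lt_of_lt_of_le (by positivity) (k.f.la i).1
  rcases a with a | a | a | a
  exacts [l _, mul_pos (by positivity) (l _), l _, one_pos]

theorem wl_prod (k : c.Ok ε h m) (v : c.KV S r') : ∏ a ∈ (c.mo r v).support, c.wl r a =
    Dt.sc c.a1 c.a2 (c.dr (c.vu v).1) * ∏ a ∈ (c.sw v).1.2, c.f.la (bk a) := by
  have e : ∀ a, c.wl r (p0 c.j (c.vo v) (c.dr (c.vu v).1) a) =
      (if bk a = c.j.succ then Dt.sc c.a1 c.a2 (c.dr (c.vu v).1) else 1) * c.f.la (bk a) := by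
    rintro (_ | ⟨i, t⟩)
    · rw [if_neg (show bk none ≠ c.j.succ from (Fin.succ_ne_zero _).symm), one_mul]
      cases c.vo v <;> rfl
    · by_cases g : i = c.j
      · subst g
        rw [if_pos (show bk (some (c.j, t)) = c.j.succ from rfl)]
        cases c.dr (c.vu v).1 <;> simp [p0, Hc.wl, Dt.sc]
        rfl
      · rw [if_neg (show bk (some (i, t)) ≠ c.j.succ from fun z => g (Fin.succ_injective _ z)),
          one_mul]
        simp [p0, Hc.wl, g]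
  refine (prod_map _ _ _).trans ((prod_congr rfl fun a _ => e a).trans ?_)
  refine prod_mul_distrib.trans (congrArg (· * _) ?_)
  by_cases n : c.dr (c.vu v).1 = none
  · rw [n]
    exact prod_eq_one fun a _ => ite_self _
  · obtain ⟨t, a⟩ := has_j k n
    exact (prod_eq_single_of_mem _ a fun b hb z =>
      if_neg fun y => z (mem_gW.1 (c.sw v).2.2.1 _ hb _ a y)).trans (if_pos rfl)

theorem xs_ne (k : c.Ok ε h m) (G : c.f.T.C) : c.f.θ.xs G ≠ 0 := by
  unfold Md.Tan.xs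
  cases e : c.f.θ.fam G
  · exact one_ne_zero
  · exact k.tg.ne G _ e

open Classical in
/-- extension by zero -/
def gy (y : Kc c.T2 (c.SS r r' κ) (kp (lb c.j)) → ℝ) : c.T2.Cw (c.SS r r' κ) → ℝ :=
  fun x => if h : kp (lb c.j) (x.1.2 : Sh.MW (full (La d c.o.Q r r') s)) then y ⟨x, h⟩ else 0

theorem gy_pos (y : Kc c.T2 (c.SS r r' κ) (kp (lb c.j)) → ℝ) {x : c.T2.Cw (c.SS r r' κ)}
    (g : kp (lb c.j) (x.1.2 : Sh.MW (full (La d c.o.Q r r') s))) : gy y x = y ⟨x, g⟩ := dif_pos g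

theorem gy_neg (y : Kc c.T2 (c.SS r r' κ) (kp (lb c.j)) → ℝ) {x : c.T2.Cw (c.SS r r' κ)}
    (g : ¬ kp (lb c.j) (x.1.2 : Sh.MW (full (La d c.o.Q r r') s))) : gy y x = 0 := dif_neg g

theorem cs_K {Λ : Type} [Fintype Λ] [DecidableEq Λ] (e : Λ → ℤ) (v : (Λ →₀ ℕ) → ℝ) :
    (CS Λ s e v).K = diagonal fun μ : Sh.MW (full Λ s) => v μ.1 := by
  ext μ μ'
  by_cases g : μ = μ'
  · subst g
    exact (if_pos rfl).trans (if_pos rfl).symm
  · exact (if_neg fun z => g (Subtype.ext z)).trans (if_neg g).symm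

theorem scl_K (T : TS Unit) (o : T.K = 1) (x : T.C → ℝ) :
    (T.scl x).K = diagonal fun G : T.C => x G ^ 2 := by
  change (diagonal x * T.K * diagonal x : Matrix T.C T.C ℝ) = _
  rw [o, Matrix.mul_one, diagonal_mul_diagonal]
  simp only [sq]

theorem ph (k : c.Ok ε h m) (y : Kc c.T2 (c.SS r r' κ) (kp (lb c.j)) → ℝ) (v : c.KV S r') :
    c.Ph (y ∘ ee r κ k) v = (∏ a ∈ (c.mo r v).support, c.wl r a) *
      Sy.sy c.f.T.lev (c.f.T.Φ (c.sw v).1.1) (fun G B => yv c.T2 (c.SS r r' κ)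
        (gy y) G (Sy.ind B))
        ((c.sw v).1.2.map (pe c.j r (c.vo v) (c.dr (c.vu v).1))) := by
  rw [Ph_eq, U_Φ, wl_prod k, mul_assoc]
  refine congrArg _ (em_sy k.emb.toEm (gW_wf k.o.cx.ds).dw (fun F => Nat.lt_succ_of_le
    (k.f.old.stg.le F).1) _ _ _ ⟨_, c.lv_b0 (c.vu v)⟩ fun w e => ?_)
  obtain ⟨v', a1, a2, a3⟩ := sub_v k v w e
  have b1 : c.sw v' = c.e w := congrArg c.e (Subtype.ext ((congrArg c.b0 a2).trans (b0_su _ _)))
  have b2 : Sy.ind ((c.e w).1.2.map (pe c.j r (c.vo v) (c.dr (c.vu v).1))) = c.mo r v' := by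
    rw [Hc.mo, b1]
    refine congrArg _ (pe_cg (fun z => (a3 ((k.ty_e w).ge z)).symm) fun z => ?_)
    rw [a2, dr_su _ ((k.ty_e w).ge z)]
  refine (pq_inl _ _ _).trans ((a1 _).trans (Eq.trans ?_ (congrArg₂ (yv c.T2 (c.SS r r' κ) (gy y))
    (congrArg (fun x : c.f.X => x.1.1) b1) b2.symm)))
  exact ((yv_at (ee r κ k v').1).trans (dif_pos (ee r κ k v').2)).symm

end E2

open Po Tw Br Rm Rm.TT Ft Md Sd E2 in
/-- **the kept coordinates are a subsystem of the cover** -/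
theorem emv2 : EMV := by
  intro s d c ε κ h m r r' S k
  have p : ∀ μ : La d c.o.Q r r' →₀ ℕ, 0 < ∏ a ∈ μ.support, c.wl r a :=
    fun μ => prod_pos fun a _ => wl_pos k a
  have K : (c.FB (r' := r') r κ).K = diagonal fun x => (((∏ a ∈ x.1.1.2.1.support, c.wl r a) /
      c.f.θ.xs x.1.1.1) ^ 2)⁻¹ := by
    ext x x'
    refine (Nr.sh_K (T := c.T2) (V := fun μ : Sh.MW (full (La d c.o.Q r r') s) => c.k2 r μ.1) 
      (d := fun G => c.f.θ.xs G ^ 2) (cs_K _ _) (scl_K _ k.f.old.K _) x.1 x'.1).trans ?_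
    by_cases g : x = x'
    · subst g
      refine (if_pos rfl).trans (Eq.trans ?_ (if_pos rfl).symm)
      exact (div_eq_mul_inv _ _).symm.trans ((inv_div _ _).symm.trans
        (congrArg _ (div_pow _ _ _).symm))
    · exact (if_neg fun z => g (Subtype.ext z)).trans (if_neg g).symm
  have P : ∀ (y : Kc c.T2 (c.SS r r' κ) (kp (lb c.j)) → ℝ) (v : c.KV S r'),
      (c.FB r κ).u y (ee r κ k v) = c.f.θ.xs (c.sw v).1.1 * Sy.sy c.f.T.lev (c.f.T.Φ (c.sw v).1.1)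
        (fun G B => yv c.T2 (c.SS r r' κ) (gy y) G (Sy.ind B))
        ((c.sw v).1.2.map (pe c.j r (c.vo v) (c.dr (c.vu v).1))) := by
    intro y v
    refine (@TS.u_cut _ _ _ (_) _ _ _).trans ?_
    refine Eq.trans (congrArg (fun z => TS.u _ z _) (?_ : _ = gy y))
      (u_scl (K := dk (c.k2 r)) k.f.old.ok _ _ (ee r κ k v).1 rfl)
    funext x
    by_cases g : kp (lb c.j) (x.1.2 : Sh.MW (full (La d c.o.Q r r') s))
    · exact (dif_pos g).trans (gy_pos y g).symm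
    · exact (dif_neg g).trans (Int.cast_zero.trans (gy_neg y g).symm)
  refine ⟨ee r κ k, fun x => (∏ a ∈ x.1.1.2.1.support, c.wl r a) / c.f.θ.xs x.1.1.1,
    fun v => ⟨rfl, rfl⟩, ee_inj k, fun x => div_ne_zero (p _).ne' (xs_ne k _), ?_, fun y v => ?_,
    funext fun v => ?_⟩
  · exact (congrArg _ K).trans (inv_dg fun x => div_ne_zero (p _).ne' (xs_ne k _))
  · rw [P, ← mul_assoc, E2.ph k]
    exact congrArg (· * _) (div_mul_cancel₀ _ (xs_ne k _)).symm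
  · refine (E2.ph (r := r) (κ := κ) k 0 v).trans (mul_eq_zero_of_right _ ?_)
    obtain ⟨i, a⟩ : ((c.sw v).1.2.map (pe c.j r (c.vo v) (c.dr (c.vu v).1))).Nonempty := by
      exact card_pos.1 ((k.f.old.ok.lev_pos _).trans_eq ((card_map _).trans (c.sw v).2.2.2).symm)
    exact Dt.sy_nil _ _ a fun G B _ _ => yv_zero fun q _ _ => by
      by_cases g : kp (lb c.j) (q.1.2 : Sh.MW (full (La d c.o.Q r r') s))
      exacts [gy_pos _ g, gy_neg _ g]

end Crest.Agent.N49.He.Ji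

end
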