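import Crest.Agent.N49.He.Phm

/-!
# Row 49 (helper23): the morphism `phm`: mass, kept and hidden words
-/

set_option autoImplicit false
set_option linter.unusedSectionVars false

open Matrix MvPolynomial Finset

noncomputable section

namespace Crest.Agent.N49.He

open Po Tw Br

variable {ι Λ : Type} [Fintype ι] [LinearOrder ι] [Fintype Λ] [DecidableEq Λ] {s : ℕ}
  {D : Finset (Pt ι)} (blk : Λ → ι) {al : Λ → ℕ → ℤ} (i0 : ι)

/-- transversal monomials that miss the block `i0` -/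
def tv (μ : Λ →₀ ℕ) : Prop := (∀ i, μ.mapDomain blk i ≤ 1) ∧ μ.mapDomain blk i0 = 0

instance : DecidablePred (tv blk i0) := fun _ => by unfold tv; infer_instance

variable {blk i0}

theorem Pm.card_eq {ν : ι →₀ ℕ} : #ν.support = ν.degree ↔ ∀ i, ν i ≤ 1 := by
  have p : ∀ i ∈ ν.support, 1 ≤ ν i := fun i h =>
    Nat.one_le_iff_ne_zero.2 (Finsupp.mem_support_iff.1 h)
  rw [Finsupp.degree_apply, card_eq_sum_ones, sum_eq_sum_iff_of_le p]
  refine ⟨fun h i => ?_, fun h i k => le_antisymm (p i k) (h i)⟩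
  by_cases k : i ∈ ν.support
  · exact (h i k).ge
  · rw [Finsupp.notMem_support_iff.1 k]; exact zero_le_one

theorem tv_iff {μ : Λ →₀ ℕ} : tv blk i0 μ ↔
    #(μ.support.image blk) = μ.degree ∧ i0 ∉ μ.support.image blk := by
  rw [← Finsupp.mapDomain_support_of_subsingletonAddUnits, ← Finsupp.degree_mapDomain blk μ,
    Pm.card_eq, Finsupp.notMem_support_iff, tv]

theorem tv.mono {μ ν : Λ →₀ ℕ} (h : tv blk i0 μ) (k : ν ≤ μ) : tv blk i0 ν :=
  ⟨fun i => (Finsupp.mapDomain_mono k i).trans (h.1 i),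
    le_zero_iff.1 ((Finsupp.mapDomain_mono k i0).trans_eq h.2)⟩

theorem tv.card {μ : Λ →₀ ℕ} (h : tv blk i0 μ) : #μ.support = μ.degree :=
  le_antisymm (Pm.card_sup μ) ((tv_iff.1 h).1.symm.trans_le card_image_le)

theorem tv.le_one {μ : Λ →₀ ℕ} (h : tv blk i0 μ) (a : Λ) : μ a ≤ 1 := by
  have p : ∀ i ∈ μ.support, 1 ≤ μ i := fun i h =>
    Nat.one_le_iff_ne_zero.2 (Finsupp.mem_support_iff.1 h)
  have := h.card
  rw [Finsupp.degree_apply, card_eq_sum_ones, sum_eq_sum_iff_of_le p] at this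
  by_cases k : a ∈ μ.support
  · exact (this a k).ge
  · rw [Finsupp.notMem_support_iff.1 k]; exact zero_le_one

theorem tv.injOn {μ : Λ →₀ ℕ} (h : tv blk i0 μ) : Set.InjOn blk μ.support :=
  card_image_iff.1 ((tv_iff.1 h).1.trans h.card.symm)

theorem tv.ne {μ : Λ →₀ ℕ} (h : tv blk i0 μ) {a : Λ} (ha : a ∈ μ.support) : blk a ≠ i0 :=
  fun e => (tv_iff.1 h).2 (e ▸ mem_image_of_mem _ ha)

theorem tv_of {μ : Λ →₀ ℕ} (a : ∀ x, μ x ≤ 1) (b : Set.InjOn blk μ.support)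
    (c : ∀ x ∈ μ.support, blk x ≠ i0) : tv blk i0 μ := by
  refine tv_iff.2 ⟨(card_image_iff.2 b).trans ?_, fun k => ?_⟩
  · rw [Finsupp.degree_apply, card_eq_sum_ones]
    exact sum_congr rfl fun x hx => le_antisymm
      (Nat.one_le_iff_ne_zero.2 (Finsupp.mem_support_iff.1 hx)) (a x)
  · obtain ⟨x, hx, e⟩ := mem_image.1 k
    exact c x hx e

/-- the kept monomials form a quotient -/
theorem tv_idl (W : Finset (Λ →₀ ℕ)) (ε : Λ → ℤ) (K : (Λ →₀ ℕ) → (Λ →₀ ℕ) → ℝ) :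
    (Sh.mono (fun _ => ()) W ε K).Idl fun μ => tv blk i0 μ.1 := fun _ _ k r _ i =>
  k.mono ((le_weight Subtype.val i).trans_eq (Sh.mono_r_ne r))

/-- a word that misses the least block is not padded -/
theorem Pm.kept (h0 : ∀ i, i0 ≤ i) {w : Br.Wd s D} (h : w.tr i0 = none) {B : Finset ι}
    (f : Fill B (bl w.tr)) : B = bl w.tr ∧ #(bl w.tr) = w.lv := by
  have n : i0 ∉ bl w.tr := fun k => mem_bl.1 k h
  refine ⟨f.1.antisymm fun a ha => of_not_not fun z => n (f.2 a ha z i0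
    ((h0 a).lt_of_ne fun e => n (e ▸ ha))), ?_⟩
  have := w.card
  have l : #(bl w.tr) < Fintype.card ι := card_lt_univ_of_notMem n
  omega

/-- **kept words read kept monomials, hidden words read hidden monomials** -/
theorem pk_kw (h0 : ∀ i, i0 ≤ i) {w : Br.Wd s D} {μ : Λ →₀ ℕ} (z : pk blk al w μ ≠ 0) :
    w.tr i0 = none ↔ tv blk i0 μ := by
  obtain ⟨a, f, -⟩ := pk_ne z
  rw [tv_iff]
  refine ⟨fun h => ?_, fun h => of_not_not fun k => h.2 ?_⟩
  · obtain ⟨b, c⟩ := Pm.kept h0 h f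
    exact ⟨by rw [b, c, a], fun k => mem_bl.1 (b ▸ k) h⟩
  · rw [eq_of_subset_of_card_le f.1 (by rw [h.1, a, w.card]; exact min_le_left ..)]
    exact mem_bl.2 k

theorem phm_kw (h0 : ∀ i, i0 ≤ i) (w : Br.Wd s D) (μ : Sh.MW (full Λ s))
    (z : phm s D blk al w μ ≠ 0) : w.tr i0 = none ↔ tv blk i0 μ.1 := pk_kw h0 z

/-- **the rows of the kept words** -/
theorem pk_kept (h0 : ∀ i, i0 ≤ i) {w : Br.Wd s D} (h : w.tr i0 = none) (μ : Λ →₀ ℕ) :
    pk blk al w μ = if tv blk i0 μ ∧ μ.support.image blk = bl w.tr then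
      ∏ a ∈ μ.support, (w.tr (blk a)).elim 0 (al a) else 0 := by
  split_ifs with k
  · have c := (Pm.kept h0 h (Fill.refl _)).2
    rw [pk, if_pos ⟨by rw [← (tv_iff.1 k.1).1, k.2, c], k.2 ▸ Fill.refl _⟩, pa, Finsupp.prod]
    exact prod_congr rfl fun a ha => by
      rw [le_antisymm (k.1.le_one a) (Nat.one_le_iff_ne_zero.2 (Finsupp.mem_support_iff.1 ha)),
        pow_one]
  · exact of_not_not fun z => k ⟨(pk_kw h0 z).1 h, (Pm.kept h0 h (pk_ne z).2.1).1⟩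

/-- **the mass** -/
theorem phm_mass (h0 : ∀ i, i0 ≤ i) (V : ℕ → Pt ι → ℝ) {ε : Λ → ℤ}
    (K : (Λ →₀ ℕ) → (Λ →₀ ℕ) → ℝ) (hε : ∀ a, ε a ≠ 0 → blk a = i0)
    (h1 : ∀ t ∈ D, ∀ n, t i0 = some n → ∑ a, ε a * al a n = 1) :
    phm s D blk al *ᵥ (Sh.mono (fun _ => ()) (full Λ s) ε K).ε = (Br.tw s D V).ε := by
  funext w
  have m : ∀ a : Λ, Finsupp.single a 1 ∈ (full Λ s).erase 0 := fun a =>
    mem_erase.2 ⟨by simp, mem_full.2 (by simpa using w.lv_pos.trans w.lv_le)⟩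
  have e : (phm s D blk al *ᵥ (Sh.mono (fun _ => ()) (full Λ s) ε K).ε) w =
      ∑ a, pk blk al w (Finsupp.single a 1) * ε a := by
    refine (sum_of_injOn (fun a : Λ => (⟨_, m a⟩ : Sh.MW (full Λ s))) (fun a _ b _ k =>
      Finsupp.single_left_injective one_ne_zero (congrArg Subtype.val k)) (fun _ _ => mem_univ _)
      (fun μ _ k => mul_eq_zero_of_right _ (of_not_not fun z => k ?_)) fun a _ => ?_).symm
    · obtain ⟨a, ha⟩ := Sh.mono_ε_ne z
      exact ⟨a, mem_coe.2 (mem_univ _), Subtype.ext ha.symm⟩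
    · rw [Sh.mono_ε_single]; rfl
  rw [e]
  have q : ∀ a, pk blk al w (Finsupp.single a 1) * ε a =
      if w.lv = 1 ∧ Fill {i0} (bl w.tr) then ε a * (w.tr i0).elim 0 (al a) else 0 := fun a => by
    by_cases z : ε a = 0
    · simp [z]
    · rw [pk, pa_single, Finsupp.support_single _ one_ne_zero, image_singleton, hε a z, pow_one,
        Finsupp.degree_single, ite_mul, zero_mul, mul_comm]
      exact if_congr (and_congr_left' eq_comm) rfl rfl
  have f : w.lv = 1 → (Fill {i0} (bl w.tr) ↔ Fill ∅ (bl w.tr)) := fun l => by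
    refine ⟨fun k => ⟨empty_subset _, fun a ha _ b hb => k.2 a ha (fun x => ?_) b hb⟩,
      fun k => k.grow (empty_subset _) (singleton_subset_iff.2 (mem_bl.2 fun x => ?_))⟩
    · exact absurd (h0 b) (not_le.2 (mem_singleton.1 x ▸ hb))
    · obtain ⟨a, b⟩ := Pm.kept h0 x k
      rw [← a, card_empty] at b
      omega
  simp only [q]
  change _ = if w.lv = 1 ∧ Fill ∅ (bl w.tr) then (1 : ℤ) else 0
  rw [← if_congr (and_congr_right f) rfl rfl]
  split_ifs with k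
  · obtain ⟨n, hn⟩ := Option.ne_none_iff_exists'.1 (mem_bl.1 (k.2.1 (mem_singleton_self _)))
    rw [hn]
    exact h1 _ w.mem n hn
  · exact sum_const_zero

/-- **`phm` preserves the mass** -/
theorem phm_hm (hD : Dc D) (h0 : ∀ i, i0 ≤ i) (V : ℕ → Pt ι → ℝ) {ε : Λ → ℤ}
    (K : (Λ →₀ ℕ) → (Λ →₀ ℕ) → ℝ) (hε : ∀ a, ε a ≠ 0 → blk a = i0)
    (h1 : ∀ t ∈ D, ∀ n, t i0 = some n → ∑ a, ε a * al a n = 1) :
    (Sh.mono (fun _ => ()) (full Λ s) ε K).Hm (Br.tw s D V) (phm s D blk al) :=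
  (phm_hm0 hD V ε K).hm (phm_mass h0 V K hε h1)

end Crest.Agent.N49.He

end
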