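import Crest.Agent.N49.He.Ji
import Crest.Agent.N49.He.Phm2

/-!
# Row 49 (helper23): the leaf `PHZ`
-/

set_option autoImplicit false
set_option linter.unusedSectionVars false

open Finset Matrix

noncomputable section

namespace Crest.Agent.N49.He.Ji

open Po Tw Br Sd

/-- the kept monomials are the transversal monomials that miss the first block -/
theorem kp_tv {Λ : Type} [Fintype Λ] [DecidableEq Λ] {s d : ℕ} (b : Λ → Fin (d + 2))
    (μ : Sh.MW (full Λ s)) : kp b μ ↔ tv b 0 μ.1 := by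
  refine ⟨fun h => tv_of (fun x => ?_) (fun a ha a' ha' e => h.2 a ha a' ha' e)
    fun x hx => (h.1 x hx).1, fun h => ⟨fun a ha => ⟨h.ne ha, le_antisymm (h.le_one a)
      (Nat.one_le_iff_ne_zero.2 (Finsupp.mem_support_iff.1 ha))⟩,
        fun a ha a' ha' e => h.injOn ha ha' e⟩⟩
  by_cases k : x ∈ μ.1.support
  · exact (h.1 x k).2.le
  · rw [Finsupp.notMem_support_iff.1 k]; exact zero_le_one

theorem ph_eq {Λ ι : Type} [Fintype Λ] [DecidableEq Λ] [Fintype ι] [LinearOrder ι] (s : ℕ)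
    (D : Finset (Pt ι)) (b : Λ → ι) (α : Λ → ℕ → ℤ) : ph s D b α = phm s D b α := rfl

/-- the kept monomials form a quotient -/
theorem kp_idl {Λ : Type} [Fintype Λ] [DecidableEq Λ] {s d : ℕ} (b : Λ → Fin (d + 2))
    (ε : Λ → ℤ) (κ : (Λ →₀ ℕ) → ℝ) : (CS Λ s ε κ).Idl (kp b) := fun w m k r w' i =>
  (kp_tv b w').2 (tv_idl (full Λ s) ε (dk κ) w m ((kp_tv b w).1 k) r w' i)

theorem phz : PHZ := fun _ _ _ _ _ _ V b _ ε κ hD =>
  ⟨phm_hm0 hD V ε (dk κ), fun w μ z => (phm_kw Fin.zero_le w μ z).trans (kp_tv b μ).symm,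
    fun h w μ => abs_phm h w μ⟩

end Crest.Agent.N49.He.Ji

end
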