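import Crest.Agent.N49.He.Defs
import Crest.Agent.N49.Sd.Fs
import Crest.Agent.N49.Sd.Ins

/-!
# Row 49 (helper4): the systems of the rectangle hypothesis (FROZEN definitions, part B)
-/

set_option autoImplicit false
set_option linter.unusedSectionVars false

open Finset Matrix

noncomputable section

namespace Crest.Agent.N49.He

open Po Tw Br Rm Rm.TT Ft Md Sd

/-- a normalised Gaussian factor -/
def ga (δ V e : ℝ) : ℝ := δ / √V * Real.exp (-(Real.pi * e ^ 2 / V))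

section ring
variable (s : ℕ) {d : ℕ} (T : TS Unit) (D : Finset (Pt (Fin (d + 2))))
/-- the ring of the words `D` -/
abbrev SD : Sh Unit Unit := Br.tw s D fun _ _ => 1
/-- the hidden coordinates -/
abbrev HW : Type := Kc T (SD s D) fun w => ¬ kw w
/-- **hidden sums**: normalisers `δ`, variances `V`, offsets `x`, background `b` -/
def hs (δ : T.C → ℝ) (V : Br.Wd s D → ℝ) (x : T.Cw (SD s D) → ℝ) (b : T.Cw (SD s D) → ℤ)
    (G : (T.Cw (SD s D) → ℤ) → ℝ) : ℝ := ∑' z : HW s T D → ℤ, (∏ c : HW s T D, ga (δ c.1.1.1)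
  (V c.1.1.2) ((T.sh (SD s D)).u (zc (Sd.gl T (SD s D) _ z b)) c.1 - x c.1)) *
    G (Sd.gl T (SD s D) _ z b)
/-- a product over points -/
def pf (f : (T.C → ℤ) → ℝ) (Ω : Finset (Pt (Fin (d + 2)))) (y : T.Cw (SD s D) → ℤ) : ℝ :=
  ∏ ω ∈ Ω, f (T.pw (SD s D) (chi (fun _ _ => 1) ω) y)
/-- the normalisers of a tower -/
def Dl (δ : T.C → ℝ) : Prop := (∀ F, 0 < δ F) ∧ ∀ l, ∏ F : {F // T.lev F = l}, δ F.1 =
  |(T.A.submatrix (Subtype.val : {F // T.lev F = l} → _) Subtype.val).det|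
end ring

section grid
variable {d : ℕ} (Q : ℕ) (j : Fin d)
/-- `r` locations, `r'` directions, `n` clones in the block `j`, `Q` clones in the others -/
def qq (r r' n : ℕ) (i : Fin (d + 2)) : ℕ :=
  if i = 0 then r else if i = 1 then r' else if i = j.succ.succ then n else Q
/-- the ring of the witness -/
def D0 : Finset (Pt (Fin (d + 2))) := grid (qq Q j 1 2 Q)
/-- one more clone (number `Q`) -/
def D1 : Finset (Pt (Fin (d + 2))) := grid (qq Q j 1 2 (Q + 1))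
/-- the copy of a clone -/
def cb (n : ℕ) : Bool := decide (Q + 1 ≤ n)
open Classical in
/-- copies: the clone `b (Q + 1) + e` is the copy `b` of `e` -/
def DD (k r r' : ℕ) (al : ℕ → ℕ → Bool) (Γ Δ : Finset Bool) : Finset (Pt (Fin (d + 2))) :=
  {t ∈ grid (qq Q j r r' (2 * (Q + 1))) | (∀ o n, t 0 = some o → t 1 = some n → al o n) ∧
    ∀ n, t j.succ.succ = some n → cb Q n ∈ if n % (Q + 1) = k then Γ else Δ}
/-- the letters of a word, with the letter `e` in the block `j` -/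
def lA (t : Pt (Fin (d + 2))) (e : Option ℕ) : Finset (Lx d Q) :=
  lw Br.gl (Function.update (Function.update t 1 ((t 1).map fun _ => 0)) j.succ.succ e)
end grid

/-- **contexts**: an origin, a refinement with its frame, a fat block -/
structure Hc (s d : ℕ) where
  o : Og s d
  C : Type
  [fin : Fintype C]
  [dec : DecidableEq C]
  T : TT (Lb d) C
  ι : (C ⊕ Lb d → ℝ) → o.cx.B.SC (Wt d o.Q) ⊕ Lb d → ℝ
  f : o.cx.Fr
  e : Gd.Lv T → f.X
  j : Fin d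
  fn : C → Fin o.Q
  a1 : ℕ
  a2 : ℕ
  lam : C → ℝ
  δ : o.g.V.T.C → ℝ

attribute [instance] Hc.fin Hc.dec

namespace Hc
variable {s d : ℕ} (c : Hc s d)

/-- the whitened point tower -/
abbrev P : TS Unit := c.o.g.V.T.un c.o.Nw
/-- letters, words and the tower of the rectangles -/
abbrev L : Type := LR (Lb d) c.o.Q
abbrev CU : Type := c.T.CC c.j.succ (Fin 4)
abbrev U : TT c.L c.CU := RF c.T c.j.succ c.fn c.a1 c.a2
abbrev x : c.L := .inl (.inl 0)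
abbrev sl : Bool → Fin c.o.Q → c.L := Ft.sl (Lb d) c.o.Q
abbrev tl : Bool → Fin 1 → c.L := He.tl (Lb d) c.o.Q
abbrev τ : Fin c.o.Q → c.CU → c.CU := ta c.T c.j.succ c.fn
abbrev σ : c.CU → c.CU := st c.T c.j.succ
/-- the data -/
def F (a : Fin c.o.D) : Fm (Lb d) c.C := fun p => c.o.cx.F a (c.ι p)

structure Ok (ε : ℝ) (h κ : ℕ) : Prop where
  o : c.o.Ok ε
  emb : Emb c.o.cx.B (Wt d c.o.Q) bk c.T c.ι c.f c.e
  mor : Mor c.T c.o.cx.SY c.ι (2 ^ κ)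
  f : c.f.Ok s h
  tg : Tg c.o.cx.B bk s c.f
  fn : ∀ (w : Gd.Lv c.T) (i : Fin c.o.Q), some (c.j, i) ∈ (c.e w).1.2 → c.fn w.1 = i
  l0 : ∀ w, 0 < c.lam w
  lam : ∀ A, ∏ w : {w // (c.e w).1.2 = A}, c.lam w.1.1 = |(Matrix.of
    fun w w' : {w // (c.e w).1.2 = A} =>
      (∏ a ∈ A, c.f.la (bk a)) * c.f.T.A (c.e w.1).1.1 (c.e w'.1).1.1).det|
  δ : Dl c.P c.δ

/-- the normalisers of the words of the rectangle -/
def lu : c.CU → ℝ := Sum.elim c.lam fun w => 2 ^ (![c.a1, c.a1, c.a2, c.a2] w.2) * c.lam w.1.1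
/-- read a symbol coordinate of the base -/
def rd (p : c.C ⊕ Lb d → ℝ) (F : c.P.C) (A : Finset (Lx d c.o.Q)) : ℤ :=
  round (Sy.sx c.o.cx.B.T _ (Wt d c.o.Q) (fun w => c.ι p (.inl w)) F A)
/-- the point seen by the word `t` -/
def pp (w : c.CU → ℤ) (v : ℕ → c.CU → ℤ) (t : Pt (Fin (d + 2))) : c.CU ⊕ (Lb d ⊕ Fin 4) → ℝ :=
  co (pt c.U c.x w ((t 1).elim 0 v))
/-- the base point and the four directions -/
def r0 (q : c.CU ⊕ (Lb d ⊕ Fin 4) → ℝ) (F : c.P.C) (t : Pt (Fin (d + 2))) (e : Option ℕ) : ℤ :=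
  c.rd (c.T.p0 c.j.succ q) F (lA c.o.Q c.j t e)
def rx (q : c.CU ⊕ (Lb d ⊕ Fin 4) → ℝ) (l : Fin 4) (F : c.P.C) (t : Pt (Fin (d + 2))) (e : ℕ) : ℤ :=
  c.rd (c.T.px c.j.succ (fun _ => false) l q) F (lA c.o.Q c.j t (some e))
/-- **the background of the system `k`** -/
def bg (k : ℕ) (w : c.CU → ℤ) (v : ℕ → c.CU → ℤ) {D : Finset (Pt (Fin (d + 2)))}
    (y : c.P.Cw (SD s D)) : ℤ :=
  let t := Br.Wd.tr y.1.2
  let q := c.pp w v t
  (t c.j.succ.succ).elim (c.r0 q y.1.1 t none) fun n =>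
    let e := n % (c.o.Q + 1)
    let l : Fin 4 := bif cb c.o.Q n then 3 else 2
    if e = k then c.r0 q y.1.1 t (some k) + c.rx q (bif cb c.o.Q n then 1 else 0) y.1.1 t k
    else if e = c.o.Q then -c.rx q l y.1.1 t k
    else c.r0 q y.1.1 t (some e) + c.rx q 0 y.1.1 t e + c.rx q l y.1.1 t e - c.rx q l y.1.1 t k
/-- the background of the witness -/
def bg0 (w : c.CU → ℤ) (v : ℕ → c.CU → ℤ) (y : c.P.Cw (SD s (D0 c.o.Q c.j))) : ℤ :=
  c.rd (c.T.pos c.j.succ (fun _ => false) 1 (cv 0) (c.pp w v (Br.Wd.tr y.1.2))) y.1.1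
    (lA c.o.Q c.j (Br.Wd.tr y.1.2) (Br.Wd.tr y.1.2 c.j.succ.succ))

/-- the words of a direction that miss `S` -/
abbrev XW (S : Finset c.L) : Type := (c.U.dls S).Bl c.x
/-- the weight of a direction -/
def mu (S : Finset c.L) (w : c.CU → ℤ) (n : c.XW S → ℤ) : ℝ :=
  ∏ y : c.XW S, ga (c.lu y.1) 1 (c.U.Φ (pt c.U c.x w (ex c.U S c.x n)) y.1)
/-- the letters that are absent from a system -/
def Sx (k : Fin c.o.Q) (Γ Δ : Finset Bool) : Finset c.L :=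
  S4 c.sl k ∪ (univ \ Γ).image (fun b => c.sl b k) ∪ (univ \ Δ).image fun b => c.tl b 0
/-- several directions -/
def vs (S : Finset c.L) {r : ℕ} (n : Fin r → c.XW S → ℤ) (i : ℕ) : c.CU → ℤ :=
  if h : i < r then ex c.U S c.x (n ⟨i, h⟩) else 0
/-- **the total mass of a system** -/
def tm (k : Fin c.o.Q) (r r' : ℕ) (al : ℕ → ℕ → Bool) (Γ Δ : Finset Bool)
    (V : Br.Wd s (DD c.o.Q c.j k r r' al Γ Δ) → ℝ)
    (x : c.P.Cw (SD s (DD c.o.Q c.j k r r' al Γ Δ)) → ℝ) (w : c.CU → ℤ) : ℝ :=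
  ∑' n : Fin r' → c.XW (c.Sx k Γ Δ) → ℤ, (∏ i, c.mu _ w (n i)) *
    hs s c.P _ c.δ V x (c.bg k w (c.vs _ n)) fun _ => 1

/-- the start does not read these letters -/
abbrev S5 : Finset c.L := He.S5 c.sl c.tl
/-- the free coordinates of a system -/
abbrev E : Type := Fin 2 × c.XW c.S5 ⊕ HW s c.P (D1 c.o.Q c.j)
/-- their classes -/
def cls (k : Fin c.o.Q) : c.E → Fin 3
  | .inl y => if c.sl false k ∈ c.U.ty y.2.1 then 1 else if c.tl false 0 ∈ c.U.ty y.2.1 then 2 else 0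
  | .inr y => (Br.Wd.tr y.1.1.2 c.j.succ.succ).elim 0 fun n => if n = k then 1 else 2
/-- configurations of one class -/
abbrev Cf (k : Fin c.o.Q) (i : Fin 3) : Type := {y // c.cls k y = i} → ℤ
/-- assemble the classes -/
def as {k : Fin c.o.Q} (ρ : c.Cf k 0) (α : c.Cf k 1) (β : c.Cf k 2) (y : c.E) : ℤ :=
  if h : c.cls k y = 0 then ρ ⟨y, h⟩ else if h : c.cls k y = 1 then α ⟨y, h⟩
  else if h : c.cls k y = 2 then β ⟨y, h⟩ else 0
/-- the two directions of a configuration -/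
def vy (y : c.E → ℤ) : ℕ → c.CU → ℤ := c.vs c.S5 fun (i : Fin 2) z => y (.inl (i, z))
/-- the configuration on the ring -/
def cy (k : Fin c.o.Q) (w : c.CU → ℤ) (y : c.E → ℤ) : c.P.Cw (SD s (D1 c.o.Q c.j)) → ℤ :=
  Sd.gl c.P (SD s (D1 c.o.Q c.j)) (fun w => ¬ kw w) (fun z => y (.inr z)) (c.bg k w (c.vy y))
/-- the error of a direction -/
def ed (w : c.CU → ℤ) (y : c.E → ℤ) (z : Fin 2 × c.XW c.S5) : ℝ :=
  c.U.Φ (pt c.U c.x w (c.vy y z.1)) z.2.1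
/-- the factors of the weight -/
def om (k : Fin c.o.Q) (V : Br.Wd s (D1 c.o.Q c.j) → ℝ) (x : c.P.Cw (SD s (D1 c.o.Q c.j)) → ℝ)
    (w : c.CU → ℤ) (y : c.E → ℤ) : c.E → ℝ
  | .inl z => ga (c.lu z.2.1) 1 (c.ed w y z)
  | .inr z => ga (c.δ z.1.1.1) (V z.1.1.2) ((c.P.sh _).u (zc (c.cy k w y)) z.1 - x z.1)
open Classical in
/-- short directions in the classes `I` -/
def ct (k : Fin c.o.Q) (R : ℝ) (I : Finset (Fin 3)) (w : c.CU → ℤ) (y : c.E → ℤ) : ℝ :=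
  if ∀ z, c.cls k (.inl z) ∈ I → |c.ed w y z| ≤ R then 1 else 0
/-- the datum at the first corner -/
def Fp (a : Fin c.o.D) (w v : c.CU → ℤ) : ℝ :=
  c.F a (c.T.pos c.j.succ (fun _ => false) 1 (cv 0) (co (pt c.U c.x w v)))
/-- the function on the points, bounded by one -/
def fb (b : ℝ) (y : c.P.C → ℤ) : ℝ := c.o.f y / b

/-- **the system** `(k, a)` -/
def sys (k : Fin c.o.Q) (a : Fin c.o.D) (b R : ℝ) (V : Br.Wd s (D1 c.o.Q c.j) → ℝ)
    (x : c.P.Cw (SD s (D1 c.o.Q c.j)) → ℝ) : Sys (c.CU → ℤ) (c.Cf k 0) (c.Cf k 1) (c.Cf k 2) where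
  ϖ w ρ := ∏ y : {y // c.cls k y = 0}, c.om k V x w (c.as ρ 0 0) y.1
  la w ρ α := ∏ y : {y // c.cls k y = 1}, c.om k V x w (c.as ρ α 0) y.1
  ka w ρ β := ∏ y : {y // c.cls k y = 2}, c.om k V x w (c.as ρ 0 β) y.1
  fa w ρ α := (c.ct k R {0, 1} w (c.as ρ α 0) * pf s c.P _ (c.fb b)
    {ω ∈ pts (qq c.o.Q c.j 1 2 c.o.Q) | ω c.j.succ.succ = some k} (c.cy k w (c.as ρ α 0)) : ℝ)
  fb w ρ β := (c.ct k R {2} w (c.as ρ 0 β) * pf s c.P _ (c.fb b)
    {ω ∈ pts (qq c.o.Q c.j 1 2 c.o.Q) | ω c.j.succ.succ ≠ some k} (c.cy k w (c.as ρ 0 β)) : ℝ)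
  φ w ρ α β := ee (c.Fp a w (c.vy (c.as ρ α β) 1) - c.Fp a w (c.vy (c.as ρ α β) 0))

/-- the variances of the witness -/
def V0 {D : Finset (Pt (Fin (d + 2)))} (w : Br.Wd s D) : ℝ :=
  c.o.g.v w.lv (bl w.tr) / if w.tr 1 = none then c.o.cp else 1
/-- the variances of the systems -/
def V1 (ε m : ℝ) (w : Br.Wd s (D1 c.o.Q c.j)) : ℝ :=
  m * if w.tr c.j.succ.succ = some c.o.Q then ε else c.V0 w
end Hc

end Crest.Agent.N49.He

end
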