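import Crest.Agent.N49.He.Sec
import Crest.Agent.N49.He.Db

/-!
# Row 49 (helper84): the involution for the rings of copies
-/

set_option autoImplicit false
set_option linter.unusedSectionVars false

open Finset Matrix

noncomputable section

namespace Crest.Agent.N49.He

open Po Tw Br

variable {d : ℕ} (Q : ℕ) (j : Fin d) (k : ℕ) (Γ Δ : Finset Bool)

/-- the letters of the block `j` -/
def JD : Finset ℕ := {n ∈ range (2 * (Q + 1)) | cb Q n ∈ if n % (Q + 1) = k then Γ else Δ}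

/-- the matrix of the letters -/
def aj (n n' : ℕ) : ℤ := if n = n' then (if n % (Q + 1) = Q then -1 else 1) else
  if n % (Q + 1) ≠ k ∧ n' % (Q + 1) = Q ∧ cb Q n' = cb Q n then -1 else 0

variable {Q j k Γ Δ} {r r' : ℕ} {al : ℕ → ℕ → Bool}

theorem mem_grid' {ι : Type} [Fintype ι] [LinearOrder ι] {q : ι → ℕ} {t : Pt ι} :
    t ∈ grid q ↔ ∀ i n, t i = some n → n < q i := by
  simp only [grid, Fintype.mem_piFinset, mem_insertNone, mem_range, Option.mem_def]

theorem mem_DD2 {t : Pt (Fin (d + 2))} : t ∈ DD Q j k r r' al Γ Δ ↔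
    (∀ i n, t i = some n → n < qq Q j r r' (2 * (Q + 1)) i) ∧
    (∀ o n, t 0 = some o → t 1 = some n → al o n) ∧
    ∀ n, t j.succ.succ = some n → cb Q n ∈ if n % (Q + 1) = k then Γ else Δ := by
  simp only [DD, mem_filter, mem_grid']

theorem jss0 : j.succ.succ ≠ 0 := Fin.succ_ne_zero _
theorem jss1 : j.succ.succ ≠ 1 := fun e => Fin.succ_ne_zero j (Fin.succ_injective _ e)

theorem qq_j {n : ℕ} : qq Q j r r' n j.succ.succ = n := by
  rw [qq, if_neg jss0, if_neg jss1, if_pos rfl]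

theorem dd_dc : Dc (DD Q j k r r' al Γ Δ) := by
  intro ω h w e
  rw [mem_DD2] at h ⊢
  have u : ∀ i n, w i = some n → ω i = some n := fun i n z => (e i (by simp [z])).symm.trans z
  exact ⟨fun i n z => h.1 i n (u i n z), fun o n a b => h.2.1 o n (u _ _ a) (u _ _ b),
    fun n z => h.2.2 n (u _ _ z)⟩

theorem dd_J : ∀ t ∈ DD Q j k r r' al Γ Δ, ∀ n, t j.succ.succ = some n → n ∈ JD Q k Γ Δ ∧
    ∀ n' ∈ JD Q k Γ Δ, Function.update t j.succ.succ (some n') ∈ DD Q j k r r' al Γ Δ := by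
  intro t h n e
  rw [mem_DD2] at h
  refine ⟨mem_filter.2 ⟨mem_range.2 ((h.1 _ n e).trans_eq qq_j), h.2.2 n e⟩,
    fun n' m => mem_DD2.2 ⟨fun i a z => ?_, fun o a u v => ?_, fun a z => ?_⟩⟩
  · by_cases c : i = j.succ.succ
    · subst c
      rw [Function.update_self, Option.some.injEq] at z
      rw [qq_j, ← z]
      exact mem_range.1 (mem_filter.1 m).1
    · exact h.1 i a (by rwa [Function.update_of_ne c] at z)
  · rw [Function.update_of_ne jss0.symm] at u
    rw [Function.update_of_ne jss1.symm] at v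
    exact h.2.1 o a u v
  · rw [Function.update_self, Option.some.injEq] at z
    exact z ▸ (mem_filter.1 m).2

theorem eq_cb {n n' : ℕ} (h : n < 2 * (Q + 1)) (h' : n' < 2 * (Q + 1))
    (a : n % (Q + 1) = n' % (Q + 1)) (b : cb Q n = cb Q n') : n = n' := by
  have m : ∀ x, x < 2 * (Q + 1) → x % (Q + 1) = if Q + 1 ≤ x then x - (Q + 1) else x := by
    intro x hx
    split_ifs with c
    · rw [Nat.mod_eq_sub_mod c, Nat.mod_eq_of_lt (by omega)]
    · exact Nat.mod_eq_of_lt (by omega)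
  rw [m n h, m n' h'] at a
  simp only [cb, decide_eq_decide] at b
  split_ifs at a <;> omega

theorem aj_inv (hk : k < Q) : ∀ n ∈ JD Q k Γ Δ, ∀ n'' ∈ JD Q k Γ Δ,
    ∑ n' ∈ JD Q k Γ Δ, aj Q k n n' * aj Q k n' n'' = if n = n'' then 1 else 0 := by
  intro n hn n'' hn''
  have l : ∀ x ∈ JD Q k Γ Δ, x < 2 * (Q + 1) := fun x h => mem_range.1 (mem_filter.1 h).1
  by_cases c : n % (Q + 1) = k ∨ n % (Q + 1) = Q
  · have z : ∀ n' ∈ JD Q k Γ Δ, n' ≠ n → aj Q k n n' = 0 := by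
      intro n' m e
      rw [aj, if_neg e.symm, if_neg]
      rintro ⟨a, b, u⟩
      exact e (eq_cb (l _ m) (l _ hn) (b.trans (c.resolve_left a).symm) u)
    rw [sum_eq_single_of_mem n hn fun n' m e => by rw [z n' m e, zero_mul]]
    split_ifs with e
    · subst e
      rw [aj, if_pos rfl]
      split_ifs <;> rfl
    · rw [z n'' hn'' (Ne.symm e), mul_zero]
  · push Not at c
    let g : ℕ := if Q + 1 ≤ n then 2 * Q + 1 else Q
    have g1 : g % (Q + 1) = Q := by
      simp only [g]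
      split_ifs
      · rw [show 2 * Q + 1 = Q + (Q + 1) by ring, Nat.add_mod_right, Nat.mod_eq_of_lt (by omega)]
      · exact Nat.mod_eq_of_lt (by omega)
    have g2 : cb Q g = cb Q n := by
      simp only [g, cb, decide_eq_decide]
      split_ifs <;> omega
    have g3 : g < 2 * (Q + 1) := by
      simp only [g]
      split_ifs <;> omega
    have g4 : g ∈ JD Q k Γ Δ := by
      have := (mem_filter.1 hn).2
      rw [if_neg c.1] at this
      exact mem_filter.2 ⟨mem_range.2 g3, by rwa [g1, if_neg hk.ne', g2]⟩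
    have g5 : n ≠ g := fun e => c.2 (e ▸ g1)
    rw [sum_eq_add_of_mem n g hn g4 g5 fun x m e => by
      rw [aj, if_neg e.1.symm, if_neg fun u => e.2 (eq_cb (l _ m) g3 (u.2.1.trans g1.symm)
        (u.2.2.trans g2.symm)), zero_mul]]
    have a1 : aj Q k n n = 1 := by rw [aj, if_pos rfl, if_neg c.2]
    have a2 : aj Q k n g = -1 := by rw [aj, if_neg g5, if_pos ⟨c.1, g1, g2⟩]
    have a3 : aj Q k g g = -1 := by rw [aj, if_pos rfl, if_pos g1]
    have a4 : n'' ≠ g → aj Q k g n'' = 0 := fun e => by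
      rw [aj, if_neg e.symm, if_neg fun u => e (eq_cb (l _ hn'') g3 (u.2.1.trans g1.symm) u.2.2)]
    rw [a1, a2]
    by_cases e : n'' = g
    · rw [e, a2, a3, if_neg g5]; rfl
    · rw [a4 e, mul_zero, add_zero, one_mul, aj]
      split_ifs with u v w
      · exact (c.2 v).elim
      · rfl
      · exact (e (eq_cb (l _ hn'') g3 (w.2.1.trans g1.symm) (w.2.2.trans g2.symm))).elim
      · rfl

/-- **the involution on the hidden words of `DD`** -/
theorem sec_dd {Λ : Type} [Fintype Λ] [DecidableEq Λ] {s : ℕ} {sc : Fin (d + 2) → ℕ → Λ}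
    {blk : Λ → Fin (d + 2)} {a : Λ → ℕ → ℤ}
    {φ : Matrix (Br.Wd s (DD Q j k r r' al Γ Δ)) (Sh.MW (full Λ s)) ℤ}
    (hφ : ∀ w μ, φ w μ = if μ.1.degree = w.lv ∧ Fill (μ.1.support.image blk) (bl w.tr)
      then μ.1.prod fun x n => ((w.tr (blk x)).elim 0 (a x)) ^ n else 0)
    (hb : ∀ i n, blk (sc i n) = i) (hk : k < Q)
    (h1 : ∀ i, i ≠ j.succ.succ → ∀ n n', n < qq Q j r r' 0 i → n' < qq Q j r r' 0 i →
      a (sc i n') n = if n = n' then 1 else 0)
    (h2 : ∀ n ∈ JD Q k Γ Δ, ∀ n' ∈ JD Q k Γ Δ, a (sc j.succ.succ n') n = aj Q k n n')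
    {q : Br.Wd s (DD Q j k r r' al Γ Δ) → Prop} [Fintype {w // ¬ q w}] [DecidableEq {w // ¬ q w}]
    (hq : ∀ w, q w ↔ w.tr 0 = none) :
    (of fun h h' : {w // ¬ q w} => φ h.1 (sgm sc 0 h'.1)) *
      (of fun h h' : {w // ¬ q w} => φ h.1 (sgm sc 0 h'.1)) = 1 ∧
    ∀ h h' : {w // ¬ q w}, φ h.1 (sgm sc 0 h'.1) ≠ 0 → h.1.lv = h'.1.lv := by
  have e : ∀ i, i ≠ j.succ.succ → qq Q j r r' (2 * (Q + 1)) i = qq Q j r r' 0 i :=
    fun i c => by simp only [qq, if_neg c]
  refine sec_inv hφ hb jss0 (fun i c t u t' u' n n' v v' => h1 i c n n'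
    (e i c ▸ (mem_DD2.1 u).1 i n v) (e i c ▸ (mem_DD2.1 u').1 i n' v')) (JD Q k Γ Δ) dd_J
    (fun n u n'' v => ?_) hq
  rw [← aj_inv hk n u n'' v]
  exact sum_congr rfl fun n' m => by rw [h2 n u n' m, h2 n' m n'' v]

end Crest.Agent.N49.He

end
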