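import Crest.Agent.N49.He.Ji
import Crest.Agent.N49.He.Sec2
import Crest.Agent.N49.He.Phm2

/-!
# Row 49 (helper84): the mass and the section of the cover morphism
-/

set_option autoImplicit false
set_option linter.unusedSectionVars false

open Finset Matrix

noncomputable section

namespace Crest.Agent.N49.He.Ji

open Po Tw Br Sd

variable {d Q r r' : ℕ} (j : Fin d) (k : Fin Q)

/-- the letter of a clone of the block `j` -/
def scj (n : ℕ) : La d Q r r' :=
  if n % (Q + 1) = k then .inr (.inl (bif cb Q n then 1 else 0, k)) else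
    .inr (.inl (bif cb Q n then 3 else 2, if h : n % (Q + 1) < Q then ⟨_, h⟩ else k))

/-- the letter of a clone -/
def scl' (o : Fin r) : Fin (d + 2) → ℕ → La d Q r r' :=
  Fin.cases (fun n => .inr (.inr (.inr (if h : n < r then ⟨n, h⟩ else o))))
    (Fin.cases (fun n => if h : n < r' then .inr (.inr (.inl ⟨n, h⟩)) else .inl none)
      fun i n => if i = j then scj k n else .inl (some (i, if h : n < Q then ⟨n, h⟩ else k)))

theorem lb_scj (n : ℕ) : lb j (scj k n : La d Q r r') = j.succ.succ := by
  unfold scj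
  split_ifs <;> rfl

theorem lb_scl (o : Fin r) (i : Fin (d + 2)) (n : ℕ) : lb j (scl' (r' := r') j k o i n) = i := by
  refine Fin.cases rfl (Fin.cases ?_ fun i => ?_) i
  · show lb j (if h : n < r' then _ else _) = _
    split_ifs <;> rfl
  · show lb j (if i = j then _ else _) = _
    split_ifs with h
    · rw [lb_scj, h]
    · rfl
    · rfl

theorem al_scl (o : Fin r) (i : Fin (d + 2)) (c : i ≠ j.succ.succ) (n n' : ℕ)
    (h' : n' < qq Q j r r' 0 i) :
    al j k (scl' (r' := r') j k o i n') n = if n = n' then 1 else 0 := by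
  revert c h'
  refine Fin.cases (fun _ h' => ?_) (Fin.cases (fun _ h' => ?_) fun i c h' => ?_) i
  · have : n' < r := h'
    show al j k (.inr (.inr (.inr (if h : n' < r then ⟨n', h⟩ else o)))) n = _
    rw [dif_pos this]
    rfl
  · have : n' < r' := h'
    show al j k (if h : n' < r' then _ else _) n = _
    rw [dif_pos this]
    rfl
  · have e : i ≠ j := fun e => c (e ▸ rfl)
    rw [qq, if_neg jss0, if_neg jss1, if_neg c] at h'
    show al j k (if i = j then _ else _) n = _
    rw [if_neg e, dif_pos h']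
    simp only [al, if_neg e]

theorem al_scj {n n' : ℕ} (h : n < 2 * (Q + 1)) (h' : n' < 2 * (Q + 1)) :
    al j k (scj k n' : La d Q r r') n = aj Q k n n' := by
  have u : n % (Q + 1) = n' % (Q + 1) → cb Q n = cb Q n' → n = n' := eq_cb h h'
  have k1 := k.2
  have l : n' % (Q + 1) < Q + 1 := Nat.mod_lt _ (by omega)
  unfold scj aj
  by_cases e : n = n'
  · subst e
    rw [if_pos rfl]
    by_cases a : n % (Q + 1) = k
    · rw [if_pos a, if_neg (by omega)]
      cases b : cb Q n <;> simp [al, a, b]
    · rw [if_neg a]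
      by_cases c : n % (Q + 1) < Q
      · rw [dif_pos c, if_neg c.ne]
        cases b : cb Q n <;> simp [al, a, b]
      · rw [dif_neg c, if_pos (by omega)]
        cases b : cb Q n <;> simp [al, a, b]
  · rw [if_neg e]
    by_cases a : n' % (Q + 1) = k
    · rw [if_pos a, if_neg (by omega)]
      rw [a] at u
      cases b : cb Q n <;> cases b' : cb Q n' <;> simp [al, b, b'] <;>
        exact fun z => e (u z (b.trans b'.symm))
    · rw [if_neg a]
      by_cases c : n' % (Q + 1) < Q
      · rw [dif_pos c, if_neg (by omega)]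
        cases b : cb Q n <;> cases b' : cb Q n' <;> simp [al, a, b, b'] <;>
          exact fun z => e (u z (b.trans b'.symm))
      · have : n' % (Q + 1) = Q := by omega
        rw [dif_neg c]
        cases b : cb Q n <;> cases b' : cb Q n' <;> simp [al, b, b', this]

theorem abs_al (k : ℕ) (x : La d Q r r') (n : ℕ) : |al j k x n| ≤ 1 := by
  rcases x with (_ | t) | t | i | o <;> simp only [al] <;> (try split_ifs) <;> simp

/-- **the mass and the section** -/
theorem sgn : SGN := by
  intro s d Q r r' j k a Γ Δ V κ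
  refine ⟨dd_dc, abs_al j k, phm_mass (i0 := 0) (fun i => Fin.zero_le i) V _ (fun x h => ?_)
    (fun t h n e => ?_), ?_⟩
  · rcases x with t | t | i | o
    exacts [(h rfl).elim, (h rfl).elim, (h rfl).elim, rfl]
  · have : n < r := (mem_DD2.1 h).1 0 n e
    simp only [Fintype.sum_sum_type, ms, al, zero_mul, sum_const_zero, zero_add, one_mul]
    rw [sum_eq_single ⟨n, this⟩ (fun b _ z => if_neg fun y => z (Fin.ext y.symm)) (by simp),
      if_pos rfl]
  intro _ _
  rcases Nat.eq_zero_or_pos r with rfl | hr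
  · have : IsEmpty {w : (Br.tw s (DD Q j k 0 r' a Γ Δ) V).W // ¬ kw w} := ⟨fun w => by
      obtain ⟨n, e⟩ := Option.ne_none_iff_exists'.1 w.2
      exact Nat.not_lt_zero _ ((mem_DD2.1 (Br.Wd.mem w.1)).1 0 n e)⟩
    exact ⟨isEmptyElim, 0, isEmptyElim, Matrix.ext isEmptyElim, isEmptyElim⟩
  have hb := lb_scl (r' := r') j k ⟨0, hr⟩
  obtain ⟨i1, i2⟩ := sec_dd (s := s) (al := a) (Γ := Γ) (Δ := Δ) (a := al j k)
    (φ := ph s _ (lb j) (al j k)) (fun _ _ => rfl) hb k.2
    (fun i c n n' _ h' => al_scl j k _ i c n n' h')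
    (fun n u n' v => by
      show al j k (if j = j then _ else _) n = _
      rw [if_pos rfl]
      exact al_scj j k (mem_range.1 (mem_filter.1 u).1) (mem_range.1 (mem_filter.1 v).1))
    (q := fun w : (Br.tw s (DD Q j k r r' a Γ Δ) V).W => kw w) fun _ => Iff.rfl
  refine ⟨fun h => sgm (scl' j k ⟨0, hr⟩) 0 h.1, _, fun h => ⟨fun z => ?_, sgm_deg _ _ _⟩, i1, i2⟩
  obtain ⟨x, m, e⟩ := sgm_i0 hb h.2
  exact (z.1 x m).1 e

end Crest.Agent.N49.He.Ji

end
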