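import Crest.Agent.N49.He.Ji
import Crest.Agent.N49.He.Var
import Crest.Agent.N49.He.Fub

/-!
# Row 49 (helper22): expectations as sums over the kept coordinates
-/

set_option autoImplicit false
set_option linter.unusedSectionVars false

open Finset Matrix

noncomputable section

namespace Crest.Agent.N49.He

open Po Tw Br Rm Rm.TT Ft Md Sd

namespace Ji

namespace S2

section gen
variable {L C : Type} [Fintype L] [DecidableEq L] [Fintype C] [DecidableEq C] (U : TT L C)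

/-- extension by zero to the dead words -/
def lx (a : Gd.Lv U → ℤ) (u : C) : ℤ := if h : (U.ty u).Nonempty then a ⟨u, h⟩ else 0
/-- the weight of the live words -/
def wv (a : Gd.Lv U → ℤ) : ℝ :=
  ∏ u : Gd.Lv U, Real.exp (-(Real.pi * U.Φ (cf (lx U a)) u.1 ^ 2))
/-- the weight of the dead words -/
def wd (b : {u // ¬ (U.ty u).Nonempty} → ℤ) : ℝ := ∏ u, Real.exp (-(Real.pi * (b u : ℝ) ^ 2))
/-- live and dead words -/
abbrev sp := Equiv.piEquivPiSubtypeProd (fun u => (U.ty u).Nonempty) fun _ => ℤ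
variable {U}

theorem wv_pos (a : Gd.Lv U → ℤ) : 0 < wv U a := prod_pos fun _ _ => Real.exp_pos _
theorem wd_pos (b : {u // ¬ (U.ty u).Nonempty} → ℤ) : 0 < wd U b :=
  prod_pos fun _ _ => Real.exp_pos _

theorem phi_lv (o : U.Ok) {p p' : C ⊕ L → ℝ} (e : ∀ v, (U.tv v).Nonempty → p v = p' v) {u : C}
    (h : (U.ty u).Nonempty) : U.Φ p u = U.Φ p' u := (o.dat u h).1 p p' fun v _ k => e v k

theorem sp_lv (x : (Gd.Lv U → ℤ) × ({u // ¬ (U.ty u).Nonempty} → ℤ)) (u : C)
    (h : (U.ty u).Nonempty) : (sp U).symm x u = lx U x.1 u := by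
  simp [lx, Equiv.piEquivPiSubtypeProd, h]

theorem wt_sp (o : U.Ok) (x : (Gd.Lv U → ℤ) × ({u // ¬ (U.ty u).Nonempty} → ℤ)) :
    U.wt ((sp U).symm x) = wv U x.1 * wd U x.2 := by
  rw [TT.wt, ← Fintype.sum_subtype_add_sum_subtype (fun u => (U.ty u).Nonempty), mul_add,
    Real.exp_add, mul_sum, mul_sum, Real.exp_sum, Real.exp_sum, wv, wd]
  refine congrArg₂ (· * ·) (prod_congr rfl fun u _ => ?_) (prod_congr rfl fun u _ => ?_)
  · rw [neg_mul, phi_lv o (p' := cf (lx U x.1)) (fun v k => ?_) u.2]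
    rcases v with v | v
    · exact congrArg Int.cast (sp_lv x v k)
    · rfl
  · rw [neg_mul, o.dead _ _ (not_nonempty_iff_eq_empty.1 u.2)]
    simp [cf, Equiv.piEquivPiSubtypeProd, u.2]

theorem sm_sp (o : U.Ok) : Summable (wv U) ∧ Summable (wd U) := by
  have h : Summable fun x : (Gd.Lv U → ℤ) × ({u // ¬ (U.ty u).Nonempty} → ℤ) =>
      wv U x.1 * wd U x.2 := by
    rw [← funext (wt_sp o)]
    exact (sp U).symm.summable_iff.2 o.summable
  exact ⟨(summable_mul_right_iff (wd_pos 0).ne').1 (h.prod_symm.prod_factor 0),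
    (summable_mul_left_iff (wv_pos 0).ne').1 (h.prod_factor 0)⟩

theorem sum_sp (o : U.Ok) {G : (C → ℤ) → ℝ} (hG : ∀ w w', (∀ u, (U.ty u).Nonempty → w u = w' u) →
    G w = G w') (h : Summable fun a => wv U a * G (lx U a)) :
    ∑' w, U.wt w * G w = (∑' a, wv U a * G (lx U a)) * ∑' b, wd U b := by
  rw [← Fb.tsp h (sm_sp o).2, ← (sp U).symm.tsum_eq]
  refine tsum_congr fun x => ?_
  rw [wt_sp o, hG _ _ (sp_lv x)]
  ring

/-- **the dead words factor out** -/
theorem ex_lv (o : U.Ok) {G : (C → ℤ) → ℝ} (hG : ∀ w w', (∀ u, (U.ty u).Nonempty → w u = w' u) →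
    G w = G w') (h : Summable fun a => wv U a * G (lx U a)) :
    U.Ex G * ∑' a, wv U a = ∑' a, wv U a * G (lx U a) := by
  have z := sum_sp o (G := fun _ => 1) (fun _ _ _ => rfl) (by simpa using (sm_sp o).1)
  simp only [mul_one] at z
  have a := (sm_sp o).1.tsum_pos (fun y => (wv_pos y).le) 0 (wv_pos 0)
  have b := (sm_sp o).2.tsum_pos (fun y => (wd_pos y).le) 0 (wd_pos 0)
  rw [TT.Ex, TT.Z, z, sum_sp o hG h]
  field_simp
end gen

variable {s d : ℕ} {c : Hc s d} {S : Finset c.L} {r' : ℕ}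

/-- the kept coordinates: live words and directions -/
def e2 (c : Hc s d) (S : Finset c.L) (r' : ℕ) :
    (Gd.Lv c.U → ℤ) × (Fin r' → c.XW S → ℤ) ≃ (c.KV S r' → ℤ) where
  toFun x := Sum.elim x.1 fun y => x.2 y.1 y.2
  invFun z := (fun u => z (.inl u), fun i y => z (.inr (i, y)))
  left_inv _ := rfl
  right_inv z := funext fun v => by rcases v with v | v <;> rfl

theorem wb_cf (z : c.KV S r' → ℤ) :
    (Sum.elim (c.wb (zc z)) fun _ => 1 : c.CU ⊕ c.L → ℝ) = cf (c.wb z) := by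
  funext v
  rcases v with v | v
  · simp only [Sum.elim_inl, cf, Hc.wb]
    split_ifs <;> simp [zc]
  · rfl

theorem wt_e2 (x : (Gd.Lv c.U → ℤ) × (Fin r' → c.XW S → ℤ)) :
    (∏ v : c.KV S r', c.lu (c.vu v).1) * Ir.wt c.Ph (e2 c S r' x) =
      (∏ u : Gd.Lv c.U, c.lu u.1) * (wv c.U x.1 * ∏ i, c.mu S (lx c.U x.1) (x.2 i)) := by
  rw [Ir.wt, gs, Ir.qf_one, mul_sum, ← sum_neg_distrib, Real.exp_sum, ← prod_mul_distrib,
    Fintype.prod_sum_type, ← mul_assoc, wv, ← prod_mul_distrib, Fintype.prod_prod_type]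
  refine congrArg₂ (· * ·) (prod_congr rfl fun u _ => ?_)
    (prod_congr rfl fun i _ => prod_congr rfl fun y _ => ?_)
  · rw [Hc.Ph, wb_cf]; rfl
  · rw [Hc.Ph, wb_cf, ga, Real.sqrt_one, div_one, div_one]
    refine congrArg₂ (· * ·) rfl (congrArg (fun t => Real.exp (-(Real.pi * c.U.Φ t y.1 ^ 2)))
      (congrArg (fun n => c.U.jr c.x _ n 0) (funext fun u => ?_)))
    simp only [ex, TT.jn]
    split_ifs
    · rfl
    · simp

theorem mu_lv (o : c.U.Ok) {w w' : c.CU → ℤ} (e : ∀ u, (c.U.ty u).Nonempty → w u = w' u)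
    (n : c.XW S → ℤ) : c.mu S w n = c.mu S w' n := prod_congr rfl fun y _ => by
  refine congrArg (ga _ 1) (phi_lv o (fun v k => ?_) (c.xl y).2)
  rcases v with v | v
  · simp only [pt, TT.jr]
    split_ifs
    · rfl
    · exact congrArg Int.cast (e v k)
  · rfl

theorem zv (o : c.U.Ok) (hl : ∀ w, 0 ≤ c.lam w) {g : (c.KV S r' → ℤ) → ℝ} {B : ℝ}
    (hg : ∀ z, 0 ≤ g z ∧ g z ≤ B) :
    (Summable fun a => wv c.U a * ∑' n, (∏ i, c.mu S (lx c.U a) (n i)) * g (e2 c S r' (a, n))) ∧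
    c.ZV S r' g = (∏ u : Gd.Lv c.U, c.lu u.1) *
      ∑' a, wv c.U a * ∑' n, (∏ i, c.mu S (lx c.U a) (n i)) * g (e2 c S r' (a, n)) := by
  obtain ⟨M, hM⟩ := Hc.mus_bd o hl S r'
  have m0 : ∀ w (n : Fin r' → c.XW S → ℤ), 0 ≤ ∏ i, c.mu S w (n i) := fun w n =>
    prod_nonneg fun _ _ => Hc.mu_nonneg hl _ _ _
  have H := Fb.sm2 (p := wv c.U) (l := fun a (n : Fin r' → c.XW S → ℤ) =>
    (∏ i, c.mu S (lx c.U a) (n i)) * g (e2 c S r' (a, n))) (b := M * B) (fun a => (wv_pos a).le)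
    (fun a n => mul_nonneg (m0 _ _) (hg _).1) (sm_sp o).1 fun a => by
      have := Vr.sm (N := fun n => g (e2 c S r' (a, n))) (m0 (lx c.U a)) (hM _).1 (hM _).2
        ((hg 0).1.trans (hg 0).2) fun n => (abs_of_nonneg (hg _).1).trans_le (hg _).2
      exact ⟨this.1, (le_abs_self _).trans this.2⟩
  refine ⟨by simpa only [tsum_mul_left] using H.prod, ?_⟩
  rw [Hc.ZV, ← (e2 c S r').tsum_eq, ← tsum_mul_left]
  simp only [← mul_assoc (∏ v : c.KV S r', c.lu (c.vu v).1), wt_e2, mul_assoc]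
  rw [tsum_mul_left, H.tsum_prod]
  simp only [tsum_mul_left]

end S2

open S2 in
/-- **expectations as sums over the kept coordinates** -/
theorem sumv2 : SUMV := by
  intro s d c ε B h m r' S g k hg e
  have o := k.U
  have hl := fun w => (k.l0 w).le
  obtain ⟨s1, z1⟩ := zv (S := S) (r' := r') o hl (g := fun z => g (c.wb z) (c.nb z))
    fun z => hg _ _
  have z0 := (zv (S := S) (r' := 0) o hl (g := fun _ => 1) (B := 1) fun _ => by simp).2
  simp only [univ_eq_empty, prod_empty, mul_one, tsum_const, Nat.card_unique, one_smul] at z0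
  have z2 := ex_lv o (G := fun w => ∑' n : Fin r' → c.XW S → ℤ, (∏ i, c.mu S w (n i)) * g w n)
    (fun w w' q => tsum_congr fun n => by
      rw [e w w' n q, prod_congr rfl fun i _ => mu_lv o q (n i)]) s1
  rw [z0, z1, mul_left_comm, z2]
  rfl

end Ji

end Crest.Agent.N49.He

end
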