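import Crest.Agent.N49.Sd.Insa
import Crest.Agent.N49.Sd.Iga

/-!
# Row 49 (helper31): unimodular insertion with an external index
-/

set_option autoImplicit false

open Matrix Finset MeasureTheory

noncomputable section

namespace Crest.Agent.N49.He

open Po Tw Sd Rf
open scoped MatrixOrder

theorem mix_w {C e Y : Type} [Fintype C] [DecidableEq C] [Fintype e] [DecidableEq e] [Countable Y]
    {K1 : Matrix C C ℝ} {K2 : Matrix e e ℝ} (h1 : K1.PosDef) (h2 : K2.PosDef) (B : Matrix C e ℝ)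
    (a : Y → C → ℝ) {g : Y → ℝ} (hs : Summable fun y => gs (K1 + B * K2 * Bᵀ)⁻¹ (a y) * g y) :
    ∃ x : e → ℝ, (∑' y, gs (K1 + B * K2 * Bᵀ)⁻¹ (a y) * g y) / dt (K1 + B * K2 * Bᵀ)⁻¹ ≤
      (∑' y, gs K1⁻¹ (a y - B *ᵥ x) * g y) / dt K1⁻¹ := by
  have p0 := dt_pos (pd_add h1 h2 B).inv
  have p1 := dt_pos h1.inv
  have i : ∀ y, Integrable fun x => gs K2⁻¹ x * gs K1⁻¹ (a y - B *ᵥ x) * g y := fun y =>
    (integrable_sq h1 h2 B _).mul_const _
  have s : Summable fun y => ∫ x, ‖gs K2⁻¹ x * gs K1⁻¹ (a y - B *ᵥ x) * g y‖ := by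
    refine (hs.abs.mul_right (dt (K2⁻¹ + Bᵀ * K1⁻¹ * B))).congr fun y => ?_
    have : ∀ x, ‖gs K2⁻¹ x * gs K1⁻¹ (a y - B *ᵥ x) * g y‖ =
        gs K2⁻¹ x * gs K1⁻¹ (a y - B *ᵥ x) * |g y| := fun x => by
      rw [norm_mul, Real.norm_of_nonneg (mul_pos (gs_pos _ _) (gs_pos _ _)).le, Real.norm_eq_abs]
    simp only [this]
    rw [integral_mul_const, integral_sq h1 h2, abs_mul, abs_of_pos (gs_pos _ _)]
    ring
  have e1 : ∀ x, ∑' y, gs K2⁻¹ x * gs K1⁻¹ (a y - B *ᵥ x) * g y =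
      gs K2⁻¹ x * ∑' y, gs K1⁻¹ (a y - B *ᵥ x) * g y := fun x => by
    rw [← tsum_mul_left]; simp only [mul_assoc]
  have e2 := integral_tsum_of_summable_integral_norm i s
  have i2 := integrable_tsum i s
  simp only [e1] at e2 i2
  simp only [integral_mul_const, integral_sq h1 h2] at e2
  obtain ⟨x, hx⟩ := exists_ge (fun x => gs_pos K2⁻¹ x) (integrable_gs h2.inv) i2
    (c := (∑' y, gs (K1 + B * K2 * Bᵀ)⁻¹ (a y) * g y) / dt (K1 + B * K2 * Bᵀ)⁻¹ * dt K1⁻¹) (by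
      rw [← e2, integral_gs_real h2.inv, mul_assoc, ← dt_sq h1 h2 B, ← mul_assoc,
        div_mul_cancel₀ _ p0.ne', ← tsum_mul_right]
      exact le_of_eq (tsum_congr fun y => by ring))
  exact ⟨x, (le_div_iff₀ p1).2 hx⟩

/-- a Gaussian weight is a mixture of narrower ones (weighted form) -/
theorem mixw {C Y : Type} [Fintype C] [DecidableEq C] [Countable Y] {P P' : Matrix C C ℝ}
    (h : P.PosDef) (h' : P'.PosDef) (k : ∀ u, qf P u ≤ qf P' u) (a : Y → C → ℝ) {g : Y → ℝ}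
    (s : Summable fun y => gs P (a y) * g y) :
    ∃ x, (∑' y, gs P (a y) * g y) / dt P ≤ (∑' y, gs P' (a y - x) * g y) / dt P' := by
  have p : (P⁻¹ - P'⁻¹).PosSemidef := .of_dotProduct_mulVec_nonneg (h.inv.1.sub h'.inv.1) fun x => by
    rw [sub_mulVec, dotProduct_sub]; exact sub_nonneg.2 (La.qf_inv_le h h' k x)
  obtain ⟨A, hA⟩ := CStarAlgebra.nonneg_iff_eq_star_mul_self.1 p.nonneg
  have e : P = (P'⁻¹ + Aᵀ * 1 * Aᵀᵀ)⁻¹ := by
    rw [Matrix.mul_one, transpose_transpose, show Aᵀ * A = P⁻¹ - P'⁻¹ by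
      simpa [star_eq_conjTranspose] using hA.symm, add_sub_cancel, inv_inv' h]
  obtain ⟨x, hx⟩ := mix_w h'.inv PosDef.one Aᵀ a (e ▸ s)
  rw [← e, inv_inv' h'] at hx
  exact ⟨_, hx⟩

/-- **unimodular insertion with an external index** -/
def INSG : Prop := ∀ (X C H : Type) [Countable X] [Fintype C] [DecidableEq C] [Fintype H]
  [DecidableEq H] (j : C → Prop) [DecidablePred j] (β : H → C) (L : Matrix H C ℤ)
  (V : Matrix H H ℤ) (Q : Matrix H H ℝ) (K : Matrix C C ℝ) (v : H → ℝ)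
  (A : Matrix {c // j c} {c // j c} ℝ) (lev : C → ℕ) (U : X → (C → ℤ) → C → ℝ)
  (k : X → H → ℤ) (E G : X → (H → ℤ) → _), Prt (fun _ => False) j β →
  V * L.submatrix id β = 1 → (∀ h c, (V * L) h c ≠ 0 → lev c ≤ lev (β h)) → Q.PosDef → K.PosDef →
  (∀ u : C → ℝ, 2 * qf Q (rl L *ᵥ u) ≤ qf K⁻¹ u) → A.det ≠ 0 →
  (∀ c c', A c c' ≠ 0 → lev c.1 = lev c'.1) → (∀ c c', K c c' ≠ 0 → lev c = lev c') →
  (∀ a (y y' : C → ℤ) (c : {c // j c}), (∀ c', lev c' < lev c.1 → y c' = y' c') →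
    U a y c.1 - (A *ᵥ zc fun c => y c.1) c = U a y' c.1 - (A *ᵥ zc fun c => y' c.1) c) →
  (∀ a y, v + rl L *ᵥ U a y = E a (k a + L *ᵥ y)) →
  (Summable fun a : X × (H → ℤ) => gs Q (E a.1 a.2) * (G a.1 a.2 : ℝ)) →
  ∃ x : C → ℝ, (∑' a : X × (H → ℤ), gs Q (E a.1 a.2) * G a.1 a.2) / dt Q ≤
    |A.det| * ((∑' a : X × (C → ℤ), gs K⁻¹ (U a.1 a.2 - x) * G a.1 (k a.1 + L *ᵥ a.2)) / dt K⁻¹)

theorem rl_mul {a b c : Type} [Fintype b] (M : Matrix a b ℤ) (N : Matrix b c ℤ) :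
    rl (M * N) = rl M * rl N := by
  ext i j; simp [rl, mul_apply]

theorem rl_one {a : Type} [DecidableEq a] : rl (1 : Matrix a a ℤ) = 1 := by
  ext i j; simp only [rl, map_apply, one_apply]; split_ifs <;> simp

open Ia in
theorem insg : INSG := by
  intro X C H _ _ _ _ _ j _ β L V Q K v A lev U k E G P hV hl h2 hK hq hA bA bK hU e2 sE
  set W := L.submatrix id β with hW
  have hV' : W * V = 1 := mul_eq_one_comm.1 hV
  have sp : ∀ (M : Matrix H C ℤ) (y : C → ℤ), M *ᵥ y = M.submatrix id β *ᵥ (fun h => y (β h)) +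
      M.submatrix id (Subtype.val : {c // j c} → C) *ᵥ fun c => y c.1 := fun M y => funext fun h => by
    simp only [Pi.add_apply, mulVec, dotProduct, submatrix_apply, id]
    rw [← Fintype.sum_subtype_add_sum_subtype j, add_comm]
    congr 1
    exact (Fintype.sum_bijective (fun a => (⟨β a, P.jb a⟩ : {c // ¬ j c})) ⟨fun a b e =>
      P.inj (congrArg Subtype.val e), fun c => by
        rcases P.cov c.1 with z | z | ⟨a, z⟩
        exacts [z.elim, (c.2 z).elim, ⟨a, Subtype.ext z⟩]⟩ _ _ fun _ => rfl).symm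
  let N := (V * L).submatrix id (Subtype.val : {c // j c} → C)
  let lf : X → (H → ℤ) → ({c // j c} → ℤ) → C → ℤ := fun a z n =>
    Function.extend β (V *ᵥ (z - k a) - N *ᵥ n) (glue j n 0)
  have lb : ∀ a z n h, lf a z n (β h) = (V *ᵥ (z - k a) - N *ᵥ n) h := fun a z n h =>
    P.inj.extend_apply _ _ _
  have lj : ∀ a z n, (fun c : {c // j c} => lf a z n c.1) = n := fun a z n => funext fun c =>
    (Function.extend_apply' _ _ _ (nr P (.inr c.2))).trans (glue_pos _ _ c.2)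
  have vl : ∀ y : C → ℤ, V *ᵥ L *ᵥ y = (fun h => y (β h)) + N *ᵥ fun c => y c.1 := fun y => by
    rw [mulVec_mulVec, sp, show (V * L).submatrix id β = V * W from rfl, hV, one_mulVec]
  have l1 : ∀ a z n, k a + L *ᵥ lf a z n = z := fun a z n => by
    have : V *ᵥ L *ᵥ lf a z n = V *ᵥ (z - k a) := by
      rw [vl, lj, funext (lb a z n), sub_add_cancel]
    have := congrArg (W *ᵥ ·) this
    simp only [mulVec_mulVec, ← Matrix.mul_assoc, hV', Matrix.one_mul, one_mulVec] at this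
    rw [this, add_sub_cancel]
  have l2 : ∀ a y, lf a (k a + L *ᵥ y) (fun c => y c.1) = y := fun a y => funext fun c => by
    rcases P.cov c with z | z | ⟨h, rfl⟩
    · exact z.elim
    · exact congrFun (lj a _ _) ⟨c, z⟩
    · rw [lb, add_sub_cancel_left, vl, add_sub_cancel_right]
  let eq : X × (C → ℤ) ≃ (X × (H → ℤ)) × ({c // j c} → ℤ) :=
    ⟨fun a => ((a.1, k a.1 + L *ᵥ a.2), fun c => a.2 c.1), fun a => (a.1.1, lf a.1.1 a.1.2 a.2),
      fun a => Prod.ext rfl (l2 _ _), fun a => Prod.ext (Prod.ext rfl (l1 _ _ _)) (lj _ _ _)⟩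
  set Q3 : Matrix {c // j c} {c // j c} ℝ :=
    (1 / 2 : ℝ) • (K.submatrix Subtype.val Subtype.val)⁻¹ with hQ3
  have h3 : Q3.PosDef := (hK.submatrix Subtype.val_injective).inv.smul (by norm_num)
  have kA : Rw.Blk (fun c : {c // j c} => lev c.1) A := fun c c' n => by_contra fun z => n (bA c c' z)
  have k3 : Rw.Blk (fun c : {c // j c} => lev c.1) Q3 := fun c c' n => by
    rw [hQ3, Matrix.smul_apply, blk_inv (M := K.submatrix Subtype.val Subtype.val)
      (fun c c' n => by_contra fun z => n (bK _ _ z)) c c' n, smul_zero]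
  have hM : (Aᵀ * Q3 * A).PosDef := posDef_conj h3
    (mulVec_injective_iff_isUnit.2 ((isUnit_iff_isUnit_det _).2 hA.isUnit))
  have kM := blk_mul (blk_mul (blk_tr kA) k3) kA
  let θ : X × (H → ℤ) → ({c // j c} → ℤ) → {c // j c} → ℝ := fun a n =>
    -(A⁻¹ *ᵥ ((fun c => U a.1 (lf a.1 a.2 n) c.1) - A *ᵥ zc fun c => lf a.1 a.2 n c.1))
  have tθ : ∀ a n n' c, (∀ c' : {c // j c}, lev c'.1 < lev c.1 → n c' = n' c') →
      θ a n c = θ a n' c := fun a n n' c e =>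
    congrArg Neg.neg (mulVec_blk (blk_inv kA) fun d z => hU _ _ _ d fun c' q => by
      rcases P.cov c' with w | w | ⟨h, rfl⟩
      · exact w.elim
      · exact (congrFun (lj _ _ n) ⟨c', w⟩).trans ((e ⟨c', w⟩ (q.trans_eq z)).trans
          (congrFun (lj _ _ n') ⟨c', w⟩).symm)
      · rw [lb, lb, Pi.sub_apply, Pi.sub_apply]
        refine congrArg _ (sum_congr rfl fun c'' _ => ?_)
        change N h c'' * _ = N h c'' * _
        by_cases w : N h c'' = 0
        · rw [w, zero_mul, zero_mul]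
        · rw [e c'' ((hl _ _ w).trans_lt (q.trans_eq z))])
  have eθ : ∀ a n x, gs (Aᵀ * Q3 * A) (zc n - θ a n - x) =
      gs Q3 ((fun c => U a.1 (lf a.1 a.2 n) c.1) - A *ᵥ x) := fun a n x => by
    rw [gs, gs, qf_conj, mulVec_sub, mulVec_sub]
    simp only [θ, lj, mulVec_neg, mulVec_mulVec, mul_nonsing_inv _ hA.isUnit, one_mulVec]
    congr 4
    abel
  obtain ⟨s0, x, hx⟩ := tile _ _ (fun c : {c // j c} => lev c.1) _ _ θ hM sE tθ
    fun c c' z => by_contra fun n => z (kM c c' n)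
  have wv : rl W * rl V = 1 := by rw [← rl_mul, hV', rl_one]
  have dW : |(rl W).det| = 1 := by
    have := congrArg det hV'
    rw [det_mul, det_one] at this
    have e : (rl W).det = (W.det : ℝ) := ((Int.castRingHom ℝ).map_det W).symm
    rcases Int.eq_one_or_neg_one_of_mul_eq_one this with z | z <;> simp [e, z]
  have h2' : ((rl W)ᵀ * Q * rl W).PosDef := posDef_conj h2 (mulVec_injective_iff_isUnit.2
    ((isUnit_iff_isUnit_det _).2 (abs_pos.1 (dW ▸ one_pos)).isUnit))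
  have q0 : ∀ u : {_c : C // False} → ℝ, qf (1 : Matrix {_c : C // False} _ ℝ) u = 0 := fun u => by
    simp [qf, dotProduct]
  obtain ⟨P', u0, p1, p2, p3, p4⟩ := iga C H (fun _ => False) j β (fun _ => 1) (rl (V * L)) 1
    ((rl W)ᵀ * Q * rl W) K (rl V *ᵥ v) (A *ᵥ x) P (fun _ => one_pos) (fun h h' => by
      have := congrFun (congrFun hV h) h'
      rw [one_apply] at this
      change (((V * W) h h' : ℤ) : ℝ) = _
      rw [this]; split_ifs <;> simp) PosDef.one h2' hK fun u => by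
      rw [q0, zero_add, qf_conj, mulVec_mulVec, rl_mul, ← Matrix.mul_assoc, wv, Matrix.one_mul]
      exact hq u
  have key : ∀ a : X × (C → ℤ), gs Q (E (eq a).1.1 (eq a).1.2) * G (eq a).1.1 (eq a).1.2 *
      gs (Aᵀ * Q3 * A) (zc (eq a).2 - θ (eq a).1 (eq a).2 - x) =
      gs P' (U a.1 a.2 - u0) * G a.1 (k a.1 + L *ᵥ a.2) := fun a => by
    rw [eθ, ← p4]
    change gs Q (E a.1 (k a.1 + L *ᵥ a.2)) * G a.1 (k a.1 + L *ᵥ a.2) *
      gs Q3 ((fun c => U a.1 (lf a.1 (k a.1 + L *ᵥ a.2) fun c => a.2 c.1) c.1) - _) = _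
    have g0 : ∀ u, gs (1 : Matrix {_c : C // False} _ ℝ) u = 1 := fun u => by
      rw [gs, q0, mul_zero, neg_zero, Real.exp_zero]
    have g1 : ∀ u, gs ((rl W)ᵀ * Q * rl W) (rl V *ᵥ v + rl (V * L) *ᵥ u) = gs Q (v + rl L *ᵥ u) :=
      fun u => by
        rw [gs, qf_conj, mulVec_add, mulVec_mulVec, mulVec_mulVec, rl_mul, ← Matrix.mul_assoc, wv,
          Matrix.one_mul, one_mulVec, gs]
    rw [l2, ← e2, g0, g1]
    ring
  have s2 := (eq.summable_iff.2 (s0 x)).congr key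
  rw [← eq.tsum_eq, tsum_congr key, Rf.dt_conj] at hx
  obtain ⟨x', hx'⟩ := mixw p1 hK.inv p2 (fun a : X × (C → ℤ) => U a.1 a.2 - u0) s2
  refine ⟨u0 + x', le_trans ?_ (mul_le_mul_of_nonneg_left (hx'.trans_eq ?_) (abs_nonneg _))⟩
  · have d2 := dt_pos h2
    have d3 := dt_pos h3
    have d4 := dt_pos p1
    have d5 := abs_pos.2 hA
    have d1 : dt (1 : Matrix {_c : C // False} _ ℝ) = 1 := by simp [dt]
    rw [d1, Rf.dt_conj, dW] at p3
    simp only [Nat.cast_one, prod_const_one, mul_one, one_mul, div_one] at p3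
    rw [← mul_div_assoc, div_le_div_iff₀ d2 d4, p3]
    rw [← mul_div_assoc, div_le_iff₀ d5] at hx
    calc _ = (∑' a : X × (H → ℤ), gs Q (E a.1 a.2) * G a.1 a.2) * dt Q3 * dt Q := by ring
      _ ≤ _ := (mul_le_mul_of_nonneg_right hx d2.le).trans_eq (by ring)
  · simp only [sub_sub]

end Crest.Agent.N49.He

end
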