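import Crest.Agent.N49.He.Jz
import Crest.Agent.N49.He.Insg
import Crest.Agent.N49.Wf.Lift
import Crest.Agent.N49.Sd.Insp

/-!
# Row 49 (helper21): lifting of the hidden words along a split morphism (leaf LFX)
-/

set_option autoImplicit false

open Matrix MvPolynomial Finset

noncomputable section

namespace Crest.Agent.N49.He

open Po Tw Sd

namespace Lx

variable {τ : Type} {T : TS Unit} {S : Sh Unit τ} {p : S.W → Prop} [DecidablePred p]
  {st : T.C → ℕ} {M : ℕ} {Ψ : T.Twd S}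

theorem fb_A (hs : T.Stg st M) (o : S.Ok) (a : T.Adm S st Ψ) (b : T.Cw S → ℤ) :
    (fb T S p st Ψ b).A = (T.kw S (T.stg st).A 1).submatrix (Subtype.val : Kc T S p → _) Subtype.val :=
  ((TS.lw_tri hs a o).A_cut _ b).trans (congrArg (submatrix · _ _) (TS.lw_A hs a o))

variable (T S p) in
/-- the covariance of a fibre -/
def K0 : Matrix (Kc T S p) (Kc T S p) ℝ := (T.kw S T.K S.K).submatrix Subtype.val Subtype.val

theorem fb_bd (hs : T.Stg st M) (o : S.Ok) (a : T.Adm S st Ψ) :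
    ∃ Z, ∀ b, (fb T S p st Ψ b).Z ≤ Z := by
  let f : Matrix (Kc T S p) (Kc T S p) ℝ → ℝ := fun A => ∏ l ∈ range (M + 1),
    Po.th ((A⁻¹ * K0 T S p * A⁻¹ᵀ).submatrix
      (Subtype.val : {c : Kc T S p // (T.lw S st Ψ).lev c.1 = l} → _) Subtype.val)⁻¹ 0
  exact ⟨_, fun b => (TS.Z_le_prod (Fx.fb_tri p hs o a b) fun c =>
    (TS.lw_lev (Ψ := Ψ) c.1).trans_lt (Nat.lt_succ_of_le (hs.le _).1)).trans_eq
      (congrArg f (fb_A hs o a b))⟩

theorem sm0 {X Y : Type} {w G : X → Y → ℝ} {ω : X → ℝ} {Z B : ℝ} (w0 : ∀ x y, 0 ≤ w x y)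
    (sw : ∀ x, Summable (w x)) (hZ : ∀ x, ∑' y, w x y ≤ Z) (hω : Summable ω)
    (hG : ∀ x y, |G x y| ≤ B) : Summable fun z : X × Y => w z.1 z.2 * (ω z.1 * G z.1 z.2) := by
  have n : ∀ x, 0 ≤ |ω x| * |B| := fun x => by positivity
  have k : Summable fun z : X × Y => w z.1 z.2 * (|ω z.1| * |B|) := by
    rw [summable_prod_of_nonneg fun z => mul_nonneg (w0 _ _) (n _)]
    refine ⟨fun x => (sw x).mul_right (|ω x| * |B|), .of_nonneg_of_le
      (fun x => tsum_nonneg fun y => mul_nonneg (w0 _ _) (n _))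
      (fun x => ?_) ((hω.abs.mul_right |B|).mul_left Z)⟩
    exact (tsum_mul_right (f := w x)).trans_le (mul_le_mul_of_nonneg_right (hZ _) (n _))
  refine k.of_norm_bounded fun z => ?_
  rw [norm_mul, norm_mul, Real.norm_of_nonneg (w0 _ _)]
  exact mul_le_mul_of_nonneg_left (mul_le_mul_of_nonneg_left ((hG _ _).trans (le_abs_self _))
    (abs_nonneg _)) (w0 _ _)

theorem sn0 {X Y : Type} {w G : X → Y → ℝ} {ω : X → ℝ} (d A : ℝ)
    (h : Summable fun z : X × Y => w z.1 z.2 * (ω z.1 * G z.1 z.2)) :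
    ∑' x, ω x * ((∑' y, w x y * G x y) / (d / A)) =
      A * ((∑' z : X × Y, w z.1 z.2 * (ω z.1 * G z.1 z.2)) / d) := by
  rw [h.tsum_prod, ← tsum_div_const, ← tsum_mul_left]
  refine tsum_congr fun x => ?_
  rw [div_div_eq_mul_div, tsum_congr fun y => mul_left_comm (w x y) (ω x) (G x y), tsum_mul_left]
  ring

theorem sm {X : Type} (hs : T.Stg st M) (o : S.Ok) (a : T.Adm S st Ψ) {ω : X → ℝ} (hω : Summable ω)
    (b : X → T.Cw S → ℤ) {G : X → (Kc T S p → ℤ) → ℝ} {B : ℝ} (hG : ∀ x y, |G x y| ≤ B) :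
    Summable fun z : X × (Kc T S p → ℤ) => gs (K0 T S p)⁻¹
      ((fb T S p st Ψ (b z.1)).u (zc z.2)) * (ω z.1 * G z.1 z.2) :=
  let ⟨_, hZ⟩ := fb_bd (p := p) hs o a
  sm0 (Y := Kc T S p → ℤ) (w := fun x y => (fb T S p st Ψ (b x)).wt y) (fun _ _ => (gs_pos _ _).le)
    (fun x => (Fx.fb_tri p hs o a (b x)).summable) (fun x => hZ (b x)) hω hG

theorem sum_N {X : Type} (hs : T.Stg st M) (o : S.Ok) (a : T.Adm S st Ψ) {ω : X → ℝ}
    (hω : Summable ω) (b : X → T.Cw S → ℤ) {G : X → (Kc T S p → ℤ) → ℝ} {B : ℝ}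
    (hG : ∀ x y, |G x y| ≤ B) : ∑' x, ω x * (fb T S p st Ψ (b x)).N (G x) =
      |((T.kw S (T.stg st).A 1).submatrix (Subtype.val : Kc T S p → _) Subtype.val).det| *
        ((∑' z : X × (Kc T S p → ℤ), gs (K0 T S p)⁻¹
          ((fb T S p st Ψ (b z.1)).u (zc z.2)) * (ω z.1 * G z.1 z.2)) / dt (K0 T S p)⁻¹) :=
  Eq.trans (tsum_congr fun x => congrArg (ω x * ·) (congrArg₂ (· / ·) (tsum_congr fun _ => rfl)
    (Ip.fb_Zc hs o a (b x)))) (sn0 (Y := Kc T S p → ℤ) (w := fun x y => gs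
      (K0 T S p)⁻¹ ((fb T S p st Ψ (b x)).u (zc y))) _ _ (sm hs o a hω b hG))

theorem sum_gl {R : Type} [AddCommMonoid R] (f : T.Cw S → R) (h : ∀ c, ¬ p c.1.2 → f c = 0) :
    ∑ c, f c = ∑ c : Kc T S p, f c.1 :=
  (sum_filter_of_ne fun c _ z => by_contra fun n => z (h c n)).symm.trans
    (sum_subtype (univ.filter fun c : T.Cw S => p c.1.2) (by simp) f)

theorem fb_ot (o : S.Ok) (st : T.C → ℕ) (Ψ : T.Twd S) (x : Kc T S p → ℝ) (b : T.Cw S → ℤ)
    (y : Kc T S p → ℤ) (c : Kc T S p) : (fb T S p st (Ho.ot Ψ (gl T S p x 0)) b).u (zc y) c =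
      (fb T S p st Ψ b).u (zc y) c - x c := by
  have uo : ∀ (x y : T.Cw S → ℝ), (T.tw S (Ho.ot Ψ x)).u y = fun c => (T.tw S Ψ).u y c - x c :=
    fun x y => (congrFun (congrArg (fun Φ (y : T.Cw S → ℝ) c => eval y (Φ c)) (Ho.off_Φ o Ψ x)) y).trans
      (TS.off_u (T.tw _ Ψ) x y)
  exact (Ip.fb_u st _ b y c).trans ((congrFun (uo (gl T S p x 0) (zc (gl T S p y b))) c.1).trans
    (congrArg₂ (· - ·) (Ip.fb_u st Ψ b y c).symm (Ip.gl_pos x 0 c.2)))

variable (T S p st) in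
/-- the linear part of a fibre -/
def A0 : Matrix (Kc T S p) (Kc T S p) ℝ := (T.kw S (T.stg st).A 1).submatrix Subtype.val Subtype.val

theorem fb_low (hs : T.Stg st M) (o : S.Ok) (a : T.Adm S st Ψ) {j : Kc T S p → Prop}
    [DecidablePred j] (hj : ∀ c c', j c → ¬ j c' → A0 T S p st c c' = 0) (b : T.Cw S → ℤ)
    (y y' : Kc T S p → ℤ) (c : {c // j c}) (k : ∀ c', st c'.1.1.1 < st c.1.1.1.1 → y c' = y' c') :
    (fb T S p st Ψ b).u (zc y) c.1 - ((A0 T S p st).submatrix Subtype.val Subtype.val *ᵥ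
      zc fun c : {c // j c} => y c.1) c = (fb T S p st Ψ b).u (zc y') c.1 -
      ((A0 T S p st).submatrix Subtype.val Subtype.val *ᵥ zc fun c : {c // j c} => y' c.1) c := by
  have k0 : ∀ y : Kc T S p → ℤ, ((A0 T S p st).submatrix Subtype.val Subtype.val *ᵥ
      zc fun c : {c // j c} => y c.1) c = (A0 T S p st *ᵥ zc y) c.1 := fun y =>
    (sum_subtype (univ.filter j) (by simp) fun c' => A0 T S p st c.1 c' * zc y c').symm.trans
      (sum_filter_of_ne fun c' _ z => by_contra fun n => z (mul_eq_zero_of_left (hj _ _ c.2 n) _))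
  have k1 : ∀ y : Kc T S p → ℤ, (fb T S p st Ψ b).u (zc y) c.1 - (A0 T S p st *ᵥ zc y) c.1 =
      eval (zc y) ((fb T S p st Ψ b).low c.1) := fun y =>
    sub_eq_of_eq_add' ((congrFun (TS.u_low (fb T S p st Ψ b) (zc y)) c.1).trans (congrArg
      (fun A : Matrix (Kc T S p) (Kc T S p) ℝ => (A *ᵥ zc y) c.1 + _) (fb_A hs o a b)))
  rw [k0, k0, k1, k1]
  exact (Fx.fb_tri p hs o a b).eval_low fun c' hc => congrArg Int.cast (k c'
    ((TS.lw_lev (Ψ := Ψ) c'.1).symm.trans_lt (hc.trans_eq (TS.lw_lev (Ψ := Ψ) c.1.1))))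

end Lx

open Lx in
theorem lfx : LFX := by
  intro τ τ' X _ T S R p q _ _ st M φ σ V Ψ Ψ' x0 ω b G B o o' hm pq hσ hV bV hs a a' hu hq hω hG
  classical
  let β : Kc T R (fun w => ¬ q w) → Kc T S (fun w => ¬ p w) := fun h =>
    ⟨⟨(h.1.1.1, σ ⟨_, h.2⟩), (Idt.unit_ext ((Sh.cd_degree _).trans ((hσ _).2.trans
      (Sh.cd_degree _).symm))).trans h.1.2⟩, (hσ _).1⟩
  let j : Kc T S (fun w => ¬ p w) → Prop := fun c => c.1.1.2 ∉ Set.range σ
  have σi : Function.Injective σ := fun h h' e => by_contra fun n => by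
    have e1 := congrFun (congrFun hV h) h
    have e2 := congrFun (congrFun hV h) h'
    rw [one_apply_ne n] at e2
    simp only [mul_apply, of_apply, e, one_apply_eq] at e1 e2
    exact one_ne_zero (e1.symm.trans e2)
  have P : Prt (fun _ => False) j β := by
    refine ⟨fun h h' e => ?_, fun c => ?_, fun _ k => k.elim, fun _ => id, fun h k => k ⟨_, rfl⟩⟩
    · exact Subtype.ext (Subtype.ext (Prod.ext (congrArg (fun c => c.1.1.1) e)
        (congrArg Subtype.val (σi (congrArg (fun c => c.1.1.2) e)))))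
    by_cases k : j c
    · exact .inr (.inl k)
    obtain ⟨w, e⟩ := not_not.1 k
    exact .inr (.inr ⟨⟨⟨(c.1.1.1, w.1), (Idt.unit_ext ((Sh.cd_degree _).trans ((hσ w).2.symm.trans
      ((congrArg _ e).trans (Sh.cd_degree _).symm)))).trans c.1.2⟩, w.2⟩,
      Subtype.ext (Subtype.ext (Prod.ext rfl e))⟩)
  let A0 := Lx.A0 T S (fun w => ¬ p w) st
  have kj : ∀ c h, j c → A0 c (β h) = 0 := fun c h k =>
    mul_eq_zero_of_right _ (one_apply_ne fun e => k ⟨_, e.symm⟩)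
  have d : A0.det = ((T.kw R (T.stg st).A 1).submatrix (Subtype.val : Kc T R (fun w => ¬ q w) → _)
      Subtype.val).det * (A0.submatrix (Subtype.val : {c // j c} → _) Subtype.val).det := by
    rw [Idt.det3 P A0 (fun _ _ _ k => k.elim) kj, det_isEmpty, one_mul]
    congr 2
    ext h h'
    change _ * (1 : Matrix S.W S.W ℝ) (σ _) (σ _) = _ * (1 : Matrix R.W R.W ℝ) h.1.1.2 h'.1.1.2
    rw [one_apply, one_apply, if_congr (σi.eq_iff.trans Subtype.ext_iff) rfl rfl]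
  have t := Fx.fb_tri (fun w => ¬ p w) hs o a
  have t' := Fx.fb_tri (fun w => ¬ q w) hs o' a'
  have d0 : A0.det ≠ 0 := fun z =>
    (t 0).det ((congrArg det (fb_A (p := fun w => ¬ p w) hs o a 0)).trans z)
  let L : Matrix (Kc T R fun w => ¬ q w) (Kc T S fun w => ¬ p w) ℤ :=
    (T.hmM S R φ).submatrix Subtype.val Subtype.val
  have z0 : ∀ (c' : T.Cw R) (c : T.Cw S), T.hmM S R φ c' c ≠ 0 →
      c.1.1 = c'.1.1 ∧ (q c'.1.2 ↔ p c.1.2) := fun c' c z =>
    have e : c.1.1 = c'.1.1 := by_contra fun n => z (if_neg n)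
    ⟨e, pq _ _ fun k => z ((if_pos e).trans k)⟩
  have eL : ∀ (u : T.Cw S → ℝ) h, (rl L *ᵥ fun c => u c.1) h = (T.hmM S R (rl φ) *ᵥ u) h.1 :=
    fun u h => by
      rw [← TS.rl_hmM]
      exact (sum_gl (p := fun w => ¬ p w) (fun c => rl (T.hmM S R φ) h.1 c * u c) fun c k =>
        mul_eq_zero_of_left (Int.cast_eq_zero.2 (by_contra fun z =>
          h.2 ((z0 _ _ z).2.2 (not_not.1 k)))) _).symm
  have eg : ∀ x y, gl T R (fun w => ¬ q w) (0 + L *ᵥ y) (T.hm S R φ (b x)) =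
      T.hm S R φ (gl T S (fun w => ¬ p w) y (b x)) := fun x y => funext fun c => by
    rw [TS.hm_eq, TS.hm_eq]
    by_cases k : q c.1.2
    · rw [Ip.gl_neg (p := fun w => ¬ q w) _ _ (not_not.2 k)]
      refine sum_congr rfl fun c' _ => ?_
      by_cases z : T.hmM S R φ c c' = 0
      · exact (mul_eq_zero_of_left z _).trans (mul_eq_zero_of_left z _).symm
      · exact congrArg _ (Ip.gl_neg (p := fun w => ¬ p w) _ _ (not_not.2 ((z0 _ _ z).2.1 k))).symm
    · rw [Ip.gl_pos (p := fun w => ¬ q w) _ _ k, zero_add]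
      refine Eq.trans (sum_congr rfl fun c' _ => ?_) (sum_gl (p := fun w => ¬ p w) (fun c' =>
        T.hmM S R φ c c' * gl T S (fun w => ¬ p w) y (b x) c') fun c' k' =>
          mul_eq_zero_of_left (by_contra fun z => k ((z0 _ _ z).2.2 (not_not.1 k'))) _).symm
      rw [Ip.gl_pos (p := fun w => ¬ p w) _ _ c'.2]
      rfl
  let V' : Matrix (Kc T R fun w => ¬ q w) (Kc T R fun w => ¬ q w) ℤ :=
    of fun h h' => if h'.1.1.1 = h.1.1.1 then V ⟨_, h.2⟩ ⟨_, h'.2⟩ else 0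
  have s1 := sm (p := fun w => ¬ q w) hs o' a' hω (fun x => T.hm S R φ (b x))
    (G := fun x z => G x (gl T R (fun w => ¬ q w) z (T.hm S R φ (b x)))) fun x z => hG x _
  refine (insg X (Kc T S fun w => ¬ p w) (Kc T R fun w => ¬ q w) j β L V'
    (K0 T R fun w => ¬ q w)⁻¹ (K0 T S fun w => ¬ p w) (fun h => -x0 h.1)
    (A0.submatrix Subtype.val Subtype.val) (fun c => st c.1.1.1)
    (fun x y => (fb T S (fun w => ¬ p w) st Ψ (b x)).u (zc y)) (fun _ => 0)
    (fun x z => (fb T R (fun w => ¬ q w) st Ψ' (T.hm S R φ (b x))).u (zc z))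
    (fun x z => ω x * G x (gl T R (fun w => ¬ q w) z (T.hm S R φ (b x)))) P ?_ (fun h c z => ?_)
    (t' 0).pd.inv (t 0).pd (fun u => ?_) (right_ne_zero_of_mul (d ▸ d0)) (fun c c' z => ?_)
    (fun c c' z => hs.blk (left_ne_zero_of_mul z)) (fun x y y' c k => ?_)
    (fun x y => funext fun h => ?_) s1).elim fun x e => ?_
  rotate_right
  · have ao := Ho.adm_ot hs.cl.1 a (gl T S (fun w => ¬ p w) x 0)
    refine ⟨gl T S (fun w => ¬ p w) x 0, fun c k =>
      Ip.gl_neg (p := fun w => ¬ p w) _ _ (not_not.2 k), ?_⟩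
    have n1 := sum_N (p := fun w => ¬ q w) hs o' a' hω (fun x => T.hm S R φ (b x))
      (G := fun x z => G x (gl T R (fun w => ¬ q w) z (T.hm S R φ (b x)))) fun x z => hG x _
    have n2 := sum_N (p := fun w => ¬ p w) hs o ao hω b
      (G := fun x z => G x (T.hm S R φ (gl T S (fun w => ¬ p w) z (b x)))) fun x z => hG x _
    refine n1.trans_le (le_of_le_of_eq (mul_le_mul_of_nonneg_left e (abs_nonneg _))
      (Eq.trans ?_ n2.symm))
    rw [← mul_assoc, ← abs_mul, ← d]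
    refine congrArg (fun t => _ * (t / _)) (tsum_congr fun z => congrArg₂ _ (congrArg (gs _)
      (funext fun c => ?_)) (congrArg (fun t => _ * G _ t) (eg _ _)))
    exact (fb_ot o st Ψ x (b z.1) z.2 c).symm
  · ext h h'
    have e0 := congrFun (congrFun hV ⟨_, h.2⟩) ⟨_, h'.2⟩
    by_cases k : h'.1.1.1 = h.1.1.1
    · refine Eq.trans ?_ (e0.trans (if_congr ⟨fun z => Subtype.ext (Subtype.ext (Prod.ext k.symm
        (congrArg Subtype.val z))), fun z => z ▸ rfl⟩ rfl rfl))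
      refine (sum_filter_of_ne (p := fun g => g.1.1.1 = h.1.1.1) fun g _ z =>
        by_contra fun n => left_ne_zero_of_mul z (if_neg n)).symm.trans (sum_of_injOn
          (fun g => ⟨_, g.2⟩) (fun g a g' b z => Subtype.ext (Subtype.ext (Prod.ext
            ((mem_filter.1 a).2.trans (mem_filter.1 b).2.symm) (congrArg Subtype.val z))))
          (fun _ _ => mem_coe.2 (mem_univ _)) (fun w _ n => mul_eq_zero_of_left (by_contra fun z => n
            ⟨⟨⟨(h.1.1.1, w.1), (Idt.unit_ext ((Sh.cd_degree _).trans ((bV _ _ z).symm.trans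
              (Sh.cd_degree _).symm))).trans h.1.2⟩, w.2⟩, mem_coe.2 (mem_filter.2 ⟨mem_univ _, rfl⟩),
              rfl⟩) _) fun g a => congrArg₂ (· * ·) (show V' h g = _ from if_pos (mem_filter.1 a).2)
                (show L g (β h') = _ from if_pos (k.trans (mem_filter.1 a).2.symm)))
    · refine (sum_eq_zero fun g _ => by_contra fun z => k ((z0 _ _ (right_ne_zero_of_mul z)).1.trans
        (by_contra fun n => left_ne_zero_of_mul z (if_neg n)))).trans
        (one_apply_ne fun z : h = h' => k (z ▸ rfl)).symm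
  · obtain ⟨h', -, z⟩ := exists_ne_zero_of_sum_ne_zero z
    have e1 : h'.1.1.1 = h.1.1.1 := by_contra fun n => left_ne_zero_of_mul z (if_neg n)
    exact (congrArg st ((z0 _ _ (right_ne_zero_of_mul z)).1.trans e1)).le
  · refine le_of_eq_of_le (congrArg (fun t => 2 * qf _ t) (funext fun h => ?_)) (hq u)
    rw [← eL]
    exact congrArg (fun t => (rl L *ᵥ t) h) (funext fun c =>
      (Ip.gl_pos (p := fun w => ¬ p w) u 0 c.2).symm)
  · exact by_contra fun n => left_ne_zero_of_mul z (by rw [TS.stg_A, if_neg n])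
  · refine fb_low hs o a (fun c c' u n => ?_) (b x) y y' c k
    rcases P.cov c' with w | w | ⟨w, rfl⟩
    exacts [w.elim, absurd w n, kj _ _ u]
  · refine Eq.trans ?_ ((Ip.fb_u (p := fun w => ¬ q w) st _ _ _ h).trans ((congrArg
      (fun t => (T.tw R Ψ').u (zc t) h.1) (eg x y)).trans (hu _ _ h.2))).symm
    refine (neg_add_eq_sub _ _).trans (congrArg (· - x0 h.1) (Eq.symm ?_))
    exact (congrArg (fun t : T.Cw R → ℝ => (T.tw R (T.tp S R φ Ψ)).u t h.1) (TS.zc_hm _)).trans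
      ((congrFun (Wf.Lf.u_hmM0 hm o o' _) h.1).trans ((eL _ h).symm.trans (congrArg
        (fun t => (rl L *ᵥ t) h) (funext (Ip.fb_u (p := fun w => ¬ p w) st Ψ (b x) y)).symm)))

end Crest.Agent.N49.He

end
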