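import Crest.Agent.N49.He.Jzg
import Crest.Agent.N49.He.Lfx

/-!
# Row 49 (helper31): JZ holds
-/

namespace Crest.Agent.N49.He

theorem jzA : JZ := jz lfx

end Crest.Agent.N49.He
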