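import Crest.Agent.N49.He.Db
import Crest.Agent.N49.Sd.Cellp

/-!
# Row 49 (helper85): hidden sums as products of Gaussian factors
-/

set_option autoImplicit false

open Finset Matrix

noncomputable section

namespace Crest.Agent.N49.He

open Po Tw Br Sd

namespace Hs

theorem ga_pos {δ V : ℝ} (h : 0 < δ) (k : 0 < V) (e : ℝ) : 0 < ga δ V e := by
  unfold ga; positivity

/-- a diagonal Gaussian is a product -/
theorem prod_ga {I : Type} [Fintype I] [DecidableEq I] (δ : I → ℝ) {V : I → ℝ} (h : ∀ i, 0 < V i)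
    (u : I → ℝ) : ∏ i, ga (δ i) (V i) (u i) =
      gs (diagonal V)⁻¹ u / (√(diagonal V).det / ∏ i, δ i) := by
  have e : (diagonal V)⁻¹ = diagonal fun i => (V i)⁻¹ := inv_eq_left_inv (by
    rw [diagonal_mul_diagonal, ← diagonal_one]
    exact congrArg _ (funext fun i => inv_mul_cancel₀ (h i).ne'))
  rw [e, gs, qf, det_diagonal, Real.sqrt_prod _ fun i _ => (h i).le, dotProduct, mul_sum,
    ← sum_neg_distrib, Real.exp_sum, div_div_eq_mul_div, ← prod_mul_distrib, ← prod_div_distrib]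
  refine prod_congr rfl fun i _ => ?_
  rw [ga, mulVec_diagonal, show Real.pi * (u i * ((V i)⁻¹ * u i)) = Real.pi * u i ^ 2 / V i by ring]
  ring

variable {τ : Type} {T : TS Unit} {S : Sh Unit τ} (q : S.W → Prop)

/-- the coordinates sorted by their words -/
def eW : (Σ w : {w // q w}, {F // T.lev F = S.dg w.1}) ≃ Kc T S q where
  toFun a := ⟨⟨(a.2.1, a.1.1), Tw.unit_ext ((Sh.cd_degree _).trans a.2.2.symm)⟩, a.1.2⟩
  invFun c := ⟨⟨c.1.1.2, c.2⟩, c.1.1.1,
    ((Sh.cd_degree _).symm.trans (congrArg Finsupp.degree c.1.2)).symm⟩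
  left_inv _ := rfl
  right_inv _ := rfl

variable [DecidablePred q] [i1 : Fintype (Kc T S q)] [i2 : DecidableEq (Kc T S q)]

theorem det_A {δ : T.C → ℝ} (h : Dl T δ) :
    |((T.kw S T.A 1).submatrix (Subtype.val : Kc T S q → _) Subtype.val).det| =
      ∏ c : Kc T S q, δ c.1.1.1 := by
  rw [(blk {w // q w} _ (fun w => {F // T.lev F = S.dg w.1}) (eW q)
    ((T.kw S T.A 1).submatrix (Subtype.val : Kc T S q → _) Subtype.val)
    (fun _ => T.A.submatrix Subtype.val Subtype.val)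
    (fun w F F' => (congrArg (_ * ·) (one_apply_eq w.1)).trans (mul_one _))
    fun a a' n => mul_eq_zero_of_right _ (one_apply_ne fun e => n (Subtype.ext e))).1, abs_prod,
    ← (eW q).prod_comp, Fintype.prod_sigma]
  exact prod_congr rfl fun w _ => (h.2 _).symm

omit [DecidablePred q] i1 in
theorem K_eq (hK : T.K = 1) {V : S.W → ℝ} (hV : S.K = diagonal V) :
    (T.kw S T.K S.K).submatrix (Subtype.val : Kc T S q → _) Subtype.val =
      diagonal fun c => V c.1.1.2 := by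
  ext c c'
  change T.K _ _ * S.K _ _ = _
  rw [hK, hV]
  by_cases a : c = c'
  · subst a; simp
  · rw [diagonal_apply_ne _ a]
    by_cases b : c.1.1.1 = c'.1.1.1
    · rw [diagonal_apply_ne _ fun d => a (Subtype.ext (Subtype.ext (Prod.ext b d))), mul_zero]
    · rw [one_apply_ne b, zero_mul]

/-- **the normalised weight of the words `q`** -/
theorem wt_ga (hK : T.K = 1) {V : S.W → ℝ} (hV : S.K = diagonal V) (V0 : ∀ w, q w → 0 < V w)
    {δ : T.C → ℝ} (h : Dl T δ) (u : Kc T S q → ℝ) :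
    ∏ c : Kc T S q, ga (δ c.1.1.1) (V c.1.1.2) (u c) =
      gs ((T.kw S T.K S.K).submatrix (Subtype.val : Kc T S q → _) Subtype.val)⁻¹ u /
        (√((T.kw S T.K S.K).submatrix (Subtype.val : Kc T S q → _) Subtype.val).det /
          |((T.kw S T.A 1).submatrix (Subtype.val : Kc T S q → _) Subtype.val).det|) := by
  rw [K_eq q hK hV, det_A q h]
  exact prod_ga _ (fun c => V0 _ c.2) u

end Hs

section
variable {τ : Type} {T : TS Unit} {S : Sh Unit τ} {st : T.C → ℕ} {M : ℕ} {Ψ : T.Twd S}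
  (hs : T.Stg st M) (a : T.Adm S st Ψ) (o : S.Ok) (q : S.W → Prop) [DecidablePred q]
  [i1 : Fintype (Kc T S q)] [i2 : DecidableEq (Kc T S q)]
include hs a o

/-- the weights of the words `q` are uniformly summable -/
theorem fb_sm : ∃ x, ∀ b : T.Cw S → ℤ, ∃ y ≤ x, HasSum (fun η : Kc T S q → ℤ =>
    gs ((T.kw S T.K S.K).submatrix (Subtype.val : Kc T S q → _) Subtype.val)⁻¹
      fun c => (T.tw S Ψ).u (zc (gl T S q η b)) c.1) y :=
  Li.cut_bd (TS.lw_tri hs a o) (fun c : T.Cw S => q c.1.2) (i1 := i1) (i2 := i2)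
    fun c k c' k' => by
      rw [TS.lw_A hs a o]
      exact mul_eq_zero_of_right _ (one_apply_ne fun e => k' (e ▸ k))

/-- the normalised sum over the words `q`, explicitly -/
theorem fb_N (b : T.Cw S → ℤ) (G : (T.Cw S → ℤ) → ℝ) :
    (fb T S q st Ψ b).N (fun z => G (gl T S q z b)) = (∑' η : Kc T S q → ℤ,
      gs ((T.kw S T.K S.K).submatrix (Subtype.val : Kc T S q → _) Subtype.val)⁻¹
        (fun c => (T.tw S Ψ).u (zc (gl T S q η b)) c.1) * G (gl T S q η b)) /
      (√((T.kw S T.K S.K).submatrix (Subtype.val : Kc T S q → _) Subtype.val).det /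
        |((T.kw S T.A 1).submatrix (Subtype.val : Kc T S q → _) Subtype.val).det|) := by
  refine (Ce.N_cut (TS.lw_tri hs a o) (fun c : T.Cw S => q c.1.2) (i1 := i1) (i2 := i2) b G).trans ?_
  have d := Ce.det_stg (C := Kc T S q) (A := (T.kw S T.A 1).submatrix Subtype.val
    Subtype.val) (A' := (T.lw S st Ψ).A.submatrix Subtype.val Subtype.val)
    (fun c => st c.1.1.1) (fun c c' k => mul_eq_zero_of_left (Ce.A_st hs k) _) fun c c' => by
      rw [TS.lw_A hs a o]
      exact (congrArg (· * _) (hs.A _ _)).trans (ite_zero_mul ..)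
  exact congrArg₂ HDiv.hDiv rfl (congrArg₂ HDiv.hDiv rfl (congrArg _ d))

variable (hK : T.K = 1) {V : S.W → ℝ} (hV : S.K = diagonal V) (V0 : ∀ w, q w → 0 < V w)
  {δ : T.C → ℝ} (h : Dl T δ)
include hK hV V0 h

/-- **product form** of the normalised sum -/
theorem fb_ga (b : T.Cw S → ℤ) (G : (T.Cw S → ℤ) → ℝ) :
    (fb T S q st Ψ b).N (fun z => G (gl T S q z b)) = ∑' η : Kc T S q → ℤ,
      (∏ c : Kc T S q, ga (δ c.1.1.1) (V c.1.1.2) ((T.tw S Ψ).u (zc (gl T S q η b)) c.1)) *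
        G (gl T S q η b) := by
  rw [fb_N hs a o q (i1 := i1) (i2 := i2), ← tsum_div_const]
  exact tsum_congr fun η => by rw [Hs.wt_ga q hK hV V0 h, mul_div_right_comm]

/-- the product weights are uniformly summable -/
theorem ga_sm : ∃ x, ∀ b : T.Cw S → ℤ, ∃ y ≤ x, HasSum (fun η : Kc T S q → ℤ =>
    ∏ c : Kc T S q, ga (δ c.1.1.1) (V c.1.1.2) ((T.tw S Ψ).u (zc (gl T S q η b)) c.1)) y := by
  obtain ⟨x, hx⟩ := fb_sm hs a o q (i1 := i1) (i2 := i2)
  simp only [Hs.wt_ga q hK hV V0 h]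
  exact ⟨_, fun b => let ⟨_, l, k⟩ := hx b
    ⟨_, div_le_div_of_nonneg_right l (by positivity), k.div_const _⟩⟩
end

variable {s d : ℕ} {T : TS Unit} {D : Finset (Pt (Fin (d + 2)))} {st : T.C → ℕ} {M : ℕ}
  {V : ℕ → Pt (Fin (d + 2)) → ℝ}

/-- the errors of the offset twist -/
theorem u_ot (hD : Dc D) (hV : ∀ j t, 0 < V j t) (x y : T.Cw (SD s D) → ℝ) (c : T.Cw (SD s D)) :
    (T.tw (Br.tw s D V) (Ho.ot (T.tw0 _) x)).u y c = (T.sh (SD s D)).u y c - x c := by
  refine (congrArg (MvPolynomial.eval y) (congrFun (Ho.off_Φ (S := Br.tw s D V) (tw_ok hD hV)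
    (T.tw0 _) x) c)).trans ?_
  refine (map_sub (MvPolynomial.eval y) _ _).trans (congrArg₂ HSub.hSub ?_ (MvPolynomial.eval_C _))
  exact congrArg (MvPolynomial.eval y) (congrArg ((SD s D).cf _ c.1.2) (TS.eval₂_tw0 _ _))

variable (hs : T.Stg st M) (hK : T.K = 1) {δ : T.C → ℝ} (h : Dl T δ) (hD : Dc D)
  (hV : ∀ j t, 0 < V j t)
include hs hK h hD hV

/-- **`hs` is `hid`** -/
theorem hs_hid (x : T.Cw (SD s D) → ℝ) (b : T.Cw (SD s D) → ℤ) (G : (T.Cw (SD s D) → ℤ) → ℝ) :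
    He.hs s T D δ (fun w => V w.lv w.tr) x b G =
      hid T (Br.tw s D V) kw st (Ho.ot (T.tw0 _) x) b G := by
  have o := tw_ok (s := s) hD hV
  refine Eq.trans ?_ (fb_ga hs (Ho.adm_ot hs.cl.1 (hs.adm o) x) o (fun w => ¬ kw w)
    (i1 := (inferInstance : Fintype (HW s T D))) (i2 := (inferInstance : DecidableEq (HW s T D)))
    hK (V := fun w => V w.lv w.tr) rfl (fun w _ => hV _ _) h b G).symm
  simp only [u_ot hD hV]
  rfl

theorem hs_hid0 (b : T.Cw (SD s D) → ℤ) (G : (T.Cw (SD s D) → ℤ) → ℝ) :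
    He.hs s T D δ (fun w => V w.lv w.tr) 0 b G = hid T (Br.tw s D V) kw st (T.tw0 _) b G := by
  have e : Ho.ot (T := T) (S := Br.tw s D V) (T.tw0 _) 0 = T.tw0 _ := funext fun F => by
    simp [Ho.ot, TS.Yw]
  exact (hs_hid hs hK h hD hV 0 b G).trans (congrArg (hid T (Br.tw s D V) kw st · b G) e)

/-- the weights of `hs` are uniformly summable -/
theorem hs_sm (x : T.Cw (SD s D) → ℝ) : ∃ B, ∀ b : T.Cw (SD s D) → ℤ, ∃ y ≤ B,
    HasSum (fun z : HW s T D → ℤ => ∏ c : HW s T D, ga (δ c.1.1.1) (V (Wd.lv c.1.1.2) (Wd.tr c.1.1.2))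
      ((T.sh (SD s D)).u (zc (Sd.gl T (SD s D) _ z b)) c.1 - x c.1)) y := by
  have o := tw_ok (s := s) hD hV
  have := ga_sm hs (Ho.adm_ot hs.cl.1 (hs.adm o) x) o (fun w => ¬ kw w)
    (i1 := (inferInstance : Fintype (HW s T D))) (i2 := (inferInstance : DecidableEq (HW s T D)))
    hK (V := fun w => V w.lv w.tr) rfl (fun w _ => hV _ _) h
  simp only [u_ot hD hV] at this
  exact this

end Crest.Agent.N49.He

end
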