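import Crest.Agent.N49.Sd.Insa
import Crest.Agent.N49.Sd.Iga
import Crest.Agent.N49.Sd.Irx

/-!
# Row 49 (helper31): abstract insertion, summed over all kept values
-/

set_option autoImplicit false

open Matrix Finset

noncomputable section

namespace Crest.Agent.N49.Sd

open Po Tw

/-- **abstract insertion over all kept values** -/
def INSB : Prop := ∀ (C H : Type) [Fintype C] [DecidableEq C] [Fintype H] [DecidableEq H]
  (p j : C → Prop) [DecidablePred p] [DecidablePred j] (β : H → C) (ν : H → ℕ) (L : Matrix H C ℝ)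
  (Q1 : Matrix {c // p c} {c // p c} ℝ) (Q2 : Matrix H H ℝ) (K : Matrix C C ℝ) (v : H → ℝ)
  (A : Matrix {c // j c} {c // j c} ℝ) (lev : C → ℕ) (U : (C → ℝ) → C → ℝ) (ζ : (C → ℤ) → H → ℤ)
  (U1 : ({c // p c} → ℤ) → {c // p c} → ℝ) (E : ({c // p c} → ℤ) → (H → ℤ) → H → ℝ)
  (g : ({c // p c} → ℤ) → (H → ℤ) → ℝ) (B : ℝ), Prt p j β →
  (∀ h, 0 < ν h) → (∀ h h', L h (β h') = if h = h' then (ν h : ℝ) else 0) → Q1.PosDef →
  Q2.PosDef → K.PosDef → (∀ u : C → ℝ, 2 * (qf Q1 (fun c => u c.1) + qf Q2 (L *ᵥ u)) ≤ qf K⁻¹ u) →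
  A.det ≠ 0 → (∀ c c', A c c' ≠ 0 → lev c.1 = lev c'.1) → (∀ c c', K c c' ≠ 0 → lev c = lev c') →
  (∀ y y' h, (∀ c, p c ∨ (j c ∧ lev c ≤ lev (β h)) → y c = y' c) → ζ y h = ζ y' h) →
  (∀ (y y' : C → ℝ) (c : {c // j c}), (∀ c', p c' ∨ lev c' < lev c.1 → y c' = y' c') →
    U y c.1 - (A *ᵥ fun c => y c.1) c = U y' c.1 - (A *ᵥ fun c => y' c.1) c) →
  (∀ y r (c : {c // p c}), U (zc y + rsh β ν r) c.1 = U1 (fun c => y c.1) c) →
  (∀ y r, v + L *ᵥ U (zc y + rsh β ν r) =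
    E (fun c => y c.1) fun h => r h + ζ y h + ν h * y (β h)) →
  (Summable fun a : ({c // p c} → ℤ) × (H → ℤ) => gs Q1 (U1 a.1) * gs Q2 (E a.1 a.2)) →
  (∀ b z, |g b z| ≤ B) →
  ∃ (r : H → ℤ) (x : C → ℝ),
    (∑' a : ({c // p c} → ℤ) × (H → ℤ), gs Q1 (U1 a.1) * gs Q2 (E a.1 a.2) * g a.1 a.2) /
        (dt Q1 * dt Q2) ≤
      |A.det| * ((∑' y : C → ℤ, gs K⁻¹ (U (zc y + rsh β ν r) - x) *
        g (fun c => y c.1) fun h => r h + ζ y h + ν h * y (β h)) / dt K⁻¹)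

open Ia in
theorem insb : INSB := by
  intro C H _ _ _ _ p j _ _ β ν L Q1 Q2 K v A lev U ζ U1 E g B P hν hL h1 h2 hK hq hA bA bK hζ hU
    e1 e2 sE hg
  have hζ' : ∀ y y', (∀ c, p c ∨ j c → y c = y' c) → ζ y = ζ y' := fun y y' e =>
    funext fun h => hζ y y' h fun c k => e c (k.imp_right And.left)
  set Q3 : Matrix {c // j c} {c // j c} ℝ :=
    (1 / 2 : ℝ) • (K.submatrix Subtype.val Subtype.val)⁻¹ with hQ3
  have h3 : Q3.PosDef := (hK.submatrix Subtype.val_injective).inv.smul (by norm_num)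
  have kA : Rw.Blk (fun c : {c // j c} => lev c.1) A := fun c c' n => by_contra fun z => n (bA c c' z)
  have k3 : Rw.Blk (fun c : {c // j c} => lev c.1) Q3 := fun c c' n => by
    rw [hQ3, Matrix.smul_apply, blk_inv (M := K.submatrix Subtype.val Subtype.val)
      (fun c c' n => by_contra fun z => n (bK _ _ z)) c c' n, smul_zero]
  have hM : (Aᵀ * Q3 * A).PosDef := posDef_conj h3
    (mulVec_injective_iff_isUnit.2 ((isUnit_iff_isUnit_det _).2 hA.isUnit))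
  have kM := blk_mul (blk_mul (blk_tr kA) k3) kA
  let θ : ({c // p c} → ℤ) × (H → ℤ) → ({c // j c} → ℤ) → {c // j c} → ℝ := fun a n =>
    -(A⁻¹ *ᵥ ((fun c => U (l1 p j β ν ζ a n) c.1) - A *ᵥ fun c => l1 p j β ν ζ a n c.1))
  have tθ : ∀ a n n' c, (∀ c' : {c // j c}, lev c'.1 < lev c.1 → n c' = n' c') →
      θ a n c = θ a n' c := fun a n n' c e =>
    congrArg Neg.neg (mulVec_blk (blk_inv kA) fun k z => hU _ _ k fun c' q =>
      l1_tri P hζ a e c' (q.imp_right fun q => q.trans_eq z))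
  have eθ : ∀ a n x, gs (Aᵀ * Q3 * A) (zc n - θ a n - x) =
      gs Q3 ((fun c => U (l1 p j β ν ζ a n) c.1) - A *ᵥ x) := fun a n x => by
    have : (fun c : {c // j c} => l1 p j β ν ζ a n c.1) = zc n := funext fun c => by
      rw [l1_o P _ _ (.inr c.2), l0_j P _ _ c.2]; rfl
    rw [gs, gs, qf_conj, mulVec_sub, mulVec_sub]
    simp only [θ, this, mulVec_neg, mulVec_mulVec, mul_nonsing_inv _ hA.isUnit, one_mulVec]
    congr 4
    abel
  have T := fun (G : ({c // p c} → ℤ) → (H → ℤ) → ℝ) (s : Summable fun a : _ × _ =>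
      gs Q1 (U1 a.1) * gs Q2 (E a.1 a.2) * G a.1 a.2) =>
    tile _ _ (fun c : {c // j c} => lev c.1) _ _ θ hM s tθ
      fun c c' z => by_contra fun n => z (kM c c' n)
  have sg : Summable fun a : ({c // p c} → ℤ) × (H → ℤ) =>
      gs Q1 (U1 a.1) * gs Q2 (E a.1 a.2) * g a.1 a.2 :=
    .of_norm_bounded (sE.mul_right B) fun a => by
      have := (mul_pos (gs_pos Q1 (U1 a.1)) (gs_pos Q2 (E a.1 a.2))).le
      rw [norm_mul, Real.norm_of_nonneg this]
      exact mul_le_mul_of_nonneg_left (hg _ _) this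
  obtain ⟨s0, x, hx⟩ := T g sg
  have s1 := (T (fun _ _ => 1) (sE.mul_right 1)).1 x
  obtain ⟨r, hr⟩ := (irx C H p j β ν ζ _ P hν hζ' (s0 x)).2
  have s2 := (irx C H p j β ν ζ _ P hν hζ' s1).1 r
  obtain ⟨P', u0, p1, p2, p3, p4⟩ := iga C H p j β ν L Q1 Q2 K v (A *ᵥ x) P hν hL h1 h2 hK hq
  have key : ∀ (G : ({c // p c} → ℤ) → (H → ℤ) → ℝ) (y : C → ℤ),
      (gs Q1 (U1 fun c => y c.1) *
        gs Q2 (E (fun c => y c.1) fun h => r h + ζ y h + ν h * y (β h)) *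
          G (fun c => y c.1) fun h => r h + ζ y h + ν h * y (β h)) *
        gs (Aᵀ * Q3 * A) (zc (fun c : {c // j c} => y c.1) - θ (fun c => y c.1,
          fun h => r h + ζ y h + ν h * y (β h)) (fun c => y c.1) - x) =
        gs P' (U (zc y + rsh β ν r) - u0) *
          G (fun c => y c.1) fun h => r h + ζ y h + ν h * y (β h) := fun G y => by
    rw [eθ, l1_eq P hν hζ', ← p4, e2,
      show (fun c : {c // p c} => U (zc y + rsh β ν r) c.1) = U1 fun c => y c.1 from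
        funext (e1 y r)]
    ring
  replace s2 := s2.congr (key fun _ _ => 1)
  simp only [key] at hr
  obtain ⟨x', hx'⟩ := mixp C (C → ℤ) P' K⁻¹ (fun y => U (zc y + rsh β ν r) - u0)
    (fun y => g (fun c => y c.1) fun h => r h + ζ y h + ν h * y (β h)) B p1 hK.inv p2
    (by simpa using s2) fun _ => hg _ _
  refine ⟨r, u0 + x', le_trans ?_ (mul_le_mul_of_nonneg_left (hx'.trans_eq ?_) (abs_nonneg _))⟩
  · have a := hx.trans hr
    rw [Rf.dt_conj] at a
    have d1 := dt_pos h1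
    have d2 := dt_pos h2
    have d3 := dt_pos h3
    have d4 := dt_pos p1
    have d5 := abs_pos.2 hA
    have d6 : 0 < ∏ h, (ν h : ℝ) := prod_pos fun h _ => Nat.cast_pos.2 (hν h)
    rw [← mul_div_assoc, div_le_div_iff₀ (mul_pos d1 d2) d4]
    rw [← mul_div_assoc, div_le_iff₀ d5] at a
    refine le_of_mul_le_mul_right ?_ (mul_pos d6 d3)
    calc _ = (∑' a : ({c // p c} → ℤ) × (H → ℤ), gs Q1 (U1 a.1) * gs Q2 (E a.1 a.2) * g a.1 a.2) *
          dt Q3 * (dt P' * ∏ h, (ν h : ℝ)) := by ring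
      _ ≤ _ := (mul_le_mul_of_nonneg_right a (mul_pos d4 d6).le).trans_eq (by rw [p3]; ring)
  · simp only [sub_sub]

end Crest.Agent.N49.Sd

end
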