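import Crest.Agent.N49.He.Jz
import Crest.Agent.N49.He.Insb
import Crest.Agent.N49.Sd.InsA

/-!
# Row 49 (helper31): all the hidden words over an offset law
-/

set_option autoImplicit false

open Matrix MvPolynomial Finset

noncomputable section

namespace Crest.Agent.N49.He

open Po Tw Sd Idt Ip

/-- the dual form of a cut -/
def cD {σ : Type} (X : TS σ) (P : X.C → Prop) [DecidablePred P] : Matrix {c // P c} {c // P c} ℝ :=
  (X.A.submatrix Subtype.val Subtype.val)⁻¹ * X.K.submatrix Subtype.val Subtype.val *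
    (X.A.submatrix Subtype.val Subtype.val)⁻¹ᵀ

theorem cut_D {σ : Type} {X : TS σ} (h : X.Tri) (P : X.C → Prop) [DecidablePred P] (b : X.C → ℤ) :
    (X.cut P b).D = cD X P := by
  rw [TS.D, h.A_cut]
  rfl

theorem cut_wt {σ : Type} (X : TS σ) (P : X.C → Prop) [DecidablePred P] (b : X.C → ℤ)
    (z : {c // P c} → ℤ) : (X.cut P b).wt z = gs (X.cut P 0).K⁻¹ ((X.cut P b).u (zc z)) :=
  show gs (X.K.submatrix (Subtype.val : {c // P c} → X.C) Subtype.val)⁻¹ _ =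
    gs (X.K.submatrix (Subtype.val : {c // P c} → X.C) Subtype.val)⁻¹ _ from rfl

theorem N_eq {σ : Type} (X : TS σ) (g : (X.C → ℤ) → ℝ) : X.N g = (∑' y, X.wt y * g y) / X.Zc := rfl

theorem Z_le {σ : Type} {X : TS σ} (h : X.Tri) {D : Matrix X.C X.C ℝ} {lev : X.C → ℕ}
    (e : X.D = D) (e' : X.lev = lev) : D⁻¹.PosDef ∧ Rw.Blk lev D⁻¹ ∧ ∀ B : ℝ,
      (∀ θ, Rw.Tri lev θ → ∑' n, gs D⁻¹ (zc n - θ n - 0) ≤ B) → X.Z ≤ B := by
  subst e e'
  refine ⟨h.pd_Di, h.blk_Di, fun B k => le_trans (le_of_eq (tsum_congr fun y => ?_)) (k _ h.rw_tri)⟩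
  rw [h.wt_eq, sub_zero]

theorem cut_bd {σ : Type} {X : TS σ} (h : X.Tri) (P : X.C → Prop) [DecidablePred P]
    (t : ∀ b, (X.cut P b).Tri) : ∃ B, ∀ b, (X.cut P b).Z ≤ B := by
  have z := fun b => Z_le (t b) (D := cD X P) (lev := fun c : {c // P c} => X.lev c.1)
    (cut_D h P b) rfl
  obtain ⟨B, k⟩ := Tl.bd (J := {c // P c}) (z 0).1 (z 0).2.1
  exact ⟨B, fun b => (z b).2.2 B fun θ a => (k θ a 0).2⟩

section
variable {τ : Type} {T : TS Unit} {S : Sh Unit τ} (p : S.W → Prop) [DecidablePred p]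
  {st : T.C → ℕ} {M : ℕ} {Ψ : T.Twd S}

theorem fb_Zc' (hs : T.Stg st M) (o : S.Ok) (a : T.Adm S st Ψ) (b : T.Cw S → ℤ) :
    (fb T S p st Ψ b).Zc = (fb T S p st Ψ 0).Zc := (fb_Zc hs o a b).trans (fb_Zc hs o a 0).symm

theorem fb_wt (b : T.Cw S → ℤ) (z : Kc T S p → ℤ) : (fb T S p st Ψ b).wt z =
    gs (fb T S p st Ψ 0).K⁻¹ ((fb T S p st Ψ b).u (zc z)) := cut_wt (T.lw S st Ψ) _ b z

/-- the partition functions of the fibres are bounded -/
theorem fb_bd (hs : T.Stg st M) (o : S.Ok) (a : T.Adm S st Ψ) :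
    ∃ B, ∀ b, (fb T S p st Ψ b).Z ≤ B := cut_bd (TS.lw_tri hs a o) _ (Fx.fb_tri p hs o a)

theorem hid_bd (hs : T.Stg st M) (o : S.Ok) (a : T.Adm S st Ψ) :
    ∃ B, ∀ b, 0 ≤ hid T S p st Ψ b (fun _ => 1) ∧ hid T S p st Ψ b (fun _ => 1) ≤ B := by
  obtain ⟨B, h⟩ := fb_bd (fun w => ¬ p w) hs o a
  have t := Fx.fb_tri (fun w => ¬ p w) hs o a
  refine ⟨B / (fb T S (fun w => ¬ p w) st Ψ 0).Zc, fun b => ?_⟩
  rw [hid, TS.N_one, fb_Zc' _ hs o a b]
  exact ⟨div_nonneg (t b).Z_pos.le (t 0).Zc_pos.le, div_le_div_of_nonneg_right (h b) (t 0).Zc_pos.le⟩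

/-- weights times fibre weights are summable -/
theorem sm_fb (hs : T.Stg st M) (o : S.Ok) (a : T.Adm S st Ψ) {X : Type} {ω : X → ℝ}
    (h0 : ∀ x, 0 ≤ ω x) (hω : Summable ω) (b : X → T.Cw S → ℤ) :
    Summable fun z : X × (Kc T S p → ℤ) => ω z.1 * (fb T S p st Ψ (b z.1)).wt z.2 := by
  obtain ⟨B, h⟩ := fb_bd p hs o a
  have t := Fx.fb_tri p hs o a
  refine (summable_prod_of_nonneg (f := fun z : X × (Kc T S p → ℤ) =>
    ω z.1 * (fb T S p st Ψ (b z.1)).wt z.2) fun z => mul_nonneg (h0 _) (TS.wt_pos _ _).le).2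
    ⟨fun x => (t (b x)).summable.mul_left (ω x), .of_nonneg_of_le (fun x => tsum_nonneg fun z =>
      mul_nonneg (h0 _) (TS.wt_pos _ _).le) (fun x => ?_) (hω.mul_right B)⟩
  exact (tsum_mul_left (f := (fb T S p st Ψ (b x)).wt) (a := ω x)).trans_le
    (mul_le_mul_of_nonneg_left (h _) (h0 x))

theorem sum_hid (hs : T.Stg st M) (o : S.Ok) (a : T.Adm S st Ψ) {X : Type} {ω : X → ℝ}
    (h0 : ∀ x, 0 ≤ ω x) (hω : Summable ω) (b : X → T.Cw S → ℤ) :
    ∑' x, ω x * hid T S p st Ψ (b x) (fun _ => 1) =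
      (∑' z : X × (Kc T S (fun w => ¬ p w) → ℤ), ω z.1 *
        (fb T S (fun w => ¬ p w) st Ψ (b z.1)).wt z.2) / (fb T S (fun w => ¬ p w) st Ψ 0).Zc := by
  rw [(sm_fb (fun w => ¬ p w) hs o a h0 hω b).tsum_prod, ← tsum_div_const]
  refine tsum_congr fun x => ?_
  rw [hid, TS.N_one, fb_Zc' _ hs o a (b x), ← mul_div_assoc]
  exact congrArg (· / _) (tsum_mul_left (f := (fb T S (fun w => ¬ p w) st Ψ (b x)).wt)).symm
end

theorem jzc : JZC := by
  intro τ T1 T2 S p _ st1 st2 D Ψ1 K2 η x0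
    ⟨o, o2, hI, ⟨M1, h1⟩, h, ad, ri, a1, hp, K', M2, h2, o', ms, hq⟩
  let _ : DecidablePred (hj S D p) := Classical.decPred _
  let _ : DecidablePred (α := (S.setK K2).W) p := ‹DecidablePred p›
  obtain ⟨Ψ, aΨ, hΨ⟩ := itw2 τ T1 T2 S p st1 st2 M1 M2 D Ψ1 o h1 h2 h ad ri a1 hp
  obtain ⟨-, -, d3, d⟩ := idt τ T1 T2 S p st1 st2 M1 M2 0 D h1 h2 h
  have eL : ∀ u : T2.Cw S → ℝ, (of fun (a : Kc T1 S fun w => ¬ p w) c => (Lz D a.1 c : ℝ)) *ᵥ u =
      fun a => D.L S u a.1 := fun u => funext fun a => (L_eq u a.1).symm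
  have t2 := Fx.fb_tri (S := S.setK K2) p h2 o2 (Fx.adm_tpw h2 _) 0
  have t1 := Fx.fb_tri (fun w => ¬ p w) h1 o a1
  have sm := sm_fb (fun w => ¬ p w) h1 o a1 (fun b => (TS.wt_pos _ b).le) (t2.off x0).summable
    fun b => D.kap S (gl T2 S p b 0)
  have wo := TS.off_wt (fb T2 (S.setK K2) p st2 (tpw T2 _) 0) x0
  have key : ∀ ε : ℝ, ∃ Ψ', T2.Adm (S.setK K') st2 Ψ' ∧
      ε * ((fb T2 (S.setK K2) p st2 (tpw T2 _) 0).off x0).N (fun b =>
        hid T1 S p st1 Ψ1 (D.kap S (gl T2 S p b 0)) fun _ => 1) ≤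
      ε * ((T2.lw (S.setK K') st2 Ψ').Z / (T2.lw (S.setK K') st2 Ψ').Zc) := fun ε => by
    refine (insb (T2.Cw S) (Kc T1 S fun w => ¬ p w) (fun c => p c.1.2) (hj S D p)
      (be h p) (fun a => D.nu a.1.1.1) (of fun a c => (Lz D a.1 c : ℝ))
      (fb T2 (S.setK K2) p st2 (tpw T2 _) 0).K⁻¹ (fb T1 S (fun w => ¬ p w) st1 Ψ1 0).K⁻¹
      (T2.kw S T2.K K') (fun a => S.cf ℝ a.1.1.2 (D.bu a.1.1.1) + D.L S (gl T2 S p x0 0) a.1)
      ((T2.kw S (T2.stg st2).A 1).submatrix Subtype.val Subtype.val) (fun c => D.gr c.1.1)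
      (fun y c => (T2.tw S Ψ).u y c - gl T2 S p x0 0 c)
      (fun y a => D.kap S y a.1 - D.nu a.1.1.1 * y (be h p a))
      (fun b c => (fb T2 (S.setK K2) p st2 (tpw T2 _) 0).u (zc b) c - x0 c)
      (fun b z => (fb T1 S (fun w => ¬ p w) st1 Ψ1 (D.kap S (gl T2 S p b 0))).u (zc z))
      (fun _ _ => ε) |ε| (prt h p)
      (fun _ => h.np _) (fun a a' => ?_) t2.pd.inv (t1 0).pd.inv (TS.kw_posDef h2.cl.1.pd o'.pd)
      (fun u => ?_) d3 (fun c c' z => ?_) (fun c c' z => ?_) (zeta h o) (fun y y' c k => ?_)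
      (fun y r c => ?_) (fun y r => funext fun a => ?_) (sm.congr fun a => congrArg₂ (· * ·) (wo _) (fb_wt _ _ _))
      fun _ _ => le_rfl).elim fun r ⟨x, e⟩ => ?_
    · rw [of_apply, Lz_be h o, apply_ite Int.cast, Int.cast_zero]
      exact if_congr Subtype.ext_iff.symm rfl rfl |>.trans (by split_ifs with k <;> simp [k])
    · rw [eL]; exact hq u
    · exact h.g0 _ _ (by_contra fun n => left_ne_zero_of_mul z (by rw [TS.stg_A, if_neg n]))
    · exact h.g0 _ _ (h2.blk (left_ne_zero_of_mul z))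
    · have := itr τ T1 T2 S p st1 st2 M2 0 D o h2 h y y' c k
      rw [(hΨ y).1 _ (.inl c.2.2), (hΨ y').1 _ (.inl c.2.2)]
      exact (sub_right_comm _ _ _).trans ((congrArg (· - _) this).trans (sub_right_comm _ _ _))
    · refine congrArg₂ (· - ·) ?_ (gl_pos x0 0 c.2)
      exact ((hΨ _).1 _ (.inr c.2)).trans (((TS.tw_low hI).u_congr (fun c' k =>
        (congrArg (zc y c' + ·) (rsh_out _ _ fun ⟨a, z⟩ => (prt h p).pb a (z ▸ k))).trans
          (add_zero _))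
        c.2).trans ((TS.lw_low (S := S.setK K2) (st := st2) hI).u_cut 0 (zc y) c).symm)
    · refine Eq.trans ?_ (fb_u (p := fun w => ¬ p w) st1 Ψ1 _ _ a).symm
      have e0 : ∀ u : T2.Cw S → ℝ, D.L S (gl T2 S p x0 0) a.1 +
          D.L S (fun c => u c - gl T2 S p x0 0 c) a.1 = D.L S u a.1 := fun u => by
        simp only [L_eq, mul_sub, sum_sub_distrib, add_sub_cancel]
      rw [eL]
      refine ((add_assoc _ _ _).trans (congrArg _ (e0 _))).trans ?_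
      refine (congrFun (hΨ _).2 a.1).symm.trans (congrArg (fun z => (T1.tw S Ψ1).u z a.1) ?_)
      exact (funext (L_rsh h o y r)).trans (congrArg zc (gl_eq hI y r _ fun a => by ring).symm)
    obtain ⟨Ψ', a', u'⟩ := ish τ T2 (S.setK K') st2 M2 Ψ (rsh (be h p) (fun a => D.nu a.1.1.1) r) o'
      h2 ⟨aΨ.gr, aΨ.le, aΨ.top⟩
    have ao := Ho.adm_ot h2.cl.1 a' (gl T2 S p x0 0 + x)
    have uo : ∀ y : T2.Cw S → ℝ, (T2.tw (S.setK K') (Ho.ot Ψ' (gl T2 S p x0 0 + x))).u y = fun c =>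
        (T2.tw S Ψ).u (y + rsh (be h p) (fun a => D.nu a.1.1.1) r) c - gl T2 S p x0 0 c - x c :=
      fun y =>
      (congrFun (congrArg (fun Φ (y : T2.Cw S → ℝ) c => eval y (Φ c)) (Ho.off_Φ o' Ψ' _)) y).trans
        ((TS.off_u (T2.tw _ Ψ') _ y).trans (funext fun c => (congrArg
          (· - (gl T2 S p x0 0 c + x c)) (congrFun (u' y) c)).trans (sub_sub _ _ _).symm))
    refine ⟨_, ao, ?_⟩
    have m := mul_le_mul_of_nonneg_left e (mul_nonneg (abs_nonneg ((T2.kw S (T2.stg st2).A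
      1).submatrix (Subtype.val : Kc T2 S p → _) Subtype.val).det) (abs_nonneg ((T1.kw S
      (T1.stg st1).A 1).submatrix (Subtype.val : Kc T1 S (fun w => ¬ p w) → _) Subtype.val).det))
    rw [← mul_assoc, ← d, tsum_mul_right, tsum_mul_right] at m
    refine le_trans (le_of_eq ?_) (m.trans_eq ?_)
    · have e1 := (sum_hid p h1 o a1 (fun b => (TS.wt_pos _ b).le) (t2.off x0).summable
        fun b => D.kap S (gl T2 S p b 0)).trans (congrArg₂ (· / ·)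
          (tsum_congr fun a => congrArg₂ (· * ·) (wo _) (fb_wt _ _ _)) (fb_Zc h1 o a1 0))
      have e3 := (TS.off_Zc (fb T2 (S.setK K2) p st2 (tpw T2 _) 0) x0).trans
        (fb_Zc (S := S.setK K2) (p := p) h2 o2 (Fx.adm_tpw h2 _) 0)
      have e2 := (N_eq ((fb T2 (S.setK K2) p st2 (tpw T2 _) 0).off x0) _).trans
        (congrArg₂ (· / ·) e1 e3)
      refine (congrArg (HMul.hMul ε) e2).trans ?_
      exact (show ∀ a b c d e f : ℝ, f * (a / (c / b) / (e / d)) = d * b * (a * f / (e * c)) from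
        fun _ _ _ _ _ _ => by simp only [div_div_eq_mul_div]; ring) _ _ _ _ _ _
    · rw [TS.Zc_eq, TS.lw_A h2 ao o', div_div_eq_mul_div, TS.Z]
      refine Eq.trans ?_ (congrArg (fun t => ε * (t * _ / _)) (tsum_congr fun y =>
        congrArg (gs _) (uo (zc y)).symm))
      exact (show ∀ a b c d : ℝ, a * (b * c / d) = c * (b * a / d) from
        fun _ _ _ _ => by ring) _ _ _ _
  have mz : ∀ Ψ', T2.Adm (S.setK K') st2 Ψ' →
      |(T2.lw (S.setK K') st2 Ψ').Z / (T2.lw (S.setK K') st2 Ψ').Zc - 1| ≤ η := fun Ψ' a => by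
    have z := (TS.lw_tri h2 a o').Zc_pos
    rw [div_sub_one z.ne', abs_div, abs_of_pos z, div_le_iff₀ z]
    exact ms Ψ' a
  obtain ⟨Ψa, a, ka⟩ := key 1
  obtain ⟨Ψb, b, kb⟩ := key (-1)
  have := abs_le.1 (mz _ a)
  have := abs_le.1 (mz _ b)
  rw [abs_le]
  constructor <;> linarith

theorem glue_congr {C R : Type} {P : C → Prop} [DecidablePred P] (z : {c // P c} → R)
    {b b' : C → R} (e : ∀ c, ¬ P c → b c = b' c) : glue P z b = glue P z b' := funext fun c => by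
  by_cases k : P c
  · rw [glue_pos _ _ k, glue_pos _ _ k]
  · rw [glue_neg _ _ k, glue_neg _ _ k, e c k]

theorem cut_congr {σ : Type} (X : TS σ) (P : X.C → Prop) [DecidablePred P] {b b' : X.C → ℤ}
    (e : ∀ c, ¬ P c → b c = b' c) (g : ({c // P c} → ℤ) → ℝ) :
    (X.cut P b).N g = (X.cut P b').N g :=
  congrArg (fun Φ => ((X.cut P 0).setΦ Φ).N g) (show (X.cut P b).Φ = (X.cut P b').Φ from
    funext fun c => congrArg (fun f => aeval f (X.Φ c.1))
      (glue_congr _ fun c k => congrArg (fun n : ℤ => MvPolynomial.C (n : ℝ)) (e c k)))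

theorem hid_congr {τ : Type} {T : TS Unit} {S : Sh Unit τ} (p : S.W → Prop) [DecidablePred p]
    (st : T.C → ℕ) (Ψ : T.Twd S) {b b' : T.Cw S → ℤ} (e : ∀ c, p c.1.2 → b c = b' c)
    (G : (T.Cw S → ℤ) → ℝ) : hid T S p st Ψ b G = hid T S p st Ψ b' G :=
  (cut_congr (T.lw S st Ψ) (fun c : T.Cw S => ¬ p c.1.2) (fun c k => e c (not_not.1 k)) _).trans
    (congrArg (fb T S (fun w => ¬ p w) st Ψ b').N (funext fun z => congrArg G
      (glue_congr (P := fun c : T.Cw S => ¬ p c.1.2) z fun c k => e c (not_not.1 k))))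

theorem N_cmp {σ : Type} {X : TS σ} (h : X.Tri) {f g : (X.C → ℤ) → ℝ} {ε : ℝ}
    (k : ∑' y, X.wt y * ε * f y ≤ ∑' y, X.wt y * ε * g y) : X.N (fun y => ε * f y) ≤ ε * X.N g := by
  rw [N_eq, N_eq, ← mul_div_assoc, ← tsum_mul_left]
  refine div_le_div_of_nonneg_right (le_trans (le_of_eq (tsum_congr fun y => ?_))
    (k.trans_eq (tsum_congr fun y => ?_))) h.Zc_pos.le <;> ring

end Crest.Agent.N49.He

end
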