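import Crest.Agent.N49.He.Ji
import Crest.Agent.N49.He.Hs
import Crest.Agent.N49.He.Jzc
import Crest.Agent.N49.Sd.Ogc
import Crest.Agent.N49.Sd.Edl
import Crest.Agent.N49.Sd.Stt
import Crest.Agent.N49.Sd.Stcp
import Crest.Agent.N49.Md.Fw2
import Crest.Agent.N49.Md.Tfb
import Crest.Agent.N49.Md.Tcmp
import Crest.Agent.N49.En.CntA

/-!
# Row 49 (helper6): the total masses of the systems are one (glue)
-/

set_option autoImplicit false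

open Finset Matrix

noncomputable section

namespace Crest.Agent.N49.He.Ji

open Po Tw Br Rm Rm.TT Ft Md Sd

theorem num1 {m N G G1 s c : ℕ} {X : ℝ} (X0 : 0 ≤ X) (hX : X ≤ 2 ^ (2 * m)) (hc : c ≤ 2 ^ m)
    (g : G1 ≤ G) (h : (4 * s + 6) * m + 4 * G + 3 ≤ N) :
    2 * (1 / 2 ^ N : ℝ) * (1 + X ^ 2 * (G1 : ℝ) ^ 2 * c) ≤ 1 / 2 ^ (m + 1 + 2 * G + 4 * s * m) := by
  have a : (1 + (2 ^ (2 * m)) ^ 2 * G1 ^ 2 * c) * 2 ≤ 2 ^ (5 * m + 2 * G + 2) := by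
    have b := Nat.mul_le_mul (Nat.mul_le_mul_left ((2 ^ (2 * m)) ^ 2)
      (Nat.pow_le_pow_left (g.trans (Nat.lt_two_pow_self (n := G)).le) 2)) hc
    have e : (2 ^ (2 * m)) ^ 2 * (2 ^ G) ^ 2 * 2 ^ m = 2 ^ (5 * m + 2 * G) := by ring
    have f : 0 < 2 ^ (5 * m + 2 * G) := by positivity
    rw [pow_add 2 (5 * m + 2 * G) 2]; omega
  have := Un.half_mul (a := m + 1 + 2 * G + 4 * s * m) (b := N) a (by nlinarith)
  push_cast at this
  have k : X ^ 2 * (G1 : ℝ) ^ 2 * c ≤ (2 ^ (2 * m)) ^ 2 * (G1 : ℝ) ^ 2 * c := by gcongr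
  have p : (0 : ℝ) ≤ 1 / 2 ^ N := by positivity
  nlinarith

theorem num2 {m G a b : ℕ} (ha : a ≤ G) (hb : b ≤ G) :
    2 * (1 / 2 ^ (m + 1 + 2 * G) : ℝ) * a * b ≤ 1 / 2 ^ m := by
  have k : 2 * a * b ≤ 2 ^ (1 + 2 * G) := by
    have := Nat.mul_le_mul (ha.trans (Nat.lt_two_pow_self (n := G)).le)
      (hb.trans (Nat.lt_two_pow_self (n := G)).le)
    rw [pow_add, two_mul G, pow_add, mul_assoc]; omega
  have := Un.half_mul (a := m) (b := m + 1 + 2 * G) k (by omega)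
  push_cast at this
  linarith

theorem num3 {e z z' η : ℝ} (h : e * z = z') (h1 : |z - 1| ≤ η) (h2 : |z' - 1| ≤ η)
    (k : η ≤ 1 / 2) : |e - 1| ≤ 4 * η := by
  obtain ⟨a, b⟩ := abs_le.1 h1
  obtain ⟨a', b'⟩ := abs_le.1 h2
  have z0 : 0 < z := by linarith
  have η0 : 0 ≤ η := (abs_nonneg _).trans h1
  refine abs_le.2 ⟨le_of_mul_le_mul_right ?_ z0, le_of_mul_le_mul_right ?_ z0⟩ <;> nlinarith

variable {s d : ℕ} {c : Hc s d} {ε : ℝ} {h κ m r r' C N : ℕ}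

theorem card_la {Q : ℕ} (hQ : Q ≤ m) (hr : r ≤ m) (hr' : r' ≤ m) :
    Fintype.card (La d Q r r') + 1 ≤ d * m + 6 * m + 2 := by
  have := Nat.mul_le_mul_left d hQ
  simp only [Fintype.card_sum, Fintype.card_option, Fintype.card_prod, Fintype.card_fin]
  omega

theorem card_dd {Q : ℕ} (j : Fin d) (k : ℕ) (a : ℕ → ℕ → Bool) (Γ Δ : Finset Bool) (hQ : Q ≤ m)
    (hr : r ≤ m) (hr' : r' ≤ m) :
    Fintype.card (Br.Wd s (DD Q j k r r' a Γ Δ)) ≤ s * (4 * m + 3) ^ (d + 2) := by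
  refine (Fintype.card_subtype_le _).trans ?_
  rw [Fintype.card_prod, Fintype.card_fin, Fintype.card_coe]
  refine Nat.mul_le_mul_left _ ((@card_filter_le _ _ _ (_)).trans
    (card_grid_le (b := 4 * m + 2) (fun i => ?_) (by simp)))
  unfold qq; split_ifs <;> omega

theorem k2_lo (o : c.Ok ε h κ) (h1 : h ≤ m) (h2 : c.a1 ≤ m) (h3 : c.a2 ≤ m)
    (μ : La d c.o.Q r r' →₀ ℕ) (hμ : μ ∈ full (La d c.o.Q r r') s) :
    1 / 2 ^ (4 * s * m) ≤ c.k2 r μ := by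
  have p : ∀ n, (1 : ℝ) ≤ 2 ^ n := fun n => one_le_pow₀ one_le_two
  have l0 : ∀ l, 0 < c.f.la l := fun l => lt_of_lt_of_le (by positivity) (o.f.la l).1
  have l1 : ∀ l, c.f.la l ≤ 2 ^ m := fun l => (o.f.la l).2.trans (pow_le_pow_right₀ one_le_two h1)
  have l2 : ∀ l, c.f.la l ≤ 2 ^ (2 * m) := fun l =>
    (l1 l).trans (pow_le_pow_right₀ one_le_two (by omega))
  have a : ∀ x : La d c.o.Q r r', 0 < c.wl r x ∧ c.wl r x ≤ 2 ^ (2 * m) := by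
    rintro (x | t | x | x)
    · exact ⟨l0 _, l2 _⟩
    · refine ⟨mul_pos (by positivity) (l0 _), ?_⟩
      rw [two_mul, pow_add]
      refine mul_le_mul (pow_le_pow_right₀ one_le_two ?_) (l1 _) (l0 _).le (by positivity)
      obtain ⟨l, e⟩ := t
      fin_cases l <;> simpa
    · exact ⟨l0 _, l2 _⟩
    · exact ⟨one_pos, p _⟩
  have q := prod_pos (s := μ.support) fun x _ => (a x).1
  rw [one_div, Hc.k2, show 4 * s * m = 2 * m * s * 2 by ring, pow_mul, pow_mul]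
  refine inv_anti₀ (pow_pos q 2) (pow_le_pow_left₀ q.le ?_ 2)
  refine ((prod_le_prod (fun i _ => (a i).1.le) fun i _ => (a i).2).trans_eq
    (prod_const _)).trans (pow_le_pow_right₀ (p _) (le_trans ?_ (mem_full.1 hμ)))
  rw [card_eq_sum_ones]
  exact sum_le_sum fun i k => Nat.one_le_iff_ne_zero.2 (Finsupp.mem_support_iff.1 k)

/-- the normalised sum -/
theorem jzu (jz : JZ) (phz : PHZ) (sgn : SGN) (fnh : FNH) (cvf : CVF) (emv : EMV) (detv : DETV)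
    (bgv : BGV) (F0 : c.P.C) (k : Fin c.o.Q) (a : ℕ → ℕ → Bool) (Γ Δ : Finset Bool)
    (V : ℕ → Pt (Fin (d + 2)) → ℝ) (x : c.P.Cw (SD s (DD c.o.Q c.j k r r' a Γ Δ)) → ℝ)
    (o : c.Ok ε h κ) (ma : MAST c.f.M C) (rg : c.f.Rg C N (1 / 2 ^ N) (1 / 2 ^ N)) (h1 : h ≤ m)
    (h2 : c.a1 ≤ m) (h3 : c.a2 ≤ m) (hQ : c.o.Q ≤ m) (hr : r ≤ m) (hr' : r' ≤ m)
    (hc : Fintype.card c.f.T.C ≤ 2 ^ m) (hV : ∀ l t, 1 / 2 ^ m ≤ V l t) (hN : NB s d m ≤ N) :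
    |c.ZV (c.Sx k Γ Δ) r' (fun z => hs s c.P _ c.δ (fun w => V w.lv w.tr) x
      (c.bg k (c.wb z) (c.vs _ (c.nb z))) fun _ => 1) - 1| ≤ 1 / 2 ^ N := by
  have hs0 : 0 < s := lt_of_lt_of_le (Nat.succ_pos _) o.o.cx.ds
  have s0 := Oc.un_stg c.o.h.stg c.o.h.wh
  have s1 : (c.o.cx.B.T.setΦ (c.o.g.V.T.un c.o.Nw).Φ).Stg c.o.cx.B.st c.o.g.M := s0
  have e1 : (c.o.cx.B.T.setΦ (c.o.g.V.T.un c.o.Nw).Φ).top.Φ = c.o.cx.B.T.Φ :=
    funext fun F : c.o.g.V.T.C => Oc.un_top c.o.h.stg c.o.h.wh F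
  obtain ⟨γ, a1, a2, a3, a4, -, a6, -, a8, -⟩ := Fr.xq o.o.cx.ok.old s1 e1 o.f
    (o.tg.st tfb tcmp stc stt) (fw_tg o.f o.tg) F0 (id : Lx d c.o.Q → Option (Fin d × Fin c.o.Q))
  have xr := xr_xd c.f (c.o.g.V.T.un c.o.Nw).Φ F0 (id : Lx d c.o.Q → Option (Fin d × Fin c.o.Q)) 1 γ
  obtain ⟨G, hG⟩ : ∃ G, G = (d * m + 6 * m + 2) ^ s + s * (4 * m + 3) ^ (d + 2) := ⟨_, rfl⟩
  have n1 : (4 * s + 6) * m + 4 * G + 3 ≤ N := hG ▸ hN
  have g1 : (Fintype.card (La d c.o.Q r r') + 1) ^ s ≤ G :=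
    (Nat.pow_le_pow_left (card_la hQ hr hr') s).trans (by omega)
  have g2 := (card_dd (s := s) c.j k a Γ Δ hQ hr hr').trans (show _ ≤ G by omega)
  have V0 : ∀ l t, 0 < V l t := fun l t => lt_of_lt_of_le (by positivity) (hV l t)
  obtain ⟨κ1, hκ⟩ : ∃ κ1 : ℝ, κ1 = 1 / 2 ^ (m + 1 + 2 * G) := ⟨_, rfl⟩
  have κ0 : 0 < κ1 := hκ ▸ by positivity
  obtain ⟨dc, b1, b2, b3⟩ := sgn s d c.o.Q r r' c.j k a Γ Δ V fun _ => κ1
  obtain ⟨σ, M, b4, b5, b6⟩ := @b3 (@Subtype.fintype _ _ _ (Br.tw s (DD c.o.Q c.j k r r' a Γ Δ) V).fin)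
    (@Subtype.instDecidableEq _ _ (Br.tw s (DD c.o.Q c.j k r r' a Γ Δ) V).dec)
  obtain ⟨p1, p2, p3⟩ := phz d s (La d c.o.Q r r') _ V (lb c.j) (al c.j k) ms (fun _ => κ1) dc
  have oR := tw_ok (s := s) dc V0
  have cv := cvf d s hs0 (La d c.o.Q r r') _ (lb c.j) ms (fun t => .inl (some t)) _ _ _ _ _ _ C N
    (c.f.xd (c.o.g.V.T.un c.o.Nw).Φ F0 id 1 γ) (2 ^ (2 * h)) κ1 (1 / 2 ^ N)
    (1 / 2 ^ (m + 1 + 2 * G + 4 * s * m)) (1 / 2 ^ N) (c.k2 r)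
    (by rintro (x | t | x | x) e <;> first | rfl | exact absurd rfl e) s1 a6 a1 a2 a3 a4 ma
    (a8 _ _ _ _ rg) (by positivity) (div_le_one_of_le₀ (one_le_pow₀ one_le_two) (by positivity))
    (by omega) (by positivity) (hκ ▸ Un.half_le (by omega))
    (fun μ e => (Un.half_le (by omega)).trans (k2_lo o h1 h2 h3 μ e)) (by
      have := num1 (X := 2 ^ (2 * h)) (by positivity) (pow_le_pow_right₀ one_le_two (by omega))
        hc g1 n1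
      push_cast at this
      exact this)
  obtain ⟨e, w, c1, c2, c3, c4, c5, c6⟩ := emv s d c ε κ1 h κ r r' (c.Sx k Γ Δ) o
  have cS : Fintype.card (c.SS r r' κ1).W ≤ G := by
    refine le_trans ?_ ((En.card_full (La d c.o.Q r r') s).trans g1)
    exact (Fintype.card_coe _).trans_le (card_erase_le)
  have z := jz _ _ (c.KV (c.Sx k Γ Δ) r') c.P c.T2 (c.SS r r' κ1)
    (Br.tw s (DD c.o.Q c.j k r r' a Γ Δ) V) (kp (lb c.j)) Sd.kw c.o.g.st c.f.st _ (c.P.tw0 _) _ _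
    (ph s _ (lb c.j) (al c.j k)) σ M (Ho.ot (c.P.tw0 _) x) x w e c.Ph
    (fun z => c.bg k (c.wb z) (c.vs _ (c.nb z))) cv oR p1 p2
    (fun h => ⟨(b4 h).1, (b4 h).2.trans (Finsupp.degree_single () _).symm⟩) b5
    (fun h h' n => (Finsupp.degree_single () _).trans
      ((b6 h h' n).trans (Finsupp.degree_single () _).symm))
    (Ho.adm_ot s0.cl.1 (s0.adm oR) x) (fun y q _ => by
      rw [TS.tp_tw0 b2]
      exact (u_ot dc V0 x y q).trans (congrArg (· - x q) (Oc.sh_u c.P y q)))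
    (fnh _ _ c.P (c.SS r r' κ1) (Br.tw s (DD c.o.Q c.j k r r' a Γ Δ) V) (kp (lb c.j)) Sd.kw c.o.g.st
      _ _ _ (fun w => V w.lv w.tr) κ1 (1 / 2 ^ m) rfl
      (Matrix.ext fun μ ν => by
        rw [diagonal_apply]; exact if_congr Subtype.ext_iff.symm rfl rfl) rfl (fun w => hV _ _) κ0 (by positivity) (p3 b1)
      (hκ ▸ num2 cS g2)) c3 c4 c2 c5 c6
    (bgv s d hs0 c ε κ1 h κ r r' k a Γ Δ V _ e o xr c1)
  rw [detv s d c ε h κ r' _ o] at z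
  simp only [hs_hid s0 rfl o.δ dc V0]
  exact z

/-- **the total masses** -/
theorem jzt (jz : JZ) (phz : PHZ) (sgn : SGN) (fnh : FNH) (cvf : CVF) (emv : EMV) (detv : DETV)
    (bgv : BGV) (bgd : BGD) (sumv : SUMV) (emp : EMP) : JZT := by
  intro s d c ε h κ m r r' C N k a Γ Δ V x o ma rg h1 h2 h3 hQ hr hr' hc hV hN
  rcases isEmpty_or_nonempty c.P.C with n | ⟨⟨F0⟩⟩
  · rw [emp s d c ε h κ r r' k a Γ Δ V x o n, sub_self, abs_zero]; positivity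
  classical
  let V' : ℕ → Pt (Fin (d + 2)) → ℝ := fun l t =>
    if e : ∃ w : Br.Wd s (DD c.o.Q c.j k r r' a Γ Δ), w.lv = l ∧ w.tr = t then V e.choose else 1
  have v1 : V = fun w => V' w.lv w.tr := funext fun w => by
    have e : ∃ w' : Br.Wd s (DD c.o.Q c.j k r r' a Γ Δ), w'.lv = w.lv ∧ w'.tr = w.tr :=
      ⟨w, rfl, rfl⟩
    exact ((dif_pos e).trans (congrArg V (Wd.ext' e.choose_spec.1 e.choose_spec.2))).symm
  have v2 : ∀ l t, 1 / 2 ^ m ≤ V' l t := fun l t => by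
    simp only [V']
    split_ifs
    exacts [hV _, div_le_one_of_le₀ (one_le_pow₀ one_le_two) (by positivity)]
  have V0 : ∀ l t, 0 < V' l t := fun l t => lt_of_lt_of_le (by positivity) (v2 l t)
  have s0 := Oc.un_stg c.o.h.stg c.o.h.wh
  have dc := (sgn s d c.o.Q r r' c.j k a Γ Δ V' fun _ => 1).1
  have oR := tw_ok (s := s) dc V0
  obtain ⟨B, hB⟩ := hid_bd Sd.kw s0 oR (Ho.adm_ot s0.cl.1 (s0.adm oR) x)
  have z1 := jzu jz phz sgn fnh cvf emv detv bgv F0 k a Γ Δ V' x o ma rg h1 h2 h3 hQ hr hr' hc v2 hN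
  have z0 := jzu (r := 0) (r' := 0) jz phz sgn fnh cvf emv detv bgv F0 k a Γ Δ V' 0 o ma rg h1 h2
    h3 hQ (Nat.zero_le _) (Nat.zero_le _) hc v2 hN
  have em : IsEmpty (HW s c.P (DD c.o.Q c.j k 0 0 a Γ Δ)) := ⟨fun y => y.2 (by
    by_contra e
    obtain ⟨n, e⟩ := Option.ne_none_iff_exists'.1 e
    have := Ho.mem_grid.1 (mem_filter.1 (Br.Wd.mem y.1.1.2)).1 0 n e
    simp [qq] at this)⟩
  have e0 : ∀ b, hs s c.P (DD c.o.Q c.j k 0 0 a Γ Δ) c.δ (fun w => V' w.lv w.tr) 0 b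
      (fun _ => 1) = 1 := fun b => by simp [hs]
  simp only [e0] at z0
  have sv := sumv s d c ε B h κ r' (c.Sx k Γ Δ) (fun w n => hs s c.P _ c.δ (fun w => V' w.lv w.tr) x
    (c.bg k w (c.vs _ n)) fun _ => 1) o (fun w n => by
      simp only [hs_hid s0 rfl o.δ dc V0]
      exact hB _) fun w w' n e => by simp only [bgd s d c ε h κ k _ w w' _ o e]
  have n1 : 1 ≤ N := le_trans (by unfold NB; omega) hN
  have := num3 sv z0 z1 (by simpa using Un.half_le n1)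
  rw [v1, div_eq_mul_one_div 4]
  exact this

end Crest.Agent.N49.He.Ji

end
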