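import Crest.Agent.N49.He.Dcor
import Crest.Agent.N49.He.Dnum
import Crest.Agent.N49.He.Djzi
import Crest.Agent.N49.He.Dlam
import Crest.Agent.N49.He.Dcut
import Crest.Agent.N49.He.Sok2
import Crest.Agent.N49.He.Dbld
import Crest.Agent.N49.He.Dloc3
import Crest.Agent.N49.He.Dmom
import Crest.Agent.N49.He.Dfina
import Crest.Agent.N49.He.Dwit
import Crest.Agent.N49.He.Dlft
import Crest.Agent.N49.He.Dphb
import Crest.Agent.N49.He.Dasm
import Crest.Agent.N49.He.Dsta
import Crest.Agent.N49.He.Dsmg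
import Crest.Agent.N49.He.Dgex9
import Crest.Agent.N49.He.Jzt
import Crest.Agent.N49.He.Jza
import Crest.Agent.N49.He.Jphz
import Crest.Agent.N49.He.Jsgn
import Crest.Agent.N49.He.Jcvf
import Crest.Agent.N49.He.Jemv2
import Crest.Agent.N49.He.Jdetv
import Crest.Agent.N49.He.Jbgd
import Crest.Agent.N49.He.Jsumv2
import Crest.Agent.N49.He.Jemp2

/-!
# Row 49 (helper4): the rectangle hypothesis from its last leaf
-/

set_option autoImplicit false

namespace Crest.Agent.N49.He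

theorem staA (s d : ℕ) : STA s d := dsta (dwit s d) (dcut s d) (dlft s d) (dsmg s d) (dphb s d)
  (dasm s d (dloc3 s d)) (sok s d) (hsb s d) (mub s d)

theorem corA (s d : ℕ) : COR s d := dcor s d (ddt s d) (dcut s d) (sok s d)
  (dbld s d (dloc3 s d)) (staA s d) (dmom s d (dloc3 s d)) (dgex9 s d (dloc3 s d)) dfina

theorem jztB (h : Ji.BGV) : JZT :=
  Ji.jzt jzA Ji.phz Ji.sgn Ji.fnh Ji.cvf Ji.emv2 Ji.detv h Ji.bgd Ji.sumv2 Ji.emp2

theorem trnA (h : Ji.BGV) (s d : ℕ) : TRN2 s d := dnum s d (djzi (jztB h) s d) (corA s d)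

theorem herA (h : Ji.BGV) (s d : ℕ) : Sd.HER s d := her2 (trnA h s d)

end Crest.Agent.N49.He
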