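import Crest.Agent.N49.He.Defs

/-!
# Row 49 (helper65): the offsets are chosen one system after the other
-/

set_option autoImplicit false

open Finset

namespace Crest.Agent.N49.He

open Rm Rm.TT

theorem It.step {L C : Type} [Fintype L] [DecidableEq L] [Fintype C] [DecidableEq C] {U : TT L C}
    {c : (C → ℤ) → ℂ} {N : (C → ℤ) → ℝ} {H : Set (C → ℤ)} {r : ℕ} {δ η : ℝ} (o : U.Ok)
    (d0 : 0 < δ) (e0 : 0 ≤ η) (r1 : 1 ≤ r) (m : Mo U r N) (cN : ∀ w, ‖c w‖ ≤ N w)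
    (h : δ * U.pr H - η ≤ U.Ex (H.indicator fun w => (c w).re)) :
    δ / 4 * U.pr H - (η + 4 / 2 ^ r) ≤ U.pr {w ∈ H | δ / 2 ≤ ‖c w‖} := by
  obtain ⟨r, rfl⟩ : ∃ t, r = t + 1 := ⟨r - 1, by omega⟩
  obtain ⟨⟨b, hb⟩, m⟩ := m
  have N0 : ∀ w, 0 ≤ N w := fun w => (norm_nonneg _).trans (cN w)
  have a1 : ∀ (x : ℝ) (A : Set (C → ℤ)) w, |x * A.indicator (1 : (C → ℤ) → ℝ) w| ≤ |x| :=
    fun x A w => by rw [abs_mul]; exact mul_le_of_le_one_right (abs_nonneg _) (abs_ind A w)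
  have a2 : ∀ w, |(2 ^ r : ℝ)⁻¹ * N w ^ (r + 1)| ≤ (2 ^ r : ℝ)⁻¹ * b ^ (r + 1) := fun w => by
    have := N0 w
    rw [abs_of_nonneg (by positivity)]
    exact mul_le_mul_of_nonneg_left (pow_le_pow_left₀ this (hb w) _) (by positivity)
  have a3 := fun w => (abs_add_le _ _).trans
    (add_le_add (a1 (δ / 2) H w) (a1 2 {w ∈ H | δ / 2 ≤ ‖c w‖} w))
  have k := o.Ex_mono (g := H.indicator fun w => (c w).re) (B := |b|)
    (fun w => ?_) (fun w => (abs_add_le _ _).trans (add_le_add (a3 w) (a2 w))) fun w => ?_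
  · rw [o.Ex_add a3 a2, o.Ex_add (a1 _ _) (a1 _ _), Ex_smul, Ex_smul, Ex_smul, ← pr_eq,
      ← pr_eq] at k
    have z : (2 ^ r : ℝ)⁻¹ * U.Ex (fun w => N w ^ (r + 1)) ≤ 4 / 2 ^ (r + 1) :=
      (mul_le_mul_of_nonneg_left m (by positivity)).trans_eq (by field_simp; ring)
    have : (0 : ℝ) ≤ 4 / 2 ^ (r + 1) := by positivity
    linarith
  · by_cases e : w ∈ H
    · rw [Set.indicator_of_mem e]
      exact (Complex.abs_re_le_norm _).trans ((cN w).trans ((hb w).trans (le_abs_self _)))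
    · rw [Set.indicator_of_notMem e, abs_zero]; exact abs_nonneg _
  · have p : 0 ≤ (2 ^ r : ℝ)⁻¹ * N w ^ (r + 1) := by have := N0 w; positivity
    have q := Complex.re_le_norm (c w)
    by_cases e : w ∈ H
    · by_cases f : δ / 2 ≤ ‖c w‖
      · rw [Set.indicator_of_mem e, Set.indicator_of_mem e,
          Set.indicator_of_mem (show w ∈ {w ∈ H | δ / 2 ≤ ‖c w‖} from ⟨e, f⟩), Pi.one_apply]
        rcases le_total (N w) 2 with g | g
        · linarith [cN w]
        · have : N w ≤ (2 ^ r : ℝ)⁻¹ * N w ^ (r + 1) := by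
            rw [le_inv_mul_iff₀ (by positivity), pow_succ]
            exact mul_le_mul_of_nonneg_right (pow_le_pow_left₀ zero_le_two g r) (N0 w)
          linarith [cN w]
      · rw [Set.indicator_of_mem e, Set.indicator_of_mem e, Set.indicator_of_notMem
          (show w ∉ {w ∈ H | δ / 2 ≤ ‖c w‖} from fun z => f z.2), Pi.one_apply]
        linarith [not_le.1 f]
    · rw [Set.indicator_of_notMem e, Set.indicator_of_notMem e, Set.indicator_of_notMem
        (show w ∉ {w ∈ H | δ / 2 ≤ ‖c w‖} from fun z => e z.1)]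
      linarith

theorem itr : ITR := by
  classical
  intro L C I _ _ _ _ _ U S X c N H r δ η o hR d0 d1 e0 r1 hc h
  have e1 : 0 ≤ η + 4 / 2 ^ r := by positivity
  suffices k : ∀ s : Finset I, ∃ (y : ∀ i, X i) (H' : Set (C → ℤ)), H' ⊆ H ∧ U.Rd S H' ∧
      (δ / 4) ^ #s * U.pr H - #s * (η + 4 / 2 ^ r) ≤ U.pr H' ∧
      ∀ w ∈ H', ∀ i ∈ s, δ / 2 ≤ ‖c i (y i) w‖ by
    obtain ⟨y, H', a, b, d, e⟩ := k univ
    exact ⟨y, H', a, b, d, fun w hw i => e w hw i (mem_univ i)⟩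
  intro s
  induction s using Finset.induction_on with
  | empty => exact ⟨fun i => (h i H le_rfl hR).choose, H, le_rfl, hR, by simp, by simp⟩
  | insert i s hi ih =>
    obtain ⟨y, H', a, b, d, e⟩ := ih
    obtain ⟨x, hx⟩ := h i H' a b
    obtain ⟨p1, p2, p3⟩ := hc i x
    refine ⟨Function.update y i x, {w ∈ H' | δ / 2 ≤ ‖c i x w‖}, fun w hw => a hw.1,
      fun w w' z hw => ⟨b w w' z hw.1, p1 w w' z ▸ hw.2⟩, ?_, fun w hw j hj => ?_⟩
    · refine le_trans ?_ (It.step o d0 e0 r1 p2 p3 hx)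
      rw [card_insert_of_notMem hi, pow_succ]
      push_cast
      have z1 := mul_le_mul_of_nonneg_left d (by positivity : 0 ≤ δ / 4)
      have z2 : δ / 4 * (#s * (η + 4 / 2 ^ r)) ≤ #s * (η + 4 / 2 ^ r) :=
        mul_le_of_le_one_left (by positivity) (by linarith)
      nlinarith only [z1, z2]
    · rcases mem_insert.1 hj with rfl | hk
      · rw [Function.update_self]; exact hw.2
      · rw [Function.update_of_ne (fun z : j = i => hi (z ▸ hk))]; exact e w hw.1 j hk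

end Crest.Agent.N49.He
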