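import Crest.Agent.N49.He.Defs

/-! # Row 49 (helper83): the tensor Cauchy-Schwarz inequality, pure form -/

set_option autoImplicit false
set_option maxHeartbeats 400000

open Finset
open scoped ComplexConjugate

noncomputable section

namespace Crest.Agent.N49.He

namespace Tc

theorem hsc {X 𝕜 : Type} [RCLike 𝕜] {f g : X → 𝕜} {a : 𝕜} (h : HasSum f a) (e : ∀ x, g x = f x) :
    HasSum g a := (funext e : g = f) ▸ h

theorem csw {X : Type} {p f g : X → ℝ} (p0 : ∀ x, 0 ≤ p x)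
    (h1 : Summable fun x => p x * f x ^ 2) (h2 : Summable fun x => p x * g x ^ 2)
    (h3 : Summable fun x => p x * (f x * g x)) :
    (∑' x, p x * (f x * g x)) ^ 2 ≤ (∑' x, p x * f x ^ 2) * ∑' x, p x * g x ^ 2 := by
  have := discrim_le_zero (a := ∑' x, p x * f x ^ 2) (b := 2 * ∑' x, p x * (f x * g x))
    (c := ∑' x, p x * g x ^ 2) fun l => by
      have k := ((h1.hasSum.mul_right (l * l)).add (h3.hasSum.mul_left (2 * l))).add h2.hasSum
      have := k.nonneg fun x => by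
        have := mul_nonneg (p0 x) (sq_nonneg (f x * l + g x))
        nlinarith
      linarith
  unfold discrim at this
  nlinarith

theorem smb {X 𝕜 : Type} [RCLike 𝕜] {m : X → ℝ} {f : X → 𝕜} {b : ℝ} (m0 : ∀ e, 0 ≤ m e)
    (sm : Summable m) (fb : ∀ e, ‖f e‖ ≤ b) : Summable fun e => (m e : 𝕜) * f e :=
  Summable.of_norm_bounded (sm.mul_right b) fun e => by
    rw [norm_mul, RCLike.norm_ofReal, abs_of_nonneg (m0 e)]
    exact mul_le_mul_of_nonneg_left (fb e) (m0 e)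

theorem smr {X : Type} {m f : X → ℝ} {b : ℝ} (m0 : ∀ e, 0 ≤ m e)
    (sm : Summable m) (fb : ∀ e, |f e| ≤ b) : Summable fun e => m e * f e :=
  smb (𝕜 := ℝ) m0 sm fb

theorem smc {X : Type} {m : X → ℝ} {f : X → ℂ} {b : ℝ} (m0 : ∀ e, 0 ≤ m e)
    (sm : Summable m) (fb : ∀ e, ‖f e‖ ≤ b) : Summable fun e => (m e : ℂ) * f e :=
  smb (𝕜 := ℂ) m0 sm fb

theorem nle {X : Type} {m g : X → ℝ} {f : X → ℂ} {b : ℝ} (m0 : ∀ e, 0 ≤ m e)
    (sm : Summable m) (fg : ∀ e, ‖f e‖ ≤ g e) (gb : ∀ e, g e ≤ b) :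
    ‖∑' e, (m e : ℂ) * f e‖ ≤ ∑' e, m e * g e :=
  tsum_of_norm_bounded (smr m0 sm fun e => by
    rw [abs_of_nonneg ((norm_nonneg _).trans (fg e))]; exact gb e).hasSum fun e => by
    rw [norm_mul, Complex.norm_real, Real.norm_of_nonneg (m0 e)]
    exact mul_le_mul_of_nonneg_left (fg e) (m0 e)

theorem cs {X : Type} {m : X → ℝ} {f : X → ℂ} {b : ℝ} (m0 : ∀ e, 0 ≤ m e)
    (sm : Summable m) (fb : ∀ e, ‖f e‖ ≤ b) :
    ‖∑' e, (m e : ℂ) * f e‖ ^ 2 ≤ (∑' e, m e) * ∑' e, m e * ‖f e‖ ^ 2 := by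
  have k := csw (f := fun _ => 1) (g := fun e => ‖f e‖) m0 (by simpa using sm)
    (smr (b := b ^ 2) m0 sm fun e => by
      rw [abs_of_nonneg (sq_nonneg _)]; exact pow_le_pow_left₀ (norm_nonneg _) (fb e) 2)
    (smr (b := b) m0 sm fun e => by simpa using fb e)
  simp only [one_mul, one_pow, mul_one] at k
  exact (pow_le_pow_left₀ (norm_nonneg _) (nle m0 sm (fun _ => le_rfl) fb) 2).trans k

theorem psd {T I : Type} {E : I → Type} (m : ∀ i, E i → ℝ) (a : ∀ i, E i → ℂ)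
    (u : ∀ i, T → E i → ℂ) (m0 : ∀ i e, 0 ≤ m i e) (sm : ∀ i, Summable (m i))
    (a1 : ∀ i e, ‖a i e‖ ≤ 1) (ub : ∀ i, ∃ b, ∀ t e, ‖u i t e‖ ≤ b) (F : Finset T) (s : Finset I) :
    ∀ x : T → ℂ, ‖∑ t ∈ F, x t * ∏ i ∈ s, ∑' e, (m i e : ℂ) * (a i e * u i t e)‖ ^ 2 ≤
      (∏ i ∈ s, ∑' e, m i e) * (∑ t ∈ F, ∑ t' ∈ F, x t * conj (x t') *
        ∏ i ∈ s, ∑' e, (m i e : ℂ) * (u i t e * conj (u i t' e))).re := by
  classical
  induction s using Finset.induction_on with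
  | empty =>
    intro x
    simp only [prod_empty, mul_one, one_mul]
    rw [← sum_mul_sum, ← map_sum, Complex.mul_conj, Complex.ofReal_re, Complex.normSq_eq_norm_sq]
  | insert j s hj ih =>
    intro x
    simp only [prod_insert hj]
    obtain ⟨b, hb⟩ := ub j
    set P : T → ℂ := fun t => ∏ i ∈ s, ∑' e, (m i e : ℂ) * (a i e * u i t e) with hP
    set Q : T → T → ℂ := fun t t' => ∏ i ∈ s, ∑' e, (m i e : ℂ) * (u i t e * conj (u i t' e))
      with hQ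
    have e1 : HasSum (fun e => (m j e : ℂ) * (a j e * ∑ t ∈ F, x t * u j t e * P t))
        (∑ t ∈ F, x t * ((∑' e, (m j e : ℂ) * (a j e * u j t e)) * P t)) := by
      have := hasSum_sum (s := F) fun t _ => ((smc (b := b) (m0 j) (sm j)
        (f := fun e => a j e * u j t e) fun e => by
          rw [norm_mul]
          exact (mul_le_of_le_one_left (norm_nonneg _) (a1 j e)).trans (hb t e)).hasSum.mul_right
            (P t)).mul_left (x t)
      refine hsc this fun e => ?_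
      simp only [mul_sum]
      exact sum_congr rfl fun t _ => by ring
    have e2 : HasSum (fun e => m j e * (∑ t ∈ F, ∑ t' ∈ F,
        x t * u j t e * conj (x t' * u j t' e) * Q t t').re) (∑ t ∈ F, ∑ t' ∈ F, x t * conj (x t') *
          ((∑' e, (m j e : ℂ) * (u j t e * conj (u j t' e))) * Q t t')).re := by
      have := Complex.hasSum_re (hasSum_sum (s := F) fun t _ => hasSum_sum (s := F) fun t' _ =>
        ((smc (b := b * b) (m0 j) (sm j) (f := fun e => u j t e * conj (u j t' e)) fun e => by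
          rw [norm_mul, RCLike.norm_conj]
          exact mul_le_mul (hb t e) (hb t' e) (norm_nonneg _)
            ((norm_nonneg _).trans (hb t e))).hasSum.mul_right (Q t t')).mul_left
              (x t * conj (x t')))
      convert this using 2 with e
      rw [← Complex.re_ofReal_mul]
      simp only [mul_sum, map_mul]
      exact congrArg _ (sum_congr rfl fun t _ => sum_congr rfl fun t' _ => by ring)
    have fb : ∀ e, ‖a j e * ∑ t ∈ F, x t * u j t e * P t‖ ≤ ∑ t ∈ F, ‖x t‖ * b * ‖P t‖ := fun e => by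
      rw [norm_mul]
      refine (mul_le_of_le_one_left (norm_nonneg _) (a1 j e)).trans ((norm_sum_le _ _).trans
        (sum_le_sum fun t _ => ?_))
      rw [norm_mul, norm_mul]
      gcongr
      exact hb t e
    rw [← e1.tsum_eq, mul_assoc]
    refine (cs (m0 j) (sm j) fb).trans (mul_le_mul_of_nonneg_left ?_ (tsum_nonneg (m0 j)))
    refine hasSum_le (fun e => ?_) (smr (b := _ ^ 2) (m0 j) (sm j) fun e => by
      rw [abs_of_nonneg (sq_nonneg _)]
      exact pow_le_pow_left₀ (norm_nonneg _) (fb e) 2).hasSum (e2.mul_left _)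
    rw [mul_left_comm]
    refine mul_le_mul_of_nonneg_left (le_trans ?_ (ih fun t => x t * u j t e)) (m0 j e)
    rw [norm_mul]
    exact pow_le_pow_left₀ (by positivity) (mul_le_of_le_one_left (norm_nonneg _) (a1 j e)) 2

theorem pv {T I : Type} [Fintype I] (θ χ : T → ℝ) (c : I → T → ℂ) (G : I → T → T → ℂ)
    (M : I → ℝ) (δ b : ℝ) (θ0 : ∀ t, 0 ≤ θ t) (sθ : Summable θ) (δ0 : 0 ≤ δ)
    (hp : ∀ (F : Finset T) (x : T → ℂ), ‖∑ t ∈ F, x t * ∏ i, c i t‖ ^ 2 ≤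
      (∏ i, M i) * (∑ t ∈ F, ∑ t' ∈ F, x t * conj (x t') * ∏ i, G i t t').re)
    (hS : ∀ t, χ t = 0 ∨ (χ t = 1 ∧ ∀ i, δ ≤ ‖c i t‖ ∧ M i ≤ 2)) (M0 : ∀ i, 0 ≤ M i)
    (gb : ∀ t t', ∏ i, ‖G i t t'‖ ≤ b) :
    (δ ^ Fintype.card I * ∑' t, θ t * χ t) ^ 2 ≤ 2 ^ Fintype.card I *
      ∑' z : T × T, θ z.1 * θ z.2 * (χ z.1 * χ z.2 * ∏ i, ‖G i z.1 z.2‖) := by
  have χ0 : ∀ t, 0 ≤ χ t := fun t => by rcases hS t with h | h <;> simp [h]
  have χ1 : ∀ t, χ t ≤ 1 := fun t => by rcases hS t with h | h <;> simp [h]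
  have g0 : ∀ t t', 0 ≤ ∏ i, ‖G i t t'‖ := fun _ _ => prod_nonneg fun _ _ => norm_nonneg _
  have n0 : ∀ z : T × T, 0 ≤ θ z.1 * θ z.2 * (χ z.1 * χ z.2 * ∏ i, ‖G i z.1 z.2‖) := fun z =>
    mul_nonneg (mul_nonneg (θ0 _) (θ0 _)) (mul_nonneg (mul_nonneg (χ0 _) (χ0 _)) (g0 _ _))
  by_cases h : ∀ t, χ t = 0
  · simp only [h, mul_zero, tsum_zero, zero_mul]
    simp
  obtain ⟨t0, h0⟩ := not_forall.1 h
  have hM : ∏ i, M i ≤ 2 ^ Fintype.card I := by
    rw [← card_univ, ← prod_const]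
    exact prod_le_prod (fun i _ => M0 i) fun i _ => (((hS t0).resolve_left h0).2 i).2
  have s1 : Summable fun t => θ t * χ t :=
    smr (b := 1) θ0 sθ fun t => by rw [abs_of_nonneg (χ0 t)]; exact χ1 t
  have s2 : Summable fun z : T × T => θ z.1 * θ z.2 * (χ z.1 * χ z.2 * ∏ i, ‖G i z.1 z.2‖) :=
    smr (b := b) (fun z => mul_nonneg (θ0 _) (θ0 _)) (sθ.mul_of_nonneg sθ θ0 θ0) fun z => by
      rw [abs_of_nonneg (mul_nonneg (mul_nonneg (χ0 _) (χ0 _)) (g0 _ _))]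
      exact (mul_le_of_le_one_left (g0 _ _) (mul_le_one₀ (χ1 _) (χ0 _) (χ1 _))).trans (gb _ _)
  refine le_of_tendsto' ((s1.hasSum.mul_left (δ ^ Fintype.card I)).pow 2) fun F => ?_
  choose ph p1 p2 using fun t => Complex.exists_norm_eq_mul_self (∏ i, c i t)
  have k := hp F fun t => (θ t * χ t : ℝ) * ph t
  have e : ∑ t ∈ F, ((θ t * χ t : ℝ) : ℂ) * ph t * ∏ i, c i t =
      ((∑ t ∈ F, θ t * χ t * ‖∏ i, c i t‖ : ℝ) : ℂ) := by
    rw [Complex.ofReal_sum]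
    exact sum_congr rfl fun t _ => by rw [mul_assoc, ← p2, ← Complex.ofReal_mul]
  rw [e, Complex.norm_real, Real.norm_eq_abs, sq_abs] at k
  have l1 : ∑ t ∈ F, δ ^ Fintype.card I * (θ t * χ t) ≤ ∑ t ∈ F, θ t * χ t * ‖∏ i, c i t‖ := by
    refine sum_le_sum fun t _ => ?_
    rcases hS t with h | h
    · simp [h]
    · rw [mul_comm, norm_prod, ← card_univ, ← prod_const]
      exact mul_le_mul_of_nonneg_left (prod_le_prod (fun _ _ => δ0) fun i _ => (h.2 i).1)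
        (mul_nonneg (θ0 _) (χ0 _))
  refine (pow_le_pow_left₀ (sum_nonneg fun t _ => mul_nonneg (pow_nonneg δ0 _)
    (mul_nonneg (θ0 _) (χ0 _))) l1 2).trans (k.trans ?_)
  have l2 : (∑ t ∈ F, ∑ t' ∈ F, ((θ t * χ t : ℝ) : ℂ) * ph t * conj (((θ t' * χ t' : ℝ) : ℂ) * ph t') *
      ∏ i, G i t t').re ≤ ∑' z : T × T, θ z.1 * θ z.2 * (χ z.1 * χ z.2 * ∏ i, ‖G i z.1 z.2‖) := by
    refine le_trans ?_ (s2.sum_le_tsum (F ×ˢ F) fun z _ => n0 z)
    rw [sum_product]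
    refine (Complex.re_le_norm _).trans ((norm_sum_le _ _).trans (sum_le_sum fun t _ =>
      (norm_sum_le _ _).trans (sum_le_sum fun t' _ => le_of_eq ?_)))
    rw [norm_mul, norm_mul, RCLike.norm_conj, norm_mul, norm_mul, p1, p1, Complex.norm_real,
      Complex.norm_real, Real.norm_of_nonneg (mul_nonneg (θ0 _) (χ0 _)),
      Real.norm_of_nonneg (mul_nonneg (θ0 _) (χ0 _)), norm_prod]
    ring
  exact (mul_le_mul_of_nonneg_left l2 (prod_nonneg fun i _ => M0 i)).trans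
    (mul_le_mul_of_nonneg_right hM (tsum_nonneg n0))

theorem fub {V T : Type} {p : V → ℝ} {θ : V → T → ℝ} (p0 : ∀ v, 0 ≤ p v) (θ0 : ∀ v t, 0 ≤ θ v t)
    (sW : Summable fun q : V × T × T => p q.1 * θ q.1 q.2.1 * θ q.1 q.2.2) (h : V × T × T → ℝ)
    {b : ℝ} (hb : ∀ q, |h q| ≤ b) :
    HasSum (fun v => p v * ∑' z : T × T, θ v z.1 * θ v z.2 * h (v, z))
      (∑' q : V × T × T, p q.1 * θ q.1 q.2.1 * θ q.1 q.2.2 * h q) := by
  have s := smr (fun q : V × T × T => mul_nonneg (mul_nonneg (p0 q.1) (θ0 q.1 q.2.1))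
    (θ0 q.1 q.2.2)) sW hb
  have k := s.prod.hasSum
  rw [← s.tsum_prod] at k
  refine hsc k fun v => ?_
  rw [← tsum_mul_left]
  exact tsum_congr fun z => by ring

theorem ts2 {T : Type} {θ f g : T → ℝ} (θ0 : ∀ t, 0 ≤ θ t) (sθ : Summable θ) (hf : ∀ t, |f t| ≤ 1)
    (hg : ∀ t, |g t| ≤ 1) : ∑' z : T × T, θ z.1 * θ z.2 * (f z.1 * g z.2) =
      (∑' t, θ t * f t) * ∑' t, θ t * g t := by
  rw [tsum_mul_tsum_of_summable_norm (smr θ0 sθ hf).norm (smr θ0 sθ hg).norm]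
  exact tsum_congr fun z => by ring

theorem avg {V T : Type} {p : V → ℝ} {θ χ : V → T → ℝ} (p0 : ∀ v, 0 ≤ p v) (θ0 : ∀ v t, 0 ≤ θ v t)
    (sθ : ∀ v, Summable (θ v))
    (sW : Summable fun q : V × T × T => p q.1 * θ q.1 q.2.1 * θ q.1 q.2.2)
    (χ1 : ∀ v t, |χ v t| ≤ 1) (R : V × T × T → ℝ) {b : ℝ} (hb : ∀ q, |R q| ≤ b) {d K : ℝ}
    (h : ∀ v, (d * ∑' t, θ v t * χ v t) ^ 2 ≤ K * ∑' z : T × T, θ v z.1 * θ v z.2 * R (v, z)) :
    (d * ∑' q : V × T × T, p q.1 * θ q.1 q.2.1 * θ q.1 q.2.2 * χ q.1 q.2.1) ^ 2 ≤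
      (∑' q : V × T × T, p q.1 * θ q.1 q.2.1 * θ q.1 q.2.2) *
        (K * ∑' q : V × T × T, p q.1 * θ q.1 q.2.1 * θ q.1 q.2.2 * R q) := by
  have o : ∀ t : T, |(fun _ => (1 : ℝ)) t| ≤ 1 := fun _ => by simp
  have a1 := fub p0 θ0 sW (fun _ => 1 * 1) (b := 1) fun _ => by simp
  have a2 := fub p0 θ0 sW (fun q => χ q.1 q.2.1 * 1) (b := 1) fun _ => by simpa using χ1 _ _
  have a3 := fub p0 θ0 sW (fun q => χ q.1 q.2.1 * χ q.1 q.2.2) (b := 1) fun _ => by
    rw [abs_mul]; exact mul_le_one₀ (χ1 _ _) (abs_nonneg _) (χ1 _ _)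
  have a4 := fub p0 θ0 sW R hb
  have b1 := fun v => ts2 (θ0 v) (sθ v) o o
  have b2 := fun v => ts2 (θ0 v) (sθ v) (χ1 v) o
  have b3 := fun v => ts2 (θ0 v) (sθ v) (χ1 v) (χ1 v)
  simp only [b1, b2, b3] at a1 a2 a3
  simp only [mul_one] at a1 a2
  simp only [← sq] at a1 a3
  have k := csw (f := fun v => ∑' t, θ v t * χ v t) (g := fun v => ∑' t, θ v t) p0 a3.summable
    a1.summable a2.summable
  rw [a1.tsum_eq, a2.tsum_eq, a3.tsum_eq] at k
  have l := hasSum_le (fun v => (by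
    have := mul_le_mul_of_nonneg_left (h v) (p0 v)
    linarith : d ^ 2 * (p v * (∑' t, θ v t * χ v t) ^ 2) ≤
      K * (p v * ∑' z : T × T, θ v z.1 * θ v z.2 * R (v, z)))) (a3.mul_left _) (a4.mul_left _)
  have z0 : 0 ≤ ∑' q : V × T × T, p q.1 * θ q.1 q.2.1 * θ q.1 q.2.2 :=
    tsum_nonneg fun q => mul_nonneg (mul_nonneg (p0 _) (θ0 _ _)) (θ0 _ _)
  rw [mul_pow]
  refine (mul_le_mul_of_nonneg_left k (sq_nonneg d)).trans ?_
  have := mul_le_mul_of_nonneg_left l z0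
  linarith

theorem ptw {I : Type} [Fintype I] (g N : I → ℝ) {r : ℕ} {δ' : ℝ} (g0 : ∀ i, 0 ≤ g i)
    (gN : ∀ i, g i ≤ N i) (d0 : 0 ≤ δ') (hr : Fintype.card I ≤ r) (c : ℝ) (c0 : 0 ≤ c)
    (hc : (∀ i, δ' ≤ g i) → c = 1) :
    ∏ i, g i ≤ 2 ^ Fintype.card I * (c + δ' + ∑ i, N i ^ r / 2 ^ r) := by
  classical
  have N0 : ∀ i, 0 ≤ N i := fun i => (g0 i).trans (gN i)
  have s0 : 0 ≤ ∑ i, N i ^ r / 2 ^ r := sum_nonneg fun i _ => by have := N0 i; positivity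
  by_cases h : ∀ i, N i ≤ 2
  · by_cases h' : ∀ i, δ' ≤ g i
    · rw [hc h']
      have : ∏ i, g i ≤ 2 ^ Fintype.card I := by
        rw [← card_univ, ← prod_const]
        exact prod_le_prod (fun i _ => g0 i) fun i _ => (gN i).trans (h i)
      exact this.trans (le_mul_of_one_le_right (by positivity) (by linarith))
    · obtain ⟨j, hj⟩ := not_forall.1 h'
      rw [← mul_prod_erase _ _ (mem_univ j)]
      have : ∏ i ∈ univ.erase j, g i ≤ 2 ^ Fintype.card I := by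
        refine (prod_le_prod (fun i _ => g0 i) fun i _ => (gN i).trans (h i)).trans ?_
        rw [prod_const]
        exact pow_le_pow_right₀ one_le_two (card_le_univ _)
      rw [mul_comm]
      exact mul_le_mul this (by linarith [not_le.1 hj]) (g0 j) (by positivity)
  · obtain ⟨j, hj⟩ := not_forall.1 h
    obtain ⟨k, -, hk⟩ := exists_max_image univ N ⟨j, mem_univ j⟩
    have h2 : 2 ≤ N k := (not_le.1 hj).le.trans (hk j (mem_univ j))
    have a : ∏ i, g i ≤ N k ^ Fintype.card I := by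
      rw [← card_univ, ← prod_const]
      exact prod_le_prod (fun i _ => g0 i) fun i _ => (gN i).trans (hk i (mem_univ i))
    have b : N k ^ r / 2 ^ r ≤ ∑ i, N i ^ r / 2 ^ r :=
      single_le_sum (f := fun i => N i ^ r / 2 ^ r) (fun i _ => by have := N0 i; positivity)
        (mem_univ k)
    have e : (N k / 2) ^ Fintype.card I ≤ (N k / 2) ^ r := pow_le_pow_right₀ (by linarith) hr
    rw [div_pow, div_pow, div_le_iff₀' (by positivity)] at e
    exact a.trans (e.trans (mul_le_mul_of_nonneg_left (by linarith) (by positivity)))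

end Tc

open Tc

/-- **tensor Cauchy-Schwarz, pure form** -/
theorem ten_core {Ω V T I : Type} [Fintype I] {E B : I → Type} (ψ : V × T × T ≃ Ω) (wt : Ω → ℝ)
    (p : V → ℝ) (θ : V → T → ℝ) (τ : Ω → Ω) (Y : ∀ i, Cs Ω (E i) (B i)) (S : Set Ω) (r : ℕ)
    (δ δ' : ℝ) (p0 : ∀ v, 0 ≤ p v) (θ0 : ∀ v t, 0 ≤ θ v t)
    (hw : ∀ v t t', wt (ψ (v, t, t')) = p v * θ v t * θ v t') (sw : Summable wt)
    (Z0 : 0 < ∑' w, wt w) (hτ : ∀ v t t', τ (ψ (v, t, t')) = ψ (v, t', t)) (ok : ∀ i, (Y i).Ok)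
    (hm : ∀ i v t1 t1' t2 t2', (Y i).m (ψ (v, t1, t1')) = (Y i).m (ψ (v, t2, t2')))
    (ha : ∀ i v t1 t1' t2 t2', (Y i).a (ψ (v, t1, t1')) = (Y i).a (ψ (v, t2, t2')))
    (hκ : ∀ i v t t1 t2, (Y i).κ (ψ (v, t, t1)) = (Y i).κ (ψ (v, t, t2)))
    (hφ : ∀ i v t t1 t2, (Y i).φ (ψ (v, t, t1)) = (Y i).φ (ψ (v, t, t2)))
    (hS : ∀ v t t1 t2, ψ (v, t, t1) ∈ S → ψ (v, t, t2) ∈ S)
    (hN : ∀ i, (∃ b, ∀ w, (Y i).N τ w ≤ b) ∧ (∑' w, wt w * (Y i).N τ w ^ r) / ∑' w, wt w ≤ 2)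
    (δ0 : 0 ≤ δ) (d0 : 0 ≤ δ') (hr : Fintype.card I ≤ r)
    (hc : ∀ w ∈ S, ∀ i, δ ≤ ‖(Y i).c w‖ ∧ (Y i).M w ≤ 2) :
    (δ ^ Fintype.card I * ((∑' w, S.indicator wt w) / ∑' w, wt w)) ^ 2 / 2 ^ Fintype.card I ≤
      2 ^ Fintype.card I * ((∑' w, {w | w ∈ S ∧ τ w ∈ S ∧ ∀ i, δ' ≤ ‖(Y i).g τ w‖}.indicator wt w) /
        ∑' w, wt w + δ' + 2 * Fintype.card I / 2 ^ r) := by
  classical
  obtain ⟨t0⟩ : Nonempty T := by
    by_contra h
    rw [not_nonempty_iff] at h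
    have : IsEmpty Ω := ψ.symm.isEmpty
    simp at Z0
  set θ' : V → T → ℝ := fun v t => if p v = 0 then 0 else θ v t with hθ
  have θ1 : ∀ v t, 0 ≤ θ' v t := fun v t => by
    simp only [hθ]; split_ifs
    exacts [le_rfl, θ0 v t]
  have hw' : ∀ q : V × T × T, wt (ψ q) = p q.1 * θ' q.1 q.2.1 * θ' q.1 q.2.2 := fun q => by
    rw [hw q.1 q.2.1 q.2.2]
    simp only [hθ]; split_ifs with h
    · simp [h]
    · rfl
  have w0 : ∀ w, 0 ≤ wt w := fun w => by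
    obtain ⟨q, rfl⟩ := ψ.surjective w
    rw [hw']; exact mul_nonneg (mul_nonneg (p0 _) (θ1 _ _)) (θ1 _ _)
  have sW : Summable fun q : V × T × T => p q.1 * θ' q.1 q.2.1 * θ' q.1 q.2.2 :=
    (ψ.summable_iff.2 sw).congr hw'
  have sθ : ∀ v, Summable (θ' v) := fun v => by
    by_cases h : ∀ t, θ' v t = 0
    · exact (funext h : θ' v = fun _ => 0) ▸ summable_zero
    · obtain ⟨t, ht⟩ := not_forall.1 h
      have hp : p v ≠ 0 := fun e => ht (if_pos e)
      exact (summable_mul_left_iff (mul_ne_zero hp ht)).1 ((sW.prod_factor v).prod_factor t)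
  have tr : ∀ f : Ω → ℝ, ∑' q : V × T × T, p q.1 * θ' q.1 q.2.1 * θ' q.1 q.2.2 * f (ψ q) =
      ∑' w, wt w * f w := fun f => by
    rw [← ψ.tsum_eq]
    exact tsum_congr fun q => by rw [hw']
  set ι : Ω → ℝ := fun w => if w ∈ S then 1 else 0 with hι
  have ι0 : ∀ w, 0 ≤ ι w := fun w => by simp only [hι]; split_ifs <;> simp
  have ι1 : ∀ w, ι w ≤ 1 := fun w => by simp only [hι]; split_ifs <;> simp
  have ιe : ∀ v t t1 t2, ι (ψ (v, t, t1)) = ι (ψ (v, t, t2)) := fun v t t1 t2 =>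
    if_congr ⟨hS _ _ _ _, hS _ _ _ _⟩ rfl rfl
  choose bk hk using fun i => (ok i).sk
  choose bN hb using fun i => (hN i).1
  have uk : ∀ i w e, ‖∑' b, ((Y i).κ w e b : ℂ) * (Y i).φ w e b‖ ≤ ∑' b, (Y i).κ w e b :=
    fun i w e => by
      simpa using nle (g := fun _ => 1) ((ok i).k0 w e) (hk i w e).1 ((ok i).p1 w e) fun _ => le_rfl
  have k0 : ∀ i w e, 0 ≤ ∑' b, (Y i).κ w e b := fun i w e => tsum_nonneg ((ok i).k0 w e)
  have gN : ∀ i w, ‖(Y i).g τ w‖ ≤ (Y i).N τ w := fun i w =>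
    nle (b := bk i * bk i) ((ok i).m0 w) ((ok i).sm w) (fun e => by
      rw [norm_mul, RCLike.norm_conj]
      exact mul_le_mul (uk _ _ _) (uk _ _ _) (norm_nonneg _) (k0 _ _ _)) fun e =>
      mul_le_mul (hk i _ e).2 (hk i _ e).2 (k0 _ _ _) ((k0 _ _ _).trans (hk i w e).2)
  have N0 : ∀ i w, 0 ≤ (Y i).N τ w := fun i w => (norm_nonneg _).trans (gN i w)
  have g0 : ∀ w, 0 ≤ ∏ i, ‖(Y i).g τ w‖ := fun _ => prod_nonneg fun _ _ => norm_nonneg _
  have gb : ∀ w, ∏ i, ‖(Y i).g τ w‖ ≤ ∏ i, bN i := fun w =>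
    prod_le_prod (fun _ _ => norm_nonneg _) fun i _ => (gN i w).trans (hb i w)
  set R : Ω → ℝ := fun w => ι w * ι (τ w) * ∏ i, ‖(Y i).g τ w‖ with hR
  have Rb : ∀ w, |R w| ≤ ∏ i, bN i := fun w => by
    rw [abs_of_nonneg (mul_nonneg (mul_nonneg (ι0 _) (ι0 _)) (g0 _))]
    exact (mul_le_of_le_one_left (g0 _) (mul_le_one₀ (ι1 _) (ι0 _) (ι1 _))).trans (gb _)
  have k := avg (χ := fun v t => ι (ψ (v, t, t))) p0 θ1 sθ sW
    (fun v t => by rw [abs_of_nonneg (ι0 _)]; exact ι1 _) (fun q => R (ψ q)) (fun q => Rb _)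
    (d := δ ^ Fintype.card I) (K := 2 ^ Fintype.card I) fun v => by
      have e1 : ∀ i t, (Y i).c (ψ (v, t, t)) = ∑' e, ((Y i).m (ψ (v, t0, t0)) e : ℂ) *
          ((Y i).a (ψ (v, t0, t0)) e * ∑' b, ((Y i).κ (ψ (v, t, t)) e b : ℂ) *
            (Y i).φ (ψ (v, t, t)) e b) := fun i t => by
        unfold Cs.c
        rw [hm i v t t t0 t0, ha i v t t t0 t0]
      have e2 : ∀ i t t', (Y i).g τ (ψ (v, t, t')) = ∑' e, ((Y i).m (ψ (v, t0, t0)) e : ℂ) *
          ((∑' b, ((Y i).κ (ψ (v, t, t)) e b : ℂ) * (Y i).φ (ψ (v, t, t)) e b) *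
            conj (∑' b, ((Y i).κ (ψ (v, t', t')) e b : ℂ) * (Y i).φ (ψ (v, t', t')) e b)) :=
        fun i t t' => by
          unfold Cs.g
          rw [hτ, hm i v t t' t0 t0, hκ i v t t' t, hφ i v t t' t, hκ i v t' t t', hφ i v t' t t']
      refine (pv (θ' v) (fun t => ι (ψ (v, t, t))) (fun i t => (Y i).c (ψ (v, t, t)))
        (fun i t t' => (Y i).g τ (ψ (v, t, t'))) (fun i => (Y i).M (ψ (v, t0, t0))) δ (∏ i, bN i)
        (θ1 v) (sθ v) δ0 (fun F x => ?_) (fun t => ?_) (fun i => tsum_nonneg ((ok i).m0 _))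
        fun t t' => gb _).trans (le_of_eq ?_)
      · simp only [e1, e2]
        exact psd (fun i => (Y i).m (ψ (v, t0, t0))) (fun i => (Y i).a (ψ (v, t0, t0)))
          (fun i t e => ∑' b, ((Y i).κ (ψ (v, t, t)) e b : ℂ) * (Y i).φ (ψ (v, t, t)) e b)
          (fun i => (ok i).m0 _) (fun i => (ok i).sm _) (fun i => (ok i).a1 _)
          (fun i => ⟨bk i, fun t e => (uk _ _ _).trans (hk i _ e).2⟩) F univ x
      · by_cases h : ψ (v, t, t) ∈ S
        · refine .inr ⟨if_pos h, fun i => ⟨(hc _ h i).1, ?_⟩⟩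
          have := (hc _ h i).2
          unfold Cs.M at this ⊢
          rwa [hm i v t t t0 t0] at this
        · exact .inl (if_neg h)
      · refine congrArg _ (tsum_congr fun z => ?_)
        simp only [hR]
        rw [show ψ (v, z) = ψ (v, z.1, z.2) from rfl, hτ, ιe v z.1 z.2 z.1, ιe v z.2 z.1 z.2]
  have e1 : ∑' q : V × T × T, p q.1 * θ' q.1 q.2.1 * θ' q.1 q.2.2 * ι (ψ (q.1, q.2.1, q.2.1)) =
      ∑' w, S.indicator wt w := by
    rw [← tsum_congr fun w => (by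
      simp only [hι, Set.indicator_apply]; split_ifs <;> simp : wt w * ι w = S.indicator wt w), ← tr]
    exact tsum_congr fun q => by rw [ιe q.1 q.2.1 q.2.1 q.2.2]
  have e2 : ∑' q : V × T × T, p q.1 * θ' q.1 q.2.1 * θ' q.1 q.2.2 = ∑' w, wt w := by
    simpa using tr fun _ => 1
  rw [e1, e2, tr] at k
  set Gd := {w | w ∈ S ∧ τ w ∈ S ∧ ∀ i, δ' ≤ ‖(Y i).g τ w‖} with hG
  have sN : ∀ i, Summable fun w => wt w * (Y i).N τ w ^ r := fun i =>
    smr (b := bN i ^ r) w0 sw fun w => by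
      rw [abs_of_nonneg (pow_nonneg (N0 i w) _)]; exact pow_le_pow_left₀ (N0 i w) (hb i w) r
  have l := hasSum_le (fun w => (by
      have s0 : 0 ≤ ∑ i, wt w * (Y i).N τ w ^ r / 2 ^ r := sum_nonneg fun i _ => by
        have := N0 i w; have := w0 w; positivity
      have i0 : 0 ≤ Gd.indicator wt w := Set.indicator_nonneg (fun w _ => w0 w) w
      have := w0 w
      by_cases h : w ∈ S ∧ τ w ∈ S
      · have q := ptw (fun i => ‖(Y i).g τ w‖) (fun i => (Y i).N τ w) (fun _ => norm_nonneg _)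
          (fun i => gN i w) d0 hr (if w ∈ Gd then 1 else 0) (by split_ifs <;> simp)
          fun h' => if_pos ⟨h.1, h.2, h'⟩
        have := mul_le_mul_of_nonneg_left q this
        simp only [hR, hι, if_pos h.1, if_pos h.2, one_mul]
        refine this.trans (le_of_eq ?_)
        rw [mul_left_comm, mul_add (wt w), mul_add (wt w), mul_sum, Set.indicator_apply]
        simp only [mul_ite, mul_one, mul_zero, mul_div_assoc]
      · have : R w = 0 := by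
          simp only [hR, hι]
          rcases not_and_or.1 h with h | h <;> simp [h]
        rw [this, mul_zero]
        positivity :
      wt w * R w ≤ 2 ^ Fintype.card I *
        (Gd.indicator wt w + wt w * δ' + ∑ i, wt w * (Y i).N τ w ^ r / 2 ^ r)))
    (smr w0 sw Rb).hasSum ((((sw.indicator Gd).hasSum.add (sw.hasSum.mul_right δ')).add
      (hasSum_sum (s := univ) fun i _ => (sN i).hasSum.div_const (2 ^ r))).mul_left _)
  have l2 : ∑ i, (∑' w, wt w * (Y i).N τ w ^ r) / 2 ^ r ≤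
      Fintype.card I * (2 * (∑' w, wt w) / 2 ^ r) := by
    rw [← nsmul_eq_mul, ← card_univ]
    exact sum_le_card_nsmul _ _ _ fun i _ =>
      div_le_div_of_nonneg_right ((div_le_iff₀ Z0).1 (hN i).2) (by positivity)
  rw [div_le_iff₀ (by positivity), ← mul_div_assoc, div_pow, div_le_iff₀ (by positivity)]
  refine k.trans (le_of_le_of_eq (mul_le_mul_of_nonneg_left (mul_le_mul_of_nonneg_left
    (l.trans (mul_le_mul_of_nonneg_left (add_le_add_right l2 _) (by positivity))) (by positivity))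
      Z0.le) ?_)
  field_simp

end Crest.Agent.N49.He

end
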