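import Crest.Agent.N49.He.Ten0
import Crest.Agent.N49.He.Tenc

/-!
# Row 49 (helper70): tensor Cauchy-Schwarz
-/

set_option autoImplicit false

open Finset

noncomputable section

namespace Crest.Agent.N49.He

open Po Rm Rm.TT Ft

theorem ten : TEN := by
  intro L C I _ _ _ _ _ Q U x s τ σ k E B Y S r δ δ' h hY hS d0 d1 hr hc
  obtain ⟨V, T, ψ, p, θ, p0, θ0, hw, hτ, e2, e1⟩ := dec h k
  exact ten_core ψ U.wt p θ (· ∘ τ k) Y S r δ δ' p0 θ0 hw h.ok.summable h.ok.Z_pos hτ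
    (fun i => (hY i).1) (fun i v t1 t1' t2 t2' => (hY i).2.1 _ _ (e2 v t1 t1' t2 t2'))
    (fun i v t1 t1' t2 t2' => (hY i).2.2.1 _ _ (e2 v t1 t1' t2 t2'))
    (fun i v t t1 t2 => (hY i).2.2.2.1 _ _ (e1 v t t1 t2))
    (fun i v t t1 t2 => (hY i).2.2.2.2.1 _ _ (e1 v t t1 t2))
    (fun v t t1 t2 => hS _ _ (e1 v t t1 t2)) (fun i => (hY i).2.2.2.2.2) d0 d1 hr hc

end Crest.Agent.N49.He

end
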