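import Crest.Agent.N49.He.Tra2
import Crest.Agent.N49.He.Fub

/-!
# Row 49 (helper89): from the systems to the transitions
-/

set_option autoImplicit false

open Finset

noncomputable section

namespace Crest.Agent.N49.He

open Po Rm Rm.TT Ft

theorem tra4 (h : TEN) : TRA := by
  intro L C D _ _ _ _ _ Q U x s t τ σ0 σ R A B Y G H H' u hs hg hu hQ hH hR hp hc hb
  have cI : Fintype.card (Fin Q × D) ≤ u := by
    rw [Fintype.card_prod, Fintype.card_fin]
    exact (Nat.mul_le_mul_left Q (Nat.le_succ _)).trans hQ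
  have e1 := tra1 h hs.s2 (k := 0) (Z := fun i => (Y i).c1) (fun i => (hg i).ten1) hu cI
    (fun i => (hg i).mo1) (fun i => ((Y i).c2 (· ∘ σ)).M)
    (fun i => ⟨(hg i).mo2, fun w => tsum_nonneg (((hg i).ok.c2 _).m0 w)⟩)
    (hR.mono (singleton_subset_iff.2 (mem_insert_self _ _))) hp hc
  refine ⟨{w | w ∈ H' ∧ ∀ i, (1 / 2 : ℝ) ^ (3 * u ^ 2) ≤ ‖((Y i).c2 (· ∘ σ)).c w‖ ∧
    ((Y i).c2 (· ∘ σ)).M w ≤ 2}, fun w a => hH a.1, fun w w' e a => ⟨hR.mono S1_S5 w w' e a.1,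
      fun i => ?_⟩, ?_, fun k S hS rS pS => ?_⟩
  · rw [← (hg i).bc2 hs w w' e, ← (hg i).bM2 hs w w' e]; exact a.2 i
  · simpa only [fun i => (hg i).ok.c1_g (· ∘ σ)] using e1
  · have cD : Fintype.card D ≤ u :=
      (Nat.le_succ _).trans ((Nat.le_mul_of_pos_left _ k.pos).trans hQ)
    exact tra2 h hs.s1 (Z := fun i => (Y (k, i)).c2 (· ∘ σ)) (fun i => (hg (k, i)).ten2 hs) hu cD
      _ (hb k) rS (fun w a i => (hS a).2 (k, i)) pS

end Crest.Agent.N49.He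

end
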