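import Crest.Agent.N49.He.Dc
import Crest.Agent.N49.He.Fub
import Crest.Agent.N49.He.Itr
import Crest.Agent.N49.He.Tra4
import Crest.Agent.N49.He.Ten
import Crest.Agent.N49.He.Rft
import Crest.Agent.N49.Ft.All

/-! # Row 49 (helper92): the transitions from the systems -/

set_option autoImplicit false
set_option linter.unusedSectionVars false

open Finset Matrix

noncomputable section

namespace Crest.Agent.N49.He

open Po Tw Br Rm Rm.TT Ft Md Sd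

namespace Co9
variable {Ω R A B : Type} {Y : Sys Ω R A B}

theorem prod_bd {f : Bool → ℝ} {b : ℝ} (h : ∀ i, 0 ≤ f i ∧ f i ≤ b) (Γ : Finset Bool) :
    0 ≤ ∏ i ∈ Γ, f i ∧ ∏ i ∈ Γ, f i ≤ (b + 1) ^ 2 := by
  have b0 : 0 ≤ b := (h true).1.trans (h true).2
  refine ⟨prod_nonneg fun i _ => (h i).1, (prod_le_prod (g := fun _ => b + 1)
    (fun i _ => (h i).1) fun i _ => by linarith [(h i).2]).trans ?_⟩
  rw [prod_const]
  exact pow_le_pow_right₀ (by linarith) ((card_le_univ Γ).trans (by simp))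

theorem N_bd (o : Y.Ok) (τ σ : Ω → Ω) (Γ Δ : Finset Bool) : ∃ b, ∀ w, Y.N τ σ Γ Δ w ≤ b := by
  obtain ⟨b, h⟩ := o.bd
  refine ⟨b * ((b + 1) ^ 2 * (b + 1) ^ 2), fun w => ?_⟩
  have k : ∀ ρ, 0 ≤ (∏ b ∈ Γ, ∑' α, Y.la (bif b then τ w else w) ρ α) *
      ∏ b ∈ Δ, ∑' β, Y.ka (bif b then σ w else w) ρ β ∧
      (∏ b ∈ Γ, ∑' α, Y.la (bif b then τ w else w) ρ α) *
      ∏ b ∈ Δ, ∑' β, Y.ka (bif b then σ w else w) ρ β ≤ (b + 1) ^ 2 * (b + 1) ^ 2 := fun ρ => by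
    have a1 := prod_bd (b := b) (f := fun i => ∑' α, Y.la (bif i then τ w else w) ρ α)
      (fun i => ⟨tsum_nonneg (o.l0 _ _), ((h _).2 ρ).1.2⟩) Γ
    have a2 := prod_bd (b := b) (f := fun i => ∑' α, Y.ka (bif i then σ w else w) ρ α)
      (fun i => ⟨tsum_nonneg (o.k0 _ _), ((h _).2 ρ).2.2⟩) Δ
    exact ⟨mul_nonneg a1.1 a2.1, mul_le_mul a1.2 a2.2 a2.1 (by positivity)⟩
  have s1 := (h w).1.1.mul_right ((b + 1) ^ 2 * (b + 1) ^ 2)
  refine le_trans (Summable.tsum_le_tsum (fun ρ => mul_le_mul_of_nonneg_left (k ρ).2 (o.p0 w ρ))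
    (s1.of_nonneg_of_le (fun ρ => mul_nonneg (o.p0 w ρ) (k ρ).1)
      fun ρ => mul_le_mul_of_nonneg_left (k ρ).2 (o.p0 w ρ)) s1) ?_
  rw [tsum_mul_right]
  exact mul_le_mul_of_nonneg_right (h w).1.2 (by positivity)

theorem c_le (o : Y.Ok) (τ σ : Ω → Ω) (w : Ω) : ‖Y.c1.c w‖ ≤ Y.N τ σ {false} {false} w := by
  obtain ⟨b, h⟩ := o.bd
  have k : ∀ ρ, |∑' β, Y.ka w ρ β| ≤ b := fun ρ => by
    rw [abs_of_nonneg (tsum_nonneg (o.k0 _ _))]; exact ((h _).2 ρ).2.2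
  have e := Fb.ts2 (o.sa w) k
  simp only [Sys.N, prod_singleton, cond_false]
  rw [← e]
  have s : Summable fun e : R × A => Y.ϖ w e.1 * Y.la w e.1 e.2 * ∑' β, Y.ka w e.1 β :=
    ((o.sa w).mul_right b).of_nonneg_of_le
      (fun e => mul_nonneg (mul_nonneg (o.p0 _ _) (o.l0 _ _ _)) (tsum_nonneg (o.k0 _ _)))
      fun e => mul_le_mul_of_nonneg_left ((h _).2 _).2.2 (mul_nonneg (o.p0 _ _) (o.l0 _ _ _))
  refine tsum_of_norm_bounded s.hasSum fun e => ?_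
  have m := mul_nonneg (o.p0 w e.1) (o.l0 w e.1 e.2)
  rw [norm_mul, norm_mul, Complex.norm_real, Real.norm_of_nonneg (o.c1.m0 w e)]
  refine mul_le_mul_of_nonneg_left ?_ m
  exact (mul_le_mul (o.c1.a1 w e) (Fb.nrm (o.k0 w e.1) (o.sk w e.1) (o.c1.p1 w e))
    (norm_nonneg _) zero_le_one).trans_eq (one_mul _)

variable {L C : Type} [Fintype L] [DecidableEq L] [Fintype C] [DecidableEq C] {Q : ℕ}
  {U : TT L C} {x : L} {s : Bool → Fin Q → L} {τ : Fin Q → C → C} {σ : C → C}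

theorem dat_df (h : Sw U x s τ σ) (k : Fin Q) {F : Fm L C} (f : U.Dat (univ \ S1 s) {x} F) :
    U.Dat (univ \ S4 s k) {x} (df (τ k) F) := by
  have g : U.Dat univ {x} F := ⟨f.1.mono (subset_univ _), f.2⟩
  have g' := dat_pm (fun c => h.mem_τ k c fun b => h.nx b k)
    (fun c n => by rw [h.ty]; exact n.image _) g
  refine ⟨h.ty_df k f.1, fun ℓ l a b p p' e => ?_⟩
  have e1 := g.2 ℓ l a b p p' e
  have e2 := g'.2 ℓ l a b p p' e
  simp only [df] at *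
  rw [e1, e2]; ring

variable {s d : ℕ} {c : Hc s d}

theorem V_ge {ε0 : ℝ} (o : c.o.Ok ε0) {ε μ : ℝ} (e0 : 0 < ε) (h : 1 ≤ μ)
    (t : Br.Wd s (D1 c.o.Q c.j)) : min ε (1 / 2 ^ c.o.n) ≤ c.V1 ε μ t := by
  have a : min ε (1 / 2 ^ c.o.n) ≤
      if t.tr c.j.succ.succ = some c.o.Q then ε else c.V0 t := by
    split_ifs
    · exact min_le_left _ _
    · refine (min_le_right _ _).trans ((o.v t.lv (bl t.tr)).1.trans ?_)
      have v0 : 0 < c.o.g.v t.lv (bl t.tr) := lt_of_lt_of_le (by positivity) (o.v _ _).1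
      have := o.cp
      unfold Hc.V0
      split_ifs
      · exact le_div_self v0.le (by linarith [this.1]) this.2
      · simp
  exact a.trans (le_mul_of_one_le_left (le_trans (by positivity) a) h)

theorem Sx_eq (k : Fin c.o.Q) : c.Sx k univ univ = S4 c.sl k := by simp [Hc.Sx]
end Co9
open Co9

/-- **COR** -/
theorem cor {s d : ℕ} (fina : FINA) (dt : DT s d) (cut : CUT s d) (sok : SOK s d) (bld : BLD s d)
    (sta : STA s d) (mom : MOM s d) (gex : GEX s d) : COR s d := by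
  intro c ε0 h κ u m b R ε t H o fi fb R0 r1 r2 ov m1 m2 e0 t0 t1 t2 t3 u1 u2 u3 u4 u5 jz
  have xj : (0 : Lb d) ≠ c.j.succ := (Fin.succ_ne_zero _).symm
  obtain ⟨sw, rd⟩ := rft _ _ _ c.T c.j.succ 0 c.fn c.a1 c.a2 o.emb.ok fi xj
  have U := sw.s1.ok
  have vp : ∀ {μ : ℝ}, 1 ≤ μ → ∀ t, 0 < c.V1 ε μ t := fun h t =>
    lt_of_lt_of_le (by positivity) (V_ge o.o e0 h t)
  have hp : (1 / 2 : ℝ) ^ (25 * u ^ 5) ≤ 1 := pow_le_one₀ (by norm_num) (by norm_num)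
  have mo : ∀ k a {μ : ℝ} x r Γ Δ, 1 ≤ μ → r ≤ 10 * u ^ 6 →
      Mo c.U r ((c.sys k a b R (c.V1 ε μ) x).N (· ∘ c.τ k) (· ∘ c.σ) Γ Δ) := by
    intro k a μ x r Γ Δ hμ hr
    have ok := sok c ε0 h κ k a b R _ x o fb (vp hμ)
    obtain ⟨V', x', hV, e⟩ := mom c ε0 h κ k a b R _ x r Γ Δ o ok
    refine ⟨N_bd ok _ _ _ _, ?_⟩
    rw [funext e]
    have := jz k r (2 * r) (fun o n => decide (n / 2 = o)) Γ Δ V' x' (by omega) (by omega)
      fun t => by obtain ⟨t', e⟩ := hV t; rw [e]; exact V_ge o.o e0 hμ t'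
    linarith [(abs_le.1 this).2]
  have gs : ∀ (i : Fin c.o.Q × Fin c.o.D) x, Gs c.U c.sl c.tl c.τ c.σ i.1 (10 * u ^ 6)
      (c.sys i.1 i.2 b R (c.V1 ε 1) x) := fun i x =>
    bld c ε0 h κ i.1 i.2 b R _ x _ o (sok c ε0 h κ _ _ b R _ x o fb (vp le_rfl))
      fun Γ Δ => mo _ _ x _ Γ Δ le_rfl le_rfl
  have u6 : 1 ≤ 10 * u ^ 6 := by have := Nat.one_le_pow 6 u (by omega); omega
  obtain ⟨c1, c2, -⟩ := cut c ε0 h κ R o R0
  have m0 : (0 : ℝ) < m := by exact_mod_cast m2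
  obtain ⟨y, H', a1, a2, a3, a4⟩ := itr _ _ (Fin c.o.Q × Fin c.o.D) c.U c.S5 _
    (fun i x => (c.sys i.1 i.2 b R (c.V1 ε 1) x).c1.c)
    (fun i x => (c.sys i.1 i.2 b R (c.V1 ε 1) x).N (· ∘ c.τ i.1) (· ∘ c.σ) {false} {false})
    ({w | c.T.cor c.j.succ 0 w ∈ H} ∩ c.Cn R) (10 * u ^ 6) ((1 / 2) ^ (4 * c.o.n + 3)) (400 * m * t)
    U (fun y y' e k => ⟨rd H y y' e k.1, c1 y y' e k.2⟩) (by positivity)
    (pow_le_one₀ (by norm_num) (by norm_num)) (by positivity) u6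
    (fun i x => ⟨(gs i x).bc1, (gs i x).mo _ _, c_le (gs i x).ok _ _⟩)
    fun i H' a _ => sta c ε0 h κ i.1 i.2 b R ε t m H' o fb R0 r1 r2
      (fun w k => ⟨(a k).2, ov _ (a k).1⟩) m1 m2 e0 t0 t1 t2 t3 fun x => by
        have := (mo i.1 i.2 (μ := (m + 1) / m) x 1 {false} {false}
          ((one_le_div m0).2 (by linarith)) u6).2
        refine le_of_eq_of_le (congrArg _ (funext fun w => ?_)) this
        simp [Sys.N]
  refine tra4 ten _ _ _ _ c.U c.x c.sl c.tl c.τ _ c.σ _ _ _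
    (fun i => c.sys i.1 i.2 b R (c.V1 ε 1) (y i)) _ _ H' u sw (fun i => gs i _) u1 (by simpa using u2)
    (fun w k => (a1 k).1) a2 (u5.trans (le_trans ?_ a3))
    (fun w k i => le_trans ?_ (a4 w k i)) fun k a => ?_
  · have e : ((1 / 2 : ℝ) ^ (4 * c.o.n + 3) / 4) = (1 / 2) ^ (4 * c.o.n + 5) := by
      rw [pow_add _ _ 5, pow_add _ _ 3]; ring
    rw [e, Fintype.card_prod, Fintype.card_fin, Fintype.card_fin]
    have := U.pr_inter {w | c.T.cor c.j.succ 0 w ∈ H} (c.Cn R)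
    exact sub_le_sub_right (mul_le_mul_of_nonneg_left (by linarith) (by positivity)) _
  · have e : ((1 / 2 : ℝ) ^ (4 * c.o.n + 3) / 2) = (1 / 2) ^ (4 * c.o.n + 4) := by
      rw [pow_add _ _ 4, pow_add _ _ 3]; ring
    rw [e]
    exact pow_le_pow_of_le_one (by norm_num) (by norm_num) u3
  · obtain ⟨N, B, n1, n2, n3⟩ := gex c ε0 h κ k a b R _ (y (k, a)) o (gs (k, a) _).ok (vp le_rfl)
    have hx : c.x ∉ c.Sx k univ univ := by
      rw [Sx_eq]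
      exact fun q => by
        obtain ⟨k', e⟩ := Ft.mem_S1.1 (mem_of_mem_erase q)
        exact sw.s1.nx _ _ e
    have e : ∀ w n, c.mu (c.Sx k univ univ) w n = mq c.U _ c.x w n := fun w n =>
      dt c ε0 h κ _ w n o hx
    have da := dat_df sw.s1 k (rfr _ _ _ c.T c.j.succ 0 c.fn c.a1 c.a2 (c.F a) o.emb.ok xj
      (o.mor.pull (o.o.cx.dat a))).1
    rw [← Sx_eq] at da ⊢
    refine fina _ _ c.U _ c.x _ N _ u B U hx da u1 u4 n1 (by simpa only [e] using n2) fun r hr => ?_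
    obtain ⟨V', x', hV, e'⟩ := n3 r hr
    simp only [← e, e']
    exact jz k r 2 _ _ _ V' x' (by omega) (by omega)
      fun t => by obtain ⟨t', e⟩ := hV t; rw [e]; exact V_ge o.o e0 le_rfl t'

end Crest.Agent.N49.He

end
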