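import Crest.Agent.N49.He.Db
import Crest.Agent.N49.Sd.Insa

/-!
# Row 49 (helper67): products of Gaussian factors over triangular systems
-/

set_option autoImplicit false

open Finset Matrix

noncomputable section

namespace Crest.Agent.N49.He

open Po Tw Sd Ia

theorem ga_nonneg {δ V : ℝ} (h : 0 ≤ δ) (e : ℝ) : 0 ≤ ga δ V e := by unfold ga; positivity

theorem ga_pos {δ V : ℝ} (h : 0 < δ) (h' : 0 < V) (e : ℝ) : 0 < ga δ V e := by
  unfold ga; positivity

variable {J : Type} [Fintype J] [DecidableEq J]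

theorem prod_ga (δ V e : J → ℝ) : ∏ i, ga (δ i) (V i) (e i) =
    (∏ i, δ i / √(V i)) * gs (diagonal fun i => (V i)⁻¹) e := by
  simp only [ga, prod_mul_distrib, ← Real.exp_sum, gs, qf, dotProduct, mulVec_diagonal, mul_sum,
    sum_neg_distrib]
  congr 3
  exact sum_congr rfl fun i _ => by ring

/-- **triangular systems have uniformly bounded masses** -/
theorem tri_ga (lev : J → ℕ) (A : Matrix J J ℝ) (δ V : J → ℝ) (hA : A.det ≠ 0)
    (bA : ∀ i j, A i j ≠ 0 → lev i = lev j) (hδ : ∀ i, 0 ≤ δ i) (hV : ∀ i, 0 < V i) :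
    ∃ B : ℝ, ∀ u : (J → ℤ) → J → ℝ, (∀ y y' i, (∀ j, lev j < lev i → y j = y' j) →
      u y i - (A *ᵥ zc y) i = u y' i - (A *ᵥ zc y') i) →
      (Summable fun y => ∏ i, ga (δ i) (V i) (u y i)) ∧ ∑' y, ∏ i, ga (δ i) (V i) (u y i) ≤ B := by
  have kA : Rw.Blk lev A := fun c c' n => by_contra fun z => n (bA c c' z)
  have hD : (diagonal fun i => (V i)⁻¹).PosDef := .diagonal fun i => inv_pos.2 (hV i)
  have kD : Rw.Blk lev (diagonal fun i => (V i)⁻¹) := fun c c' n =>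
    diagonal_apply_ne _ fun e => n (e ▸ rfl)
  obtain ⟨B, h⟩ := Tl.bd (Po.posDef_conj hD (mulVec_injective_iff_isUnit.2
    ((isUnit_iff_isUnit_det _).2 hA.isUnit))) (blk_mul (blk_mul (blk_tr kA) kD) kA)
  have p : 0 ≤ ∏ i, δ i / √(V i) := prod_nonneg fun i _ => div_nonneg (hδ i) (Real.sqrt_nonneg _)
  refine ⟨(∏ i, δ i / √(V i)) * B, fun u hu => ?_⟩
  obtain ⟨s, t⟩ := h (fun y => -(A⁻¹ *ᵥ (u y - A *ᵥ zc y))) (fun y y' i e =>
    congrArg Neg.neg (mulVec_blk (blk_inv kA) fun k z => hu _ _ k fun j q => e j (q.trans_eq z))) 0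
  have e : ∀ y, gs (Aᵀ * diagonal (fun i => (V i)⁻¹) * A)
      (zc y - -(A⁻¹ *ᵥ (u y - A *ᵥ zc y)) - 0) = gs (diagonal fun i => (V i)⁻¹) (u y) := fun y => by
    rw [gs, gs, qf_conj, sub_zero, sub_neg_eq_add, mulVec_add, mulVec_mulVec,
      mul_nonsing_inv _ hA.isUnit, one_mulVec, add_sub_cancel]
  simp only [e] at s t
  simp only [prod_ga, tsum_mul_left]
  exact ⟨s.mul_left _, mul_le_mul_of_nonneg_left t p⟩

end Crest.Agent.N49.He

end
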