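import Crest.Agent.N49.He.Db
import Crest.Agent.N49.He.Loc
import Crest.Agent.N49.He.Gk

/-!
# Row 49 (helper89): hidden sums over cloned locations are products
-/

set_option autoImplicit false
set_option linter.unusedSectionVars false

open Finset

noncomputable section

namespace Crest.Agent.N49.He

open Po Tw Br Rm Rm.TT Ft Md Sd

namespace Pd

theorem tsum_nn {V : Type*} {f : V → ℝ} (h : ∀ v, 0 ≤ f v) :
    ∑' v, f v = (∑' v, ENNReal.ofReal (f v)).toReal := by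
  rw [ENNReal.tsum_toReal_eq fun _ => ENNReal.ofReal_ne_top]
  exact tsum_congr fun v => (ENNReal.toReal_ofReal (h v)).symm

/-- sums of nonnegative products -/
theorem tsum_pi {V : Type*} {I : Type} [Fintype I] (f : I → V → ℝ) (h : ∀ i v, 0 ≤ f i v) :
    ∑' v : I → V, ∏ i, f i (v i) = ∏ i, ∑' x, f i x := by
  rw [tsum_nn fun v => prod_nonneg fun i _ => h i _, prod_congr rfl fun i _ => tsum_nn (h i),
    ← ENNReal.toReal_prod, ← Ho.tsum_pi]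
  exact congrArg _ (tsum_congr fun v => ENNReal.ofReal_prod_of_nonneg fun i _ => h i _)

variable {s d : ℕ} (T : TS Unit) {D D1 : Finset (Pt (Fin (d + 2)))}

/-- rename the clones of a coordinate -/
def cp (f : Fin (d + 2) → ℕ → ℕ) (h : ∀ t ∈ D1, Br.cm f t ∈ D) (q : T.Cw (SD s D1)) :
    T.Cw (SD s D) :=
  ⟨(q.1.1, Br.pw f h q.1.2), by rw [← q.2, tw_cd, tw_cd]; rfl⟩

variable {T}

theorem cw_ext {q q' : T.Cw (SD s D)} (a : q.1.1 = q'.1.1) (b : Wd.tr q.1.2 = Wd.tr q'.1.2) :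
    q = q' := by
  have := q.2.trans (a ▸ q'.2.symm)
  rw [tw_cd, tw_cd] at this
  exact Subtype.ext (Prod.ext a (Wd.ext' (Finsupp.single_injective _ this) b))

theorem kw_cp (f : Fin (d + 2) → ℕ → ℕ) (h : ∀ t ∈ D1, Br.cm f t ∈ D) (q : T.Cw (SD s D1)) :
    kw (cp T f h q).1.2 ↔ kw q.1.2 := Option.map_eq_none_iff

theorem u_cp (hD : Dc D) (hD1 : Dc D1) (f : Fin (d + 2) → ℕ → ℕ) (h : ∀ t ∈ D1, Br.cm f t ∈ D)
    (y : T.Cw (SD s D) → ℝ) (c : T.Cw (SD s D1)) :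
    (T.sh (SD s D)).u y (cp T f h c) = (T.sh (SD s D1)).u (fun q => y (cp T f h q)) c :=
  u_loc hD hD1 rfl (bl_cm f _) fun _ _ a b b' e =>
    congrArg y (cw_ext a (b.eq (b'.cm f) (e.trans (bl_cm f _).symm)))

/-- **the product formula** -/
theorem hs_prod {I : Type} [Fintype I] (hD : Dc D) (hD1 : Dc D1) (f : I → Fin (d + 2) → ℕ → ℕ)
    (p : Fin (d + 2) → ℕ → ℕ) (hf : ∀ o, ∀ t ∈ D1, Br.cm (f o) t ∈ D) (hp : ∀ t ∈ D, Br.cm p t ∈ D1)
    (pf : ∀ o, ∀ t ∈ D1, Br.cm p (Br.cm (f o) t) = t)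
    (fp : ∀ t ∈ D, t 0 ≠ none → ∃ o, Br.cm (f o) (Br.cm p t) = t)
    (uq : ∀ o o' n, f o 0 n = f o' 0 n → o = o') {δ : T.C → ℝ} (hδ : ∀ F, 0 ≤ δ F)
    (V : Wd s D1 → ℝ) (x : T.Cw (SD s D1) → ℝ) (b : T.Cw (SD s D) → ℤ) :
    hs s T D δ (fun w => V (Br.pw p hp w)) (fun q => x (cp T p hp q)) b (fun _ => 1) =
      ∏ o, hs s T D1 δ V x (fun q => b (cp T (f o) (hf o) q)) fun _ => 1 := by
  classical
  have k1 : ∀ o (q : T.Cw (SD s D1)), cp T p hp (cp T (f o) (hf o) q) = q := fun o q =>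
    cw_ext rfl (pf o _ (Wd.mem _))
  let em : I × HW s T D1 → HW s T D := fun a =>
    ⟨cp T (f a.1) (hf a.1) a.2.1, fun k => a.2.2 ((kw_cp _ _ _).1 k)⟩
  have bij : Function.Bijective em := by
    constructor
    · rintro ⟨o, c⟩ ⟨o', c'⟩ e
      have e1 : cp T (f o) (hf o) c.1 = cp T (f o') (hf o') c'.1 := congrArg Subtype.val e
      obtain rfl : c = c' := Subtype.ext ((k1 o _).symm.trans (e1 ▸ k1 o' _))
      obtain ⟨n, hn⟩ := Option.ne_none_iff_exists'.1 c.2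
      have e2 : Br.cm (f o) (Wd.tr c.1.1.2) 0 = Br.cm (f o') (Wd.tr c.1.1.2) 0 :=
        congrArg (fun q : T.Cw (SD s D) => Wd.tr q.1.2 0) e1
      simp only [Br.cm, hn, Option.map_some, Option.some.injEq] at e2
      rw [uq _ _ _ e2]
    · intro c
      obtain ⟨o, ho⟩ := fp _ (Wd.mem c.1.1.2) c.2
      exact ⟨(o, ⟨cp T p hp c.1, fun k => c.2 ((kw_cp _ _ _).1 k)⟩), Subtype.ext (cw_ext rfl ho)⟩
  let E := Equiv.ofBijective em bij
  let Z : (I → HW s T D1 → ℤ) ≃ (HW s T D → ℤ) :=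
    (Equiv.curry _ _ _).symm.trans (E.arrowCongr (Equiv.refl ℤ))
  have hZ : ∀ z o c, Z z (em (o, c)) = z o c := fun z o c =>
    congrArg (Function.uncurry z) (E.symm_apply_apply (o, c))
  simp only [hs, mul_one]
  rw [← tsum_pi _ fun o z => prod_nonneg fun c _ => ga_nonneg (hδ _) _, ← Z.tsum_eq]
  refine tsum_congr fun z => ?_
  rw [← E.prod_comp, Fintype.prod_prod_type]
  refine prod_congr rfl fun o _ => prod_congr rfl fun c _ => ?_
  have a1 : (T.sh (SD s D)).u (zc (Sd.gl T (SD s D) (fun w => ¬ kw w) (Z z) b))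
      (cp T (f o) (hf o) c.1) = (T.sh (SD s D1)).u (zc (Sd.gl T (SD s D1) (fun w => ¬ kw w) (z o)
        fun q => b (cp T (f o) (hf o) q))) c.1 := by
    rw [u_cp hD hD1]
    refine congrArg (fun y => (T.sh (SD s D1)).u y c.1) (funext fun q => congrArg Int.cast ?_)
    by_cases k : kw q.1.2
    · simp only [Sd.gl, glue, dif_neg (not_not.2 ((kw_cp (f o) (hf o) q).2 k)), dif_neg (not_not.2 k)]
    · simp only [Sd.gl, glue, dif_pos fun k' => k ((kw_cp (f o) (hf o) q).1 k'), dif_pos k]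
      exact hZ z o ⟨q, k⟩
  have a2 : Br.pw p hp (cp T (f o) (hf o) c.1).1.2 = c.1.1.2 :=
    congrArg (fun q : T.Cw (SD s D1) => q.1.2) (k1 o c.1)
  exact congr (congrArg (ga _) (congrArg V a2)) (congrArg₂ (· - ·) a1 (congrArg x (k1 o c.1)))

variable {Q k r r' : ℕ} {j : Fin d} {al : ℕ → ℕ → Bool} {Γ Δ : Finset Bool}

theorem mem_DD {t : Pt (Fin (d + 2))} : t ∈ DD Q j k r r' al Γ Δ ↔
    (∀ i a, t i = some a → a < qq Q j r r' (2 * (Q + 1)) i) ∧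
    (∀ o n, t 0 = some o → t 1 = some n → al o n) ∧
    ∀ n, t j.succ.succ = some n → cb Q n ∈ if n % (Q + 1) = k then Γ else Δ := by
  simp only [DD, mem_filter, Ho.mem_grid]

theorem dc_DD : Dc (DD Q j k r r' al Γ Δ) := fun t h w l => by
  have e : ∀ i a, w i = some a → t i = some a := fun i a k => k ▸ (l i (by simp [k])).symm
  rw [mem_DD] at h ⊢
  exact ⟨fun i a k => h.1 i a (e i a k), fun o n a b => h.2.1 o n (e _ _ a) (e _ _ b),
    fun n a => h.2.2 n (e _ _ a)⟩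

theorem ne1 (j : Fin d) : j.succ.succ ≠ 1 := fun e => Fin.succ_ne_zero _ (Fin.succ_injective _ e)

/-- rename the location and the directions -/
def rn (a : ℕ) (g : ℕ → ℕ) (i : Fin (d + 2)) (n : ℕ) : ℕ :=
  if i = 0 then a else if i = 1 then g n else n

theorem rn0 (a : ℕ) (g : ℕ → ℕ) (t : Pt (Fin (d + 2))) :
    Br.cm (rn a g) t 0 = (t 0).map fun _ => a := rfl
theorem rn1 (a : ℕ) (g : ℕ → ℕ) (t : Pt (Fin (d + 2))) : Br.cm (rn a g) t 1 = (t 1).map g := by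
  simp only [Br.cm]; congr 1
theorem rn2 (a : ℕ) (g : ℕ → ℕ) (t : Pt (Fin (d + 2))) {i : Fin (d + 2)} (h : i ≠ 0) (h' : i ≠ 1) :
    Br.cm (rn a g) t i = t i := by
  rw [Br.cm, show rn a g i = id from funext fun n => by simp [rn, h, h']]; simp

theorem rn_mem {r1 r1' : ℕ} {al1 : ℕ → ℕ → Bool} {a : ℕ} {g : ℕ → ℕ} (ha : 0 < r1 → a < r)
    (hg : ∀ n < r1', g n < r' ∧ al a (g n)) : ∀ t ∈ DD Q j k r1 r1' al1 Γ Δ,
    Br.cm (rn a g) t ∈ DD Q j k r r' al Γ Δ := fun t h => by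
  rw [mem_DD] at h ⊢
  have h1 : ∀ n, Br.cm (rn a g) t 1 = some n → n < r' ∧ al a n := fun n e => by
    obtain ⟨m, hm, rfl⟩ := Option.map_eq_some_iff.1 (rn1 a g t ▸ e)
    exact hg m (by simpa [qq] using h.1 1 m hm)
  have h0 : ∀ n, Br.cm (rn a g) t 0 = some n → n = a ∧ a < r := fun n e => by
    obtain ⟨m, hm, rfl⟩ := Option.map_eq_some_iff.1 (rn0 a g t ▸ e)
    exact ⟨rfl, ha (Nat.zero_lt_of_lt (by simpa [qq] using h.1 0 m hm))⟩
  refine ⟨fun i n e => ?_, fun o n e e' => (h0 o e).1 ▸ (h1 n e').2, fun n e => h.2.2 n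
    (rn2 a g t (Fin.succ_ne_zero _) (ne1 j) ▸ e)⟩
  by_cases a0 : i = 0
  · subst a0; simpa [qq, (h0 n e).1] using (h0 n e).2
  by_cases a1 : i = 1
  · subst a1; simpa [qq] using (h1 n e).1
  simpa [qq, a0, a1] using h.1 i n (rn2 a g t a0 a1 ▸ e)

theorem rn_rn {a b : ℕ} {g g' : ℕ → ℕ} {t : Pt (Fin (d + 2))} (h0 : ∀ n, t 0 = some n → a = n)
    (h1 : ∀ n, t 1 = some n → g (g' n) = n) : Br.cm (rn a g) (Br.cm (rn b g') t) = t := funext fun i => by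
  by_cases a0 : i = 0
  · subst a0
    rw [rn0, rn0]
    cases e : t 0 with
    | none => rfl
    | some n => rw [h0 n e]; rfl
  by_cases a1 : i = 1
  · subst a1
    rw [rn1, rn1]
    cases e : t 1 with
    | none => rfl
    | some n => exact congrArg some (h1 n e)
  rw [rn2 _ _ _ a0 a1, rn2 _ _ _ a0 a1]

theorem lA_rn (a : ℕ) (g : ℕ → ℕ) (t : Pt (Fin (d + 2))) (e : Option ℕ) :
    lA Q j (Br.cm (rn a g) t) e = lA Q j t e := by
  refine filter_congr fun x _ => ?_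
  have h0 : (Br.gl x).1 ≠ 0 := Fin.succ_ne_zero _
  generalize (Br.gl x).1 = i at h0
  by_cases a2 : i = j.succ.succ
  · subst a2; simp
  by_cases a1 : i = 1
  · subst a1; simp [Function.update_of_ne a2, rn1, Function.comp_def]
  simp [Function.update_of_ne a2, Function.update_of_ne a1, rn2 a g t h0 a1]

variable (Q j k r r' al Γ Δ) in
/-- the projection to one location and two directions -/
theorem pj_mem : ∀ t ∈ DD Q j k r r' al Γ Δ,
    Br.cm (rn 0 (· % 2)) t ∈ DD Q j k 1 2 (fun _ _ => true) Γ Δ :=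
  rn_mem (fun _ => one_pos) fun n _ => ⟨Nat.mod_lt n two_pos, rfl⟩

end Pd

open Pd

namespace Hc
variable {s d : ℕ} (c : Hc s d) (k : Fin c.o.Q) (r r' : ℕ) (al : ℕ → ℕ → Bool) (Γ Δ : Finset Bool)

/-- the ring of one location -/
abbrev DO : Finset (Pt (Fin (d + 2))) := DD c.o.Q c.j k 1 2 (fun _ _ => true) Γ Δ

/-- the cloned variances -/
def Vc (V : Br.Wd s (c.DO k Γ Δ) → ℝ) (w : Br.Wd s (DD c.o.Q c.j k r r' al Γ Δ)) : ℝ :=
  V (Br.pw _ (pj_mem c.o.Q k r r' c.j al Γ Δ) w)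
/-- the cloned offsets -/
def xc (x : c.P.Cw (SD s (c.DO k Γ Δ)) → ℝ) (q : c.P.Cw (SD s (DD c.o.Q c.j k r r' al Γ Δ))) : ℝ :=
  x (cp c.P _ (pj_mem c.o.Q k r r' c.j al Γ Δ) q)

variable {c k r r' al Γ Δ}

theorem bg_cp {D D1 : Finset (Pt (Fin (d + 2)))} {a : ℕ} {g : ℕ → ℕ}
    (h : ∀ t ∈ D1, Br.cm (rn a g) t ∈ D) (k : ℕ) (w : c.CU → ℤ) {v v' : ℕ → c.CU → ℤ}
    (q : c.P.Cw (SD s D1)) (hv : ∀ n, Br.Wd.tr q.1.2 1 = some n → v (g n) = v' n) :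
    c.bg k w v (cp c.P _ h q) = c.bg k w v' q := by
  have e1 : c.pp w v (Br.cm (rn a g) (Br.Wd.tr q.1.2)) = c.pp w v' (Br.Wd.tr q.1.2) := by
    rw [pp, pp, rn1]
    cases e : Br.Wd.tr q.1.2 1 with
    | none => rfl
    | some n => exact congrArg (fun z => co (pt c.U c.x w z)) (hv n e)
  have e2 : Br.Wd.tr (cp c.P _ h q).1.2 = Br.cm (rn a g) (Br.Wd.tr q.1.2) := rfl
  have e3 : (cp c.P _ h q).1.1 = q.1.1 := rfl
  simp only [bg, e2, e3, e1, r0, rx, lA_rn, rn2 a g _ (Fin.succ_ne_zero _) (ne1 c.j)]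

/-- **cloned locations**: the location `o` sees the directions `g o 0`, `g o 1` -/
theorem hs_prod (hδ : ∀ F, 0 ≤ c.δ F) (g : Fin r → ℕ → ℕ)
    (hg : ∀ o, ∀ i < 2, g o i < r' ∧ al o (g o i) ∧ g o i % 2 = i)
    (ha : ∀ (o : Fin r) n, n < r' → al o n → g o (n % 2) = n) (V : Br.Wd s (c.DO k Γ Δ) → ℝ)
    (x : c.P.Cw (SD s (c.DO k Γ Δ)) → ℝ) (w : c.CU → ℤ) (v : ℕ → c.CU → ℤ)
    (v' : Fin r → ℕ → c.CU → ℤ) (hv : ∀ o, ∀ i < 2, v (g o i) = v' o i) :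
    hs s c.P _ c.δ (c.Vc k r r' al Γ Δ V) (c.xc k r r' al Γ Δ x) (c.bg k w v) (fun _ => 1) =
      ∏ o, hs s c.P _ c.δ V x (c.bg k w (v' o)) fun _ => 1 := by
  have hf : ∀ o : Fin r, ∀ t ∈ c.DO k Γ Δ, Br.cm (rn o (g o)) t ∈ DD c.o.Q c.j k r r' al Γ Δ :=
    fun o => rn_mem (fun _ => o.2) fun n hn => ⟨(hg o n hn).1, (hg o n hn).2.1⟩
  have l1 : ∀ t ∈ c.DO k Γ Δ, ∀ n, t 1 = some n → n < 2 := fun t h n e => by
    simpa [qq] using (mem_DD.1 h).1 1 n e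
  have a1 : ∀ o : Fin r, ∀ t ∈ c.DO k Γ Δ, Br.cm (rn 0 (· % 2)) (Br.cm (rn o (g o)) t) = t :=
    fun o t h => rn_rn (fun n e => by
      have : n < 1 := by simpa [qq] using (mem_DD.1 h).1 0 n e
      omega) fun n e => (hg o n (l1 t h n e)).2.2
  have a2 : ∀ t ∈ DD c.o.Q c.j k r r' al Γ Δ, t 0 ≠ none →
      ∃ o : Fin r, Br.cm (rn o (g o)) (Br.cm (rn 0 (· % 2)) t) = t := fun t h e => by
    obtain ⟨o, ho⟩ := Option.ne_none_iff_exists'.1 e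
    rw [mem_DD] at h
    exact ⟨⟨o, by simpa [qq] using h.1 0 o ho⟩, rn_rn (fun n e => Option.some.inj (ho ▸ e))
      fun n e => ha _ n (by simpa [qq] using h.1 1 n e) (h.2.1 o n ho e)⟩
  have a3 : ∀ o : Fin r, (fun q => c.bg k w v (cp c.P _ (hf o) q)) = c.bg k w (v' o) := fun o =>
    funext fun q => bg_cp (hf o) k w q fun n e => hv o n (l1 _ (Wd.mem _) n e)
  have := Pd.hs_prod (T := c.P) dc_DD dc_DD (fun o : Fin r => rn o (g o)) _ hf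
    (pj_mem c.o.Q k r r' c.j al Γ Δ) a1 a2 (fun o o' n e => Fin.ext e) hδ V x (c.bg k w v)
  simp only [a3] at this
  exact this

/-- the square of the normaliser -/
theorem hs_sq (hδ : ∀ F, 0 ≤ c.δ F) (V : Br.Wd s (c.DO k Γ Δ) → ℝ)
    (x : c.P.Cw (SD s (c.DO k Γ Δ)) → ℝ) (w : c.CU → ℤ) (v : ℕ → c.CU → ℤ) (r : ℕ) :
    hs s c.P _ c.δ (c.Vc k r 2 (fun _ _ => true) Γ Δ V) (c.xc k r 2 (fun _ _ => true) Γ Δ x)
      (c.bg k w v) (fun _ => 1) = hs s c.P _ c.δ V x (c.bg k w v) (fun _ => 1) ^ r := by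
  rw [hs_prod hδ (fun _ i => i) (fun _ i h => ⟨h, rfl, Nat.mod_eq_of_lt h⟩)
    (fun _ n h _ => Nat.mod_eq_of_lt h) V x w v (fun _ => v) fun _ _ _ => rfl]
  simp

theorem hs_nonneg {D : Finset (Pt (Fin (d + 2)))} (hδ : ∀ F, 0 ≤ c.δ F) (V : Br.Wd s D → ℝ)
    (x : c.P.Cw (SD s D) → ℝ) (b : c.P.Cw (SD s D) → ℤ) : 0 ≤ hs s c.P D c.δ V x b fun _ => 1 :=
  tsum_nonneg fun _ => mul_nonneg (prod_nonneg fun _ _ => ga_nonneg (hδ _) _) zero_le_one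

theorem lu_nonneg (hl : ∀ w, 0 ≤ c.lam w) : ∀ y, 0 ≤ c.lu y
  | .inl y => hl y
  | .inr _ => mul_nonneg (by positivity) (hl _)

theorem mu_nonneg (hl : ∀ w, 0 ≤ c.lam w) (S : Finset c.L) (w : c.CU → ℤ) (n : c.XW S → ℤ) :
    0 ≤ c.mu S w n := prod_nonneg fun _ _ => ga_nonneg (lu_nonneg hl _) _

/-- **the moments of the total mass** -/
theorem tm_pow (hδ : ∀ F, 0 ≤ c.δ F) (hl : ∀ w, 0 ≤ c.lam w) (ha : ∀ o n, al o n ↔ n / 2 = o)
    (V : Br.Wd s (c.DO k Γ Δ) → ℝ) (x : c.P.Cw (SD s (c.DO k Γ Δ)) → ℝ) (w : c.CU → ℤ) :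
    c.tm k 1 2 (fun _ _ => true) Γ Δ V x w ^ r =
      c.tm k r (2 * r) al Γ Δ (c.Vc k r _ al Γ Δ V) (c.xc k r _ al Γ Δ x) w := by
  let E : Fin r × Fin 2 ≃ Fin (2 * r) := finProdFinEquiv.trans (finCongr (mul_comm _ _))
  have hE : ∀ o i, (E (o, i) : ℕ) = i + 2 * o := fun _ _ => rfl
  let Z : (Fin r → Fin 2 → c.XW (c.Sx k Γ Δ) → ℤ) ≃ (Fin (2 * r) → c.XW (c.Sx k Γ Δ) → ℤ) :=
    (Equiv.curry _ _ _).symm.trans (E.arrowCongr (Equiv.refl _))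
  have hZ : ∀ z o i, Z z (E (o, i)) = z o i := fun z o i =>
    congrArg (Function.uncurry z) (E.symm_apply_apply (o, i))
  rw [← Fin.prod_const, tm, tm, ← tsum_pi _ fun _ n => mul_nonneg
    (prod_nonneg fun _ _ => mu_nonneg hl _ _ _) (hs_nonneg hδ _ _ _), ← Z.tsum_eq]
  refine tsum_congr fun z => ?_
  rw [prod_mul_distrib, ← E.prod_comp, Fintype.prod_prod_type]
  simp only [hZ]
  refine congrArg _ (hs_prod hδ (fun o i => i + 2 * o) (fun o i h => ⟨by omega, (ha _ _).2 (by omega),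
    by omega⟩) (fun o n _ h => by have := (ha _ _).1 h; omega) V x w _ _ fun o i h => ?_).symm
  have l : i + 2 * (o : ℕ) < 2 * r := by omega
  rw [vs, vs, dif_pos l, dif_pos h, ← hZ z o ⟨i, h⟩]
  rfl
end Hc

end Crest.Agent.N49.He

end
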