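import Crest.Agent.N49.He.Cpy
import Crest.Agent.N49.He.Sk0
import Crest.Agent.N49.He.Prd

/-!
# Row 49 (helper51): the factors of a system seen in the ring with copies
-/

set_option autoImplicit false

open Finset Matrix

noncomputable section

namespace Crest.Agent.N49.He

open Po Tw Br Rm Rm.TT Ft Md Sd

namespace Hc
variable {s d : ℕ} (c : Hc s d) (k : Fin c.o.Q)

/-- the class of a word of the rectangle -/
def cu (z : c.CU) : Fin 3 :=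
  if c.sl false k ∈ c.U.ty z then 1 else if c.tl false 0 ∈ c.U.ty z then 2 else 0
/-- the class of a word of the ring -/
def cw (t : Pt (Fin (d + 2))) : Fin 3 := (t c.j.succ.succ).elim 0 fun n => if n = k then 1 else 2
/-- the words seen by the class `i` -/
def Sn (i : Fin 3) (z : c.CU) : Prop := Disjoint (c.U.ty z) c.S5 ∧ (c.cu k z = 0 ∨ c.cu k z = i)
/-- the lift of the clones -/
def lf (b1 b2 : Bool) (i : Fin (d + 2)) (n : ℕ) : ℕ :=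
  if i = c.j.succ.succ then He.cp c.o.Q k b1 b2 n else n

variable {c k} {b1 b2 : Bool} {ε : ℝ} {h κ : ℕ}

theorem cls_il (z : Fin 2 × c.XW c.S5) : c.cls k (.inl z) = c.cu k z.2.1 := rfl
theorem cls_ir (z : HW s c.P (D1 c.o.Q c.j)) : c.cls k (.inr z) = c.cw k (Br.Wd.tr z.1.1.2) := rfl

theorem sn_inl (i : Fin 3) (a : c.C) : c.Sn k i (.inl a) :=
  ⟨Rt.dis5 fun _ => ⟨nofun, nofun⟩, .inl ((if_neg fun m => (Rs.mem_sl.1 m).elim fun _ e =>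
    Sum.inl_ne_inr e.1).trans (if_neg fun m => (Rt.mem_tl.1 m).elim fun _ e => Sum.inl_ne_inr e))⟩

theorem cu_0 (a : c.T.Bl c.j.succ) : c.cu k (.inr (a, 0)) = if c.fn a.1 = k then 1 else 0 := by
  by_cases e : c.fn a.1 = k
  · exact (if_pos (Rs.mem_sl.2 ⟨a, rfl, e⟩)).trans (if_pos e).symm
  · have n1 : c.sl false k ∉ c.U.ty (.inr (a, 0)) := fun m => by
      obtain ⟨_, f, g⟩ := Rs.mem_sl.1 m; cases f; exact e g
    have n2 : c.tl false 0 ∉ c.U.ty (.inr (a, 0)) := fun m => by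
      obtain ⟨_, f⟩ := Rt.mem_tl.1 m; cases f
    rw [cu, if_neg n1, if_neg n2, if_neg e]

theorem cu_2 (a : c.T.Bl c.j.succ) : c.cu k (.inr (a, 2)) = 2 := by
  have n1 : c.sl false k ∉ c.U.ty (.inr (a, 2)) := fun m => by
    obtain ⟨_, f, -⟩ := Rs.mem_sl.1 m; cases f
  exact (if_neg n1).trans (if_pos (Rt.mem_tl.2 ⟨a, rfl⟩))

theorem dis_0 (a : c.T.Bl c.j.succ) : Disjoint (c.U.ty (.inr (a, 0))) c.S5 :=
  Rt.dis5 fun _ => ⟨nofun, nofun⟩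
theorem dis_2 (a : c.T.Bl c.j.succ) : Disjoint (c.U.ty (.inr (a, 2))) c.S5 :=
  Rt.dis5 fun _ => ⟨nofun, nofun⟩

theorem Sn.sub (o : c.Ok ε h κ) {i : Fin 3} {z z' : c.CU} (a : c.Sn k i z)
    (e : c.U.ty z' ⊆ c.U.ty z) : c.Sn k i z' := by
  refine ⟨a.1.mono_left e, ?_⟩
  by_cases m : c.sl false k ∈ c.U.ty z'
  · rw [show c.cu k z' = c.cu k z from (if_pos m).trans (if_pos (e m)).symm]; exact a.2
  by_cases m' : c.tl false 0 ∈ c.U.ty z'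
  · rw [show c.cu k z' = c.cu k z from ((if_neg m).trans (if_pos m')).trans
      ((if_neg fun n => o.sw2.dis _ _ _ _ n (e m')).trans (if_pos (e m'))).symm]; exact a.2
  · exact .inl ((if_neg m).trans (if_neg m'))

theorem cw_le {t t' : Pt (Fin (d + 2))} (e : Le t' t) : c.cw k t' = 0 ∨ c.cw k t' = c.cw k t := by
  by_cases m : t' c.j.succ.succ = none
  · exact .inl (by rw [cw, m]; rfl)
  · exact .inr (by rw [cw, cw, e _ m])

/-- the errors of the directions are local -/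
theorem Φ_sn (o : c.Ok ε h κ) {i : Fin 3} {z : c.CU} (a : c.Sn k i z) (m : c.x ∈ c.U.ty z)
    {p p' : c.CU ⊕ c.L → ℝ} (e : ∀ y, c.Sn k i y → p (.inl y) = p' (.inl y))
    (e' : ∀ ℓ, p (.inr ℓ) = p' (.inr ℓ)) : c.U.Φ p z = c.U.Φ p' z :=
  (o.U.dat z ⟨_, m⟩).1 _ _ fun v b _ => by
    rcases v with v | v
    exacts [e v (a.sub o b), e' v]

/-- **the backgrounds are local** -/
theorem bg_sn (o : c.Ok ε h κ) {D : Finset (Pt (Fin (d + 2)))} (y : c.P.Cw (SD s D))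
    (h4 : ∀ n, Br.Wd.tr y.1.2 c.j.succ.succ = some n → n ≤ c.o.Q) {w w' : c.CU → ℤ}
    {v v' : ℕ → c.CU → ℤ} (e : ∀ z, c.Sn k (c.cw k (Br.Wd.tr y.1.2)) z →
      pt c.U c.x w ((Br.Wd.tr y.1.2 1).elim 0 v) (.inl z) =
        pt c.U c.x w' ((Br.Wd.tr y.1.2 1).elim 0 v') (.inl z)) :
    c.bg k w v y = c.bg k w' v' y := by
  have r0 : ∀ F t n, c.r0 (c.pp w v (Br.Wd.tr y.1.2)) F t n =
      c.r0 (c.pp w' v' (Br.Wd.tr y.1.2)) F t n := fun F t n =>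
    o.rd_loc _ _ (fun a _ => e _ (sn_inl _ a.1)) fun _ _ => rfl
  have rx : ∀ l F t n, (∀ a : c.T.Bl c.j.succ, (c.fn a.1 : ℕ) = n →
      c.Sn k (c.cw k (Br.Wd.tr y.1.2)) (.inr (a, l))) → c.rx (c.pp w v (Br.Wd.tr y.1.2)) l F t n =
      c.rx (c.pp w' v' (Br.Wd.tr y.1.2)) l F t n := fun l F t n f =>
    o.rd_loc _ _ (fun a b => by
      by_cases m : c.j.succ ∈ c.T.ty a.1
      · simp only [px, dif_pos m]
        exact e _ (f ⟨_, m⟩ (o.fn_eq m b))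
      · simp only [px, dif_neg m]
        exact e _ (sn_inl _ a.1)) fun _ _ => rfl
  unfold bg
  dsimp only
  rcases f : Br.Wd.tr y.1.2 c.j.succ.succ with _ | n
  · exact r0 _ _ _
  have n1 := h4 n f
  simp only [Option.elim_some, cb_le n1, Nat.mod_eq_of_lt (Nat.lt_succ_of_le n1), cond_false, r0]
  by_cases a : n = k
  · rw [if_pos a, if_pos a, rx 0 _ _ _ fun b g => ⟨dis_0 b, .inr (by
      rw [cu_0, if_pos (Fin.ext g), cw, f, Option.elim_some, if_pos a])⟩]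
  have r2 : ∀ F t n, c.rx (c.pp w v (Br.Wd.tr y.1.2)) 2 F t n =
      c.rx (c.pp w' v' (Br.Wd.tr y.1.2)) 2 F t n := fun F t n => rx 2 F t n fun b _ =>
    ⟨dis_2 b, .inr (by rw [cu_2, cw, f, Option.elim_some, if_neg a])⟩
  rw [if_neg a, if_neg a, r2, r2, rx 0 _ _ n fun b g => ⟨dis_0 b, .inl (by
    rw [cu_0, if_neg fun m => a (g.symm.trans (congrArg _ m))])⟩]

theorem Sn.le {i i' : Fin 3} {z : c.CU} (a : c.Sn k i' z) (e : i' = 0 ∨ i' = i) : c.Sn k i z :=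
  ⟨a.1, a.2.elim .inl fun f => e.imp f.trans f.trans⟩

theorem d1_le {t : Pt (Fin (d + 2))} (m : t ∈ D1 c.o.Q c.j) :
    (∀ n, t c.j.succ.succ = some n → n ≤ c.o.Q) ∧ ∀ n, t 1 = some n → n < 2 :=
  ⟨fun n e => by
    simpa [qq, Pd.ne1, Fin.succ_ne_zero, Nat.lt_succ_iff] using Ho.mem_grid.1 m _ n e,
    fun n e => by simpa [qq] using Ho.mem_grid.1 m _ n e⟩

theorem lf_j (t : Pt (Fin (d + 2))) : Br.cm (c.lf k b1 b2) t c.j.succ.succ =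
    (t c.j.succ.succ).map (He.cp c.o.Q k b1 b2) :=
  congrArg (Option.map · _) (funext fun _ => if_pos rfl)

theorem lf_ne (t : Pt (Fin (d + 2))) {i : Fin (d + 2)} (e : i ≠ c.j.succ.succ) :
    Br.cm (c.lf k b1 b2) t i = t i :=
  (congrArg (Option.map · _) (funext fun _ => if_neg e)).trans Option.map_id'

section
variable (o : c.Ok ε h κ) {i : Fin 3} {w : c.CU → ℤ} {v : ℕ → c.CU → ℤ} {y : c.E → ℤ}
  (hx : ∀ (l : Fin 2) (a : c.XW c.S5), c.cu k a.1 = 0 ∨ c.cu k a.1 = i →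
    v l (c.th k b1 b2 a.1) = y (.inl (l, a)))
include hx

theorem pt_sn (l : Fin 2) {z : c.CU} (a : c.Sn k i z) :
    pt c.U c.x (w ∘ c.th k b1 b2) (c.vy y l) (.inl z) =
      pt c.U c.x (w ∘ c.th k b1 b2) (v l ∘ c.th k b1 b2) (.inl z) := by
  by_cases m : c.x ∈ c.U.ty z
  · have b : c.x ∈ (c.U.dls c.S5).ty z := xw_iff.2 ⟨a.1, m⟩
    rw [vy_eq]
    refine (pt_ex _ _ ⟨z, b⟩).trans ?_
    simp only [pt, jr, dif_pos m]
    exact congrArg Int.cast (hx l ⟨z, b⟩ a.2).symm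
  · simp only [pt, jr, dif_neg m]

include o

/-- **the factor of a direction** -/
theorem ed_th (l : Fin 2) (a : c.XW c.S5) (m : c.cu k a.1 = 0 ∨ c.cu k a.1 = i) :
    c.ed (w ∘ c.th k b1 b2) y (l, a) = c.U.Φ (pt c.U c.x w (v l)) (c.th k b1 b2 a.1) :=
  (Φ_sn o ⟨(xw_iff.1 a.2).1, m⟩ (xw_iff.1 a.2).2 (fun _ b => pt_sn hx l b) fun _ => rfl).trans
    (Φ_th o.sw2 w (v l) a.1)

theorem om_inl (V x) (l : Fin 2) (a : c.XW c.S5) (m : c.cu k a.1 = 0 ∨ c.cu k a.1 = i) :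
    c.om k V x (w ∘ c.th k b1 b2) y (.inl (l, a)) = ga (c.lu (c.th k b1 b2 a.1)) 1
      (c.U.Φ (pt c.U c.x w (v l)) (c.th k b1 b2 a.1)) := by
  rw [lu_th, ← ed_th o hx l a m]; rfl

/-- the kept words -/
theorem bg_lf {D : Finset (Pt (Fin (d + 2)))} {q : c.P.Cw (SD s (D1 c.o.Q c.j))}
    {q' : c.P.Cw (SD s D)} (hF : q'.1.1 = q.1.1)
    (ht : Br.Wd.tr q'.1.2 = Br.cm (c.lf k b1 b2) (Br.Wd.tr q.1.2))
    (m : c.cw k (Br.Wd.tr q.1.2) = 0 ∨ c.cw k (Br.Wd.tr q.1.2) = i) :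
    c.bg k (w ∘ c.th k b1 b2) (c.vy y) q = c.bg k w v q' := by
  have b := d1_le (c := c) (Br.Wd.mem q.1.2)
  rw [bg_th (b1 := b1) (b2 := b2) o w v id hF (by rw [ht, lf_ne _ (Pd.ne1 _).symm]; simp)
    (fun i _ _ e => by rw [ht, lf_ne _ e]) (by rw [ht, lf_j]) b.1]
  refine bg_sn o q b.1 fun z a => ?_
  rcases e : Br.Wd.tr q.1.2 1 with _ | n
  · rfl
  · exact pt_sn hx ⟨n, b.2 n e⟩ (a.le m)

variable {D : Finset (Pt (Fin (d + 2)))} (hD : Dc D) {z : HW s c.P D → ℤ}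
  (hz : ∀ (a : HW s c.P (D1 c.o.Q c.j)) (a' : HW s c.P D), a'.1.1.1 = a.1.1.1 →
    Br.Wd.tr a'.1.1.2 = Br.cm (c.lf k b1 b2) (Br.Wd.tr a.1.1.2) →
    c.cw k (Br.Wd.tr a.1.1.2) = 0 ∨ c.cw k (Br.Wd.tr a.1.1.2) = i → z a' = y (.inr a))
include hD hz

/-- **the error of a hidden word** -/
theorem u_lf {a : c.P.Cw (SD s (D1 c.o.Q c.j))} {a' : c.P.Cw (SD s D)} (hF : a'.1.1 = a.1.1)
    (ht : Br.Wd.tr a'.1.2 = Br.cm (c.lf k b1 b2) (Br.Wd.tr a.1.2))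
    (m : c.cw k (Br.Wd.tr a.1.2) = 0 ∨ c.cw k (Br.Wd.tr a.1.2) = i) :
    (c.P.sh _).u (zc (c.cy k (w ∘ c.th k b1 b2) y)) a =
      (c.P.sh (SD s D)).u (zc (Sd.gl c.P (SD s D) (fun w => ¬ kw w) z (c.bg k w v))) a' := by
  refine u_loc (dc_grid _) hD hF.symm ((bl_cm _ _).symm.trans (congrArg Br.bl ht).symm)
    fun q q' e b b' f => ?_
  have t : Br.Wd.tr q'.1.2 = Br.cm (c.lf k b1 b2) (Br.Wd.tr q.1.2) :=
    (ht ▸ b').eq (b.cm _) (f.symm.trans (bl_cm _ _).symm)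
  have m' : c.cw k (Br.Wd.tr q.1.2) = 0 ∨ c.cw k (Br.Wd.tr q.1.2) = i :=
    (cw_le b).elim .inl fun g => g ▸ m
  have g : kw q'.1.2 ↔ kw q.1.2 := by
    rw [Sd.kw, Sd.kw, t, lf_ne _ (Fin.succ_ne_zero _).symm]
  refine congrArg Int.cast ?_
  by_cases n : kw q.1.2
  · exact ((dif_neg (not_not.2 n)).trans (bg_lf o hx e.symm t m')).trans
      (Eq.symm (dif_neg (not_not.2 (g.2 n))))
  · exact ((dif_pos n).trans (hz ⟨q, n⟩ ⟨q', mt g.1 n⟩ e.symm t m').symm).trans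
      (Eq.symm (dif_pos (mt g.1 n)))

theorem om_inr (V x) {a : HW s c.P (D1 c.o.Q c.j)} {a' : HW s c.P D} (hF : a'.1.1.1 = a.1.1.1)
    (ht : Br.Wd.tr a'.1.1.2 = Br.cm (c.lf k b1 b2) (Br.Wd.tr a.1.1.2))
    (m : c.cw k (Br.Wd.tr a.1.1.2) = 0 ∨ c.cw k (Br.Wd.tr a.1.1.2) = i) :
    c.om k V x (w ∘ c.th k b1 b2) y (.inr a) = ga (c.δ a'.1.1.1) (V a.1.1.2) ((c.P.sh (SD s D)).u
      (zc (Sd.gl c.P (SD s D) (fun w => ¬ kw w) z (c.bg k w v))) a'.1 - x a.1) := by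
  rw [← u_lf o hx hD hz hF ht m, hF]; rfl
end

end Hc

end Crest.Agent.N49.He

end
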