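import Crest.Agent.N49.He.Dc
import Crest.Agent.N49.He.Tra4
import Crest.Agent.N49.He.Ten
import Crest.Agent.N49.He.Itr
import Crest.Agent.N49.He.Rft
import Crest.Agent.N49.Ft.All

/-!
# Row 49 (helper11): the transitions with explicit parameters (glue COR)
-/

set_option autoImplicit false
set_option linter.unusedSectionVars false

open Finset Matrix

noncomputable section

namespace Crest.Agent.N49.He

open Po Tw Br Rm Rm.TT Ft Md Sd

namespace Dq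

theorem dat_df {L C : Type} [Fintype L] [DecidableEq L] [Fintype C] [DecidableEq C] {Q : ℕ}
    {U : TT L C} {x : L} {s : Bool → Fin Q → L} {τ : Fin Q → C → C} {σ : C → C}
    (h : Sw U x s τ σ) (k : Fin Q) {F : Fm L C} (hF : U.Dat (univ \ S1 s) {x} F) :
    U.Dat (univ \ S4 s k) {x} (df (τ k) F) := by
  have i : univ \ S1 s ⊆ univ \ S4 s k := sdiff_subset_sdiff Subset.rfl (erase_subset _ _)
  have n : ∀ c, (U.ty c).Nonempty → (U.ty (τ k c)).Nonempty := fun c n => by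
    rw [h.ty]; exact n.image _
  refine (hF.mono i Subset.rfl).sub ⟨fun p p' e => hF.1 _ _ ?_, (dat_pm (fun c =>
    h.mem_τ k c fun b => h.nx b k) n (hF.mono (subset_univ _) Subset.rfl)).2⟩
  rintro (c | ℓ) a b
  · exact e (.inl (τ k c)) (subset_sdiff.2 ⟨subset_univ _, h.dis_τ k (subset_sdiff.1 a).2⟩) (n c b)
  · exact e (.inr ℓ) (a.trans i) b

section sys
variable {Ω R A B : Type} {Y : Sys Ω R A B}

theorem N_bd (o : Y.Ok) (τ σ : Ω → Ω) (Γ Δ : Finset Bool) : ∃ b, ∀ w, Y.N τ σ Γ Δ w ≤ b := by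
  obtain ⟨b, h⟩ := o.bd
  refine ⟨b * (b ^ #Γ * b ^ #Δ), fun w => ?_⟩
  have b0 : 0 ≤ b := (tsum_nonneg (o.p0 w)).trans (h w).1.2
  unfold Sys.N
  refine ((Real.le_norm_self _).trans (tsum_of_norm_bounded ((h w).1.1.hasSum.mul_right
    (b ^ #Γ * b ^ #Δ)) fun ρ => ?_)).trans (mul_le_mul_of_nonneg_right (h w).1.2 (by positivity))
  have a0 : ∀ w, 0 ≤ ∑' α, Y.la w ρ α := fun w => tsum_nonneg (o.l0 w ρ)
  have k0 : ∀ w, 0 ≤ ∑' α, Y.ka w ρ α := fun w => tsum_nonneg (o.k0 w ρ)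
  have p1 := prod_nonneg (s := Γ) fun b _ => a0 (bif b then τ w else w)
  have p2 := prod_nonneg (s := Δ) fun b _ => k0 (bif b then σ w else w)
  rw [Real.norm_of_nonneg (mul_nonneg (o.p0 w ρ) (mul_nonneg p1 p2))]
  refine mul_le_mul_of_nonneg_left (mul_le_mul ?_ ?_ p2 (by positivity)) (o.p0 w ρ)
  · rw [← prod_const]; exact prod_le_prod (fun _ _ => a0 _) fun _ _ => ((h _).2 ρ).1.2
  · rw [← prod_const]; exact prod_le_prod (fun _ _ => k0 _) fun _ _ => ((h _).2 ρ).2.2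

theorem N_ff (τ σ τ' σ' : Ω → Ω) : Y.N τ σ {false} {false} = Y.N τ' σ' {false} {false} :=
  funext fun w => by simp [Sys.N]

theorem c_le (o : Y.Ok) (τ σ : Ω → Ω) (w : Ω) : ‖Y.c1.c w‖ ≤ Y.N τ σ {false} {false} w := by
  obtain ⟨b, h⟩ := o.bd
  have k0 : ∀ ρ, 0 ≤ ∑' α, Y.ka w ρ α := fun ρ => tsum_nonneg (o.k0 w ρ)
  have g : ∀ ρ, |∑' β, Y.ka w ρ β| ≤ b := fun ρ => by
    rw [abs_of_nonneg (k0 ρ)]; exact ((h w).2 ρ).2.2
  have s : Summable fun e : R × A => Y.ϖ w e.1 * Y.la w e.1 e.2 * ∑' β, Y.ka w e.1 β :=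
    .of_norm_bounded ((o.sa w).norm.mul_right b) fun e => by
      rw [norm_mul]; exact mul_le_mul_of_nonneg_left (g _) (norm_nonneg _)
  refine (tsum_of_norm_bounded s.hasSum fun e => ?_).trans_eq ((Fb.ts2 (o.sa w) g).trans ?_)
  · rw [norm_mul, Complex.norm_real, Real.norm_of_nonneg (o.c1.m0 w e), norm_mul]
    exact mul_le_mul_of_nonneg_left ((mul_le_of_le_one_left (norm_nonneg _) (o.c1.a1 w e)).trans
      (Fb.nrm (o.k0 w e.1) (o.sk w e.1) (o.c1.p1 w e))) (o.c1.m0 w e)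
  · simp [Sys.N]
end sys

theorem v1_ge {s d : ℕ} {c : Hc s d} {ε0 ε m : ℝ} (o : c.o.Ok ε0) (e0 : 0 < ε) (m1 : 1 ≤ m)
    (t : Br.Wd s (D1 c.o.Q c.j)) : min ε (1 / 2 ^ c.o.n) ≤ c.V1 ε m t := by
  have k : min ε (1 / 2 ^ c.o.n) ≤ if t.tr c.j.succ.succ = some c.o.Q then ε else c.V0 t := by
    split_ifs
    · exact min_le_left _ _
    refine (min_le_right _ _).trans ((o.v t.lv (bl t.tr)).1.trans ?_)
    have := o.cp
    have v0 : 0 ≤ c.o.g.v t.lv (bl t.tr) := le_trans (by positivity) (o.v _ _).1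
    unfold Hc.V0
    split_ifs
    · exact le_div_self v0 (by linarith) this.2
    · rw [div_one]
  exact k.trans (le_mul_of_one_le_left ((le_min e0.le (by positivity)).trans k) m1)

end Dq
open Dq

theorem dcor (s d : ℕ) (dt : DT s d) (cut : CUT s d) (sok : SOK s d) (bld : BLD s d)
    (sta : STA s d) (mom : MOM s d) (gex : GEX s d) (fina : FINA) : COR s d := by
  intro c ε0 h κ u m b R ε t H o fi fb R0 hR hC ov hm m1 e0 t0 t1 t2 t3 u10 uQ un uC hu hJ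
  obtain ⟨sw, rd⟩ := rft _ _ _ c.T c.j.succ 0 c.fn c.a1 c.a2 o.emb.ok fi (Fin.succ_ne_zero _).symm
  have uo : c.U.Ok := sw.s1.ok
  obtain ⟨c1, c2, -⟩ := cut c ε0 h κ R o R0
  have mp : (0 : ℝ) < min ε (1 / 2 ^ c.o.n) := lt_min e0 (by positivity)
  have u1 : 1 ≤ u ^ 6 := Nat.one_le_pow _ _ (by omega)
  have ok : ∀ k a {m' : ℝ} (_ : 1 ≤ m') x, (c.sys k a b R (c.V1 ε m') x).Ok := fun k a _ m1 x =>
    sok c ε0 h κ k a b R _ x o fb fun w => mp.trans_le (v1_ge o.o e0 m1 w)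
  have mo : ∀ k a {m' : ℝ} (_ : 1 ≤ m') x r (_ : r ≤ 10 * u ^ 6) Γ Δ,
      Mo c.U r ((c.sys k a b R (c.V1 ε m') x).N (· ∘ c.τ k) (· ∘ c.σ) Γ Δ) :=
    fun k a _ m1 x r hr Γ Δ => by
      refine ⟨N_bd (ok k a m1 x) _ _ _ _, ?_⟩
      obtain ⟨V', x', h1, h2⟩ := mom c ε0 h κ k a b R _ x r Γ Δ o (ok k a m1 x)
      have := (abs_le.1 (hJ k r (2 * r) _ Γ Δ V' x' (by omega) (by omega) fun t' => by
        obtain ⟨t, e⟩ := h1 t'
        rw [e]; exact v1_ge o.o e0 m1 t)).2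
      have z : ((1 : ℝ) / 2) ^ (25 * u ^ 5) ≤ 1 := pow_le_one₀ (by norm_num) (by norm_num)
      rw [funext h2]
      exact (sub_le_iff_le_add.1 this).trans (by linarith)
  have gs : ∀ k a x, Gs c.U c.sl c.tl c.τ c.σ k (10 * u ^ 6) (c.sys k a b R (c.V1 ε 1) x) :=
    fun k a x => bld c ε0 h κ k a b R _ x _ o (ok k a le_rfl x) (mo k a le_rfl x _ le_rfl)
  have m0 : (0 : ℝ) < m := by exact_mod_cast m1
  obtain ⟨y, H', h1, h2, h3, h4⟩ := itr _ _ (Fin c.o.Q × Fin c.o.D) c.U c.S5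
    (fun _ => c.P.Cw (SD s (D1 c.o.Q c.j)) → ℝ)
    (fun i x => (c.sys i.1 i.2 b R (c.V1 ε 1) x).c1.c)
    (fun i x => (c.sys i.1 i.2 b R (c.V1 ε 1) x).N (· ∘ c.τ i.1) (· ∘ c.σ) {false} {false})
    ({w | c.T.cor c.j.succ 0 w ∈ H} ∩ c.Cn R) (10 * u ^ 6) ((1 / 2) ^ (4 * c.o.n + 3))
    (400 * m * t) uo (fun w w' e a => ⟨rd H w w' e a.1, c1 w w' e a.2⟩) (by positivity)
    (pow_le_one₀ (by norm_num) (by norm_num)) (by positivity) (by omega)
    (fun i x => ⟨(gs i.1 i.2 x).bc1, (gs i.1 i.2 x).mo _ _, c_le (ok i.1 i.2 le_rfl x) _ _⟩)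
    fun i H' hH _ => sta c ε0 h κ i.1 i.2 b R ε t m H' o fb R0 hR hC
      (fun w hw => ⟨(hH hw).2, ov _ (hH hw).1⟩) hm m1 e0 t0 t1 t2 t3 fun x => by
        have := (mo i.1 i.2 (m' := (m + 1) / m) ((one_le_div m0).2 (by linarith)) x 1 (by omega)
          {false} {false}).2
        simp only [pow_one] at this
        rw [N_ff id id (· ∘ c.τ i.1) (· ∘ c.σ)]
        exact this
  refine tra4 ten _ _ (Fin c.o.D) _ c.U c.x c.sl c.tl c.τ _ c.σ _ _ _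
    (fun i => c.sys i.1 i.2 b R (c.V1 ε 1) (y i)) _ _ H' u sw (fun i => gs _ _ _) u10
    (by rwa [Fintype.card_fin]) (fun w hw => (h1 hw).1) h2 (hu.trans (le_trans ?_ h3))
    (fun w hw i => le_trans ?_ (h4 w hw i)) fun k a => ?_
  · rw [Fintype.card_prod, Fintype.card_fin, Fintype.card_fin,
      show ((1 : ℝ) / 2) ^ (4 * c.o.n + 3) / 4 = (1 / 2) ^ (4 * c.o.n + 5) by ring]
    refine sub_le_sub_right (mul_le_mul_of_nonneg_left ?_ (by positivity)) _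
    exact (sub_le_sub_left c2 _).trans (uo.pr_inter _ _)
  · rw [show ((1 : ℝ) / 2) ^ (4 * c.o.n + 3) / 2 = (1 / 2) ^ (4 * c.o.n + 4) by ring]
    exact pow_le_pow_of_le_one (by norm_num) (by norm_num) un
  · obtain ⟨N, B, g1, g2, g3⟩ := gex c ε0 h κ k a b R _ (y (k, a)) o (ok k a le_rfl _)
      fun w => mp.trans_le (v1_ge o.o e0 le_rfl w)
    have e : c.Sx k univ univ = S4 c.sl k := by simp [Hc.Sx]
    have nx : c.x ∉ c.Sx k univ univ := by
      rw [e]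
      exact fun z => let ⟨k', _, q⟩ := mem_image.1 (mem_of_mem_erase z); sw.s1.nx _ k' q
    have μ : ∀ w n, c.mu (c.Sx k univ univ) w n = mq c.U _ c.x w n := fun w n =>
      dt c ε0 h κ _ w n o nx
    rw [← e]
    refine fina _ _ c.U _ c.x _ N _ u B uo nx ?_ u10 uC g1 (fun w => ?_) fun r hr => ?_
    · rw [e]
      exact dat_df sw.s1 k (rfr _ _ _ c.T c.j.succ 0 c.fn c.a1 c.a2 _ o.emb.ok
        (Fin.succ_ne_zero _).symm (o.mor.toLm.pull (o.o.cx.dat a))).1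
    · simp only [← μ]; exact g2 w
    · obtain ⟨V', x', k1, k2⟩ := g3 r hr
      simp only [← μ]
      rw [funext k2]
      exact hJ k r 2 _ univ univ V' x' (by omega) (by omega) fun t' => by
        obtain ⟨t, e⟩ := k1 t'
        rw [e]; exact v1_ge o.o e0 le_rfl t

end Crest.Agent.N49.He

end
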