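import Crest.Agent.N49.Ft.Defs
import Crest.Agent.N49.Gw.Hol

/-!
# Row 49 (helper4): the Cauchy-Schwarz side of the rectangle hypothesis (FROZEN statements, part A)
-/

set_option autoImplicit false
set_option linter.unusedSectionVars false

open Finset Matrix
open scoped ComplexConjugate

noncomputable section

namespace Crest.Agent.N49.He

open Po Rm Rm.TT Ft

section
variable {L C : Type} [Fintype L] [DecidableEq L] [Fintype C] [DecidableEq C]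

/-- `f` reads only the words that miss `S` -/
def Bl (U : TT L C) (S : Finset L) {X : Type} (f : (C → ℤ) → X) : Prop :=
  ∀ w w', (∀ c, Disjoint (U.ty c) S → w c = w' c) → f w = f w'

/-- bounded moments -/
def Mo (U : TT L C) (r : ℕ) (N : (C → ℤ) → ℝ) : Prop :=
  (∃ b, ∀ w, N w ≤ b) ∧ U.Ex (fun w => N w ^ r) ≤ 2
end

/-- common variables `E` with weight `m`, cloned variables `B` with weight `κ` -/
structure Cs (Ω E B : Type) where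
  m : Ω → E → ℝ
  κ : Ω → E → B → ℝ
  a : Ω → E → ℂ
  φ : Ω → E → B → ℂ

namespace Cs
variable {Ω E B : Type} (Y : Cs Ω E B)

structure Ok : Prop where
  m0 : ∀ w e, 0 ≤ Y.m w e
  k0 : ∀ w e b, 0 ≤ Y.κ w e b
  a1 : ∀ w e, ‖Y.a w e‖ ≤ 1
  p1 : ∀ w e b, ‖Y.φ w e b‖ ≤ 1
  sm : ∀ w, Summable (Y.m w)
  sk : ∃ b, ∀ w e, Summable (Y.κ w e) ∧ ∑' x, Y.κ w e x ≤ b

/-- the correlation -/
def c (w : Ω) : ℂ := ∑' e, (Y.m w e : ℂ) * (Y.a w e * ∑' b, (Y.κ w e b : ℂ) * Y.φ w e b)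
/-- the Gram kernel -/
def g (τ : Ω → Ω) (w : Ω) : ℂ := ∑' e, (Y.m w e : ℂ) * ((∑' b, (Y.κ w e b : ℂ) * Y.φ w e b) *
  conj (∑' b, (Y.κ (τ w) e b : ℂ) * Y.φ (τ w) e b))
/-- the mass of the common variables -/
def M (w : Ω) : ℝ := ∑' e, Y.m w e
/-- the mass of the double -/
def N (τ : Ω → Ω) (w : Ω) : ℝ := ∑' e, Y.m w e * ((∑' b, Y.κ w e b) * ∑' b, Y.κ (τ w) e b)
end Cs

/-- **tensor Cauchy-Schwarz** -/
def TEN : Prop := ∀ (L C I : Type) [Fintype L] [DecidableEq L] [Fintype C] [DecidableEq C]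
  [Fintype I] (Q : ℕ) (U : TT L C) (x : L) (s : Bool → Fin Q → L) (τ : Fin Q → C → C) (σ : C → C)
  (k : Fin Q) (E B : I → Type) (Y : ∀ i, Cs (C → ℤ) (E i) (B i)) (S : Set (C → ℤ)) (r : ℕ)
  (δ δ' : ℝ), Sw U x s τ σ → (∀ i, (Y i).Ok ∧ Bl U {s false k, s true k} (Y i).m ∧
    Bl U {s false k, s true k} (Y i).a ∧ Bl U {s true k} (Y i).κ ∧ Bl U {s true k} (Y i).φ ∧
    Mo U r ((Y i).N (· ∘ τ k))) → U.Rd {s true k} S → 0 ≤ δ → 0 ≤ δ' → Fintype.card I ≤ r →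
  (∀ w ∈ S, ∀ i, δ ≤ ‖(Y i).c w‖ ∧ (Y i).M w ≤ 2) →
  (δ ^ Fintype.card I * U.pr S) ^ 2 / 2 ^ Fintype.card I ≤ 2 ^ Fintype.card I *
    (U.pr {w | w ∈ S ∧ w ∘ τ k ∈ S ∧ ∀ i, δ' ≤ ‖(Y i).g (· ∘ τ k) w‖} + δ' +
      2 * Fintype.card I / 2 ^ r)

/-- systems: common variables `R`, the side `A` of a fine clone, the side `B` of the fat shift -/
structure Sys (Ω R A B : Type) where
  ϖ : Ω → R → ℝ
  la : Ω → R → A → ℝ
  ka : Ω → R → B → ℝ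
  fa : Ω → R → A → ℂ
  fb : Ω → R → B → ℂ
  φ : Ω → R → A → B → ℂ

namespace Sys
variable {Ω R A B : Type} (Y : Sys Ω R A B)

structure Ok : Prop where
  p0 : ∀ w ρ, 0 ≤ Y.ϖ w ρ
  l0 : ∀ w ρ α, 0 ≤ Y.la w ρ α
  k0 : ∀ w ρ β, 0 ≤ Y.ka w ρ β
  a1 : ∀ w ρ α, ‖Y.fa w ρ α‖ ≤ 1
  b1 : ∀ w ρ β, ‖Y.fb w ρ β‖ ≤ 1
  φ1 : ∀ w ρ α β, ‖Y.φ w ρ α β‖ ≤ 1
  bd : ∃ b, ∀ w, (Summable (Y.ϖ w) ∧ ∑' ρ, Y.ϖ w ρ ≤ b) ∧ ∀ ρ,
    (Summable (Y.la w ρ) ∧ ∑' α, Y.la w ρ α ≤ b) ∧ Summable (Y.ka w ρ) ∧ ∑' β, Y.ka w ρ β ≤ b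

/-- the first Cauchy-Schwarz step -/
def c1 : Cs Ω (R × A) B where
  m w e := Y.ϖ w e.1 * Y.la w e.1 e.2
  κ w e := Y.ka w e.1
  a w e := Y.fa w e.1 e.2
  φ w e b := Y.fb w e.1 b * Y.φ w e.1 e.2 b
/-- the second one -/
def c2 (σ : Ω → Ω) : Cs Ω (R × B × B) A where
  m w e := Y.ϖ w e.1 * (Y.ka w e.1 e.2.1 * Y.ka (σ w) e.1 e.2.2)
  κ w e := Y.la w e.1
  a w e := Y.fb w e.1 e.2.1 * conj (Y.fb (σ w) e.1 e.2.2)
  φ w e α := Y.φ w e.1 α e.2.1 * conj (Y.φ (σ w) e.1 α e.2.2)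
/-- the mass with the copies `Γ` of the side `A` and the copies `Δ` of the side `B` -/
def N (τ σ : Ω → Ω) (Γ Δ : Finset Bool) (w : Ω) : ℝ := ∑' ρ, Y.ϖ w ρ *
  ((∏ b ∈ Γ, ∑' α, Y.la (bif b then τ w else w) ρ α) *
    ∏ b ∈ Δ, ∑' β, Y.ka (bif b then σ w else w) ρ β)
end Sys

section
variable {L C : Type} [Fintype L] [DecidableEq L] [Fintype C] [DecidableEq C] {Q : ℕ}
  (U : TT L C) (s : Bool → Fin Q → L) (t : Bool → Fin 1 → L)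

/-- the letters that the start does not read -/
def S5 : Finset L := insert (t true 0) (S1 s)

/-- **good systems** for the clone `k` -/
structure Gs (τ : Fin Q → C → C) (σ : C → C) (k : Fin Q) (r : ℕ) {R A B : Type}
    (Y : Sys (C → ℤ) R A B) : Prop where
  ok : Y.Ok
  bp : Bl U (insert (s false k) (insert (t false 0) (S5 s t))) Y.ϖ
  bl : Bl U (insert (t false 0) (S5 s t)) Y.la
  ba : Bl U (insert (t false 0) (S5 s t)) Y.fa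
  bk : Bl U (insert (s false k) (S5 s t)) Y.ka
  bb : Bl U (insert (s false k) (S5 s t)) Y.fb
  bφ : Bl U (S5 s t) Y.φ
  mo : ∀ Γ Δ, Mo U r (Y.N (· ∘ τ k) (· ∘ σ) Γ Δ)

/-- two commuting symmetries -/
structure Sw2 (x : L) (τ : Fin Q → C → C) (σ0 σ : C → C) : Prop where
  s1 : Sw U x s τ σ0
  s2 : Sw U x t (fun _ => σ) σ
  dis : ∀ c b k b', s b k ∈ U.ty c → t b' 0 ∉ U.ty c
  ne : ∀ b k b', s b k ≠ t b' 0
end

/-- **the offsets are chosen one system after the other** -/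
def ITR : Prop := ∀ (L C I : Type) [Fintype L] [DecidableEq L] [Fintype C] [DecidableEq C]
  [Fintype I] (U : TT L C) (S : Finset L) (X : I → Type) (c : ∀ i, X i → (C → ℤ) → ℂ)
  (N : ∀ i, X i → (C → ℤ) → ℝ) (H : Set (C → ℤ)) (r : ℕ) (δ η : ℝ), U.Ok → U.Rd S H → 0 < δ →
  δ ≤ 1 → 0 ≤ η → 1 ≤ r → (∀ i y, Bl U S (c i y) ∧ Mo U r (N i y) ∧ ∀ w, ‖c i y w‖ ≤ N i y w) →
  (∀ i, ∀ H' ⊆ H, U.Rd S H' →
    ∃ y, δ * U.pr H' - η ≤ U.Ex (H'.indicator fun w => (c i y w).re)) →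
  ∃ (y : ∀ i, X i) (H' : Set (C → ℤ)), H' ⊆ H ∧ U.Rd S H' ∧
    (δ / 4) ^ Fintype.card I * U.pr H - Fintype.card I * (η + 4 / 2 ^ r) ≤ U.pr H' ∧
    ∀ w ∈ H', ∀ i, δ / 2 ≤ ‖c i (y i) w‖

/-- **from the systems to the transitions** -/
def TRA : Prop := ∀ (L C D : Type) [Fintype L] [DecidableEq L] [Fintype C] [DecidableEq C]
  [Fintype D] (Q : ℕ) (U : TT L C) (x : L) (s : Bool → Fin Q → L) (t : Bool → Fin 1 → L)
  (τ : Fin Q → C → C) (σ0 σ : C → C) (R A B : Fin Q × D → Type)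
  (Y : ∀ i, Sys (C → ℤ) (R i) (A i) (B i)) (G : D → Fm L C) (H H' : Set (C → ℤ)) (u : ℕ),
  Sw2 U s t x τ σ0 σ → (∀ i, Gs U s t τ σ i.1 (10 * u ^ 6) (Y i)) → 10 ≤ u →
  Q * (Fintype.card D + 1) ≤ u → H' ⊆ H → U.Rd (S5 s t) H' → (1 / 2 : ℝ) ^ u ≤ U.pr H' →
  (∀ w ∈ H', ∀ i, (1 / 2 : ℝ) ^ u ≤ ‖(Y i).c1.c w‖) →
  (∀ k i, U.pr {w | (1 / 2 : ℝ) ^ (6 * u ^ 5) ≤ ‖((Y (k, i)).c2 (· ∘ σ)).g (· ∘ τ k) w‖ ∧
    ¬ U.Rel (univ \ S4 s k) {x} w 1 (2 ^ (3 * u ^ 5)) (df (τ k) (G i))} ≤ (1 / 2) ^ (6 * u ^ 5)) →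
  Trn U x s τ G H (u ^ 5)

/-- the letters and the exchange of the second pair of directions -/
def tl (L : Type) (Q : ℕ) (b : Bool) (_ : Fin 1) : LR L Q := .inl (.inr (bif b then 3 else 2))
/-- exchange the two last directions -/
def st {L C : Type} (T : TT L C) (j : L) : T.CC j (Fin 4) → T.CC j (Fin 4) :=
  Sum.map id (Prod.map id (Equiv.swap 2 3))

/-- the refined rectangle has the two symmetries -/
def RFT : Prop := ∀ (L C : Type) [Fintype L] [DecidableEq L] [Fintype C] [DecidableEq C] (Q : ℕ)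
  (T : TT L C) (j x : L) (fn : C → Fin Q) (a1 a2 : ℕ), T.Ok → Fine T j fn → x ≠ j →
  Sw2 (RF T j fn a1 a2) (sl L Q) (tl L Q) (.inl (.inl x)) (ta T j fn) (sg T j) (st T j) ∧
  ∀ H : Set (C → ℤ), (RF T j fn a1 a2).Rd (S5 (sl L Q) (tl L Q)) {w | T.cor j 0 w ∈ H}

end Crest.Agent.N49.He

end
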