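import Crest.Agent.N49.He.As1
import Crest.Agent.N49.He.Cpy
import Crest.Agent.N49.He.Fin0

/-!
# Row 49 (helper86): the phases of the last kernel
-/

set_option autoImplicit false
set_option linter.unusedSectionVars false

open Finset
open scoped ComplexConjugate

noncomputable section

namespace Crest.Agent.N49.He

open Po Tw Br Rm Rm.TT Ft Md Sd As

namespace Hc
variable {s d : ℕ} {c : Hc s d} {k : Fin c.o.Q} {Γ Δ : Finset Bool}

/-- the first corner reads the base and the directions `0`, `2` -/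
theorem gp_pos {q q' : c.CU ⊕ c.L → ℝ} {l l' : Fin 4} (hl : ∀ ℓ, q (.inr ℓ) = q' (.inr ℓ))
    (h0 : ∀ a, q (.inl (.inl a)) = q' (.inl (.inl a)))
    (h1 : ∀ a, q (.inl (.inr (a, 0))) = q' (.inl (.inr (a, 0))))
    (h2 : ∀ a, q (.inl (.inr (a, 2))) = q' (.inl (.inr (a, bif decide (l' = 1) then 3 else 2))))
    (e : l = 0) (e' : l' = 0 ∨ l' = 1) :
    c.T.pos c.j.succ (fun _ => false) 1 (cv l) (co q) =
      c.T.pos c.j.succ (fun _ => false) 1 (cv l') (co q') := by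
  have p : c.T.p0 c.j.succ (co q) = c.T.p0 c.j.succ (co q') := funext fun z => by
    rcases z with a | ℓ
    exacts [h0 a, hl _]
  have x : ∀ m m' : Fin 4, (∀ a, q (.inl (.inr (a, m))) = q' (.inl (.inr (a, m')))) →
      c.T.px c.j.succ (fun _ => false) m (co q) = c.T.px c.j.succ (fun _ => false) m' (co q') :=
    fun m m' h => funext fun z => by
      rcases z with a | ℓ
      · by_cases n : c.j.succ ∈ c.T.ty a
        · simp only [px, dif_pos n]; exact h _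
        · simp only [px, dif_neg n]; exact h0 a
      · by_cases n : ℓ = c.j.succ
        · simp only [px, if_pos n]; rfl
        · simp only [px, if_neg n]; exact hl _
  funext v
  subst e
  rcases e' with rfl | rfl <;>
    simp only [pos, p, Fin.sum_univ_four, x 0 0 h1, x 2 _ h2] <;> simp [TT.cv]

theorem gp_dis (a : c.T.Bl c.j.succ) {l : Fin 4} (h : l = 0 ∨ l = 2) :
    Disjoint (c.U.ty (.inr (a, l))) c.S5 := by
  rw [dis_S5, Rs.ty_ins]
  rcases h with rfl | rfl <;> simp [Rs.lam, Ft.sl, He.tl]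

theorem gp_dis0 (a : c.C) : Disjoint (c.U.ty (.inl a)) c.S5 := by
  rw [dis_S5]
  simp [RF, Ft.sl, He.tl]

/-- the datum reads only the directions that miss `S5` -/
theorem Fp_loc (a : Fin c.o.D) (w : c.CU → ℤ) {v v' : c.CU → ℤ}
    (h : ∀ z : c.XW c.S5, v z.1 = v' z.1) : c.Fp a w v = c.Fp a w v' := by
  have e : ∀ z, Disjoint (c.U.ty z) c.S5 →
      pt c.U c.x w v (.inl z) = pt c.U c.x w v' (.inl z) := fun z n => by
    by_cases m : c.x ∈ c.U.ty z
    · simp only [pt, jr, dif_pos m]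
      exact congrArg _ (h ⟨z, mem_dls.2 ⟨m, n⟩⟩)
    · simp only [pt, jr, dif_neg m]
  exact congrArg (c.F a) (gp_pos (fun _ => rfl) (fun a => e _ (gp_dis0 a))
    (fun a => e _ (gp_dis a (.inl rfl))) (fun a => e _ (gp_dis a (.inr rfl))) rfl (.inl rfl))

theorem gp_tx {b1 b2 : Bool} (z : c.XW c.S5) :
    c.th k b1 b2 z.1 = tx c.U c.sl c.τ c.σ k
      ((![false, b1, b2] : Fin 3 → Bool) (cx c.U c.sl c.tl k z.1)) z.1 := by
  obtain ⟨z, p⟩ := z
  replace p := dis_S5.1 (mem_dls.1 p).2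
  dsimp only
  rcases z with a | ⟨a, l⟩
  · rw [th_inl]
    have : cx c.U c.sl c.tl k (.inl a) = 0 := by simp [cx, RF, Ft.sl, He.tl]
    rw [this]; rfl
  · rw [Rs.ty_ins] at p
    rw [th_inr, tx, cx, Rs.ty_ins]
    by_cases e : c.fn a.1 = k <;> fin_cases l <;> cases b1 <;> cases b2 <;>
      simp_all [Rs.lam, Ft.sl, He.tl, ta, sg, st, eq_comm] <;> decide

/-- the directions of the copies -/
theorem vy_cb (h : c.SW) (Y : c.E' k Γ Δ → ℤ) (b1 : Γ) (b2 : Δ) (i : Fin 2) (z : c.XW c.S5) :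
    c.vy (c.as (cb' h Y).1 ((cb' h Y).2.1 b1) ((cb' h Y).2.2 b2)) i z.1 =
      ex c.U (c.Sx k Γ Δ) c.x (fun z => Y (.inl (i, z))) (c.th k b1 b2 z.1) := by
  have e : ∀ b m, ex c.U (c.Sx k Γ Δ) c.x (fun z => Y (.inl (i, z)))
      (tx c.U c.sl c.τ c.σ k b z.1) = Y (up h (.inl (i, z)) b m) := fun b m => dif_pos (tx_mem h z.2 m)
  have v : ∀ y : c.E → ℤ, c.vy y i z.1 = y (.inl (i, z)) := fun y => by
    rw [vy, vs, dif_pos i.2]; exact dif_pos z.2
  rw [v, gp_tx, show cx c.U c.sl c.tl k z.1 = c.cls k (.inl (i, z)) from rfl]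
  rcases c.cls3 (k := k) (.inl (i, z)) with u | u | u
  · exact (c.as0 _ _ _ ⟨_, u⟩).trans (by rw [u]; exact (e false (u ▸ mem_singleton_self _)).symm)
  · exact (c.as1 _ _ _ ⟨_, u⟩).trans (by rw [u]; exact (e b1 (u ▸ b1.2)).symm)
  · exact (c.as2 _ _ _ ⟨_, u⟩).trans (by rw [u]; exact (e b2 (u ▸ b2.2)).symm)

theorem Fp_cb (h : c.SW) (a : Fin c.o.D) (w : c.CU → ℤ) (Y : c.E' k Γ Δ → ℤ) (b1 : Γ) (b2 : Δ)
    (i : Fin 2) : c.Fp a (w ∘ c.th k b1 b2)
      (c.vy (c.as (cb' h Y).1 ((cb' h Y).2.1 b1) ((cb' h Y).2.2 b2)) i) =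
    c.F a (c.T.pos c.j.succ (fun _ => false) 1 (cv (bif b2.1 then 1 else 0)) (co (Ft.pm
      (c.th k b1 false) (pt c.U c.x w (ex c.U (c.Sx k Γ Δ) c.x fun z => Y (.inl (i, z))))))) := by
  rw [Fp_loc a _ (v' := ex c.U (c.Sx k Γ Δ) c.x (fun z => Y (.inl (i, z))) ∘ c.th k b1 b2)
    (vy_cb h Y b1 b2 i), Fp, pt_th]
  refine congrArg (c.F a) (gp_pos (fun _ => rfl) (fun a => ?_) (fun a => ?_) (fun a => ?_) rfl
    (by cases b2.1 <;> simp))
  · simp only [Ft.pm, Sum.elim_inl, th_inl]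
  · simp only [Ft.pm, Sum.elim_inl, th_0]
  · simp only [Ft.pm, Sum.elim_inl, th_2]
    cases b2.1
    · exact congrArg (fun y => pt c.U c.x w _ (.inl y)) (th_2 (b2 := false) a).symm
    · refine congrArg (fun y => pt c.U c.x w _ (.inl y)) ?_
      rw [th_inr]; split_ifs <;> rfl

/-- **the product of the four phases** -/
theorem gph (h : c.SW) (a : Fin c.o.D) (b R : ℝ) (V x) (w : c.CU → ℤ)
    (Y : c.E' k univ univ → ℤ) :
    (c.sys k a b R V x).φ w (cb' h Y).1 ((cb' h Y).2.1 (As.cp false)) ((cb' h Y).2.2 (As.cp false)) *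
      conj ((c.sys k a b R V x).φ (w ∘ c.σ) (cb' h Y).1 ((cb' h Y).2.1 (As.cp false))
        ((cb' h Y).2.2 (As.cp true))) *
      conj ((c.sys k a b R V x).φ (w ∘ c.τ k) (cb' h Y).1 ((cb' h Y).2.1 (As.cp true))
        ((cb' h Y).2.2 (As.cp false)) *
        conj ((c.sys k a b R V x).φ ((w ∘ c.τ k) ∘ c.σ) (cb' h Y).1 ((cb' h Y).2.1 (As.cp true))
          ((cb' h Y).2.2 (As.cp true)))) =
    ee (df (c.τ k) (Ft.Gt c.T c.j.succ (c.F a))
        (pt c.U c.x w (ex c.U _ c.x fun z => Y (.inl (1, z)))) -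
      df (c.τ k) (Ft.Gt c.T c.j.succ (c.F a))
        (pt c.U c.x w (ex c.U _ c.x fun z => Y (.inl (0, z))))) := by
  have pm0 : ∀ q : c.CU ⊕ c.L → ℝ, Ft.pm (c.th k false false) q = q := fun q =>
    funext fun y => by cases y <;> rfl
  have e : ∀ b1 b2 : Bool, (c.sys k a b R V x).φ (w ∘ c.th k b1 b2) (cb' h Y).1
      ((cb' h Y).2.1 (As.cp b1)) ((cb' h Y).2.2 (As.cp b2)) = ee (_ - _) := fun b1 b2 =>
    congrArg ee (congrArg₂ (· - ·) (Fp_cb h a w Y (As.cp b1) (As.cp b2) 1)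
      (Fp_cb h a w Y (As.cp b1) (As.cp b2) 0))
  refine (congrArg₂ (· * ·) (congrArg₂ (· * ·) (e false false) (congrArg conj (e false true)))
    (congrArg conj (congrArg₂ (· * ·) (e true false) (congrArg conj (e true true))))).trans ?_
  rw [Fi0.ee_cj, Fi0.ee_cj, Fi0.ee_cj]
  refine congrArg ee ?_
  simp only [As.cp, pm0, cond_true, cond_false, df, Ft.Gt, th_tf]
  ring
end Hc

end Crest.Agent.N49.He

end
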