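import Crest.Agent.N49.He.Ntm
import Crest.Agent.N49.He.Gph
import Crest.Agent.N49.He.Var
import Crest.Agent.N49.He.Dc

/-!
# Row 49 (helper51): the last kernel as a sum over two directions
-/

set_option autoImplicit false

open Finset

noncomputable section

namespace Crest.Agent.N49.He

open Po Tw Br Rm Rm.TT Ft Md Sd As Hc

theorem dgex (s d : ℕ) : GEX s d := fun c ε h κ k a b R V x o ok hV => by
  have hδ : ∀ F, 0 ≤ c.δ F := fun F => (o.δ.1 F).le
  obtain ⟨B, -, hB⟩ := hs_bd (c := c) (D := c.DK k univ univ) Pd.dc_DD hδ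
    (V := c.Vk k univ univ V) fun _ => hV _
  refine ⟨fun w n => hs s c.P _ c.δ (c.Vk k univ univ V) (c.xk k univ univ x)
    (c.bg k w (c.vs _ n)) fun _ => 1, B, fun w n => ⟨hs_nonneg hδ _ _ _, hB _ _⟩, fun w => ?_,
    fun r _ => ⟨c.Vc k r 2 _ univ univ (c.Vk k univ univ V),
      c.xc k r 2 _ univ univ (c.xk k univ univ x), fun _ => ⟨_, rfl⟩,
      fun w => (tm_two hδ _ _ r w).symm⟩⟩
  have t := ((eY k univ univ).trans (cb' o.sw2)).hasSum_iff.2 (ok.hs_g (· ∘ c.τ k) (· ∘ c.σ) w)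
  have t' : HasSum (fun p : (Fin 2 → c.XW (c.Sx k univ univ) → ℤ) ×
      (HW s c.P (c.DK k univ univ) → ℤ) => (((∏ i, c.mu _ w (p.1 i)) *
        ∏ e, hf (c.Vk k univ univ V) (c.xk k univ univ x) w p.1 p.2 e : ℝ) : ℂ) *
        ee (df (c.τ k) (Ft.Gt c.T c.j.succ (c.F a)) (pt c.U c.x w (ex c.U _ c.x (p.1 1))) -
          df (c.τ k) (Ft.Gt c.T c.j.succ (c.F a)) (pt c.U c.x w (ex c.U _ c.x (p.1 0)))))
      (((c.sys k a b R V x).c2 (· ∘ c.σ)).g (· ∘ c.τ k) w) :=
    (congrArg (HasSum · _) (funext fun p => congrArg₂ (· * ·)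
      (congrArg _ (wt_cb o a b R V x w (eY k univ univ p)))
      (gph o.sw2 a b R V x w (eY k univ univ p)))).mp t
  refine (t'.prod_fiberwise fun n => ?_).tsum_eq.symm
  beta_reduce
  rw [hs_hf, ← tsum_mul_left, Complex.ofReal_tsum, ← tsum_mul_right]
  exact (t'.summable.prod_factor n).hasSum

end Crest.Agent.N49.He

end
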