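import Crest.Agent.N49.He.Dc
import Crest.Agent.N49.He.Var

/-!
# Row 49 (helper67): hidden sums and directions are bounded
-/

set_option autoImplicit false

open Finset Matrix

noncomputable section

namespace Crest.Agent.N49.He

open Po Tw Br Rm Rm.TT Ft Md Sd

theorem dhsb (s d : ℕ) : HSB s d := by
  intro c ε D V x _ hδ hD hV
  have d0 := fun F => (hδ.1 F).le
  obtain ⟨B, h⟩ := Hc.hw_bd hD d0 hV
  refine ⟨B, fun b G g => ⟨?_, (h x b).2⟩⟩
  unfold hs
  simp only [mul_one]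
  rw [← Real.norm_eq_abs]
  refine tsum_of_norm_bounded (h x b).1.hasSum fun z => ?_
  have p : 0 ≤ ∏ y : HW s c.P D, ga (c.δ y.1.1.1) (V y.1.1.2)
      ((c.P.sh (SD s D)).u (zc (Sd.gl c.P (SD s D) _ z b)) y.1 - x y.1) :=
    prod_nonneg fun y _ => by have := d0 y.1.1.1; unfold ga; positivity
  rw [norm_mul, Real.norm_of_nonneg p]
  exact mul_le_of_le_one_right p (g _)

theorem dmub (s d : ℕ) : MUB s d := fun _ _ _ _ S o _ =>
  (Hc.mu_bd o.U (fun w => (o.l0 w).le) S).imp fun _ h w =>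
    ⟨Hc.mu_nonneg (fun w => (o.l0 w).le) _ _, h w⟩

end Crest.Agent.N49.He

end
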