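import Crest.Agent.N49.He.Dc
import Crest.Agent.N49.He.Rd

/-!
# Row 49 (helper29): locality of the morphism, exact reading
-/

set_option autoImplicit false

open Finset

namespace Crest.Agent.N49.He

theorem diot (s d : ℕ) : IOT s d := fun c _ _ _ k =>
  ⟨fun p p' y h1 h2 => (c.rv_at p y).symm.trans ((k.rv_loc y.1.1 y.1.2 h2
    fun _ a => h1 _ (mem_image_of_mem _ a)).trans (c.rv_at p' y)),
    fun _ hp F A => k.rd_cast hp F A⟩

end Crest.Agent.N49.He
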