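import Crest.Agent.N49.He.Dc
import Crest.Agent.N49.He.Hx2
import Crest.Agent.N49.He.Exc
import Crest.Agent.N49.He.Sta

/-!
# Row 49 (helper66): the parameters of the transitions
-/

set_option autoImplicit false

open Finset Filter

noncomputable section

namespace Crest.Agent.N49.He

open Po Tw Br Rm Rm.TT Ft Md Sd

namespace Nu2

theorem big (k0 Kt : ℕ) :
    ∃ n0 : ℕ, ∀ n ≥ n0, 9 * 4 ^ k0 * ((2 * n) ^ Kt + 6 : ℝ) ≤ 2 ^ (n / 4) := by
  have h := tendsto_pow_const_div_const_pow_of_one_lt Kt (one_lt_two (α := ℝ))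
  have p : (0 : ℝ) < 63 * 4 ^ k0 * 14 ^ Kt := by positivity
  obtain ⟨q0, h⟩ := eventually_atTop.1 (h.eventually (ge_mem_nhds (inv_pos.2 p)))
  refine ⟨4 * q0 + 4, fun n hn => ?_⟩
  have a := h (n / 4) (by omega)
  rw [div_le_iff₀ (by positivity), ← div_eq_inv_mul, le_div_iff₀ p] at a
  have b : (2 * n : ℝ) ≤ 14 * (n / 4 : ℕ) := by exact_mod_cast (by omega : 2 * n ≤ 14 * (n / 4))
  have c : (1 : ℝ) ≤ 14 * (n / 4 : ℕ) := by exact_mod_cast (by omega : 1 ≤ 14 * (n / 4))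
  have e := pow_le_pow_left₀ (by positivity) b Kt
  have f := one_le_pow₀ c (n := Kt)
  rw [mul_pow (14 : ℝ)] at e f
  have g : (0 : ℝ) < 4 ^ k0 := by positivity
  nlinarith

theorem ex_le (a : ℕ) : Real.exp (-(Real.pi * √(a : ℝ) ^ 2)) ≤ (1 / 2) ^ (3 * a) := by
  rw [Real.sq_sqrt a.cast_nonneg, mul_comm 3, pow_mul, ← neg_mul, mul_comm, Real.exp_nat_mul,
    ← pow_mul, mul_comm a, pow_mul]
  refine pow_le_pow_left₀ (Real.exp_pos _).le ?_ a
  rw [Real.exp_neg, inv_le_comm₀ (Real.exp_pos _) (by norm_num)]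
  have := Real.exp_le_exp.2 Real.pi_gt_three.le
  have e : Real.exp 3 = Real.exp 1 ^ 3 := by rw [← Real.exp_nat_mul]; norm_num
  have f := pow_le_pow_left₀ zero_le_two (Real.exp_one_gt_two).le 3
  norm_num at f ⊢
  linarith

theorem card_cw {s d : ℕ} (T : TS Unit) (Q : ℕ) (j : Fin d) {n : ℕ} (h : Fintype.card T.C ≤ 2 ^ n) :
    Fintype.card (T.Cw (SD s (D1 Q j))) ≤ 2 ^ (n + s + (Q + 3) * (d + 2)) := by
  refine (Fintype.card_subtype_le _).trans ?_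
  rw [Fintype.card_prod, add_assoc, pow_add, pow_add]
  refine Nat.mul_le_mul h ((Fintype.card_subtype_le (α := Fin s × D1 Q j) _).trans ?_)
  rw [Fintype.card_prod, Fintype.card_fin, Fintype.card_coe, D1, grid, Fintype.card_piFinset,
    pow_mul]
  refine Nat.mul_le_mul Nat.lt_two_pow_self.le ((prod_le_pow_card _ _ _ fun i _ => ?_).trans
    (by rw [card_univ, Fintype.card_fin]))
  rw [card_insertNone, card_range]
  refine le_trans ?_ Nat.lt_two_pow_self.le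
  unfold qq
  split_ifs <;> omega

theorem hp (a : ℕ) : (1 / 2 : ℝ) ^ a = 1 / 2 ^ a := one_div_pow 2 a

theorem le2 {a b c : ℕ} (h : a + c ≤ b) : (2 : ℝ) ^ a * (1 / 2) ^ b ≤ (1 / 2) ^ c := by
  refine (mul_le_mul_of_nonneg_left (half_anti h) (by positivity)).trans_eq ?_
  rw [pow_add, ← mul_assoc, ← mul_pow]; norm_num

end Nu2
open Nu2

theorem dnum2 (s d : ℕ) (hJ : JZI s d) (hC : COR s d) : TRN2 s d := by
  refine ⟨20, by norm_num, fun k0 Kt => ?_⟩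
  obtain ⟨n0, h0⟩ := big k0 Kt
  refine ⟨((n0 + s + d + 10 : ℕ) : ℝ)⁻¹, by positivity, fun M0 E M1 => ?_⟩
  obtain ⟨K, hK⟩ := hJ M1
  refine ⟨(24 * (Kt + 1) + 5 + E) * K, fun ε o e0 e1 ho _ _ => ?_⟩
  intro C' _ _ T' ι k r hk H1 n1 a1 a2 j ov hn kn sz b1 b2 b3 g f e c2 c3 _ c5 c6 em fn hf fi
  obtain ⟨lam, δ, ok⟩ := ex_hc ho r c2 c5 em j hf a1 a2
  obtain ⟨b, f1, f2, -, f3⟩ := ho.f
  set c := Hc.mk o C' T' ι f e j fn a1 a2 lam δ with hc
  have q0 : n0 + s + d + 10 ≤ o.Q := by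
    have := (inv_anti₀ e0 e1).trans ho.Q.2
    rw [inv_inv] at this
    exact_mod_cast this
  have q1 := ho.Qn
  have q2 : o.D ≤ 2 * o.n := ho.cx.D
  change 2 * o.n ≤ n1 at hn
  change (n1 + a2) ^ 20 ≤ (2 * o.n) ^ Kt + 1 at b3
  obtain ⟨u, hu⟩ : ∃ u, u = n1 ^ 4 := ⟨_, rfl⟩
  obtain ⟨μ, hμ⟩ : ∃ μ, μ = 2 * o.n + s + (o.Q + 3) * (d + 2) := ⟨_, rfl⟩
  have u5 : n1 ^ 20 = u ^ 5 := by rw [hu, ← pow_mul]
  have n20 : 20 ≤ n1 := by omega
  have u1 : 20 * n1 ^ 3 ≤ u := by rw [hu, pow_succ, mul_comm]; exact Nat.mul_le_mul_left _ n20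
  have u2 : 20 * n1 ^ 2 ≤ n1 ^ 3 := by rw [pow_succ n1 2, mul_comm]; exact Nat.mul_le_mul_left _ n20
  have u3 : 20 * n1 ≤ n1 ^ 2 := by rw [sq]; exact Nat.mul_le_mul_right _ n20
  have qd : o.Q * o.D ≤ n1 ^ 2 := by rw [sq]; exact Nat.mul_le_mul (by omega) (by omega)
  have qe : (4 * o.n + 5) * (o.Q * o.D) ≤ 3 * n1 ^ 3 :=
    (Nat.mul_le_mul (by omega : _ ≤ 3 * n1) qd).trans_eq (by ring)
  have m1 : (o.Q + 3) * (d + 2) ≤ n1 ^ 2 := by rw [sq]; exact Nat.mul_le_mul (by omega) (by omega)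
  have ns : 2 * o.n * s ≤ n1 ^ 2 := by rw [sq]; exact Nat.mul_le_mul (by omega) (by omega)
  have w1 : 20 * u ≤ u ^ 5 := (Nat.mul_le_mul_right u (by omega)).trans
    ((sq u).ge.trans (Nat.pow_le_pow_right (by omega) (by norm_num)))
  have w2 : u ^ 5 ≤ u ^ 6 := Nat.pow_le_pow_right (by omega) (by norm_num)
  have w3 : 20 * u ^ 5 ≤ u ^ 6 := by
    rw [pow_succ u 5, mul_comm]; exact Nat.mul_le_mul_left _ (by omega)
  have z1 : n1 + a2 ≤ (n1 + a2) ^ 20 := Nat.le_self_pow (by norm_num) _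
  have z2 : n1 ^ 20 ≤ (n1 + a2) ^ 20 := Nat.pow_le_pow_left (by omega) _
  have cu : Fintype.card c.CU ≤ 2 ^ (n1 + 3) := card_cc T' j.succ sz.2.1
  have cu' : (Fintype.card c.CU : ℝ) * Real.exp (-(Real.pi * √((n1 + 5 : ℕ) : ℝ) ^ 2)) ≤
      (1 / 2) ^ (n1 + 3) := (mul_le_mul (by exact_mod_cast cu) (ex_le _) (Real.exp_pos _).le
        (by positivity)).trans (le2 (by omega))
  have cw : Fintype.card (c.P.Cw (SD s (D1 c.o.Q c.j))) ≤ 2 ^ μ := hμ ▸ card_cw _ _ _ ho.cx.C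
  have pr := cor_pr (m := n1 + 1) j.succ 0 H1 sz.2.1 (show _ ≤ a1 by omega) b2 (by omega) (by omega)
    (mono _ _ _ _ _ _ T' le_rfl (by omega) g)
  rw [u5]
  refine hC c ε _ k u (2 ^ μ) b √((n1 + 5 : ℕ) : ℝ) ((1 / 2) ^ (2 * (μ + 2 * u + 10) + o.n + 2 * μ))
    ((1 / 2) ^ (μ + 2 * u + 10)) H1 ok fi ⟨f1, f2, f3⟩ (Real.sqrt_nonneg _) ?_ ?_ ov cw
    Nat.one_le_two_pow (by positivity) (by positivity) ?_ ?_ ?_ (by omega)
    (by change o.Q * (o.D + 1) ≤ u; rw [mul_add]; omega) (by change 4 * o.n + 4 ≤ u; omega)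
    (cu.trans (Nat.pow_le_pow_right two_pos (by omega))) ?_ ?_
  · refine le_trans ?_ (h0 o.n (by omega))
    rw [Real.sq_sqrt (Nat.cast_nonneg _)]
    refine mul_le_mul (mul_le_mul_of_nonneg_left (pow_le_pow_right₀ (by norm_num) hk) (by norm_num))
      ?_ (Nat.cast_nonneg _) (by positivity)
    exact_mod_cast (by omega : n1 + 5 ≤ (2 * o.n) ^ Kt + 6)
  · have := half_anti (show 2 ≤ n1 + 3 by omega)
    rw [mul_assoc]
    linarith
  · rw [le_div_iff₀ (by positivity)]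
    have := le2 (show μ + 7 ≤ μ + 2 * u + 10 by omega)
    push_cast
    linarith
  · push_cast
    rw [← pow_mul, ← pow_mul, ← pow_add]
    exact le2 (by change o.n + _ + _ ≤ _; omega)
  · push_cast
    have a : √((n1 : ℝ) + 5) ^ 2 ≤ 2 ^ (n1 + 5) := by
      rw [Real.sq_sqrt (by positivity)]
      exact_mod_cast (Nat.lt_two_pow_self (n := n1 + 5)).le
    rw [div_pow, mul_pow, div_eq_mul_one_div, ← pow_mul, ← pow_mul, ← pow_mul, ← pow_mul, ← hp,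
      ← pow_add, ← mul_assoc, ← mul_assoc, ← pow_add]
    refine (mul_le_mul_of_nonneg_right (mul_le_mul_of_nonneg_left a (by positivity))
      (by positivity)).trans ?_
    rw [← pow_add]
    exact le2 (by change o.n + _ + (k + 1 + 2 * o.n * s) * 2 + _ + _ ≤ a2 * 2; omega)
  · have p1 : (1 / 2 : ℝ) ^ (n1 + 2) ≤ c.U.pr {w | c.T.cor c.j.succ 0 w ∈ H1} -
        2 * Fintype.card c.CU * Real.exp (-(Real.pi * √((n1 + 5 : ℕ) : ℝ) ^ 2)) := by
      have a := (abs_le.1 pr).1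
      have a' := sz.2.2
      change _ ≤ c.U.pr {w | c.T.cor c.j.succ 0 w ∈ H1} - _ at a
      rw [mul_assoc]
      simp only [pow_succ] at a cu' ⊢
      linarith
    have p2 := mul_le_mul_of_nonneg_left p1
      (show (0 : ℝ) ≤ ((1 / 2) ^ (4 * o.n + 5)) ^ (o.Q * o.D) by positivity)
    have p3 := half_anti (show (4 * o.n + 5) * (o.Q * o.D) + (n1 + 2) + 1 ≤ u by omega)
    have p4 : ((o.Q * o.D : ℕ) : ℝ) ≤ 2 ^ u := by
      exact_mod_cast (by omega : o.Q * o.D ≤ u).trans Nat.lt_two_pow_self.le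
    have p5 := le2 (show μ + 9 + (2 * u + 1) ≤ μ + 2 * u + 10 by omega)
    have p6 := le2 (show 2 + (2 * u + 1) ≤ 10 * u ^ 6 by omega)
    have p7 := le2 (show u + u ≤ 2 * u by omega)
    have p8 : 400 * ((2 ^ μ : ℕ) : ℝ) * (1 / 2) ^ (μ + 2 * u + 10) + 4 / 2 ^ (10 * u ^ 6) ≤
        (1 / 2) ^ (2 * u) := by
      rw [hp (10 * u ^ 6), pow_succ (1 / 2 : ℝ) (2 * u)] at p6
      rw [pow_add (2 : ℝ), pow_succ (1 / 2 : ℝ) (2 * u)] at p5
      have : (0 : ℝ) ≤ 2 ^ μ * (1 / 2) ^ (μ + 2 * u + 10) := by positivity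
      push_cast
      rw [div_eq_mul_one_div 4]
      linarith
    have p9 := mul_le_mul p4 p8 (by positivity) (by positivity)
    rw [pow_succ, pow_add, pow_mul] at p3
    change _ ≤ ((1 / 2 : ℝ) ^ (4 * o.n + 5)) ^ (o.Q * o.D) * _ - ((o.Q * o.D : ℕ) : ℝ) * _
    linarith
  · intro k' r r' al Γ Δ V x r1 r2 hV
    have y0 : 2 ≤ 2 * o.n := by omega
    have y1 : (2 * o.n) ^ Kt + 1 ≤ (2 * o.n) ^ (Kt + 1) := by
      have := Nat.one_le_pow Kt (2 * o.n) (by omega)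
      have := Nat.mul_le_mul_left ((2 * o.n) ^ Kt) y0
      rw [pow_succ]; omega
    have y2 : 32 * u ^ 6 ≤ (2 * o.n) ^ (24 * (Kt + 1) + 5) := by
      rw [hu, ← pow_mul, pow_add, mul_comm 24, pow_mul (2 * o.n), mul_comm]
      exact Nat.mul_le_mul (Nat.pow_le_pow_left (by omega) 24) (Nat.pow_le_pow_left y0 5)
    have y3 : ∀ a ≤ 24 * (Kt + 1) + 5 + E, (2 * o.n) ^ a ≤ (2 * o.n) ^ (24 * (Kt + 1) + 5 + E) :=
      fun a => Nat.pow_le_pow_right (by omega)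
    have y4 := y3 _ (Nat.le_add_right _ E)
    have y5 := y3 (Kt + 1) (by omega)
    refine (hK c ε _ k ((2 * o.n) ^ (24 * (Kt + 1) + 5 + E)) k' r r' al Γ Δ V x ok c3 (by omega)
      (by change 2 * o.n ≤ _; omega) (y3 E (by omega)) (by change a1 ≤ _; omega)
      (by change a2 ≤ _; omega) (by omega) (by omega) (by rw [← pow_mul]; exact c6)
      fun t => le_trans (le_min ?_ ?_) (hV t)).trans ?_
    all_goals simp only [← hp]; exact half_anti (by first | omega | (change o.n ≤ _; omega))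

end Crest.Agent.N49.He

end
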