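import Crest.Agent.N49.He.Dc
import Crest.Agent.N49.He.Hx2
import Crest.Agent.N49.Rm.Clm
import Crest.Agent.N49.Top.Pl

/-!
# Row 49 (helper27): the parameters of the transitions
-/

set_option autoImplicit false

open Finset Filter

noncomputable section

namespace Crest.Agent.N49.He

open Po Tw Br Rm Rm.TT Ft Md Sd N49.Top

namespace N27

theorem ev_exp (A K : ℕ) : ∃ N, ∀ n, N ≤ n → A * (n + 1) ^ K ≤ 2 ^ (n / 4) := by
  have h := (tendsto_pow_const_div_const_pow_of_one_lt K (one_lt_two (α := ℝ))).eventually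
    (gt_mem_nhds (show (0 : ℝ) < 1 / (2 * A * 4 ^ K + 1) by positivity))
  obtain ⟨N, h⟩ := eventually_atTop.1 h
  refine ⟨4 * N, fun n hn => ?_⟩
  have k := h (n / 4 + 1) (by omega)
  rw [div_lt_div_iff₀ (by positivity) (by positivity), pow_succ] at k
  have a : (n + 1) ^ K ≤ 4 ^ K * (n / 4 + 1) ^ K := by
    rw [← mul_pow]; exact Nat.pow_le_pow_left (by omega) _
  have b : (n / 4 + 1) ^ K * (2 * A * 4 ^ K + 1) < 1 * (2 ^ (n / 4) * 2) := by exact_mod_cast k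
  nlinarith [Nat.mul_le_mul_left A a, Nat.zero_le ((n / 4 + 1) ^ K)]

theorem hf {a b : ℕ} (e : a ≤ b) : (1 : ℝ) / 2 ^ b ≤ 1 / 2 ^ a :=
  one_div_le_one_div_of_le (by positivity) (pow_le_pow_right₀ one_le_two e)

theorem tl3 (k : ℕ) : Real.exp (-(Real.pi * √(k : ℝ) ^ 2)) ≤ 1 / 2 ^ (3 * k) := by
  rw [Real.sq_sqrt (Nat.cast_nonneg k), Real.exp_neg, one_div]
  refine inv_anti₀ (by positivity) ?_
  have a : (2 : ℝ) ≤ Real.exp 1 := by linarith [Real.add_one_le_exp (1 : ℝ)]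
  refine (pow_le_pow_left₀ two_pos.le a _).trans ?_
  rw [← Real.exp_nat_mul]
  exact Real.exp_le_exp.2 (by push_cast; nlinarith [Real.pi_gt_three, Nat.cast_nonneg (α := ℝ) k])

theorem card_cw {s d : ℕ} (T : TS Unit) (D : Finset (Pt (Fin (d + 2)))) :
    Fintype.card (T.Cw (SD s D)) ≤ Fintype.card T.C * (s * #D) := by
  refine (Fintype.card_subtype_le _).trans ?_
  rw [Fintype.card_prod]
  refine Nat.mul_le_mul_left _ ((Fintype.card_subtype_le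
    (fun p : Fin s × D => #(bl p.2.1) = min (p.1.val + 1) (Fintype.card (Fin (d + 2))))).trans ?_)
  simp

theorem card_D1 {d : ℕ} (Q : ℕ) (j : Fin d) : #(D1 Q j) ≤ (Q + 3) ^ (d + 2) := by
  rw [D1, grid, Fintype.card_piFinset]
  refine (prod_le_pow_card _ _ (Q + 3) fun i _ => ?_).trans (by simp)
  rw [card_insertNone, card_range, qq]
  split_ifs <;> omega

/-- the last inequality -/
theorem last {n0 n1 u q m : ℕ} {p τ : ℝ} (hu : 10 ≤ u) (hq : q ≤ u) (hp : 1 / 2 ^ (n1 + 1) ≤ p)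
    (hτ : τ ≤ 1 / 2 ^ (n1 + 2)) (e : (4 * n0 + 5) * q + (n1 + 3) ≤ u) :
    (1 / 2 : ℝ) ^ u ≤ ((1 / 2) ^ (4 * n0 + 5)) ^ q * (p - τ) -
      (q : ℕ) * (400 * (2 ^ m : ℕ) * (1 / 2 ^ (2 * u + 10 + m)) + 4 / 2 ^ (10 * u ^ 6)) := by
  have a : (1 : ℝ) / 2 ^ (n1 + 2) ≤ p - τ := by
    rw [pow_succ _ (n1 + 1)] at hτ ⊢
    have : (1 : ℝ) / (2 ^ (n1 + 1) * 2) = 1 / 2 ^ (n1 + 1) / 2 := by field_simp
    linarith
  have b : 2 * (1 / 2 : ℝ) ^ u ≤ ((1 / 2) ^ (4 * n0 + 5)) ^ q * (p - τ) := by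
    refine le_trans ?_ (mul_le_mul_of_nonneg_left a (by positivity))
    rw [← pow_mul, ← one_div_pow, ← pow_add]
    have := half_anti e
    rw [show n1 + 3 = n1 + 2 + 1 from rfl, ← add_assoc, pow_succ] at this
    linarith
  have c : (q : ℝ) ≤ 2 ^ u := by exact_mod_cast hq.trans Nat.lt_two_pow_self.le
  have g : (400 : ℝ) * (2 ^ m : ℕ) * (1 / 2 ^ (2 * u + 10 + m)) ≤ 1 / 2 ^ (2 * u + 1) := by
    push_cast
    rw [pow_add, pow_add, pow_add]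
    field_simp
    norm_num
  have k : (4 : ℝ) / 2 ^ (10 * u ^ 6) ≤ 1 / 2 ^ (2 * u + 1) := by
    have := hf (show 2 * u + 1 + 2 ≤ 10 * u ^ 6 by have := Nat.le_self_pow (n := 6) (by omega) u; omega)
    rw [pow_add _ (2 * u + 1)] at this
    have z : (1 : ℝ) / (2 ^ (2 * u + 1) * 2 ^ 2) = 1 / 2 ^ (2 * u + 1) / 4 := by field_simp; norm_num
    rw [div_eq_mul_one_div]; linarith
  have l := mul_le_mul c (add_le_add g k) (by positivity) (by positivity)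
  have z : (2 : ℝ) ^ u * (1 / 2 ^ (2 * u + 1) + 1 / 2 ^ (2 * u + 1)) = (1 / 2) ^ u := by
    rw [one_div_pow, pow_succ, two_mul, pow_add]; field_simp; norm_num
  linarith

/-- the errors of the kept words -/
theorem sig {n0 m a b k T : ℕ} (e : n0 + 3 * m + 2 * a + k + 2 * T ≤ 2 * b) :
    (2 : ℝ) ^ n0 * ((2 ^ m : ℕ) : ℝ) ^ 3 * (2 ^ a * √(k : ℝ) / 2 ^ b) ^ 2 ≤ (1 / 2 ^ T) ^ 2 := by
  have c : (k : ℝ) ≤ 2 ^ k := by exact_mod_cast Nat.lt_two_pow_self.le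
  have p : (2 : ℝ) ^ (n0 + 3 * m + 2 * a + k + 2 * T) ≤ 2 ^ (2 * b) := pow_le_pow_right₀ one_le_two e
  push_cast
  rw [div_pow, div_pow, mul_pow, Real.sq_sqrt (Nat.cast_nonneg k), ← mul_div_assoc,
    div_le_div_iff₀ (by positivity) (by positivity)]
  refine le_trans ?_ (p.trans_eq (by ring))
  calc _ ≤ (2 : ℝ) ^ n0 * (2 ^ m) ^ 3 * ((2 ^ a) ^ 2 * 2 ^ k) * (2 ^ T) ^ 2 := by gcongr
    _ = 2 ^ (n0 + 3 * m + 2 * a + k + 2 * T) := by ring

end N27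

set_option maxHeartbeats 1000000 in
open N27 in
/-- **the parameters** -/
theorem dnum27 {s d : ℕ} (lm : LAM s d) (jz : JZI s d) (co : COR s d) : TRN2 s d := by
  obtain ⟨e, e1, he⟩ := (show Pl fun n => (n + s + (n + 3) * (d + 2)) + n * s +
    (2 * n + 5) * (n * n) + n * (n + 1) + 3 * n + 10 by pl).ge 1
  refine ⟨5 * e, by omega, fun k0 Kt => ?_⟩
  obtain ⟨N0, hN⟩ := ev_exp (63 * 4 ^ k0 * 2 ^ Kt) Kt
  refine ⟨1 / (N0 + 1), by positivity, fun M0 E M1 => ?_⟩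
  obtain ⟨K, jz⟩ := jz M1
  obtain ⟨K1, -, hK⟩ := (show Pl fun n => n + n ^ E + 45 * (n ^ Kt + 1) ^ 6 + 30 by pl).ge 1
  refine ⟨K1 * K, fun ε o e0 eN ok _ _ => ?_⟩
  intro C' _ _ T' ι k r hk H1 n1 a1 a2 j ov hn kn sz b1 b2 b3 g f em c2 c3 _ c5 c6 emb fn hfn fi
  obtain ⟨lam, δ, hc⟩ := lm ⟨o, C', T', ι, f, em, j, fn, a1, a2, 0, 0⟩ ε _ k ok emb
    (r.mor (Idf.sy_ok ok.cx.ok (Kx.wf ok.cx))) c2 c5 hfn
  obtain ⟨b, f1, f2, -, f3⟩ := ok.f
  have n2 := sz.1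
  have q1 := ok.Qn
  have d1 : o.D ≤ n1 := ok.cx.D.trans hn
  have n0 : o.cx.n = 2 * o.n := rfl
  have nN : N0 ≤ o.n := by
    have := (inv_anti₀ e0 eN).trans ok.Q.2
    rw [one_div, inv_inv] at this
    have : N0 + 1 ≤ o.Q := by exact_mod_cast this
    omega
  specialize hN _ nN
  specialize he n1 n2
  specialize hK o.cx.n ok.cx.n2
  obtain ⟨u, hu⟩ : ∃ u, u = n1 ^ e := ⟨_, rfl⟩
  have u5 : n1 ^ (5 * e) = u ^ 5 := by rw [hu, ← pow_mul, mul_comm]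
  rw [← hu] at he
  rw [u5] at b1 ⊢
  have s1 : n1 + a2 ≤ (n1 + a2) ^ (5 * e) := Nat.le_self_pow (by omega) _
  have s2 : u ≤ u ^ 5 := Nat.le_self_pow (by omega) _
  have s3 : 10 ^ 4 * u ≤ u ^ 5 := by
    rw [pow_succ u 4]; exact Nat.mul_le_mul_right _ (Nat.pow_le_pow_left (show 10 ≤ u by omega) 4)
  have s4 : u ^ 6 ≤ (o.cx.n ^ Kt + 1) ^ 6 := Nat.pow_le_pow_left (by omega) _
  have s5 : u ^ 5 ≤ u ^ 6 := Nat.pow_le_pow_right (by omega) (by omega)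
  have s6 : o.cx.n ^ Kt + 1 ≤ (o.cx.n ^ Kt + 1) ^ 6 := Nat.le_self_pow (by omega) _
  have s7 : o.Q * o.D ≤ n1 * n1 := Nat.mul_le_mul (by omega) d1
  have s7' : n1 * n1 ≤ n1 * (n1 + 1) := Nat.mul_le_mul_left _ (by omega)
  have s8 : o.Q * (o.D + 1) ≤ n1 * (n1 + 1) := Nat.mul_le_mul (by omega) (by omega)
  have s9 : (4 * o.n + 5) * (o.Q * o.D) ≤ (2 * n1 + 5) * (n1 * n1) := Nat.mul_le_mul (by omega) s7
  have t1 : 2 * o.n * s ≤ n1 * s := Nat.mul_le_mul_right _ (by omega)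
  have t2 : Fintype.card (T'.CC j.succ (Fin 4)) ≤ 2 ^ (n1 + 3) := by
    have : Fintype.card (T'.Bl j.succ) ≤ Fintype.card C' := Fintype.card_subtype_le _
    have := sz.2.1
    rw [Fintype.card_sum, Fintype.card_prod, Fintype.card_fin, pow_add]; omega
  have t3 : (Fintype.card (T'.CC j.succ (Fin 4)) : ℝ) *
      Real.exp (-(Real.pi * √((n1 + 5 : ℕ) : ℝ) ^ 2)) ≤ 1 / 2 ^ (n1 + 3) := by
    have a : (Fintype.card (T'.CC j.succ (Fin 4)) : ℝ) ≤ 2 ^ (n1 + 3) := by exact_mod_cast t2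
    refine (mul_le_mul a ((tl3 _).trans (hf (show n1 + 3 + (n1 + 3) ≤ _ by omega)))
      (by positivity) (by positivity)).trans_eq ?_
    rw [pow_add _ (n1 + 3)]; field_simp
  have t4 := hf (show 2 ≤ n1 + 3 by omega)
  have t5 : (1 : ℝ) / 2 ^ (n1 + 3) = 1 / 2 ^ (n1 + 2) / 2 := by rw [pow_succ]; field_simp
  obtain ⟨m, hm⟩ : ∃ m, m = n1 + s + (n1 + 3) * (d + 2) := ⟨_, rfl⟩
  rw [← hm] at he
  refine co _ ε _ k u (2 ^ m) b (√((n1 + 5 : ℕ) : ℝ)) (1 / 2 ^ (o.n + 2 * m + 2 * (2 * u + 10 + m)))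
    (1 / 2 ^ (2 * u + 10 + m)) H1 hc fi ⟨f1, f2, f3⟩ (by positivity) ?_ ?_ ov ?_ Nat.one_le_two_pow
    (by positivity) (by positivity) ?_ ?_ (sig ?_) (by omega) (show o.Q * (o.D + 1) ≤ u by omega)
    (show 4 * o.n + 4 ≤ u by omega) (t2.trans (Nat.pow_le_pow_right two_pos (by omega)))
    (last (n1 := n1) (by omega) (show o.Q * o.D ≤ u by omega) ?_ ?_
      (show (4 * o.n + 5) * (o.Q * o.D) + _ ≤ u by omega)) ?_
  · rw [Real.sq_sqrt (Nat.cast_nonneg _)]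
    have a : o.cx.n ^ Kt ≤ 2 ^ Kt * (o.n + 1) ^ Kt := by
      rw [← mul_pow]; exact Nat.pow_le_pow_left (by omega) _
    have : 1 ≤ 2 ^ Kt * (o.n + 1) ^ Kt := Nat.succ_le_of_lt (by positivity)
    have := Nat.mul_le_mul (Nat.pow_le_pow_right (show 0 < 4 by omega) hk)
      (show n1 + 5 ≤ 7 * (2 ^ Kt * (o.n + 1) ^ Kt) by omega)
    have : 9 * 4 ^ k * (n1 + 5) ≤ 2 ^ (o.n / 4) := by nlinarith
    exact_mod_cast this
  · show 4 * (Fintype.card (T'.CC j.succ (Fin 4)) : ℝ) * _ ≤ 1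
    rw [mul_assoc]; linarith
  · refine (card_cw _ _).trans ?_
    rw [hm, add_assoc, pow_add, pow_add, pow_mul]
    exact Nat.mul_le_mul (ok.cx.C.trans (Nat.pow_le_pow_right two_pos hn)) (Nat.mul_le_mul
      Nat.lt_two_pow_self.le ((card_D1 _ _).trans (Nat.pow_le_pow_left
        (le_trans (show o.Q + 3 ≤ n1 + 3 by omega) Nat.lt_two_pow_self.le) _)))
  · refine one_div_le_one_div_of_le (by positivity) ?_
    have : (2 : ℝ) ^ 7 ≤ 2 ^ (2 * u + 10) := pow_le_pow_right₀ one_le_two (by omega)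
    push_cast
    rw [pow_add _ _ m]; gcongr; linarith
  · refine le_of_eq ?_
    show (2 : ℝ) ^ o.n * _ * _ = _
    push_cast
    rw [pow_add, pow_add, mul_comm 2 m, mul_comm 2 (_ + m), pow_mul, pow_mul]; field_simp
  · show o.n + 3 * m + 2 * (k + 1 + 2 * o.n * s) + (n1 + 5) + 2 * (2 * u + 10 + m) ≤ 2 * a2
    omega
  · have a := cor_pr (m := n1 + 1) j.succ 0 H1 sz.2.1 (show _ ≤ a1 by omega) b2
      (show a2 ≤ (n1 + a2) ^ (5 * e) by omega) (by omega)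
      (Rm.mono _ _ _ _ _ _ T' le_rfl (show 9 ≤ (n1 + a2) ^ (5 * e) by omega) g)
    have z := sz.2.2
    have w : (RF T' j.succ fn a1 a2).wt = (T'.rect j.succ a1 a2).wt := by
      funext y
      have : Ft.co (L := Lb d) (Q := o.cx.Q) (cf y) = cf y := by
        funext v; rcases v with v | v <;> rfl
      simp only [wt, RF, this]
    have : (RF T' j.succ fn a1 a2).pr {w | T'.cor j.succ 0 w ∈ H1} =
        (T'.rect j.succ a1 a2).pr {w | T'.cor j.succ 0 w ∈ H1} := by simp only [pr, w]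
    refine le_of_le_of_eq ?_ this.symm
    rw [← one_div_pow]
    rw [pow_succ] at a ⊢
    linarith [(abs_le.1 a).1]
  · show 2 * (Fintype.card (T'.CC j.succ (Fin 4)) : ℝ) * _ ≤ _
    rw [mul_assoc]; linarith
  · intro k' r r' al Γ Δ V x h1 h2 hV
    refine (jz _ ε _ k (o.cx.n ^ K1) k' r r' al Γ Δ V x hc c3 (by omega)
      (show 2 * o.n ≤ _ by omega) (by omega) (show a1 ≤ _ by omega) (show a2 ≤ _ by omega)
      (by omega) (by omega) (by rw [← pow_mul]; exact c6) fun t => le_trans (le_min (hf ?_)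
        (hf (show o.n ≤ _ by omega))) (hV t)).trans ?_
    · omega
    · rw [one_div_pow]; exact hf (by omega)

end Crest.Agent.N49.He

end
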