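import Crest.Agent.N49.He.Dc
import Crest.Agent.N49.He.Cpy
import Crest.Agent.N49.He.Sk0
import Crest.Agent.N49.Md.Idf

/-!
# Row 49 (helper82): the kept words of the new clone have small errors
-/

set_option autoImplicit false
set_option linter.unusedSectionVars false

open Finset Matrix

noncomputable section

namespace Crest.Agent.N49.He

open Po Tw Br Rm Rm.TT Ft Md Sd

namespace Sg

theorem sy_top {ι τ : Type} [Fintype τ] [DecidableEq τ] (lev : ι → ℕ) (P : MvPolynomial ι ℝ)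
    (y : ι → Finset τ → ℝ) (A : Finset τ) :
    Sy.sy lev (MvPolynomial.weightedHomogeneousComponent lev #A P) y A = Sy.sy lev P y A := by
  classical
  rw [MvPolynomial.weightedHomogeneousComponent_apply, congrArg (Sy.sy lev · y A) P.as_sum,
    Sy.sy_sum, Sy.sy_sum, sum_filter]
  refine sum_congr rfl fun m _ => ?_
  split_ifs with z
  · rfl
  · exact (Sy.sy_hom _ (MvPolynomial.isWeightedHomogeneous_monomial _ _ _ rfl) _ (Ne.symm z)).symm

variable {d Q : ℕ} (j : Fin d) (k : ℕ)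

/-- the standard names of the clones -/
def nm (i : Fin (d + 2)) (n : ℕ) : ℕ := if i = j.succ.succ then k else if i = 1 then 0 else n

theorem lA_cm (t : Pt (Fin (d + 2))) :
    lA Q j t ((t j.succ.succ).map fun _ => k) = lw Br.gl (cm (nm j k) t) := by
  refine congrArg _ (funext fun i => ?_)
  by_cases a : i = j.succ.succ
  · rw [a, Function.update_self]
    exact congrArg (Option.map · (t _)) (funext fun n => (if_pos rfl).symm)
  rw [Function.update_of_ne a]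
  by_cases b : i = 1
  · rw [b, Function.update_self]
    exact congrArg (Option.map · (t 1)) (funext fun n => by rw [nm, if_neg (b ▸ a), if_pos rfl])
  · rw [Function.update_of_ne b]
    exact (Option.map_id_apply.symm.trans (congrArg (Option.map · (t i))
      (funext fun n => by rw [nm, if_neg a, if_neg b]; rfl)))

theorem mem_im {f : Fin (d + 2) → ℕ → ℕ} {t : Pt (Fin (d + 2))} {l : Lb d}
    (h : l ∈ (lw (Br.gl (Q := Q)) (cm f t)).image bk) : t l.succ ≠ none := by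
  obtain ⟨a, m, rfl⟩ := mem_image.1 h
  intro e
  have := mem_lw.1 m
  rw [show (Br.gl a).1 = (bk a).succ from rfl, show Br.cm f t (bk a).succ = none from
    congrArg (Option.map _) e] at this
  cases this

theorem u_gen {ι τ : Type} [Fintype ι] [LinearOrder ι] [Fintype τ] [DecidableEq τ] {x : ι} {s : ℕ}
    {D D' : Finset (Pt ι)} {lt : τ → ι × ℕ} {W : Finset (Finset τ)} (l : Lt x D' lt W) (hD : Dc D)
    (hD' : Dc D') (hW : Sy.Dw W) {T : TS Unit} (hT : T.Tri)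
    (hs : ∀ c, T.lev c ≤ s) {V : ℕ → Pt ι → ℝ} (y : T.Cw (Br.tw s D V)) (f : ι → ℕ → ℕ)
    (m : Br.cm f (Wd.tr y.1.2) ∈ D') (Y : T.Cw (Br.tw s D V) → ℝ) (Z : T.C → Finset τ → ℝ)
    (hY : ∀ q : T.Cw (Br.tw s D V), Le (Wd.tr q.1.2) (Wd.tr y.1.2) → Y q =
      Z q.1.1 (lw lt (Br.cm f (Wd.tr q.1.2)))) :
    (lw lt (Br.cm f (Wd.tr y.1.2)) ∈ W ∧ #(lw lt (Br.cm f (Wd.tr y.1.2))) = T.lev y.1.1) ∧
      (T.sh (Br.tw s D V)).u Y y = Sy.sy T.lev (T.top.Φ y.1.1) Z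
        (lw lt (Br.cm f (Wd.tr y.1.2))) := by
  let y' : T.Cw (Br.tw s D' V) := ⟨(y.1.1, Wd.mk' y.1.2 _ m (by rw [bl_cm])), y.2⟩
  have hp : ∀ _ : T.C, True := fun _ => trivial
  have k := (l.fs s V hp y').2
  refine ⟨k.2, (u_loc hD hD' (y := Y) (c := y) (c' := y')
    (y' := fun r => Z r.1.1 (lw lt (Wd.tr r.1.2))) rfl (bl_cm _ _).symm
    fun q q' e b b' z => ?_).trans ((l.u_fs hp hT hs (fun w => Z w.1.1 w.1.2) y').trans ?_)⟩
  · have : Br.cm f (Wd.tr q.1.2) = Wd.tr q'.1.2 := (b.cm f).eq b' ((bl_cm _ _).trans z)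
    rw [hY q b, this, e]
  · refine (Sy.sy_congr' (y' := Z) _ _ fun c B a b => dif_pos ⟨trivial, hW _ k.2.1 _ a, b⟩).trans ?_
    exact (sy_top _ _ _ _).symm.trans (congrArg (fun n => Sy.sy T.lev
      (MvPolynomial.weightedHomogeneousComponent T.lev n (T.Φ y.1.1)) _ _) k.2.2)
end Sg

namespace Hc
variable {s d : ℕ} {c : Hc s d} {ε : ℝ} {h κ : ℕ}

/-- the errors of the kept words are symbols -/
theorem u_sym (c : Hc s d) {D : Finset (Pt (Fin (d + 2)))} (hD : Dc D) (y : c.P.Cw (SD s D))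
    (f : Fin (d + 2) → ℕ → ℕ) (m : cm f (Wd.tr y.1.2) ∈ (gS s c.o.g c.o.Q).D G0)
    (Y : c.P.Cw (SD s D) → ℝ) (p : c.o.cx.B.SC (Wt d c.o.Q) ⊕ Lb d → ℝ)
    (hY : ∀ q : c.P.Cw (SD s D), Le (Wd.tr q.1.2) (Wd.tr y.1.2) → Y q =
      Sy.sx c.o.cx.B.T _ (Wt d c.o.Q) (fun w => p (.inl w)) q.1.1 (lw Br.gl (cm f (Wd.tr q.1.2)))) :
    ∃ w : c.o.cx.B.SC (Wt d c.o.Q), w.1.2 = lw Br.gl (cm f (Wd.tr y.1.2)) ∧
      c.o.cx.SY.Φ p w = (∏ a ∈ w.1.2, c.o.cx.B.la (bk a)) * (c.P.sh (SD s D)).u Y y := by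
  have a := Sg.u_gen (T := c.P) (g_lt c.o.h.ok) hD c.o.h.ok.dc_D
    (fun B h A k => mem_gW.2 fun a p b q => mem_gW.1 h a (k p) b (k q))
    c.P_stg.cl.1 c.o.h.lev y f m Y _ hY
  have e : c.P.lev = c.o.cx.B.T.lev := funext fun F => by unfold TS.lev; rfl
  refine ⟨⟨(y.1.1, _), c.o.h.hp _, a.1.1, a.1.2.trans (congrFun e _)⟩, rfl,
    congrArg (_ * ·) (Eq.trans ?_ a.2.symm)⟩
  exact congrArg₂ (Sy.sy · · _ _) e.symm (Oc.un_top c.o.h.stg c.o.h.wh y.1.1).symm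

theorem x_inl (a : c.C) : c.x ∈ c.U.ty (.inl a) ↔ 0 ∈ c.T.ty a :=
  ⟨fun h => let ⟨_, m, e⟩ := mem_image.1 h; Rs.i_inj e ▸ m, mem_image_of_mem _⟩

variable (c) in
/-- the third direction, scaled -/
def sc (a : ℝ) (w v : c.CU → ℤ) : c.C ⊕ Lb d → ℝ :=
  c.T.cmb c.j.succ a 0 (c.T.px c.j.succ (fun _ => false) 2 (Ft.co (pt c.U c.x w v)))
    (c.T.px c.j.succ (fun _ => false) 2 (Ft.co (pt c.U c.x w v)))

theorem sc_e (a : ℝ) (w v : c.CU → ℤ) (ℓ : Lb d) :
    c.sc a w v (.inr ℓ) = if ℓ ∈ ({0, c.j.succ} : Finset (Lb d)) then 0 else 1 := by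
  by_cases e : ℓ = c.j.succ
  · subst e; simp [sc, cmb, px]
  · have : c.j.succ ∉ c.T.tv (.inr ℓ) := by simpa using Ne.symm e
    rw [sc, cmb_out this]
    simp [px, e, Ft.co, pt, jr]

theorem px_loc {A : Finset (Lb d)} (n : 0 ∉ A) (w v v' : c.CU → ℤ) (l : Fin 4) (z : c.C ⊕ Lb d)
    (m : c.T.tv z ⊆ A) : c.T.px c.j.succ (fun _ => false) l (Ft.co (pt c.U c.x w v)) z =
      c.T.px c.j.succ (fun _ => false) l (Ft.co (pt c.U c.x w v')) z := by
  rcases z with z | z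
  · simp only [px]
    split_ifs with a
    · have : c.x ∉ c.U.tv (.inl (.inr (⟨z, a⟩, l))) := fun b =>
        n (m (mem_of_mem_erase ((x_inr _ _).1 b)))
      exact (jr_out (cf w) (fun c => (v c.1 : ℝ)) 0 this).trans
        (jr_out (cf w) (fun c => (v' c.1 : ℝ)) 0 this).symm
    · have : c.x ∉ c.U.tv (.inl (.inl z)) := fun b => n (m ((x_inl _).1 b))
      exact (jr_out (cf w) (fun c => (v c.1 : ℝ)) 0 this).trans
        (jr_out (cf w) (fun c => (v' c.1 : ℝ)) 0 this).symm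
  · rfl

/-- the scaled point has short errors -/
theorem Ok.sc_le (o : c.Ok ε h κ) {R : ℝ} {w v : c.CU → ℤ} (hw : w ∈ c.Cn R) (a : c.C)
    (m : ¬ Disjoint (c.T.ty a) {0, c.j.succ}) (hv : 0 ∈ c.T.ty a → ∀ z : c.XW c.S5,
      |c.U.Φ (pt c.U c.x w v) z.1| ≤ R) : |c.T.Φ (c.sc (2 ^ c.a2) w v) a| ≤ R := by
  by_cases b : c.j.succ ∈ c.T.ty a
  · have e : c.T.Φ (c.sc (2 ^ c.a2) w v) a = c.U.Φ (pt c.U c.x w v) (.inr (⟨a, b⟩, 2)) :=
      (o.emb.ok.lin b _ _ _ _ fun _ _ => rfl).trans (by rw [zero_mul, add_zero]; rfl)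
    rw [e]
    by_cases z : 0 ∈ c.T.ty a
    · exact hv z ⟨_, mem_dls.2 ⟨(x_inr _ _).2 (mem_erase.2 ⟨(Fin.succ_ne_zero _).symm, z⟩),
        Rt.dis5 fun _ => by simp⟩⟩
    · rw [pt, o.U.phi_out _ _ _ fun k => z (mem_of_mem_erase ((x_inr _ _).1 k))]
      exact hw _ (Rt.mem_tl.2 ⟨_, rfl⟩)
  · have z : 0 ∈ c.T.ty a := by simpa [b] using m
    have e : c.T.Φ (c.sc (2 ^ c.a2) w v) a = c.U.Φ (pt c.U c.x w v) (.inl a) := by
      refine o.emb.ok.phi_cg fun u k => (cmb_out fun i => b (k i)).trans ?_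
      rcases u with u | u
      · exact dif_neg fun i => b (k i)
      · exact if_neg fun i => b (k (by simp [i]))
    rw [e]
    exact hv z ⟨_, mem_dls.2 ⟨(x_inl _).2 z, Rt.dis5 fun _ => by simp⟩⟩

/-- the background below a word of the new clone -/
theorem Ok.bg_sc (o : c.Ok ε h κ) (k : Fin c.o.Q) (w : c.CU → ℤ) (v : ℕ → c.CU → ℤ)
    {t : Pt (Fin (d + 2))} (ht : t c.j.succ.succ = some c.o.Q)
    (q : c.P.Cw (SD s (D1 c.o.Q c.j))) (l : Le (Wd.tr q.1.2) t) : (c.bg k w v q : ℝ) =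
      c.rv (c.sc (-1) w ((t 1).elim 0 v)) q.1.1 (lw Br.gl (cm (Sg.nm c.j k) (Wd.tr q.1.2))) := by
  have i := Rk.intP_px (T := c.T) (j := c.j.succ) (c.intP_pp w v (Wd.tr q.1.2)) (fun _ => false) 2
  have e1 : c.rv (c.T.px c.j.succ (fun _ => false) 2 (c.pp w v (Wd.tr q.1.2))) q.1.1
      (lw Br.gl (cm (Sg.nm c.j k) (Wd.tr q.1.2))) = c.rv (c.T.px c.j.succ (fun _ => false) 2
        (c.pp w v t)) q.1.1 (lw Br.gl (cm (Sg.nm c.j k) (Wd.tr q.1.2))) := by
    by_cases z : Wd.tr q.1.2 1 = none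
    · have n : 0 ∉ (lw (Br.gl (Q := c.o.Q)) (cm (Sg.nm c.j k) (Wd.tr q.1.2))).image bk :=
        fun m => Sg.mem_im m z
      exact o.rv_loc _ _ (fun u a => px_loc n _ _ _ _ _ (by
        rw [tv_inl, o.ty_e]; exact image_subset_image a)) fun a _ => rfl
    · rw [pp, l 1 z]; rfl
  have e2 := Sg.lA_cm (Q := c.o.Q) c.j k (Wd.tr q.1.2)
  rcases e : Wd.tr q.1.2 c.j.succ.succ with _ | n
  · have n : c.j.succ ∉ (lw (Br.gl (Q := c.o.Q)) (cm (Sg.nm c.j k) (Wd.tr q.1.2))).image bk :=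
      fun m => Sg.mem_im m e
    rw [e, Option.map_none] at e2
    simp only [bg, e, Option.elim, r0, e2]
    rw [← o.rd_px_out _ (fun _ => false) 2 _ _ n, o.rd_cast i, e1]
    refine o.rv_loc _ _ (fun u a => (cmb_out fun m => n ?_).symm)
      fun a b => (cmb_out fun m => n ?_).symm
    · exact image_subset_image a (o.ty_e u ▸ m)
    · exact mem_singleton.1 m ▸ mem_image_of_mem _ b
  · obtain rfl : n = c.o.Q := Option.some.inj (e.symm.trans ((l _ (e ▸ nofun)).trans ht))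
    have m : c.j.succ ∈ (lw (Br.gl (Q := c.o.Q)) (cm (Sg.nm c.j k) (Wd.tr q.1.2))).image bk :=
      mem_image.2 ⟨some (c.j, k), mem_lw.2 (by
        show (Wd.tr q.1.2 c.j.succ.succ).map _ = _
        rw [e]; exact congrArg some (if_pos rfl)), rfl⟩
    rw [e, Option.map_some] at e2
    simp only [bg, e, Option.elim, rx, e2, Nat.mod_eq_of_lt (Nat.lt_succ_self _), k.2.ne',
      cb_le le_rfl, if_false, if_true, cond_false, Int.cast_neg]
    rw [o.rd_cast i, e1]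
    exact ((o.rv_lin _ m _ _ _ _ fun _ _ => rfl).trans (by rw [zero_mul, add_zero, neg_one_mul]; rfl)).symm
end Hc

open Hc in
theorem dsmg (s d : ℕ) : SMG s d := by
  intro c ε h κ R k w n y o R0 hw hn ky ty
  have g := Br.mem_grid.1 (Wd.mem y.1.2)
  have m : cm (Sg.nm c.j k) (Wd.tr y.1.2) ∈ (gS s c.o.g c.o.Q).D G0 := by
    refine (mem_gD c.o.h.ok).2 ⟨congrArg (Option.map _) ky, fun a e => ?_, fun i a e => ?_⟩
    · obtain ⟨b, -, rfl⟩ := Option.map_eq_some_iff.1 e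
      exact (if_neg (ss_ne _).symm).trans (if_pos rfl)
    · obtain ⟨b, z, rfl⟩ := Option.map_eq_some_iff.1 e
      unfold Sg.nm
      split_ifs with u u'
      · exact k.2
      · exact (ss_ne _ u').elim
      · simpa [qq, u, u'] using g _ _ z
  obtain ⟨u, hu, e⟩ := c.u_sym (dc_grid _) y _ m (zc (c.bg k w (c.vs c.S5 n)))
    (c.ι (c.sc (-1) w ((Wd.tr y.1.2 1).elim 0 (c.vs c.S5 n)))) fun q l => o.bg_sc k w _ ty q l
  have oS : c.o.cx.SY.Ok := Idf.sy_ok o.o.cx.ok (gW_wf (Nat.lt_of_succ_le o.o.cx.ds))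
  have mj : c.j.succ ∈ c.o.cx.SY.ty u := by
    refine mem_image.2 ⟨some (c.j, k), hu ▸ mem_lw.2 ?_, rfl⟩
    show (Wd.tr y.1.2 c.j.succ.succ).map _ = _
    rw [ty]; exact congrArg some (if_pos rfl)
  have li := fun a : ℝ => o.mor.toLm.lin (oS.lin mj) a 0
    (c.T.px c.j.succ (fun _ => false) 2 (c.pp w (c.vs c.S5 n) (Wd.tr y.1.2))) _ fun _ _ => rfl
  have cu := o.mor.cube {0, c.j.succ} (c.sc (2 ^ c.a2) w ((Wd.tr y.1.2 1).elim 0 (c.vs c.S5 n))) u
    R R0 (sc_e _ _ _) (not_disjoint_iff.2 ⟨_, mj, by simp⟩) fun a b z => o.sc_le hw a z fun z0 => by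
      have z1 : Wd.tr y.1.2 1 ≠ none := Sg.mem_im (l := 0) (by
        have : 0 ∈ u.1.2.image bk := b z0
        rwa [hu] at this)
      obtain ⟨i, hi⟩ := Option.ne_none_iff_exists'.1 z1
      have i2 : i < 2 := by simpa [qq] using g _ _ hi
      have := hn ⟨i, i2⟩
      rw [hi, Option.elim, show c.vs c.S5 n i = _ from dif_pos i2]
      exact by_contra fun z => this (if_neg z)
  have e1 := (li (-1)).symm.trans e
  have e2 := cu.trans_eq' (congrArg abs (li (2 ^ c.a2)))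
  simp only [zero_mul, add_zero] at e1 e2
  have p1 : (1 / 2 ^ (2 * c.o.n) : ℝ) ^ s ≤ ∏ a ∈ u.1.2, c.o.cx.B.la (bk a) := by
    refine le_trans (pow_le_pow_of_le_one (by positivity) ?_
      (u.2.2.2.trans_le (c.o.h.lev _))) ?_
    · exact (div_le_one (by positivity)).2 (one_le_pow₀ one_le_two)
    · rw [← prod_const]
      exact prod_le_prod (fun _ _ => by positivity) fun a _ => (o.o.cx.ok.la _).1
  rw [one_div, inv_pow, ← pow_mul, inv_le_iff_one_le_mul₀ (by positivity)] at p1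
  rw [abs_mul, abs_of_pos (by positivity)] at e2
  have e3 := congrArg abs e1
  rw [abs_mul, abs_mul, abs_neg, abs_one, one_mul] at e3
  rw [e3] at e2
  rw [le_div_iff₀ (by positivity), pow_add, pow_add]
  have p2 := p1.trans (mul_le_mul_of_nonneg_right (le_abs_self _) (by positivity))
  have p3 := mul_le_mul_of_nonneg_right e2 (by positivity : (0 : ℝ) ≤ 2 ^ (2 * c.o.n * s))
  have p4 := mul_le_mul_of_nonneg_left p2 (by positivity :
    0 ≤ |(c.P.sh _).u (zc (c.bg k w (c.vs c.S5 n))) y| * 2 ^ c.a2)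
  have p5 : (0 : ℝ) ≤ 2 ^ κ * R * 2 ^ (2 * c.o.n * s) := by positivity
  refine (mul_one _).symm.trans_le (p4.trans ?_)
  refine le_trans (le_of_eq ?_) (p3.trans (by linarith))
  exact (by intro a b c d; ring : ∀ a b c d : ℝ, a * b * (c * d) = b * (c * a) * d) _ _ _ _

end Crest.Agent.N49.He

end
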