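import Crest.Agent.N49.He.Dc
import Crest.Agent.N49.He.Sk0

/-!
# Row 49 (helper70): the systems are admissible
-/

set_option autoImplicit false

namespace Crest.Agent.N49.He

theorem dsok (s d : ℕ) : SOK s d := fun _ _ _ _ k a _ R _ x o b hV =>
  o.sys k a (one_pos.trans_le b.1) b.2.2 R hV x

end Crest.Agent.N49.He
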