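import Crest.Agent.N49.He.Jz
import Crest.Agent.N49.Md.Exl
import Crest.Agent.N49.Sy.Swt

/-!
# Row 49 (helper18): a subsystem is an exact mixture of offset laws
-/

set_option autoImplicit false

open Matrix MvPolynomial Finset

noncomputable section

namespace Crest.Agent.N49.He

open Po Tw Md.Exl Sy.Swt

/-- the determinant of the linear part is the inverse of the continuous partition function -/
theorem Ek.det_lp {σ : Type} {T : TS σ} {d : T.C → ℝ} (h : T.Tri)
    (k : T.K⁻¹ = diagonal d * diagonal d) (z : T.u 0 = 0) :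
    |(Ir.lp fun y c => d c * T.u y c).det| = T.Zc⁻¹ := by
  have a := irr_dg h k z
  rw [Ir.irr, Ir.ZZ, funext (wt_dg k), div_eq_mul_inv] at a
  exact mul_left_cancel₀ h.Z_pos.ne' a

theorem exk : EXK := by
  intro σ V _ _ X w e Φ g hX hw hK he hΦ h0 hg
  let p : X.C → Prop := fun c => ∃ v, e v = c
  let ε : V ≃ {c // p c} := Equiv.ofInjective e he
  have lw : X.Low p := by
    rintro _ ⟨c, rfl⟩
    refine vars_of fun y => mul_left_cancel₀ (hw (e c)) ((hΦ y c).symm.trans
      (Eq.trans ?_ (hΦ _ c)))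
    exact congrArg (Φ · c) (funext fun c => (if_pos ⟨c, rfl⟩).symm)
  have t := hX.cut_low lw 0
  have k : (X.cut p 0).K⁻¹ = diagonal (fun c : {c // p c} => w c.1) * diagonal fun c => w c.1 :=
    (inv_sub (D := {c // p c}) hX.pd (fun c => pow_ne_zero 2 (hw c)) hK
      Subtype.val_injective).trans ((congrArg diagonal (funext fun c => sq _)).trans
        (diagonal_mul_diagonal _ _).symm)
  have a : ∀ (y : {c // p c} → ℝ) v,
      w (ε v).1 * (X.cut p 0).u y (ε v) = Φ (y ∘ ε) v := fun y v =>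
    (congrArg (w (e v) * ·) (X.u_cut p 0 y (ε v))).trans ((hΦ _ v).symm.trans
      (congrArg (Φ · v) (funext fun v' => glue_pos (p := p) y (zc 0) ⟨v', rfl⟩)))
  have z : (X.cut p 0).u 0 = 0 := funext fun c : {c // p c} => by
    obtain ⟨v, rfl⟩ := ε.surjective c
    exact (mul_eq_zero.1 ((a 0 v).trans (congrFun h0 v))).resolve_left (hw _)
  have b := Ek.det_lp (T := X.cut p 0) (d := fun c : {c // p c} => w c.1) t k z
  have l := Ir.lp_sub (Φ := Φ)
    (Φ' := fun (y : {c // p c} → ℝ) c => w c.1 * (X.cut p 0).u y c) ε.injective a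
  obtain ⟨x, -, hx⟩ := hX.ext_pick lw (g := fun y => g (y ∘ ε)) (hg.comp _)
  refine ⟨x, le_of_eq_of_le ?_ hx⟩
  rw [l, det_submatrix_equiv_self]
  refine (congrArg (· * _) b).trans ((mul_comm _ _).trans ((div_eq_mul_inv _ _).symm.trans
    (congrArg (· / (X.cut p 0).Zc) ?_)))
  refine ((ε.symm.arrowCongr (Equiv.refl ℤ)).tsum_eq _).symm.trans (tsum_congr fun y => ?_)
  refine congrArg (· * g (y ∘ ε)) (Eq.trans ?_ (wt_dg (T := X.cut p 0) k y))
  refine congrArg (fun s => Real.exp (-(Real.pi * s))) ?_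
  rw [Ir.qf_one, Ir.qf_one]
  exact Fintype.sum_equiv ε _ _ fun v => congrArg (· ^ 2) (a (zc y) v).symm

end Crest.Agent.N49.He

end
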