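import Crest.Agent.N49.He.Sk0
import Crest.Agent.N49.Ft.Chn
import Crest.Agent.N49.Ft.Rfr

/-!
# Row 49 (helper96): the last step for a context
-/

set_option autoImplicit false
set_option linter.unusedSectionVars false

open Finset Matrix

noncomputable section

namespace Crest.Agent.N49.He.Hc

open Po Tw Br Rm Rm.TT Ft Md Sd

variable {s d : ℕ} {c : Hc s d} {ε : ℝ} {h κ : ℕ}

theorem Sx_univ (k : Fin c.o.Q) : c.Sx k univ univ = S4 c.sl k := by simp [Sx]

theorem Ok.datF (o : c.Ok ε h κ) (a : Fin c.o.D) : c.T.Dat univ {0} (c.F a) :=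
  o.mor.toLm.pull (o.o.cx.dat a)

theorem Ok.dat_df (o : c.Ok ε h κ) (k : Fin c.o.Q) (a : Fin c.o.D) :
    c.U.Dat (univ \ S4 c.sl k) {c.x} (df (c.τ k) (Gt c.T c.j.succ (c.F a))) := by
  have g := (rfr _ _ _ c.T c.j.succ 0 c.fn c.a1 c.a2 _ o.emb.ok (Fin.succ_ne_zero _).symm
    (o.datF a)).1
  have w := o.sw2.s1
  have g' := g.mono (subset_univ _) subset_rfl
  exact ⟨w.ty_df k g.1, (g'.sub (dat_pm (fun y => w.mem_τ k y fun b => w.nx b k)
    (fun y n => by rw [w.ty]; exact n.image _) g')).2⟩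

theorem x_Sx (k : Fin c.o.Q) (Γ Δ : Finset Bool) : c.x ∉ c.Sx k Γ Δ := by
  simp [Sx, S4, S1, Ft.sl, He.tl]

theorem card_CU {n : ℕ} (hC : Fintype.card c.C ≤ 2 ^ n) : Fintype.card c.CU ≤ 2 ^ (n + 3) := by
  have : Fintype.card (c.T.Bl c.j.succ) ≤ Fintype.card c.C := Fintype.card_subtype_le _
  simp only [Fintype.card_sum, Fintype.card_prod, Fintype.card_fin, pow_add]
  omega

end Crest.Agent.N49.He.Hc

end
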