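import Crest.Agent.N49.Po.Poi

/-! Row 49 (helper93): a small shift of a Gaussian is dominated by a wider Gaussian. -/

set_option autoImplicit false

open Matrix Finset

noncomputable section

namespace Crest.Agent.N49.He

open Po

namespace Gp

theorem abs_exp (x : ℝ) : |Real.exp x - 1| ≤ |x| * Real.exp |x| := by
  have a := Real.add_one_le_exp x
  have b := Real.add_one_le_exp (-x)
  have c := Real.exp_pos x
  rcases le_total 0 x with h | h
  · have e : Real.exp (-x) * Real.exp x = 1 := by rw [← Real.exp_add]; simp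
    rw [abs_of_nonneg h, abs_of_nonneg (by linarith)]
    nlinarith
  · rw [abs_of_nonpos h, abs_of_nonpos (by linarith [Real.exp_le_one_iff.2 h])]
    nlinarith

variable {H : Type} [Fintype H] [DecidableEq H] {Q : Matrix H H ℝ}

/-- the change of the form -/
theorem qf_shift (hQ : Q.PosDef) (v w : H → ℝ) {B : ℝ} (hB : 0 ≤ B)
    (h : qf Q v * qf Q w ≤ B ^ 2) : |qf Q (v + w) - qf Q v| ≤ 2 * B + qf Q w := by
  obtain ⟨A, -, rfl⟩ := exists_sqrt hQ
  simp only [qf_mul, mulVec_add, Pi.add_apply] at h ⊢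
  have c := abs_le.1 (abs_le_of_sq_le_sq' ((sum_mul_sq_le_sq_mul_sq univ (A *ᵥ v) (A *ᵥ w)).trans h)
    hB |> abs_le.2)
  have e : ∑ i, ((A *ᵥ v) i + (A *ᵥ w) i) ^ 2 - ∑ i, (A *ᵥ v) i ^ 2 =
      2 * ∑ i, (A *ᵥ v) i * (A *ᵥ w) i + ∑ i, (A *ᵥ w) i ^ 2 := by
    rw [mul_sum, ← sum_sub_distrib, ← sum_add_distrib]
    exact sum_congr rfl fun i _ => by ring
  have p : 0 ≤ ∑ i, (A *ᵥ w) i ^ 2 := sum_nonneg fun i _ => sq_nonneg _
  rw [e, abs_le]
  constructor <;> linarith [c.1, c.2]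

theorem num {S D m k : ℝ} (hS : 0 ≤ S) (hm : 1 ≤ m) (k0 : 0 ≤ k) (k1 : k ≤ 1 / (100 * m))
    (hD : |D| ≤ 3 * k * (S + 1)) :
    |Real.exp (-(Real.pi * D)) - 1| ≤ 100 * m * k * Real.exp (Real.pi * ((m + 1)⁻¹ * S)) := by
  have p3 := Real.pi_gt_three
  have p4 := Real.pi_lt_four
  set θ := (m + 1)⁻¹ with hθ
  have t0 : 0 < θ := by positivity
  have t1 : (m + 1) * θ = 1 := mul_inv_cancel₀ (by positivity)
  have k2 : k * (100 * m) ≤ 1 := (le_div_iff₀ (by positivity)).1 k1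
  have k3 : 3 * k ≤ θ / 10 := by
    rw [hθ, inv_eq_one_div, div_div, le_div_iff₀ (by positivity)]; nlinarith
  have t2 : θ ≤ 1 := by nlinarith
  have a : |-(Real.pi * D)| ≤ Real.pi * (3 * k * (S + 1)) := by
    rw [abs_neg, abs_mul, abs_of_pos Real.pi_pos]
    exact mul_le_mul_of_nonneg_left hD Real.pi_pos.le
  have x0 : 0 ≤ θ * S := by positivity
  have b : Real.pi * (3 * k * (S + 1)) ≤ Real.pi * (θ * S) / 10 + 1 := by
    have := mul_le_mul_of_nonneg_right k3 (by linarith : 0 ≤ S + 1)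
    have := mul_le_mul_of_nonneg_left this Real.pi_pos.le
    nlinarith
  have c : S + 1 ≤ 2 * m * Real.exp (Real.pi * (θ * S) * (9 / 10)) := by
    have := Real.add_one_le_exp (Real.pi * (θ * S) * (9 / 10))
    have e : S = (m + 1) * (θ * S) := by rw [← mul_assoc, t1, one_mul]
    have f : θ * S ≤ Real.pi * (θ * S) * (9 / 10) := by nlinarith
    nlinarith
  have d : Real.exp |-(Real.pi * D)| ≤ Real.exp (Real.pi * (θ * S) / 10) * 3 := by
    refine (Real.exp_le_exp.2 (a.trans b)).trans ?_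
    rw [Real.exp_add]
    exact mul_le_mul_of_nonneg_left (by linarith [Real.exp_one_lt_d9]) (Real.exp_pos _).le
  have e : Real.exp (Real.pi * (θ * S)) =
      Real.exp (Real.pi * (θ * S) * (9 / 10)) * Real.exp (Real.pi * (θ * S) / 10) := by
    rw [← Real.exp_add]; congr 1; ring
  have a' : |-(Real.pi * D)| ≤ 4 * (3 * k * (2 * m * Real.exp (Real.pi * (θ * S) * (9 / 10)))) :=
    a.trans (mul_le_mul p4.le (mul_le_mul_of_nonneg_left c (by positivity)) (by positivity)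
      (by norm_num))
  refine (abs_exp _).trans ((mul_le_mul a' d (Real.exp_pos _).le (by positivity)).trans ?_)
  rw [e]
  have : 0 ≤ m * k * (Real.exp (Real.pi * (θ * S) * (9 / 10)) * Real.exp (Real.pi * (θ * S) / 10)) := by
    positivity
  nlinarith
end Gp

/-- **GAP** -/
theorem gap {H J : Type} [Fintype H] [DecidableEq H] [Fintype J] [DecidableEq J]
    {Q1 : Matrix H H ℝ} {Q2 : Matrix J J ℝ} (h1 : Q1.PosDef) (h2 : Q2.PosDef) {m k : ℝ}
    (hm : 1 ≤ m) (k0 : 0 ≤ k) (k1 : k ≤ 1 / (100 * m)) (v w e : H → ℝ) (u : J → ℝ)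
    (hw : qf Q1 w ≤ k ^ 2 * qf Q2 u) (he : qf Q1 e ≤ k ^ 2) :
    |gs Q1 (v + w + e) - gs Q1 v| * gs Q2 u ≤
      100 * m * k * gs ((m / (m + 1)) • Q1) v * gs ((m / (m + 1)) • Q2) u := by
  have a0 := qf_nonneg h1 v
  have b0 := qf_nonneg h2 u
  have k2 : k ≤ 1 / 2 := k1.trans (one_div_le_one_div_of_le (by norm_num) (by linarith))
  have w1 : qf Q1 (w + e) ≤ 2 * k ^ 2 * (qf Q2 u + 1) := by
    linarith [qf_par Q1 w e, qf_nonneg h1 (w - e)]
  have s := Gp.qf_shift h1 v (w + e) (B := k * (qf Q1 v + qf Q2 u + 1)) (by positivity) (by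
    refine (mul_le_mul_of_nonneg_left w1 a0).trans ?_
    have : 2 * (qf Q1 v * (qf Q2 u + 1)) ≤ (qf Q1 v + qf Q2 u + 1) ^ 2 := by nlinarith
    nlinarith [mul_le_mul_of_nonneg_left this (sq_nonneg k)])
  have n := Gp.num (S := qf Q1 v + qf Q2 u) (D := qf Q1 (v + (w + e)) - qf Q1 v) (by positivity) hm
    k0 k1 (s.trans (by
      nlinarith [mul_le_mul_of_nonneg_right k2 (show 0 ≤ k * (qf Q2 u + 1) by positivity),
        mul_nonneg k0 a0]))
  have e1 : gs Q1 (v + w + e) - gs Q1 v =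
      gs Q1 v * (Real.exp (-(Real.pi * (qf Q1 (v + (w + e)) - qf Q1 v))) - 1) := by
    rw [mul_sub, mul_one, gs, gs, ← Real.exp_add, add_assoc]; congr 2; ring
  have e2 : gs ((m / (m + 1)) • Q1) v * gs ((m / (m + 1)) • Q2) u = gs Q1 v * gs Q2 u *
      Real.exp (Real.pi * ((m + 1)⁻¹ * (qf Q1 v + qf Q2 u))) := by
    simp only [gs, qf_smul, ← Real.exp_add]
    congr 1
    field_simp
    ring
  rw [mul_assoc (100 * m * k), e2, e1, abs_mul, abs_of_pos (gs_pos _ _)]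
  have := mul_le_mul_of_nonneg_left n (mul_pos (gs_pos Q1 v) (gs_pos Q2 u)).le
  linarith

/-- the form with a matrix -/
theorem gapL {H J : Type} [Fintype H] [DecidableEq H] [Fintype J] [DecidableEq J]
    {Q1 : Matrix H H ℝ} {Q2 : Matrix J J ℝ} (h1 : Q1.PosDef) (h2 : Q2.PosDef) (L : Matrix H J ℝ)
    {m k : ℝ} (hm : 1 ≤ m) (k0 : 0 ≤ k) (k1 : k ≤ 1 / (100 * m)) (v e : H → ℝ) (u : J → ℝ)
    (hw : qf Q1 (L *ᵥ u) ≤ k ^ 2 * qf Q2 u) (he : qf Q1 e ≤ k ^ 2) :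
    |gs Q1 (v + L *ᵥ u + e) - gs Q1 v| * gs Q2 u ≤
      100 * m * k * gs ((m / (m + 1)) • Q1) v * gs ((m / (m + 1)) • Q2) u :=
  gap h1 h2 hm k0 k1 v _ e u hw he

end Crest.Agent.N49.He

end
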