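import Crest.Agent.N49.He.Ntm
import Crest.Agent.N49.He.Gph
import Crest.Agent.N49.He.Var
import Crest.Agent.N49.He.Dc

/-!
# Row 49 (helper86): the last kernel
-/

set_option autoImplicit false
set_option linter.unusedSectionVars false

open Finset
open scoped ComplexConjugate

noncomputable section

namespace Crest.Agent.N49.He

open Po Tw Br Rm Rm.TT Ft Md Sd As Hc

/-- **the last kernel** -/
theorem gex (s d : ℕ) : GEX s d := by
  intro c ε h κ k a b R V x o ok hV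
  have hδ : ∀ F, 0 ≤ c.δ F := fun F => (o.δ.1 F).le
  have hV' : ∀ w, 0 < c.Vk k univ univ V w := fun _ => hV _
  obtain ⟨B, hB⟩ := hw_bd (c := c) (D := c.DK k univ univ) Pd.dc_DD hδ hV'
  refine ⟨fun w n => hs s c.P _ c.δ (c.Vk k univ univ V) (c.xk k univ univ x)
    (c.bg k w (c.vs _ n)) fun _ => 1, B, fun w n => ⟨hs_nonneg hδ _ _ _, (hB _ _).2⟩, fun w => ?_,
    fun r _ => ⟨c.Vc k r 2 _ univ univ (c.Vk k univ univ V), c.xc k r 2 _ univ univ
      (c.xk k univ univ x), fun _ => ⟨_, rfl⟩, fun w => (tm_two hδ _ _ r w).symm⟩⟩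
  have t := ((eY k univ univ).trans (cb' o.sw2)).hasSum_iff.2
    (ok.hs_g (· ∘ c.τ k) (· ∘ c.σ) w)
  have t' : HasSum (fun p : (Fin 2 → c.XW (c.Sx k univ univ) → ℤ) ×
      (HW s c.P (c.DK k univ univ) → ℤ) => (((∏ i, c.mu _ w (p.1 i)) *
        ∏ e, hf (c.Vk k univ univ V) (c.xk k univ univ x) w p.1 p.2 e : ℝ) : ℂ) *
      ee (df (c.τ k) (Ft.Gt c.T c.j.succ (c.F a)) (pt c.U c.x w (ex c.U _ c.x (p.1 1))) -
        df (c.τ k) (Ft.Gt c.T c.j.succ (c.F a)) (pt c.U c.x w (ex c.U _ c.x (p.1 0)))))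
      (((c.sys k a b R V x).c2 (· ∘ c.σ)).g (· ∘ c.τ k) w) := by
    refine cast (congrArg (fun F => HasSum F _) (funext fun p => ?_)) t
    exact congrArg₂ (· * ·) (congrArg _ (wt_cb o a b R V x w (eY k univ univ p)))
      (gph o.sw2 a b R V x w (eY k univ univ p))
  refine (t'.prod_fiberwise fun n => ?_).tsum_eq.symm
  have u := ((hB (c.xk k univ univ x) (c.bg k w (c.vs _ n))).1.hasSum.mul_left
    (∏ i, c.mu _ w (n i)))
  exact (Complex.hasSum_ofReal.2 ((congrArg (fun y => HasSum _ ((∏ i, c.mu _ w (n i)) * y))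
    (hs_hf w (c.Vk k univ univ V) (c.xk k univ univ x) n)).mpr u)).mul_right _

end Crest.Agent.N49.He

end
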