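import Crest.Agent.N49.He.Kps
import Crest.Agent.N49.He.Phm2

/-!
# Row 49 (helper9): the cover morphism on the kept words
-/

set_option autoImplicit false
set_option linter.unusedSectionVars false

open Finset MvPolynomial

noncomputable section

namespace Crest.Agent.N49.He

open Po Tw Br Sy

variable {ι Λ : Type} [Fintype ι] [LinearOrder ι] [Fintype Λ] [DecidableEq Λ] {s : ℕ}
  {D : Finset (Pt ι)} {blk : Λ → ι} {al : Λ → ℕ → ℤ} (sc : ι → ℕ → Λ) (j : ι) {i0 : ι}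

/-- the letters of a transversal outside the block `j` -/
def aO (t : Pt ι) : Finset Λ := ((bl t).erase j).image fun i => sc i ((t i).getD 0)

variable {sc j} {t : Pt ι}

theorem mem_aO (hb : ∀ i n, blk (sc i n) = i) {a : Λ} :
    a ∈ aO sc j t ↔ blk a ≠ j ∧ ∃ n, t (blk a) = some n ∧ a = sc (blk a) n := by
  simp only [aO, mem_image, mem_erase, mem_bl]
  refine ⟨fun ⟨i, ⟨b, c⟩, e⟩ => ?_, fun ⟨b, n, c, e⟩ => ⟨blk a, ⟨b, c ▸ nofun⟩, ?_⟩⟩
  · obtain ⟨n, r⟩ := Option.ne_none_iff_exists'.1 c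
    rw [← e, hb]
    exact ⟨b, n, r, by rw [r]; rfl⟩
  · rw [c]; exact e.symm

theorem aO_img (hb : ∀ i n, blk (sc i n) = i) : (aO sc j t).image blk = (bl t).erase j := by
  rw [aO, image_image]
  exact (image_congr fun i _ => hb i _).trans image_id

theorem aO_inj (hb : ∀ i n, blk (sc i n) = i) : Set.InjOn blk (aO sc j t) := fun a p b q e => by
  obtain ⟨-, n, c, r⟩ := (mem_aO hb).1 p
  obtain ⟨-, n', c', r'⟩ := (mem_aO hb).1 q
  rw [r, r', ← e, Option.some.inj (c.symm.trans (e ▸ c'))]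

theorem tv_ind {A : Finset Λ} (a : Set.InjOn blk A) (b : i0 ∉ A.image blk) : tv blk i0 (ind A) :=
  tv_of (fun x => by rw [ind_apply]; split_ifs <;> simp) a fun _ k e => b (e ▸ mem_image_of_mem _ k)

theorem tv_eq {μ : Λ →₀ ℕ} (h : tv blk i0 μ) : μ = ind μ.support := by
  ext a
  have := h.le_one a
  rw [ind_apply]
  split_ifs with k
  · have := Finsupp.mem_support_iff.1 k
    omega
  · exact Finsupp.notMem_support_iff.1 k

section
variable (h0 : ∀ i, i0 ≤ i) (hb : ∀ i n, blk (sc i n) = i) {w : Br.Wd s D} (hw : w.tr i0 = none)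
  (h1 : ∀ a n, blk a ≠ j → w.tr (blk a) = some n → al a n = if a = sc (blk a) n then 1 else 0)
include h0 hb hw h1

theorem pk_prod : ∏ a ∈ aO sc j w.tr, (w.tr (blk a)).elim 0 (al a) = 1 :=
  prod_eq_one fun a k => by
    obtain ⟨b, n, c, e⟩ := (mem_aO hb).1 k
    rw [c, Option.elim_some, h1 a n b c, if_pos e]

theorem pk_sup {μ : Λ →₀ ℕ} (z : pk blk al w μ ≠ 0) : tv blk i0 μ ∧
    μ.support.image blk = bl w.tr ∧ ∀ a, a ∈ aO sc j w.tr ↔ a ∈ μ.support ∧ blk a ≠ j := by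
  have v := (pk_kw h0 z).1 hw
  have i := (Pm.kept h0 hw (pk_ne z).2.1).1
  have r : ∀ a ∈ μ.support, blk a ≠ j → a ∈ aO sc j w.tr := fun a k b => by
    obtain ⟨n, c, e⟩ := pa_ne (pk_ne z).2.2 k
    rw [h1 a n b c] at e
    exact (mem_aO hb).2 ⟨b, n, c, of_not_not fun q => e (if_neg q)⟩
  refine ⟨v, i, fun a => ⟨fun k => ?_, fun k => r a k.1 k.2⟩⟩
  have b := ((mem_aO hb).1 k).1
  obtain ⟨a', k', e⟩ := mem_image.1 (i.ge (mem_of_mem_erase
    ((aO_img hb).le (mem_image_of_mem blk k))))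
  exact ⟨aO_inj hb (r a' k' (e ▸ b)) k e ▸ k', b⟩

theorem pk_none (hj : w.tr j = none) (μ : Λ →₀ ℕ) :
    pk blk al w μ = if μ = ind (aO sc j w.tr) then 1 else 0 := by
  have n : j ∉ bl w.tr := fun k => mem_bl.1 k hj
  have i : (aO sc j w.tr).image blk = bl w.tr := (aO_img hb).trans (erase_eq_of_notMem n)
  split_ifs with k
  · rw [k, pk_kept h0 hw, if_pos ⟨tv_ind (aO_inj hb) (i ▸ fun q => mem_bl.1 q hw), i⟩]
    exact pk_prod h0 hb hw h1
  · refine of_not_not fun z => k ?_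
    obtain ⟨v, p, q⟩ := pk_sup h0 hb hw h1 z
    refine (tv_eq v).trans (congrArg ind (ext fun a => ((q a).trans (and_iff_left_of_imp
      fun m e => n (p.le (e ▸ mem_image_of_mem blk m)))).symm))

theorem pk_some {n : ℕ} (hj : w.tr j = some n) (μ : Λ →₀ ℕ) : pk blk al w μ =
    ∑ a with blk a = j, al a n * if μ = ind (insert a (aO sc j w.tr)) then 1 else 0 := by
  have m : j ∈ bl w.tr := mem_bl.2 (hj ▸ nofun)
  have no : ∀ a, blk a = j → a ∉ aO sc j w.tr := fun a e k => ((mem_aO hb).1 k).1 e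
  by_cases k : ∃ a, blk a = j ∧ μ = ind (insert a (aO sc j w.tr))
  · obtain ⟨a, e, rfl⟩ := k
    have i : (insert a (aO sc j w.tr)).image blk = bl w.tr := by
      rw [image_insert, aO_img hb, e, insert_erase m]
    have v : Set.InjOn blk (insert a (aO sc j w.tr) : Finset Λ) := by
      rw [coe_insert]
      refine (Set.injOn_insert (no a e)).2 ⟨aO_inj hb, fun ⟨b, p, q⟩ => no b (q.trans e) p⟩
    rw [pk_kept h0 hw, if_pos ⟨tv_ind v (i ▸ fun q => mem_bl.1 q hw), i⟩,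
      sum_eq_single_of_mem a (mem_filter.2 ⟨mem_univ _, e⟩) fun b p q => ?_, if_pos rfl]
    · refine (prod_insert (no a e)).trans ?_
      rw [pk_prod h0 hb hw h1, e, hj]; rfl
    · refine mul_eq_zero_of_right _ (if_neg fun r => ?_)
      exact (mem_insert.1 ((ind_inj r).ge (mem_insert_self b _))).elim q (no b (mem_filter.1 p).2)
  · rw [sum_eq_zero fun a p => mul_eq_zero_of_right _ (if_neg fun r => k ⟨a, (mem_filter.1 p).2, r⟩)]
    refine of_not_not fun z => k ?_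
    obtain ⟨v, p, q⟩ := pk_sup h0 hb hw h1 z
    obtain ⟨a, b, e⟩ := mem_image.1 (p.ge m)
    refine ⟨a, e, (tv_eq v).trans (congrArg ind (ext fun x => ?_))⟩
    rw [mem_insert, q]
    refine ⟨fun c => or_iff_not_imp_left.2 fun r => ⟨c, fun u => r (v.injOn c b (u.trans e.symm))⟩,
      fun c => c.elim (fun r => r ▸ b) And.left⟩
end

/-- **the image of a configuration on a kept word** -/
theorem hm_kept (h0 : ∀ i, i0 ≤ i) (hb : ∀ i n, blk (sc i n) = i) (T : TS Unit) {ε : Λ → ℤ}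
    {K : (Λ →₀ ℕ) → (Λ →₀ ℕ) → ℝ} {V : ℕ → Pt ι → ℝ} {K' : Matrix (Br.Wd s D) (Br.Wd s D) ℝ}
    (Y : T.Cw (Sh.mono (fun _ => ()) (full Λ s) ε K) → ℤ) (c : T.Cw ((Br.tw s D V).setK K'))
    (hw : Br.Wd.tr c.1.2 i0 = none) (h1 : ∀ a n, blk a ≠ j → Br.Wd.tr c.1.2 (blk a) = some n →
      al a n = if a = sc (blk a) n then 1 else 0) :
    (T.hm (Sh.mono (fun _ => ()) (full Λ s) ε K) ((Br.tw s D V).setK K') (phm s D blk al) Y c : ℝ) =
      (Br.Wd.tr c.1.2 j).elim (yv T _ (zc Y) c.1.1 (ind (aO sc j (Br.Wd.tr c.1.2)))) fun n =>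
        ∑ a with blk a = j,
          al a n * yv T _ (zc Y) c.1.1 (ind (insert a (aO sc j (Br.Wd.tr c.1.2)))) := by
  have y : ∀ μ, yv T _ (zc Y) c.1.1 μ =
      ∑ q : T.Cw (Sh.mono (fun _ => ()) (full Λ s) ε K) with q.1.1 = c.1.1,
        ((if q.1.2.1 = μ then 1 else 0 : ℤ) : ℝ) * Y q := fun μ => by
    rw [yv, ← filter_filter, sum_filter (p := fun q : T.Cw _ => _ = μ)]
    refine sum_congr rfl fun q _ => ?_
    by_cases e : q.1.2.1 = μ
    · exact (if_pos e).trans (by rw [if_pos e, Int.cast_one, one_mul]; rfl)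
    · exact (if_neg e).trans (by rw [if_neg e, Int.cast_zero, zero_mul])
  refine (Int.cast_sum _ _).trans ?_
  cases hj : Br.Wd.tr c.1.2 j with
  | none =>
    rw [Option.elim_none, y]
    exact sum_congr rfl fun q _ => by
      rw [Int.cast_mul]
      exact congrArg (fun z : ℤ => (z : ℝ) * _) (pk_none h0 hb hw h1 hj _)
  | some n =>
    simp only [Option.elim_some, y, mul_sum]
    rw [sum_comm]
    refine sum_congr rfl fun q _ => ?_
    rw [Int.cast_mul]
    refine (congrArg (fun z : ℤ => (z : ℝ) * _) (pk_some h0 hb hw h1 hj _)).trans ?_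
    simp only [Int.cast_sum, Int.cast_mul, sum_mul, mul_assoc]

end Crest.Agent.N49.He

end
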