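import Crest.Agent.N49.He.Insb

/-!
# Row 49 (helper67): abstract insertion through a unimodular block
-/

set_option autoImplicit false

open Matrix Finset

noncomputable section

namespace Crest.Agent.N49.Sd

open Po Tw

/-- **abstract insertion over all kept values, unimodular hidden block** -/
def INSC : Prop := ∀ (C H : Type) [Fintype C] [DecidableEq C] [Fintype H] [DecidableEq H]
  (p j : C → Prop) [DecidablePred p] [DecidablePred j] (β : H → C) (V V' : Matrix H H ℤ)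
  (L : Matrix H C ℝ)
  (Q1 : Matrix {c // p c} {c // p c} ℝ) (Q2 : Matrix H H ℝ) (K : Matrix C C ℝ) (v : H → ℝ)
  (A : Matrix {c // j c} {c // j c} ℝ) (lev : C → ℕ) (U : (C → ℝ) → C → ℝ) (ζ : (C → ℤ) → H → ℤ)
  (U1 : ({c // p c} → ℤ) → {c // p c} → ℝ) (E : ({c // p c} → ℤ) → (H → ℤ) → H → ℝ)
  (g : ({c // p c} → ℤ) → (H → ℤ) → ℝ) (B : ℝ), Prt p j β → V * V' = 1 →
  (∀ h h', V' h h' ≠ 0 → lev (β h') ≤ lev (β h)) → (∀ h h', L h (β h') = V h h') → Q1.PosDef →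
  Q2.PosDef → K.PosDef → (∀ u : C → ℝ, 2 * (qf Q1 (fun c => u c.1) + qf Q2 (L *ᵥ u)) ≤ qf K⁻¹ u) →
  A.det ≠ 0 → (∀ c c', A c c' ≠ 0 → lev c.1 = lev c'.1) → (∀ c c', K c c' ≠ 0 → lev c = lev c') →
  (∀ y y' h, (∀ c, p c ∨ (j c ∧ lev c ≤ lev (β h)) → y c = y' c) → ζ y h = ζ y' h) →
  (∀ (y y' : C → ℝ) (c : {c // j c}), (∀ c', p c' ∨ lev c' < lev c.1 → y c' = y' c') →
    U y c.1 - (A *ᵥ fun c => y c.1) c = U y' c.1 - (A *ᵥ fun c => y' c.1) c) →
  (∀ y (c : {c // p c}), U (zc y) c.1 = U1 (fun c => y c.1) c) →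
  (∀ y, v + L *ᵥ U (zc y) = E (fun c => y c.1) (ζ y + V *ᵥ fun h => y (β h))) →
  (Summable fun a : ({c // p c} → ℤ) × (H → ℤ) => gs Q1 (U1 a.1) * gs Q2 (E a.1 a.2)) →
  (∀ b z, |g b z| ≤ B) →
  ∃ x : C → ℝ,
    (∑' a : ({c // p c} → ℤ) × (H → ℤ), gs Q1 (U1 a.1) * gs Q2 (E a.1 a.2) * g a.1 a.2) /
        (dt Q1 * dt Q2) ≤
      |A.det| * ((∑' y : C → ℤ, gs K⁻¹ (U (zc y) - x) *
        g (fun c => y c.1) (ζ y + V *ᵥ fun h => y (β h))) / dt K⁻¹)

theorem insc : INSC := by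
  intro C H _ _ _ _ p j _ _ β V V' L Q1 Q2 K v A lev U ζ U1 E g B P hV bV hL h1 h2 hK hq hA bA bK
    hζ hU e1 e2 sE hg
  have hV' : V' * V = 1 := mul_eq_one_comm.1 hV
  set R : Matrix H H ℝ := V.map (Int.cast : ℤ → ℝ) with hR
  set R' : Matrix H H ℝ := V'.map (Int.cast : ℤ → ℝ) with hR'
  have mp : ∀ X Y : Matrix H H ℤ, X * Y = 1 →
      X.map (Int.cast : ℤ → ℝ) * Y.map (Int.cast : ℤ → ℝ) = 1 := fun X Y e => by
    have := congrArg (Int.castRingHom ℝ).mapMatrix e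
    rwa [map_mul, map_one] at this
  have rr : R * R' = 1 := mp _ _ hV
  have rr' : R' * R = 1 := mp _ _ hV'
  have dR : |R.det| = 1 := by
    have a : IsUnit V.det := (isUnit_iff_isUnit_det _).1 ⟨⟨V, V', hV, hV'⟩, rfl⟩
    have b : R.det = ((V.det : ℤ) : ℝ) := (Int.cast_det V).symm
    rw [b, ← Int.cast_abs, Int.isUnit_iff_abs_eq.1 a, Int.cast_one]
  have q2 : ∀ u, qf (Rᵀ * Q2 * R) (R' *ᵥ u) = qf Q2 u := fun u => by
    rw [qf_conj, mulVec_mulVec, rr, one_mulVec]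
  have g2 : ∀ u, gs (Rᵀ * Q2 * R) (R' *ᵥ u) = gs Q2 u := fun u => by rw [gs, gs, q2]
  let ex : (H → ℤ) → C → ℤ := fun r => Function.extend β r 0
  have xb : ∀ r h, ex r (β h) = r h := fun r h => P.inj.extend_apply _ _ h
  have x0 : ∀ r c, p c ∨ j c → ex r c = 0 := fun r c k =>
    Function.extend_apply' _ _ _ fun ⟨h, e⟩ => k.elim (fun k => P.pb h (e ▸ k)) fun k =>
      P.jb h (e ▸ k)
  have sh : ∀ y r, zc y + rsh β (fun _ => 1) r = zc (y + ex r) := fun y r => funext fun c => by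
    rcases P.cov c with k | k | ⟨h, rfl⟩
    · have : rsh β (fun _ => 1) r c = 0 :=
        Function.extend_apply' _ _ _ fun ⟨h, e⟩ => P.pb h (e ▸ k)
      simp [zc, this, x0 r c (.inl k)]
    · have : rsh β (fun _ => 1) r c = 0 :=
        Function.extend_apply' _ _ _ fun ⟨h, e⟩ => P.jb h (e ▸ k)
      simp [zc, this, x0 r c (.inr k)]
    · have : rsh β (fun _ => 1) r (β h) = (r h : ℝ) / (1 : ℕ) := P.inj.extend_apply _ _ h
      simp [zc, this, xb]
  have pr : ∀ (y : C → ℤ) r, (fun c : {c // p c} => (y + ex r) c.1) = fun c => y c.1 :=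
    fun y r => funext fun c => by simp [x0 r c.1 (.inl c.2)]
  have zr : ∀ y r, ζ (y + ex r) = ζ y := fun y r => funext fun h => hζ _ _ h fun c k => by
    simp [x0 r c (k.imp_right And.left)]
  have vv : ∀ (y : C → ℤ) (r : H → ℤ),
      (V *ᵥ fun h => r h + (V' *ᵥ ζ y) h + ((1 : ℕ) : ℤ) * y (β h)) =
      ζ (y + ex r) + V *ᵥ fun h => (y + ex r) (β h) := fun y r => by
    have a : (fun h => r h + (V' *ᵥ ζ y) h + ((1 : ℕ) : ℤ) * y (β h)) =
        V' *ᵥ ζ y + fun h => (y + ex r) (β h) := funext fun h => by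
      simp only [Pi.add_apply, xb]; push_cast; ring
    rw [a, mulVec_add, mulVec_mulVec, hV, one_mulVec, zr]
  let e : (H → ℤ) ≃ (H → ℤ) :=
    ⟨fun z => V *ᵥ z, fun z => V' *ᵥ z,
      fun z => by simp only [mulVec_mulVec, hV', one_mulVec],
      fun z => by simp only [mulVec_mulVec, hV, one_mulVec]⟩
  let e' := (Equiv.refl ({c // p c} → ℤ)).prodCongr e
  obtain ⟨r, x, hx⟩ := insb C H p j β (fun _ => 1) (R' * L) Q1 (Rᵀ * Q2 * R) K (R' *ᵥ v) A lev U
    (fun y => V' *ᵥ ζ y) U1 (fun b z => R' *ᵥ E b (V *ᵥ z)) (fun b z => g b (V *ᵥ z)) B P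
    (fun _ => one_pos)
    (fun h h' => by
      have := congrFun (congrFun rr' h) h'
      rw [one_apply, mul_apply] at this
      rw [mul_apply, Nat.cast_one, ← this]
      exact sum_congr rfl fun k _ => by rw [hL]; rfl)
    h1 (Po.posDef_conj h2 fun a b k => by
      have := congrArg (R' *ᵥ ·) k
      simpa only [mulVec_mulVec, rr', one_mulVec] using this) hK
    (fun u => by rw [← mulVec_mulVec, q2]; exact hq u) hA bA bK
    (fun y y' h k => by
      refine sum_congr rfl fun h' _ => ?_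
      by_cases z : V' h h' = 0
      · simp [z]
      · rw [hζ y y' h' fun c q => k c (q.imp_right fun q => ⟨q.1, q.2.trans (bV _ _ z)⟩)])
    hU (fun y r c => by rw [sh, e1, pr])
    (fun y r => by rw [sh, vv, ← mulVec_mulVec, ← mulVec_add, e2, pr])
    (by simp only [g2]; exact (e'.summable_iff.2 sE :)) fun _ _ => hg _ _
  refine ⟨x, ?_⟩
  simp only [g2, sh, vv] at hx
  rw [Rf.dt_conj, dR, div_one] at hx
  have a := e'.tsum_eq fun a : ({c // p c} → ℤ) × (H → ℤ) =>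
    gs Q1 (U1 a.1) * gs Q2 (E a.1 a.2) * g a.1 a.2
  have b := (Equiv.addRight (ex r)).tsum_eq fun y : C → ℤ => gs K⁻¹ (U (zc y) - x) *
    g (fun c => y c.1) (ζ y + V *ᵥ fun h => y (β h))
  rw [← a, ← b]
  simp only [Equiv.coe_addRight, pr]
  exact hx

end Crest.Agent.N49.Sd

end
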