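import Crest.Agent.N49.He.Ji
import Crest.Agent.N49.He.Phm2

/-!
# Row 49 (helper74): the cover morphism on the kept words
-/

set_option autoImplicit false
set_option linter.unusedSectionVars false

open Finset Matrix

noncomputable section

namespace Crest.Agent.N49.He.Ji

open Po Tw Br Rm Md Sd

section gen
variable {ι Λ : Type} [Fintype ι] [LinearOrder ι] [Fintype Λ] [DecidableEq Λ] {s : ℕ}
  {D : Finset (Pt ι)} {blk : Λ → ι} {α : Λ → ℕ → ℤ} {i0 i1 : ι} {w : Br.Wd s D} {A : Finset Λ}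

theorem dg_ind (B : Finset Λ) : (Sy.ind B).degree = #B := by
  rw [Finsupp.degree_apply]
  exact (sum_congr rfl fun a (h : a ∈ B) => if_pos h).trans (card_eq_sum_ones B).symm

theorem pk_ind (h0 : ∀ i, i0 ≤ i) (h : w.tr i0 = none) {B : Finset Λ} (i : Set.InjOn blk B)
    (e : B.image blk = bl w.tr) :
    pk blk α w (Sy.ind B) = ∏ a ∈ B, (w.tr (blk a)).elim 0 (α a) ∧
      Sy.ind B ∈ (full Λ s).erase 0 := by
  have n : ∀ a ∈ B, blk a ≠ i0 := fun a m z => by
    have : blk a ∈ bl w.tr := e ▸ mem_image_of_mem blk m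
    simp [bl, z, h] at this
  have c : #B = w.lv := by
    rw [← (Pm.kept h0 h (B := bl w.tr) ⟨subset_rfl, fun a p q => (q p).elim⟩).2, ← e,
      card_image_of_injOn i]
  have u : ∀ x, Sy.ind B x ≤ 1 := fun x => by rw [Sy.ind_apply]; split_ifs <;> simp
  refine ⟨(pk_kept h0 h _).trans (if_pos ⟨tv_of u i n, e⟩), mem_erase.2
    ⟨fun z => ?_, mem_full.2 ((dg_ind B).trans_le (c.trans_le w.1.1.2))⟩⟩
  rw [Sy.ind_eq_zero.1 z] at c; exact absurd c.symm (Nat.succ_ne_zero _)

theorem pk_supp (h0 : ∀ i, i0 ≤ i) (h : w.tr i0 = none) {μ : Λ →₀ ℕ} (z : pk blk α w μ ≠ 0) :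
    μ = Sy.ind μ.support ∧ Set.InjOn blk μ.support ∧ μ.support.image blk = bl w.tr ∧
      ∀ a ∈ μ.support, (w.tr (blk a)).elim 0 (α a) ≠ 0 := by
  rw [pk_kept h0 h] at z
  obtain ⟨⟨p, q⟩, r⟩ := ite_ne_right_iff.1 z
  refine ⟨Finsupp.ext fun a => ?_, p.injOn, q, prod_ne_zero_iff.1 r⟩
  have := p.le_one a
  rw [Sy.ind_apply]
  split_ifs with m <;> rw [Finsupp.mem_support_iff] at m <;> omega

variable (h0 : ∀ i, i0 ≤ i) (h : w.tr i0 = none) (inj : Set.InjOn blk A)
  (im : A.image blk = (bl w.tr).erase i1) (one : ∀ a ∈ A, (w.tr (blk a)).elim 0 (α a) = 1)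
  (all : ∀ a, blk a ≠ i1 → (w.tr (blk a)).elim 0 (α a) ≠ 0 → a ∈ A) (K : (Λ →₀ ℕ) → ℤ)
include h0 h inj im one all

theorem supp_eq {μ : Λ →₀ ℕ} (z : pk blk α w μ ≠ 0) : {a ∈ μ.support | blk a ≠ i1} = A := by
  obtain ⟨-, p, q, r⟩ := pk_supp h0 h z
  refine Subset.antisymm (fun a m => all a (mem_filter.1 m).2 (r a (mem_filter.1 m).1)) fun a m => ?_
  have u : blk a ∈ (bl w.tr).erase i1 := im ▸ mem_image_of_mem blk m
  obtain ⟨b, b1, b2⟩ := mem_image.1 (q ▸ mem_of_mem_erase u : blk a ∈ μ.support.image blk)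
  have := inj (all b (b2 ▸ ne_of_mem_erase u) (r b b1)) m b2
  exact mem_filter.2 ⟨this ▸ b1, ne_of_mem_erase u⟩

theorem sum_out (n : w.tr i1 = none) : ∑ μ : Sh.MW (full Λ s), ph s D blk α w μ * K μ.1 =
    K (Sy.ind A) := by
  have n' : i1 ∉ bl w.tr := by simp [bl, n]
  obtain ⟨p, q⟩ := pk_ind (α := α) h0 h inj (im.trans (erase_eq_of_notMem n'))
  refine (sum_eq_single ⟨_, q⟩ (fun μ _ e => mul_eq_zero_of_left (of_not_not fun z => e ?_) _)
    fun z => (z (mem_univ _)).elim).trans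
    ((congrArg (· * _) (p.trans (prod_eq_one one))).trans (one_mul _))
  obtain ⟨a, -, b, -⟩ := pk_supp h0 h (μ := μ.1) z
  refine Subtype.ext (a.trans (congrArg Sy.ind (Eq.trans ?_ (supp_eq h0 h inj im one all z))))
  exact (filter_true_of_mem (p := fun a => blk a ≠ i1) fun x m (y : blk x = i1) =>
    n' (b ▸ y ▸ mem_image_of_mem blk m)).symm

theorem sum_in {n : ℕ} (hn : w.tr i1 = some n) :
    ∑ μ : Sh.MW (full Λ s), ph s D blk α w μ * K μ.1 =
      ∑ a with blk a = i1, α a n * K (Sy.ind (insert a A)) := by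
  have n' : i1 ∈ bl w.tr := by simp [bl, hn]
  have o : ∀ a ∈ A, blk a ≠ i1 := fun a m =>
    ne_of_mem_erase (im ▸ mem_image_of_mem blk m : blk a ∈ (bl w.tr).erase i1)
  have k : ∀ a, blk a = i1 → pk blk α w (Sy.ind (insert a A)) = α a n ∧
      Sy.ind (insert a A) ∈ (full Λ s).erase 0 := fun a e => by
    have na : a ∉ A := fun m => o a m e
    obtain ⟨p, q⟩ := pk_ind (α := α) (B := insert a A) h0 h (by
      rw [coe_insert]
      exact (Set.injOn_insert na).2 ⟨inj, fun ⟨b, m, z⟩ => o b m (z.trans e)⟩)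
      (by rw [image_insert, im, e, insert_erase n'])
    refine ⟨p.trans ?_, q⟩
    rw [prod_insert na, prod_eq_one one, mul_one, e, hn]; rfl
  refine (sum_coe_sort ((full Λ s).erase 0) fun μ => pk blk α w μ * K μ).trans (Eq.symm ?_)
  refine sum_of_injOn (fun a => Sy.ind (insert a A)) (fun a p b q e => ?_)
    (fun a p => (k a (mem_filter.1 p).2).2) (fun μ _ e => mul_eq_zero_of_left (of_not_not fun z =>
      e ?_) _) fun a p => by rw [(k a (mem_filter.1 p).2).1]
  · have : a ∈ insert b A := Sy.ind_inj e ▸ mem_insert_self a A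
    exact (mem_insert.1 this).resolve_right fun m => o a m (mem_filter.1 p).2
  · obtain ⟨a, i, b, -⟩ := pk_supp h0 h z
    obtain ⟨x, x1, x2⟩ := mem_image.1 (b ▸ n' : i1 ∈ μ.support.image blk)
    refine ⟨x, mem_coe.2 (mem_filter.2 ⟨mem_univ _, x2⟩), Eq.symm (a.trans (congrArg _ ?_))⟩
    rw [← supp_eq h0 h inj im one all z]
    ext y
    simp only [mem_insert, mem_filter]
    refine ⟨fun m => ?_, fun m => m.elim (fun e => e ▸ x1) fun m => m.1⟩
    by_cases e : blk y = i1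
    exacts [.inl (i m x1 (e.trans x2.symm)), .inr ⟨m, e⟩]
end gen

variable {d Q s : ℕ} (j : Fin d) (r r' : ℕ)

/-- the marked direction of a word -/
def ox (t : Pt (Fin (d + 2))) : Option (Fin r') :=
  (t 1).bind fun n => if h : n < r' then some ⟨n, h⟩ else none

variable (Q) in
/-- the monomial of a word with the letter `e` in the direction `oj` -/
def mn (t : Pt (Fin (d + 2))) (oj : Option (Fin 4)) (e : Option ℕ) : La d Q r r' →₀ ℕ :=
  Sy.ind ((lA Q j t e).map (pe j r (ox r' t) oj))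

variable {j r r'} {t : Pt (Fin (d + 2))}

theorem none_lA {e : Option ℕ} : none ∈ lA Q j t e ↔ t 1 ≠ none := by
  rw [lA, mem_lw, gl_none, Function.update_of_ne (ss_ne j).symm, Function.update_self]
  cases t 1 <;> simp

theorem some_lA {e : Option ℕ} {i : Fin d} {n : Fin Q} :
    some (i, n) ∈ lA Q j t e ↔ (if i = j then e else t i.succ.succ) = some n.1 := by
  rw [lA, mem_lw]
  change Function.update (Function.update t 1 ((t 1).map fun _ => 0)) j.succ.succ e i.succ.succ =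
    some n.1 ↔ _
  split_ifs with h
  · rw [h, Function.update_self]
  · rw [Function.update_of_ne (by simpa using h), Function.update_of_ne (ss_ne i)]

theorem lA_some (e : Fin Q) : lA Q j t (some e) = insert (some (j, e)) (lA Q j t none) := by
  ext (_ | ⟨i, n⟩)
  · simp [none_lA]
  · by_cases h : i = j
    · simp [some_lA, h, Fin.ext_iff, eq_comm]
    · simp [some_lA, h]

theorem map_none (o : Option (Fin r')) (oj : Option (Fin 4)) :
    (lA Q j t none).map (pe j r o oj) = (lA Q j t none).map (pe j r o none) := by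
  rw [map_eq_image, map_eq_image]
  refine image_congr ?_
  rintro (_ | ⟨i, n⟩) m
  · rfl
  · have h : i ≠ j := fun h => by simp [some_lA, h] at m
    simp [pe, p0, h]

theorem mn_some (oj : Option (Fin 4)) (e : Fin Q) : mn Q j r r' t oj (some e) = Sy.ind
    (insert (oj.elim (.inl (some (j, e))) fun l => .inr (.inl (l, e)))
      ((lA Q j t none).map (pe j r (ox r' t) none))) := by
  rw [mn, lA_some, map_insert, map_none]
  simp [pe, p0]

theorem mem_A0 (h1 : ∀ n, t 1 = some n → n < r') (x : La d Q r r') :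
    x ∈ (lA Q j t none).map (pe j r (ox r' t) none) ↔ (∃ i : Fin r', t 1 = some i.1 ∧
      x = .inr (.inr (.inl i))) ∨ ∃ i n, i ≠ j ∧ t i.succ.succ = some n.1 ∧ x = .inl (some (i, n)) := by
  rw [mem_map]
  refine ⟨?_, ?_⟩
  · rintro ⟨_ | ⟨i, n⟩, m, rfl⟩
    · obtain ⟨n, e⟩ := Option.ne_none_iff_exists'.1 (none_lA.1 m)
      exact .inl ⟨⟨n, h1 n e⟩, e, by simp [pe, p0, ox, e, h1 n e]⟩
    · have h : i ≠ j := fun h => by simp [some_lA, h] at m
      exact .inr ⟨i, n, h, by simpa [some_lA, h] using m, by simp [pe, p0, h]⟩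
  · rintro (⟨i, e, rfl⟩ | ⟨i, n, h, e, rfl⟩)
    · exact ⟨none, none_lA.2 (by simp [e]), by simp [pe, p0, ox, e]⟩
    · exact ⟨some (i, n), by simpa [some_lA, h] using e, by simp [pe, p0, h]⟩

theorem sum_lb (g : La d Q r r' → ℤ) : ∑ x with lb j x = j.succ.succ, g x =
    ∑ e : Fin Q, (g (.inl (some (j, e))) + ∑ l : Fin 4, g (.inr (.inl (l, e)))) := by
  rw [sum_filter, sum_add_distrib, sum_comm]
  simp [Fintype.sum_sum_type, Fintype.sum_option, Fintype.sum_prod_type, lb, bk, gk,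
    (ss_ne j).symm, (Fin.succ_ne_zero _).symm]
  rw [sum_comm]; simp

variable {k : Fin Q} {a : ℕ → ℕ → Bool} {Γ Δ : Finset Bool}

theorem DD_lt (w : Br.Wd s (DD Q j k r r' a Γ Δ)) {i : Fin (d + 2)} {n : ℕ} (e : w.tr i = some n) :
    n < qq Q j r r' (2 * (Q + 1)) i := by
  classical
  exact Ho.mem_grid.1 (mem_filter.1 w.mem).1 i n e

theorem DD_one (w : Br.Wd s (DD Q j k r r' a Γ Δ)) (n : ℕ) (e : w.tr 1 = some n) : n < r' := by
  simpa [qq] using DD_lt w e

theorem DD_oth (w : Br.Wd s (DD Q j k r r' a Γ Δ)) {i : Fin d} (h : i ≠ j) {n : ℕ}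
    (e : w.tr i.succ.succ = some n) : n < Q := by
  simpa [qq, h, ss_ne i] using DD_lt w e

/-- **the morphism on a kept word** -/
theorem ph_sum (w : Br.Wd s (DD Q j k r r' a Γ Δ)) (h : kw w) (K : (La d Q r r' →₀ ℕ) → ℤ) :
    ∑ μ : Sh.MW (full (La d Q r r') s), ph s _ (lb j) (al j k) w μ * K μ.1 =
      (w.tr j.succ.succ).elim (K (mn Q j r r' w.tr none none)) fun n =>
        let e := n % (Q + 1)
        let l : Fin 4 := bif cb Q n then 3 else 2
        if e = k then K (mn Q j r r' w.tr none (some k)) +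
          K (mn Q j r r' w.tr (some (bif cb Q n then 1 else 0)) (some k))
        else if e = Q then -K (mn Q j r r' w.tr (some l) (some k))
        else K (mn Q j r r' w.tr none (some e)) + K (mn Q j r r' w.tr (some 0) (some e)) +
          K (mn Q j r r' w.tr (some l) (some e)) - K (mn Q j r r' w.tr (some l) (some k)) := by
  have m := mem_A0 (Q := Q) (j := j) (r := r) (DD_one w)
  have inj : Set.InjOn (lb j) (((lA Q j w.tr none).map (pe j r (ox r' w.tr) none) : Finset _) :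
      Set (La d Q r r')) := fun x p y q e => by
    rcases (m x).1 p with ⟨i, u, rfl⟩ | ⟨i, n, -, u, rfl⟩ <;>
      rcases (m y).1 q with ⟨i', v, rfl⟩ | ⟨i', n', -, v, rfl⟩
    · rw [Fin.ext (Option.some.inj (u.symm.trans v))]
    · exact (ss_ne i' e.symm).elim
    · exact (ss_ne i e).elim
    · obtain rfl : i = i' := Fin.succ_inj.1 (Fin.succ_inj.1 e)
      rw [Fin.ext (Option.some.inj (u.symm.trans v))]
  have im : ((lA Q j w.tr none).map (pe j r (ox r' w.tr) none)).image (lb j) =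
      (bl w.tr).erase j.succ.succ := by
    ext i
    rw [mem_image, mem_erase]
    refine ⟨?_, fun ⟨p, q⟩ => ?_⟩
    · rintro ⟨x, p, rfl⟩
      rcases (m x).1 p with ⟨i, u, rfl⟩ | ⟨i, n, c, u, rfl⟩
      · exact ⟨(ss_ne j).symm, by simp [bl, lb, u]⟩
      · exact ⟨by simpa [lb, bk, gk] using c, by simp [bl, lb, bk, gk, u]⟩
    · obtain ⟨n, e⟩ := Option.ne_none_iff_exists'.1 (mem_filter.1 q).2
      rcases Fin.eq_zero_or_eq_succ i with rfl | ⟨i, rfl⟩
      · rw [h] at e; cases e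
      · rcases Fin.eq_zero_or_eq_succ i with rfl | ⟨i, rfl⟩
        · exact ⟨_, (m _).2 (.inl ⟨⟨n, DD_one w n e⟩, e, rfl⟩), rfl⟩
        · have c : i ≠ j := by simpa using p
          exact ⟨_, (m _).2 (.inr ⟨i, ⟨n, DD_oth w c e⟩, c, e, rfl⟩), rfl⟩
  have one : ∀ x ∈ (lA Q j w.tr none).map (pe j r (ox r' w.tr) none),
      (w.tr (lb j x)).elim 0 (al j k x) = 1 := fun x p => by
    rcases (m x).1 p with ⟨i, u, rfl⟩ | ⟨i, n, c, u, rfl⟩ <;> simp [lb, bk, gk, al, *]
  have all : ∀ x, lb j x ≠ j.succ.succ → (w.tr (lb j x)).elim 0 (al j k x) ≠ 0 →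
      x ∈ (lA Q j w.tr none).map (pe j r (ox r' w.tr) none) := fun x p q => by
    rcases e : w.tr (lb j x) with _ | n <;> rw [e] at q
    · exact (q rfl).elim
    rcases x with (_ | ⟨i, n'⟩) | x | i | o
    · exact (q rfl).elim
    · have c : i ≠ j := by simpa [lb, bk, gk] using p
      obtain rfl : n = n' := by simpa [al, c] using q
      exact (m _).2 (.inr ⟨i, n', c, e, rfl⟩)
    · exact (p rfl).elim
    · obtain rfl : n = i := by simpa [al] using q
      exact (m _).2 (.inl ⟨i, e, rfl⟩)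
    · exact absurd (h.symm.trans e) (by simp)
  rcases e : w.tr j.succ.succ with _ | n
  · exact sum_out Fin.zero_le h inj im one all K e
  rw [sum_in Fin.zero_le h inj im one all K e, sum_lb]
  have f0 : ∀ x : Fin Q, Sy.ind (insert (.inl (some (j, x))) ((lA Q j w.tr none).map
    (pe j r (ox r' w.tr) none))) = mn Q j r r' w.tr none (some x) := fun x => (mn_some none x).symm
  have f1 : ∀ l (x : Fin Q), Sy.ind (insert (.inr (.inl (l, x))) ((lA Q j w.tr none).map
    (pe j r (ox r' w.tr) none))) = mn Q j r r' w.tr (some l) (some x) :=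
    fun l x => (mn_some (some l) x).symm
  simp only [f0, f1, Option.elim, Fin.sum_univ_four]
  have lt : n % (Q + 1) < Q + 1 := Nat.mod_lt _ (Nat.succ_pos _)
  have ne : ∀ x y z : ℕ, (if y = z then (if x = z then 0 else -1) else if x = y then 1 else 0 : ℤ) =
      (if x = y then 1 else 0) - if y = z then 1 else 0 := fun x y z => by
    split_ifs <;> omega
  simp only [al, if_true, ne]
  generalize n % (Q + 1) = x at lt ⊢
  by_cases c : x = k
  · subst c
    cases cb Q n <;> simp [sum_add_distrib, Fin.val_inj, eq_comm]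
  · rw [if_neg c]
    by_cases c' : x = Q
    · have z : ∀ y : Fin Q, x ≠ y := fun y => c' ▸ y.2.ne'
      rw [if_pos c']
      cases cb Q n <;> simp [Fin.val_inj, z]
    · rw [if_neg c']
      obtain ⟨x, rfl⟩ : ∃ y : Fin Q, y.1 = x := ⟨⟨x, by omega⟩, rfl⟩
      have c2 : ∀ y : Fin Q, (x = y ∧ ¬ y = k) ↔ x = y := fun y =>
        and_iff_left_of_imp fun u v => c (congrArg _ (u.trans v))
      have c3 : ∀ y : Fin Q, ¬ (x = y ∧ y = k) := fun y u => c (congrArg _ (u.1.trans u.2))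
      cases cb Q n <;> simp [sum_add_distrib, sub_mul, Fin.val_inj, c2, c3] <;> ring

theorem lA_mem (t : Pt (Fin (d + 2))) (e : Option ℕ) : lA Q j t e ∈ Wt d Q :=
  mem_gW.2 fun x p y q e => by
    rw [lA, mem_lw] at p q
    have e1 : (Br.gl x).1 = (Br.gl y).1 := congrArg Fin.succ e
    exact gl_inj (Prod.ext e1 (Option.some.inj (p.symm.trans (e1 ▸ q))))

/-- the letters of a kept word -/
theorem card_lA (w : Br.Wd s (DD Q j k r r' a Γ Δ)) (h : kw w) {e : Option ℕ}
    (h1 : e = none ↔ w.tr j.succ.succ = none) (h2 : ∀ n, e = some n → n < Q) :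
    #(lA Q j w.tr e) = w.lv := by
  rw [← (Pm.kept Fin.zero_le h (B := bl w.tr) ⟨subset_rfl, fun a p q => (q p).elim⟩).2]
  refine card_bij (fun x _ => (bk x).succ) ?_ (fun x p y q u => mem_gW.1 (lA_mem _ e) x p y q
    (Fin.succ_inj.1 u)) fun i m => ?_
  · rintro (_ | ⟨i, n⟩) m
    · exact mem_filter.2 ⟨mem_univ _, none_lA.1 m⟩
    · refine mem_filter.2 ⟨mem_univ _, fun z : w.tr i.succ.succ = none => ?_⟩
      have := some_lA.1 m
      split_ifs at this with c
      · rw [h1.2 (c ▸ z)] at this; cases this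
      · rw [z] at this; cases this
  · obtain ⟨n, u⟩ := Option.ne_none_iff_exists'.1 (mem_filter.1 m).2
    rcases Fin.eq_zero_or_eq_succ i with rfl | ⟨i, rfl⟩
    · rw [h] at u; cases u
    · rcases Fin.eq_zero_or_eq_succ i with rfl | ⟨i, rfl⟩
      · exact ⟨none, none_lA.2 (mem_filter.1 m).2, rfl⟩
      · by_cases c : i = j
        · obtain ⟨n', v⟩ := Option.ne_none_iff_exists'.1 fun z => (mem_filter.1 m).2 (c ▸ h1.1 z)
          exact ⟨some (i, ⟨n', h2 _ v⟩), some_lA.2 ((if_pos c).trans v), rfl⟩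
        · exact ⟨some (i, ⟨n, DD_oth w c u⟩), some_lA.2 ((if_neg c).trans u), rfl⟩

section
variable {Λ : Type} [Fintype Λ] [DecidableEq Λ] {T : TS Unit} {ε : Λ → ℤ} {κ : (Λ →₀ ℕ) → ℝ}

/-- the value of a configuration at a family and a monomial -/
def yz (y : T.Cw (CS Λ s ε κ) → ℤ) (F : T.C) (μ : Λ →₀ ℕ) : ℤ :=
  ∑ q : T.Cw (CS Λ s ε κ) with q.1.1 = F ∧ q.1.2.1 = μ, y q

theorem yz_at (y : T.Cw (CS Λ s ε κ) → ℤ) (q : T.Cw (CS Λ s ε κ)) : yz y q.1.1 q.1.2.1 = y q :=
  sum_eq_single_of_mem q (mem_filter.2 ⟨mem_univ _, rfl, rfl⟩) fun _ k n => (n (Subtype.ext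
    (Prod.ext (mem_filter.1 k).2.1 (Subtype.ext (mem_filter.1 k).2.2)))).elim

theorem hm_yz {τ : Type} {R : Sh Unit τ} (φ : Matrix R.W (CS Λ s ε κ).W ℤ)
    (y : T.Cw (CS Λ s ε κ) → ℤ) (x : T.Cw R) :
    T.hm _ R φ y x = ∑ μ : Sh.MW (full Λ s), φ x.1.2 μ * yz y x.1.1 μ.1 := by
  simp only [yz, TS.hm, mul_sum, sum_filter, mul_ite, mul_zero]
  rw [sum_comm]
  refine sum_congr rfl fun q _ => ?_
  refine ((sum_eq_single (show Sh.MW (full Λ s) from q.1.2) (fun μ _ e => ?_)
    fun z => (z (mem_univ _)).elim).trans ?_).symm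
  · exact if_neg fun z => e (Subtype.ext z.2.symm)
  · exact if_congr (and_iff_left rfl) rfl rfl
end

variable {T : TS Unit} {V : ℕ → Pt (Fin (d + 2)) → ℝ} {ε : La d Q r r' → ℤ}
  {κ : (La d Q r r' →₀ ℕ) → ℝ}

/-- the monomials are coordinates of the cover -/
theorem mn_ex (x : T.Cw (Br.tw s (DD Q j k r r' a Γ Δ) V)) (h : kw x.1.2) (oj : Option (Fin 4))
    {e : Option ℕ} (h1 : e = none ↔ Br.Wd.tr x.1.2 j.succ.succ = none)
    (h2 : ∀ n, e = some n → n < Q) : #(lA Q j (Br.Wd.tr x.1.2) e) = T.lev x.1.1 ∧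
      ∃ q : T.Cw (CS (La d Q r r') s ε κ), q.1.1 = x.1.1 ∧
        q.1.2.1 = mn Q j r r' (Br.Wd.tr x.1.2) oj e := by
  have c := card_lA x.1.2 h h1 h2
  have g : (mn Q j r r' (Br.Wd.tr x.1.2) oj e).degree = Br.Wd.lv x.1.2 := by
    rw [mn, dg_ind, card_map, c]
  refine ⟨c.trans (Lt.cw_lv x), ⟨(x.1.1, ⟨_, mem_erase.2 ⟨fun z => ?_,
    mem_full.2 (g.trans_le x.1.2.1.1.2)⟩⟩), Tw.unit_ext ((Sh.cd_degree _).trans
      (g.trans (Lt.cw_lv x)))⟩, rfl, rfl⟩
  rw [z] at g
  exact absurd g.symm (Nat.succ_ne_zero _)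

/-- **the image of a configuration on a kept word** -/
theorem hm_sum (y : T.Cw (CS (La d Q r r') s ε κ) → ℤ)
    (x : T.Cw (Br.tw s (DD Q j k r r' a Γ Δ) V)) (h : kw x.1.2) :
    T.hm _ (Br.tw s (DD Q j k r r' a Γ Δ) V) (ph s _ (lb j) (al j k)) y x =
      let t := Br.Wd.tr x.1.2
      let K := yz y x.1.1
      (t j.succ.succ).elim (K (mn Q j r r' t none none)) fun n =>
        let e := n % (Q + 1)
        let l : Fin 4 := bif cb Q n then 3 else 2
        if e = k then K (mn Q j r r' t none (some k)) +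
          K (mn Q j r r' t (some (bif cb Q n then 1 else 0)) (some k))
        else if e = Q then -K (mn Q j r r' t (some l) (some k))
        else K (mn Q j r r' t none (some e)) + K (mn Q j r r' t (some 0) (some e)) +
          K (mn Q j r r' t (some l) (some e)) - K (mn Q j r r' t (some l) (some k)) :=
  (hm_yz _ y x).trans (ph_sum x.1.2 h _)

end Crest.Agent.N49.He.Ji

end
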