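import Crest.Agent.N49.He.Jb0
import Crest.Agent.N49.He.Kps
import Crest.Agent.N49.He.Rd
import Crest.Agent.N49.Ft.Rfs
import Crest.Agent.N49.Md.Fw2

/-!
# Row 49 (helper61): the cover configuration is read at the points of the rectangle
-/

set_option autoImplicit false
set_option linter.unusedSectionVars false
set_option maxHeartbeats 400000

open Finset Matrix

noncomputable section

namespace Crest.Agent.N49.He

open Po Tw Br Rm Rm.TT Ft Md Sd Ji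

namespace Bv

section gen
variable {τ L Λ Lt : Type} [Fintype τ] [DecidableEq τ] [Fintype L] [DecidableEq L] [Fintype Λ]
  [DecidableEq Λ] {U : Finset (Λ →₀ ℕ)} {ε : Λ → ℤ} {K : (Λ →₀ ℕ) → (Λ →₀ ℕ) → ℝ}

theorem kap_scl {B : Bs L} {W : Finset (Finset τ)} {blk : τ → L} {f : Fr B.T τ L} (hW : Sy.Dw W)
    (hp : ∀ G, f.st G < f.M + 1) (hm : f.m = 1) (ψ : τ ↪ Λ) {g : τ → Option Lt} (xs : f.T.C → ℝ)
    (D : Sd.Tan B.T (f.T.scl xs) Lt) (hx : Xr g f.θ 1 D.fam D.mon D.be)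
    (lt : Lt → (Sh.mono (fun _ => ()) U ε K).W) (bs : Lt → Λ)
    (hl : ∀ t, (lt t).1 = Finsupp.single (bs t) 1) (p : L → ℝ)
    (h1 : ∀ a t, g a = some t → (bs t = ψ a ∧ p (blk a) = 1) ∨
      (bs t ∉ Set.range ψ ∧ p (blk a) = 0)) (h0 : ∀ a, g a = none → p (blk a) = 0)
    (y : (f.T.scl xs).Cw (Sh.mono (fun _ => ()) U ε K) → ℤ)
    (c : B.T.Cw (Sh.mono (fun _ => ()) U ε K))
    (w : B.SC W) (e1 : c.1.1 = w.1.1) (e2 : c.1.2.1 = Sy.ind (w.1.2.map ψ)) :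
    (((D.rn lt).kap (Sh.mono (fun _ => ()) U ε K) y c : ℤ) : ℝ) = ka B W blk f (Sum.elim (fun v =>
      yv (f.T.scl xs) _ (zc y) v.1.1 (Sy.ind (v.1.2.map ψ))) p) (.inl w) :=
  kap_psi hW hp hm ψ ⟨D.fam, D.mon, D.be, D.bu, D.bs, D.nu, D.gr⟩ hx lt bs hl _ h1 h0 y c w e1 e2
    fun _ _ => rfl

theorem map_eq {ψ ψ' : τ ↪ Λ} {A : Finset τ} (h : ∀ a ∈ A, ψ a = ψ' a) : A.map ψ = A.map ψ' := by
  rw [map_eq_image, map_eq_image]; exact image_congr h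

theorem yv_gl {T : TS Unit} (p : (Sh.mono (fun _ => ()) U ε K).W → Prop) [DecidablePred p]
    (y : Kc T (Sh.mono (fun _ => ()) U ε K) p → ℤ) (v : Kc T (Sh.mono (fun _ => ()) U ε K) p)
    {G : T.C} {μ : Λ →₀ ℕ} (e1 : v.1.1.1 = G) (e2 : v.1.1.2.1 = μ) :
    yv T _ (zc (Sd.gl T _ p y 0)) G μ = y v := by
  subst e1 e2
  exact (yv_at v.1).trans (congrArg Int.cast (dif_pos v.2))
end gen

section gen
variable {τ L Λ Lt : Type} [Fintype τ] [DecidableEq τ] [Fintype L] [DecidableEq L] [Fintype Λ]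
  [DecidableEq Λ] {s : ℕ} {ε : Λ → ℤ} {κ : (Λ →₀ ℕ) → ℝ}

theorem yz_deg {T : TS Unit} (y : T.Cw (CS Λ s ε κ) → ℤ) {F : T.C} {μ : Λ →₀ ℕ}
    (h : μ.degree ≠ T.lev F) : yz y F μ = 0 := sum_eq_zero fun q k => (h (by
  rw [← (mem_filter.1 k).2.1, ← (mem_filter.1 k).2.2]
  exact (Sh.cd_degree _).symm.trans (congrArg Finsupp.degree q.2))).elim

/-- the same coordinates with other errors -/
def alt (T : TS Unit) (Φ : T.C → MvPolynomial T.C ℝ) (K : Matrix T.C T.C ℝ) : TS Unit :=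
  { T with Φ := Φ, K := K }

theorem yz_alt {T T2 : TS Unit} (Φ : T.C → MvPolynomial T.C ℝ) (K : Matrix T.C T.C ℝ)
    (D : Sd.Tan (alt T Φ K) T2 Lt) (lt : Lt → (CS Λ s ε κ).W) (y : T2.Cw (CS Λ s ε κ) → ℤ)
    (F : T.C) (μ : Λ →₀ ℕ) : yz (T := alt T Φ K) ((D.rn lt).kap (CS Λ s ε κ) y) F μ =
      yz (T := T) (((⟨D.fam, D.mon, D.be, D.bu, D.bs, D.nu, D.gr⟩ : Sd.Tan T T2 Lt).rn lt).kap
        (CS Λ s ε κ) y) F μ := rfl

theorem yz_ka {B : Bs L} {W : Finset (Finset τ)} {blk : τ → L} {f : Fr B.T τ L} (hW : Sy.Dw W)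
    (o : B.T.Tri) (hl : ∀ F, B.T.lev F ≤ s) (hs : 0 < s)
    (hp : ∀ G, f.st G < f.M + 1) (hm : f.m = 1) (ψ : τ ↪ Λ) {g : τ → Option Lt} (xs : f.T.C → ℝ)
    (Φ : B.T.C → MvPolynomial B.T.C ℝ) (K : Matrix B.T.C B.T.C ℝ)
    (D : Sd.Tan (alt B.T Φ K) (f.T.scl xs) Lt) (hx : Xr g f.θ 1 D.fam D.mon D.be) (bs : Lt → Λ)
    (p : L → ℝ)
    (h1 : ∀ a t, g a = some t → (bs t = ψ a ∧ p (blk a) = 1) ∨
      (bs t ∉ Set.range ψ ∧ p (blk a) = 0)) (h0 : ∀ a, g a = none → p (blk a) = 0)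
    (y : (f.T.scl xs).Cw (CS Λ s ε κ) → ℤ) (w : B.SC W) :
    (yz (T := alt B.T Φ K) ((D.rn fun t => wd1 hs (bs t)).kap (CS Λ s ε κ) y) w.1.1
      (Sy.ind (w.1.2.map ψ)) : ℝ) =
      ka B W blk f (Sum.elim (fun v =>
        yv (f.T.scl xs) _ (zc y) v.1.1 (Sy.ind (v.1.2.map ψ))) p) (.inl w) := by
  have g : (Sy.ind (w.1.2.map ψ)).degree = B.T.lev w.1.1 :=
    (dg_ind _).trans ((card_map _).trans w.2.2.2)
  let x : B.T.Cw (CS Λ s ε κ) := ⟨(w.1.1, ⟨Sy.ind (w.1.2.map ψ), mem_erase.2 ⟨fun z => ?_,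
    mem_full.2 (g.trans_le (hl _))⟩⟩), unit_ext ((Sh.cd_degree _).trans g)⟩
  · exact (congrArg Int.cast ((yz_alt Φ K D _ y _ _).trans (yz_at _ x))).trans
      (kap_scl hW hp hm ψ xs ⟨D.fam, D.mon, D.be, D.bu, D.bs, D.nu, D.gr⟩ hx _ bs (fun _ => rfl) p
        h1 h0 y x w rfl rfl)
  · obtain ⟨a, b⟩ := Sy.sc_ne o w
    have := congrArg Finsupp.degree z
    rw [dg_ind, card_map, map_zero, card_eq_zero] at this
    exact notMem_empty a (this ▸ b)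
end gen

theorem pe_h1 {d Q r r' : ℕ} (j : Fin d) (ox : Option (Fin r')) (oj : Option (Fin 4))
    {p : Lb d → ℝ} (hp : ∀ ℓ, p ℓ = if ℓ = 0 ∨ (ℓ = j.succ ∧ oj ≠ none) then 0 else 1)
    (a : Lx d Q) (t : Fin d × Fin Q) (e : a = some t) :
    ((.inl (some t) : La d Q r r') = pe j r ox oj a ∧ p (bk a) = 1) ∨
      ((.inl (some t) : La d Q r r') ∉ Set.range (pe j r ox oj) ∧ p (bk a) = 0) := by
  obtain ⟨i, b⟩ := t
  subst e
  rw [hp]
  by_cases z : i = j ∧ oj ≠ none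
  · refine .inr ⟨fun ⟨a, g⟩ => ?_, if_pos (.inr ⟨congrArg Fin.succ z.1, z.2⟩)⟩
    obtain rfl : a = some (i, b) := (q0_p0 j ox oj a).symm.trans (congrArg (Ji.q0 j) g)
    obtain ⟨l, rfl⟩ := Option.ne_none_iff_exists'.1 z.2
    simp [pe, Ji.p0, z.1] at g
  · refine .inl ⟨?_, if_neg fun g => g.elim (Fin.succ_ne_zero i) fun g =>
      z ⟨Fin.succ_injective _ g.1, g.2⟩⟩
    by_cases g : i = j
    · obtain rfl : oj = none := of_not_not fun n => z ⟨g, n⟩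
      simp [pe, Ji.p0]
    · simp [pe, Ji.p0, g]

variable {s d : ℕ} (c : Hc s d)

/-- the base point or a direction -/
def pq (oj : Option (Fin 4)) (q : c.CU ⊕ (Lb d ⊕ Fin 4) → ℝ) : c.C ⊕ Lb d → ℝ :=
  oj.elim (c.T.p0 c.j.succ q) fun l => c.T.px c.j.succ (fun _ => false) l q

/-- the word of the rectangle that is read -/
def uw (oj : Option (Fin 4)) (w : c.C) : c.CU :=
  oj.elim (.inl w) fun l => if h : c.j.succ ∈ c.T.ty w then .inr (⟨w, h⟩, l) else .inl w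

theorem pq_inl (oj : Option (Fin 4)) (q : c.CU ⊕ (Lb d ⊕ Fin 4) → ℝ) (w : c.C) :
    pq c oj q (.inl w) = q (.inl (uw c oj w)) := by
  cases oj with
  | none => rfl
  | some l => simp only [pq, uw, Option.elim_some, px]; split_ifs <;> rfl

theorem b0_uw (oj : Option (Fin 4)) (w : c.C) : c.b0 (uw c oj w) = w := by
  cases oj with
  | none => rfl
  | some l => simp only [uw, Option.elim_some]; split_ifs <;> rfl

theorem dr_uw (oj : Option (Fin 4)) {w : c.C} (h : c.j.succ ∈ c.T.ty w) : c.dr (uw c oj w) = oj := by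
  cases oj with
  | none => rfl
  | some l => simp only [uw, Option.elim_some, dif_pos h]; rfl

theorem ty_uw (oj : Option (Fin 4)) (w : c.C) : c.U.ty (uw c oj w) = (c.T.ty w).image fun ℓ =>
    oj.elim (.inl (.inl ℓ)) fun l => Rs.fr c.j.succ l (c.fn w) ℓ := by
  cases oj with
  | none => rfl
  | some l =>
    simp only [uw, Option.elim_some]
    split_ifs with h
    · exact Rs.ty_inr ⟨w, h⟩ l
    · exact (Rs.im_of h l _).symm

theorem x_uw (oj : Option (Fin 4)) (w : c.C) : c.x ∈ c.U.ty (uw c oj w) ↔ 0 ∈ c.T.ty w := by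
  rw [ty_uw, mem_image]
  refine ⟨fun ⟨ℓ, a, b⟩ => ?_, fun h => ⟨0, h, ?_⟩⟩
  · have : ℓ = 0 := by
      cases oj with
      | none => exact Sum.inl.inj (Sum.inl.inj b)
      | some l => exact (Rs.gb_fr l _ ℓ).symm.trans (congrArg (Rs.gb c.j.succ) b)
    exact this ▸ a
  · cases oj with
    | none => rfl
    | some l => simp [Rs.fr, (Fin.succ_ne_zero c.j).symm]

theorem dis_uw {S : Finset c.L} (h0 : ∀ ℓ, .inl (.inl ℓ) ∉ S) {oj : Option (Fin 4)} {w : c.C}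
    (h : ∀ l, oj = some l → c.j.succ ∈ c.T.ty w → Rs.lam _ l (c.fn w) ∉ S) :
    Disjoint (c.U.ty (uw c oj w)) S := by
  rw [ty_uw, disjoint_left]
  intro x a0
  obtain ⟨ℓ, a, rfl⟩ := mem_image.1 a0
  cases oj with
  | none => exact h0 ℓ
  | some l =>
    simp only [Option.elim_some, Rs.fr]
    split_ifs with z
    exacts [h l rfl (z ▸ a), h0 ℓ]

theorem pq_inr (oj : Option (Fin 4)) (w : c.CU → ℤ) (v : ℕ → c.CU → ℤ) (t : Pt (Fin (d + 2)))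
    (ℓ : Lb d) : pq c oj (c.pp w v t) (.inr ℓ) =
      if ℓ = 0 ∨ (ℓ = c.j.succ ∧ oj ≠ none) then 0 else 1 := by
  cases oj with
  | none => simp [pq, TT.p0, Hc.pp, Ft.co, Ft.pt, jr, cf]
  | some l =>
    by_cases a : ℓ = c.j.succ <;> simp [pq, px, Hc.pp, Ft.co, Ft.pt, jr, cf, a]

theorem int_pq (oj : Option (Fin 4)) (w : c.CU → ℤ) (v : ℕ → c.CU → ℤ) (t : Pt (Fin (d + 2))) :
    IntP (pq c oj (c.pp w v t)) := by
  cases oj with
  | none => exact Rk.intP_p0 (c.intP_pp w v t)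
  | some l => exact Rk.intP_px (c.intP_pp w v t) (fun _ => false) l

variable {c} {ε κ : ℝ} {h m r r' : ℕ} {S : Finset c.L}

theorem val0 {e : c.KV S r' → Kc c.T2 (c.SS r r' κ) (kp (lb c.j))} (he : c.Ev r e)
    (y : Kc c.T2 (c.SS r r' κ) (kp (lb c.j)) → ℤ) (w : Gd.Lv c.T) (v : c.KV S r')
    (ψ : Lx d c.o.Q ↪ La d c.o.Q r r') (hv : c.b0 (c.vu v).1 = w.1)
    (hψ : ∀ a ∈ (c.e w).1.2, pe c.j r (c.vo v) (c.dr (c.vu v).1) a = ψ a) :
    yv c.T2 (c.SS r r' κ) (zc (Sd.gl c.T2 _ (kp (lb c.j)) y 0)) (c.e w).1.1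
      (Sy.ind ((c.e w).1.2.map ψ)) = y (e v) := by
  have z : c.sw v = c.e w := congrArg c.e (Subtype.ext hv)
  refine yv_gl _ y (e v) ((he v).1.trans (congrArg (fun u : c.f.X => u.1.1) z)) ((he v).2.trans ?_)
  exact (congrArg (fun u : c.f.X => Sy.ind (u.1.2.map (pe c.j r (c.vo v) (c.dr (c.vu v).1)))) z).trans
    (congrArg Sy.ind (map_eq hψ))

theorem val (k : c.Ok ε h m) {e : c.KV S r' → Kc c.T2 (c.SS r r' κ) (kp (lb c.j))} (he : c.Ev r e)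
    (y : Kc c.T2 (c.SS r r' κ) (kp (lb c.j)) → ℤ) (t : Pt (Fin (d + 2))) (w : Gd.Lv c.T)
    (ox : Option (Fin r')) (oj : Option (Fin 4))
    (h1 : none ∈ (c.e w).1.2 → ∃ i : Fin r', t 1 = some i.1 ∧ ox = some i)
    (hS : Disjoint (c.U.ty (uw c oj w.1)) S) :
    pq c oj (c.pp (c.wb (y ∘ e)) (c.vs S (c.nb (y ∘ e))) t) (.inl w.1) =
      yv c.T2 (c.SS r r' κ) (zc (Sd.gl c.T2 _ (kp (lb c.j)) y 0)) (c.e w).1.1
        (Sy.ind ((c.e w).1.2.map (pe c.j r ox oj))) := by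
  have hj : ∀ i, some (c.j, i) ∈ (c.e w).1.2 → c.dr (uw c oj w.1) = oj := fun i a =>
    dr_uw c oj ((k.ty_e w).ge (mem_image_of_mem bk a))
  have hx : c.x ∈ c.U.ty (uw c oj w.1) ↔ none ∈ (c.e w).1.2 := by
    rw [x_uw, k.ty_e w, mem_image]
    exact ⟨fun ⟨a, b, z⟩ => (gk_eq a).1 z ▸ b, fun b => ⟨none, b, rfl⟩⟩
  have hs : ∀ (o : Option (Fin r')) i, some i ∈ (c.e w).1.2 →
      pe c.j r o (c.dr (uw c oj w.1)) (some i) = pe c.j r ox oj (some i) := fun o ⟨i, b⟩ a => by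
    by_cases z : i = c.j
    · subst z; rw [hj b a]; rfl
    · exact (if_neg z).trans (if_neg z).symm
  rw [pq_inl]
  by_cases a : none ∈ (c.e w).1.2
  · obtain ⟨i, b, rfl⟩ := h1 a
    have n : c.x ∈ (c.U.dls S).ty (uw c oj w.1) := mem_dls.2 ⟨hx.2 a, hS⟩
    refine Eq.trans ?_ (val0 he y w (.inr (i, ⟨_, n⟩)) _ (b0_uw c oj _) ?_).symm
    · refine (dif_pos (hx.2 a)).trans (congrArg Int.cast ?_)
      rw [b, Option.elim_some, Hc.vs, dif_pos i.2]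
      exact dif_pos n
    · rintro (_ | z) g
      exacts [rfl, hs _ z g]
  · have n : (c.U.ty (uw c oj w.1)).Nonempty := by rw [ty_uw]; exact w.2.image _
    refine Eq.trans ?_ (val0 he y w (.inl ⟨_, n⟩) _ (b0_uw c oj _) ?_).symm
    · exact (dif_neg fun z => a (hx.1 z)).trans (congrArg Int.cast (dif_pos n))
    · rintro (_ | z) g
      exacts [absurd g a, hs _ z g]

theorem rv_eq (k : c.Ok ε h m) {e : c.KV S r' → Kc c.T2 (c.SS r r' κ) (kp (lb c.j))}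
    (he : c.Ev r e) (y : Kc c.T2 (c.SS r r' κ) (kp (lb c.j)) → ℤ) (t : Pt (Fin (d + 2)))
    (oj : Option (Fin 4)) (o : Option ℕ) (F : c.P.C) (h1 : ∀ n, t 1 = some n → n < r')
    (h0 : ∀ ℓ, .inl (.inl ℓ) ∉ S)
    (hS : ∀ l (i : Fin c.o.Q), oj = some l → o = some i.1 → Rs.lam _ l i ∉ S)
    (P : c.f.X ⊕ Lb d → ℝ) (p1 : ∀ v, P (.inl v) = yv c.T2 (c.SS r r' κ)
      (zc (Sd.gl c.T2 _ (kp (lb c.j)) y 0)) v.1.1 (Sy.ind (v.1.2.map (pe c.j r (ox r' t) oj))))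
    (p2 : ∀ ℓ, P (.inr ℓ) = pq c oj (c.pp (c.wb (y ∘ e)) (c.vs S (c.nb (y ∘ e))) t) (.inr ℓ)) :
    c.rv (rr c.T c.e 0 P) F (lA c.o.Q c.j t o) =
      c.rv (pq c oj (c.pp (c.wb (y ∘ e)) (c.vs S (c.nb (y ∘ e))) t)) F (lA c.o.Q c.j t o) := by
  refine k.rv_loc _ _ (fun u a => (dif_pos u.2).trans ((p1 _).trans (val k he y t u _ oj
    (fun g => ?_) (dis_uw c h0 fun l g n => ?_)).symm)) fun _ _ => p2 _
  · obtain ⟨n, z⟩ := Option.ne_none_iff_exists'.1 (none_lA.1 (a g))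
    exact ⟨⟨n, h1 n z⟩, z, by rw [ox, z]; exact dif_pos _⟩
  · obtain ⟨_ | ⟨i, b⟩, p, q⟩ := mem_image.1 ((k.ty_e u).le n)
    · exact absurd q (Fin.succ_ne_zero _).symm
    · obtain rfl : i = c.j := Fin.succ_injective _ q
      rw [k.fn u b p]
      exact hS l b g ((if_pos rfl).symm.trans (some_lA.1 (a p)))

/-- **the reading half** -/
theorem rdy (hs : 0 < s) (k : c.Ok ε h m) (D : Sd.Tan c.P c.T2 (Fin d × Fin c.o.Q))
    (hx : Xr id c.f.θ 1 D.fam D.mon D.be)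
    {e : c.KV S r' → Kc c.T2 (c.SS r r' κ) (kp (lb c.j))} (he : c.Ev r e)
    (y : Kc c.T2 (c.SS r r' κ) (kp (lb c.j)) → ℤ) (t : Pt (Fin (d + 2))) (F : c.P.C)
    (h1 : ∀ n, t 1 = some n → n < r') (h0 : ∀ ℓ, .inl (.inl ℓ) ∉ S) (oj : Option (Fin 4))
    (o : Option ℕ) (hS : ∀ l (i : Fin c.o.Q), oj = some l → o = some i.1 → Rs.lam _ l i ∉ S) :
    c.rd (pq c oj (c.pp (c.wb (y ∘ e)) (c.vs S (c.nb (y ∘ e))) t)) F (lA c.o.Q c.j t o) =
      yz ((D.rn fun t => wd1 hs (.inl (some t))).kap (c.SS r r' κ)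
        (Sd.gl c.T2 _ (kp (lb c.j)) y 0)) F (mn c.o.Q c.j r r' t oj o) := by
  refine Int.cast_injective (α := ℝ) ((k.rd_cast (int_pq c oj _ _ t) _ _).trans ?_)
  have L : c.P.lev F = c.o.cx.B.T.lev F :=
    show (c.o.g.V.T.deg F).degree = (c.o.g.V.T.deg F).degree from rfl
  by_cases hc : #(lA c.o.Q c.j t o) = c.o.cx.B.T.lev F
  · let w : c.o.cx.B.SC (Wt d c.o.Q) := ⟨(F, lA c.o.Q c.j t o),
      Nat.lt_succ_of_le (k.o.cx.ok.old.stg.le F).1, lA_mem _ _, hc⟩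
    have a := yz_ka (B := c.o.cx.B) (ε := ms) (κ := fun _ => κ) (gW_wf k.o.cx.ds).dw
      k.o.cx.ok.old.ok.toTri k.o.cx.ok.old.lev hs
      (fun G => Nat.lt_succ_of_le (k.f.old.stg.le G).1) k.tg.m (pe c.j r (ox r' t) oj) c.f.θ.xs
      c.P.Φ c.P.K D hx
      (fun t => .inl (some t)) _ (pe_h1 c.j _ oj (pq_inr c oj (c.wb (y ∘ e))
        (c.vs S (c.nb (y ∘ e))) t)) (fun a g => by
          obtain rfl : a = none := g
          exact (pq_inr ..).trans (if_pos (.inl rfl))) (Sd.gl c.T2 _ (kp (lb c.j)) y 0) w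
    exact (rv_eq k he y t oj o F h1 h0 hS _ (fun _ => rfl) fun _ => rfl).symm.trans
      ((c.rv_at _ w).trans ((congrFun (k.emb.ι 0 _) _).trans a.symm))
  · have a : c.rv (pq c oj (c.pp (c.wb (y ∘ e)) (c.vs S (c.nb (y ∘ e))) t)) F
        (lA c.o.Q c.j t o) = 0 := dif_neg fun z => hc z.2.2
    exact a.trans (Int.cast_zero.symm.trans (congrArg Int.cast (yz_deg _ fun z =>
      hc ((card_map _).symm.trans ((dg_ind _).symm.trans (z.trans L)))).symm))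

theorem sx_inl (k : Fin c.o.Q) (Γ Δ : Finset Bool) (ℓ : Lb d) : .inl (.inl ℓ) ∉ c.Sx k Γ Δ := by
  simp [Hc.Sx, S4, S1, Ft.sl, He.tl]

theorem sx_k {k : Fin c.o.Q} {Γ Δ : Finset Bool} {b : Bool} (h : b ∈ Γ) :
    Rs.lam _ (bif b then 1 else 0) k ∉ c.Sx k Γ Δ := by
  cases b <;> simp [Hc.Sx, S4, S1, Ft.sl, He.tl, Rs.lam, h]

theorem sx_t {k : Fin c.o.Q} {Γ Δ : Finset Bool} {b : Bool} (h : b ∈ Δ) (i : Fin c.o.Q) :
    Rs.lam _ (bif b then 3 else 2) i ∉ c.Sx k Γ Δ := by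
  cases b <;> simp [Hc.Sx, S4, S1, Ft.sl, He.tl, Rs.lam, h]

theorem sx_0 {k i : Fin c.o.Q} (Γ Δ : Finset Bool) (h : i ≠ k) : Rs.lam _ 0 i ∉ c.Sx k Γ Δ := by
  simp [Hc.Sx, S4, S1, Ft.sl, He.tl, Rs.lam, h.symm]
end Bv

open Bv in
/-- **the background is the image of the configuration of the cover** -/
theorem Ji.bgv : BGV := fun s d hs c ε κ h m r r' k a Γ Δ V D e o hx he y x hw => by
  classical
  have R := rdy hs o D hx he y (Br.Wd.tr x.1.2) x.1.1 (DD_one x.1.2) (sx_inl k Γ Δ)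
  have g := (mem_filter.1 (Br.Wd.mem x.1.2)).2.2
  refine Eq.trans ?_ (hm_sum _ x hw).symm
  unfold Hc.bg
  dsimp only
  cases z : Br.Wd.tr x.1.2 c.j.succ.succ with
  | none => exact R none none nofun
  | some n =>
    have g := g n z
    simp only [Option.elim_some]
    split_ifs with e1 e2
    · rw [if_pos e1] at g
      refine congrArg₂ _ (R none _ nofun) (R (some _) _ fun l i p q => ?_)
      obtain rfl : k = i := Fin.ext (Option.some.inj q)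
      exact Option.some.inj p ▸ sx_k g
    · rw [if_neg e1] at g
      exact congrArg _ (R (some _) _ fun l i p _ => Option.some.inj p ▸ sx_t g i)
    · rw [if_neg e1] at g
      refine congrArg₂ _ (congrArg₂ _ (congrArg₂ _ (R none _ nofun) (R (some 0) _ fun l i p q => ?_))
        (R (some _) _ fun l i p _ => Option.some.inj p ▸ sx_t g i))
        (R (some _) _ fun l i p _ => Option.some.inj p ▸ sx_t g i)
      exact Option.some.inj p ▸ sx_0 Γ Δ fun u => e1 ((Option.some.inj q).trans (congrArg _ u))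

end Crest.Agent.N49.He

end
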