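import Crest.Agent.N49.He.Ji
import Crest.Agent.N49.He.Dt

/-!
# Row 49 (helper36): the normaliser of the kept coordinates
-/

set_option autoImplicit false

open Finset Matrix

noncomputable section

namespace Crest.Agent.N49.He.Ji

open Po Tw Rm Rm.TT Md Ft Sd

namespace D3
variable {s d : ℕ} {c : Hc s d} {ε : ℝ} {h m r' : ℕ} {S : Finset c.L}

/-- the errors do not see the homogenising coordinates -/
theorem hmT (k : c.Ok ε h m) {p p' : c.C ⊕ Lb d → ℝ} (e : ∀ u, p (.inl u) = p' (.inl u))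
    (y : c.C) : c.T.Φ p y = c.T.Φ p' y := by
  rcases (c.T.ty y).eq_empty_or_nonempty with z | z
  · rw [k.emb.ok.dead y p z, k.emb.ok.dead y p' z, e]
  · refine (Fi.phi (B := c.f.toBs) k.emb.toEm p ⟨y, z⟩).trans ((Fi.sy_sub _ _ _ fun v _ => ?_).trans
      (Fi.phi (B := c.f.toBs) k.emb.toEm p' ⟨y, z⟩).symm)
    simp only [Fi.fw, Sum.elim_inl, e]
    rfl

theorem hmU (k : c.Ok ε h m) {p p' : c.CU ⊕ c.L → ℝ} (e : ∀ u, p (.inl u) = p' (.inl u))
    (y : c.CU) : c.U.Φ p y = c.U.Φ p' y := by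
  rcases y with y | ⟨y, l⟩
  · exact hmT k (fun u => e (.inl u)) y
  · refine congrArg (_ * ·) (hmT k (fun u => ?_) y.1)
    simp only [px, Ft.co, Sum.elim_inl, e]

theorem lp_eq (k : c.Ok ε h m) (v v' : c.KV S r') : Ir.lp c.Ph v v' =
    if c.vo v = c.vo v' then c.U.Am (c.vu v).1 (c.vu v').1 else 0 := by
  have U := Hc.dt_U k
  rcases v with u | ⟨i, y⟩ <;> rcases v' with u' | ⟨i', y'⟩
  · refine hmU k (fun w => ?_) _
    by_cases g : (c.U.ty w).Nonempty
    · simp [Hc.wb, g, Pi.single_apply, Hc.vu, Subtype.ext_iff]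
    · have : w ≠ u'.1 := fun r => g (r ▸ u'.2)
      simp [Hc.wb, g, Hc.vu, this]
  · refine (hmU k (p' := 0) (fun w => ?_) _).trans (Dt.phi0 U _)
    simp [Hc.wb]
  · refine (U.phi_in _ _ 0 ⟨y.1, (mem_dls.1 y.2).1⟩).trans ?_
    simp [Hc.vo, mulVec, dotProduct]
  · by_cases q : i = i'
    · subst q
      refine (hmU k (fun w => ?_) _).trans (if_pos rfl).symm
      by_cases g : c.x ∈ (c.U.dls S).ty w
      · simp [jr, g, (mem_dls.1 g).1, Pi.single_apply, Hc.vu, Hc.xl, Subtype.ext_iff]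
      · have : w ≠ y'.1 := fun r => g (r ▸ y'.2)
        simp [jr, g, Hc.wb, Hc.vu, Hc.xl, this]
    · refine ((hmU k (p' := 0) (fun w => ?_) _).trans (Dt.phi0 U _)).trans
        (if_neg fun r => q (Option.some.inj r)).symm
      simp [jr, Hc.wb, q]
end D3

theorem detv3 : DETV := fun s d c ε h m r' S k => by
  rw [det_cls c.vo _ fun v v' n => (D3.lp_eq k v v').trans (if_neg n), abs_prod,
    ← Fintype.prod_fiberwise (c.vo (S := S) (r' := r'))]
  refine prod_congr rfl fun o _ => ?_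
  rw [show (Ir.lp c.Ph).submatrix (Subtype.val : {v : c.KV S r' // c.vo v = o} → _) Subtype.val =
    c.U.Am.submatrix (fun v => (c.vu v.1).1) fun v => (c.vu v.1).1 from Matrix.ext fun v v' =>
      (D3.lp_eq k v.1 v'.1).trans (if_pos (v.2.trans v'.2.symm))]
  refine Hc.det_lu k (fun v v' q => Subtype.ext ?_)
    (fun A => o.elim A.Nonempty fun _ => c.x ∈ A ∧ Disjoint A S) (by cases o <;> simp) fun y => ?_
  · obtain ⟨u | ⟨i, y⟩, a⟩ := v <;> obtain ⟨u' | ⟨i', y'⟩, b⟩ := v'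
    · exact congrArg Sum.inl (Subtype.ext q)
    · cases a.trans b.symm
    · cases a.trans b.symm
    · exact congrArg Sum.inr (Prod.ext (Option.some.inj (a.trans b.symm)) (Subtype.ext q))
  · refine ⟨?_, fun g => ?_⟩
    · rintro ⟨⟨u | ⟨i, y⟩, rfl⟩, rfl⟩
      exacts [u.2, mem_dls.1 y.2]
    · rcases o with _ | i
      exacts [⟨⟨.inl ⟨y, g⟩, rfl⟩, rfl⟩, ⟨⟨.inr (i, ⟨y, mem_dls.2 g⟩), rfl⟩, rfl⟩]

end Crest.Agent.N49.He.Ji

end
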