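import Crest.Agent.N49.He.Ji
import Crest.Agent.N49.He.Sk0

/-!
# Row 49 (helper8): the empty tower
-/

set_option autoImplicit false

open Finset Matrix

noncomputable section

namespace Crest.Agent.N49.He.Ji

open Po Tw Br Rm Rm.TT Ft Md Sd

/-- tangent frames of an empty tower are empty -/
theorem tg_empty {τ L : Type} [Fintype τ] [DecidableEq τ] [Fintype L] [DecidableEq L] {B : Bs L}
    {blk : τ → L} {s : ℕ} {f : Fr B.T τ L} (h : Md.Tg B blk s f) (e : IsEmpty B.T.C) :
    IsEmpty f.T.C := by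
  induction h with
  | id => exact e
  | tan lam la' J b hp _ _ _ ih => exact ⟨fun x => ih.false x.1.1⟩

theorem emp : EMP := fun s d c ε h m r r' k a Γ Δ V x o e => by
  have e1 : IsEmpty c.f.T.C := tg_empty o.tg e
  have e2 : ∀ S : Finset c.L, IsEmpty (c.XW S) := fun S =>
    ⟨fun y => e1.false (c.e ⟨c.b0 (c.xl y).1, c.lv_b0 _⟩).1.1⟩
  have e3 : IsEmpty (HW s c.P (DD c.o.Q c.j k r r' a Γ Δ)) := ⟨fun y => e.false y.1.1.1⟩
  have t : c.tm k r r' a Γ Δ V x = fun _ => 1 := funext fun w => by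
    have := e2 (c.Sx k Γ Δ)
    simp [Hc.tm, Hc.mu, hs]
  rw [t, TT.Ex]
  simp only [mul_one]
  exact div_self o.U.Z_pos.ne'

end Crest.Agent.N49.He.Ji

end
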