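import Crest.Agent.N49.He.Ji
import Crest.Agent.N49.Wf.Fnr

/-!
# Row 49 (helper3): the norm of the morphism on the hidden words (leaf FNH)
-/

set_option autoImplicit false

open Finset Matrix

noncomputable section

namespace Crest.Agent.N49.He.Ji

open Po Tw Sd

theorem fnh3 : FNH := by
  intro τ τ' T S R p q _ _ st φ Ψ Ψ' V κ a hT hS hR hV k0 a0 hφ hl u
  have t1 : T.K = diagonal (fun _ => (1 : ℝ)) := hT.trans diagonal_one.symm
  have t2 : T.K = diagonal (fun _ => (1 : ℝ) ^ 2) := by rw [one_pow]; exact t1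
  have h := Wf.fnr τ τ' T S (R.setK (diagonal fun _ => a)) φ (fun _ => 1) κ a t2
    (fun _ => one_ne_zero) hS rfl k0 a0 hφ hl (Sd.gl T S (fun w => ¬ p w) u 0)
  have e1 := Nr.qf_sh (S := R.setK (diagonal fun _ => a)) (V := fun _ => a) rfl t1
    (fun _ => a0.ne') (fun _ => one_ne_zero) (T.hmM S R (rl φ) *ᵥ Sd.gl T S (fun w => ¬ p w) u 0)
  have e2 := Nr.qf_sh hS t1 (fun _ => k0.ne') (fun _ => one_ne_zero)
    (Sd.gl T S (fun w => ¬ p w) u 0)
  have e3 := Nr.qf_fb_le hR t1 a0 hV (fun _ => one_pos) (fun w => ¬ q w) st Ψ' 0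
    (T.hmM S R (rl φ) *ᵥ Sd.gl T S (fun w => ¬ p w) u 0)
  have e4 : qf (Sd.fb T S (fun w => ¬ p w) st Ψ 0).K⁻¹ u = ∑ c, u c ^ 2 / (1 * κ) :=
    Nr.qf_dg (C := Kc T S fun w => ¬ p w) (d := fun _ => 1 * κ)
      (fun c c' => (Nr.sh_K hS t1 c.1 c'.1).trans (if_congr Subtype.ext_iff.symm rfl rfl))
      (fun _ => mul_ne_zero one_ne_zero k0.ne') u
  have e5 : ∑ c, Sd.gl T S (fun w => ¬ p w) u 0 c ^ 2 / (1 * κ) = ∑ c, u c ^ 2 / (1 * κ) := by
    rw [← Fintype.sum_subtype_add_sum_subtype (fun c : T.Cw S => ¬ p c.1.2), add_eq_of_eq_sub]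
    rw [sum_eq_zero (s := univ) (f := fun c : {c : T.Cw S // ¬ ¬ p c.1.2} =>
      Sd.gl T S (fun w => ¬ p w) u 0 c.1 ^ 2 / (1 * κ)) fun c _ => ?_, sub_zero]
    · exact sum_congr rfl fun c _ => congrArg (· ^ 2 / (1 * κ)) (dif_pos c.2)
    · have : Sd.gl T S (fun w => ¬ p w) u 0 c.1 = 0 := dif_neg c.2
      rw [this]; simp
  refine le_trans ?_ (h.trans_eq (e2.trans (e5.trans e4.symm)))
  refine mul_le_mul_of_nonneg_left (e3.trans_eq (Eq.trans ?_ e1.symm)) zero_le_two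
  rw [sum_div]
  exact sum_congr rfl fun c _ => div_div _ _ _

end Crest.Agent.N49.He.Ji

end
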