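import Crest.Agent.N49.He.Jzc
import Crest.Agent.N49.He.Exk

/-!
# Row 49 (helper31): the partition function of kept words with hidden words
-/

set_option autoImplicit false

open Matrix MvPolynomial Finset

noncomputable section

namespace Crest.Agent.N49.He

open Po Tw Sd Idt Ip

theorem two {z η : ℝ} (key : ∀ ε : ℝ, |ε| = 1 → ∃ t : ℝ, |t - 1| ≤ η ∧ ε * z ≤ ε * t) :
    |z - 1| ≤ η := by
  obtain ⟨a, ka, kb⟩ := key 1 abs_one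
  obtain ⟨b, kc, kd⟩ := key (-1) (by simp)
  have := abs_le.1 ka
  have := abs_le.1 kc
  rw [abs_le]
  constructor <;> linarith

theorem ot_u {τ : Type} {T : TS Unit} {S : Sh Unit τ} (o : S.Ok) (Ψ : T.Twd S) (x y : T.Cw S → ℝ)
    (c : T.Cw S) : (T.tw S (Ho.ot Ψ x)).u y c = (T.tw S Ψ).u y c - x c :=
  (congrArg (fun Φ : T.Cw S → MvPolynomial (T.Cw S) ℝ => eval y (Φ c)) (Ho.off_Φ o Ψ x)).trans
    (congrFun (TS.off_u (T.tw S Ψ) x y) c)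

theorem fb_qf {τ : Type} (T : TS Unit) (S : Sh Unit τ) (p : S.W → Prop) [DecidablePred p]
    (st : T.C → ℕ) (Ψ Ψ' : T.Twd S) (u : Kc T S p → ℝ) :
    qf (fb T S p st Ψ 0).K⁻¹ u = qf (fb T S p st Ψ' 0).K⁻¹ u :=
  show qf ((T.sh S).K.submatrix (Subtype.val : Kc T S p → T.Cw S) Subtype.val)⁻¹ u =
    qf ((T.sh S).K.submatrix (Subtype.val : Kc T S p → T.Cw S) Subtype.val)⁻¹ u from rfl

theorem Cv.ot {τ : Type} {T1 T2 : TS Unit} {S : Sh Unit τ} {p : S.W → Prop} [DecidablePred p]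
    {st1 : T1.C → ℕ} {st2 : T2.C → ℕ} {D : Tan T1 T2 S.W} {Ψ1 : T1.Twd S}
    {K2 : Matrix S.W S.W ℝ} {η : ℝ} (cv : Cv S p st1 st2 D Ψ1 K2 η) {x : T1.Cw S → ℝ}
    (z : ∀ c, p c.1.2 → x c = 0) : Cv S p st1 st2 D (Ho.ot Ψ1 x) K2 η := by
  obtain ⟨M1, h1⟩ := cv.s1
  obtain ⟨K', M2, h2, o', ms, hn⟩ := cv.cv
  refine ⟨cv.ok, cv.o2, cv.idl, cv.s1, cv.dok, cv.adq, cv.rid, Ho.adm_ot h1.cl.1 cv.adm x,
    fun y c a => ?_, K', M2, h2, o', ms, fun u => ?_⟩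
  · exact (ot_u cv.ok Ψ1 x y c).trans
      (((congrArg (HSub.hSub ((T1.tw S Ψ1).u y c)) (z c a)).trans (sub_zero _)).trans (cv.tp y c a))
  · exact (show ∀ a b c d : ℝ, b = c → 2 * (a + c) ≤ d → 2 * (a + b) ≤ d from
      fun _ _ _ _ e k => e ▸ k) _ _ _ _
      (fb_qf T1 S (fun w => ¬ p w) st1 (Ho.ot Ψ1 x) Ψ1 fun c => D.L S u c.1) (hn u)

theorem jz (lfx : LFX) : JZ := by
  intro τ τ' V _ _ T1 T2 S R p q _ _ st1 st2 D Ψ1 K2 η φ σ N Ψ' o w e Φ bg cv oR hm hq hσ hN bN a'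
    hΨ nr w0 hw ie eΦ Φ0 eb
  let _ : DecidablePred (α := (S.setK K2).W) p := ‹DecidablePred p›
  obtain ⟨M1, h1⟩ := cv.s1
  obtain ⟨K', M2, h2, -⟩ := cv.cv
  have t2 := Fx.fb_tri (S := S.setK K2) p h2 cv.o2 (Fx.adm_tpw h2 _) 0
  obtain ⟨B, hB⟩ := hid_bd q h1 oR a'
  refine two fun ε hε => ?_
  obtain ⟨x, hx⟩ := He.exk Unit V (fb T2 (S.setK K2) p st2 (tpw T2 _) 0) w e Φ
    (fun b => ε * hid T1 R q st1 Ψ' (bg b) fun _ => 1) t2 w0 hw ie eΦ Φ0 ⟨B, fun b => by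
      rw [norm_mul, Real.norm_eq_abs, hε, one_mul, Real.norm_of_nonneg (hB _).1]
      exact (hB _).2⟩
  obtain ⟨x', z, k⟩ := lfx τ τ' (Kc T2 S p → ℤ) T1 S R p q st1 M1 φ σ N Ψ1 Ψ' o
    (fun y => ((fb T2 (S.setK K2) p st2 (tpw T2 _) 0).off x).wt y * ε)
    (fun y => D.kap S (gl T2 S p y 0)) (fun _ _ => 1) 1 cv.ok oR hm hq hσ hN bN h1 cv.adm a' hΨ nr
    ((t2.off x).summable.mul_right ε) fun _ _ => abs_one.le
  have j := jzc τ T1 T2 S p st1 st2 D (Ho.ot Ψ1 x') K2 η x (cv.ot z)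
  refine ⟨_, j, le_trans (le_of_eq ?_) (hx.trans ?_)⟩
  · rw [mul_left_comm, ← tsum_mul_left]
    exact congrArg _ (tsum_congr fun b => mul_left_comm _ _ _)
  · have k' := le_trans (le_of_eq (tsum_congr fun y => congrArg (HMul.hMul
      (((fb T2 (S.setK K2) p st2 (tpw T2 _) 0).off x).wt y * ε))
      (hid_congr q st1 Ψ' (eb y) fun _ => 1))) k
    exact N_cmp (t2.off x) (f := fun y => hid T1 R q st1 Ψ' (bg (y ∘ e)) fun _ => 1)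
      (g := fun y => hid T1 S p st1 (Ho.ot Ψ1 x') (D.kap S (gl T2 S p y 0)) fun _ => 1) k'

end Crest.Agent.N49.He

end
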