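import Crest.Agent.N49.He.Jzt
import Crest.Agent.N49.He.Jzg
import Crest.Agent.N49.He.Lfx
import Crest.Agent.N49.He.Jbgd
import Crest.Agent.N49.He.Jcvf
import Crest.Agent.N49.He.Jdetv
import Crest.Agent.N49.He.Jemp2
import Crest.Agent.N49.He.Jphz
import Crest.Agent.N49.He.Jsgn
import Crest.Agent.N49.He.Jemv2
import Crest.Agent.N49.He.Jsumv2

/-!
# Row 49 (helper6): the total masses, closure
-/

namespace Crest.Agent.N49.He.Ji

/-- the total masses from the open leaves -/
theorem jztA (bgv : BGV) : JZT :=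
  jzt (jz lfx) phz sgn fnh cvf emv2 detv bgv bgd sumv2 emp2

end Crest.Agent.N49.He.Ji
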