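import Crest.Agent.N49.He.Ji
import Crest.Agent.N49.He.Var
import Crest.Agent.N49.He.Hs
import Crest.Agent.N49.Md.Fw2
import Crest.Agent.N49.Md.Tfb
import Crest.Agent.N49.Sd.Stt
import Crest.Agent.N49.En.CntA

/-!
# Row 49 (helper75): the total masses are one, from the leaves
-/

set_option autoImplicit false
set_option linter.unusedSectionVars false
set_option maxHeartbeats 800000

open Finset Matrix

noncomputable section

namespace Crest.Agent.N49.He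

open Po Tw Br Rm Rm.TT Ft Md Sd Ji

namespace G2
variable {s d : ℕ} {c : Hc s d} {ε : ℝ} {h κ : ℕ}

theorem cs_K {Λ : Type} [Fintype Λ] [DecidableEq Λ] (s : ℕ) (ε : Λ → ℤ) (κ : (Λ →₀ ℕ) → ℝ) :
    (CS Λ s ε κ).K = diagonal fun w => κ w.1 := by
  ext w w'
  rw [diagonal_apply]
  exact if_congr Subtype.ext_iff.symm rfl rfl

/-- the exported data -/
theorem ex_D (o : c.Ok ε h κ) (F0 : c.P.C) : ∃ D : Sd.Tan c.P c.T2 (Fin d × Fin c.o.Q),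
    D.Ok (fun _ => 1) c.o.g.st c.f.st 0 ∧ D.Adq c.o.g.st c.f.st ∧ D.Id ∧ D.Nb (2 ^ (2 * h)) ∧
    c.T2.Stg c.f.st c.f.M ∧ (∀ C m a η, c.f.Rg C m a η → c.T2.RgS c.f.st c.f.M C m a η) ∧
    Xr id c.f.θ 1 D.fam D.mon D.be := by
  have s0 := Oc.un_stg c.o.h.stg c.o.h.wh
  have s1 : (c.o.cx.B.T.setΦ (c.o.g.V.T.un c.o.Nw).Φ).Stg c.o.cx.B.st c.o.g.M := s0
  have e1 : (c.o.cx.B.T.setΦ (c.o.g.V.T.un c.o.Nw).Φ).top.Φ = c.o.cx.B.T.Φ :=
    funext fun F : c.o.g.V.T.C => Oc.un_top c.o.h.stg c.o.h.wh F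
  obtain ⟨γ, a1, a2, a3, a4, -, a6, -, a8, -⟩ := Fr.xq o.o.cx.ok.old s1 e1 o.f
    (o.tg.st tfb tcmp stc stt) (fw_tg o.f o.tg) F0 (id : Lx d c.o.Q → Option (Fin d × Fin c.o.Q))
  exact ⟨c.f.xd _ F0 id 1 γ, a1, a2, a3, a4, a6, a8, xr_xd _ _ _ _ _ _⟩

theorem hl {a b : ℕ} (k : a ≤ b) : (1 : ℝ) / 2 ^ b ≤ 1 / 2 ^ a :=
  one_div_le_one_div_of_le (by positivity) (pow_le_pow_right₀ one_le_two k)

theorem le2 {a b : ℕ} (k : a ≤ b) : (a : ℝ) ≤ 2 ^ b := by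
  exact_mod_cast k.trans Nat.lt_two_pow_self.le

theorem wl_bd {m r r' : ℕ} (o : c.Ok ε h κ) (hm : h ≤ m) (h1 : c.a1 ≤ m) (h2 : c.a2 ≤ m)
    (a : La d c.o.Q r r') : 0 < c.wl r a ∧ c.wl r a ≤ 2 ^ (2 * m) := by
  have l : ∀ ℓ, 0 < c.f.la ℓ ∧ c.f.la ℓ ≤ 2 ^ m := fun ℓ =>
    ⟨lt_of_lt_of_le (by positivity) (o.f.la ℓ).1,
      (o.f.la ℓ).2.trans (pow_le_pow_right₀ one_le_two hm)⟩
  have u : (2 : ℝ) ^ m ≤ 2 ^ (2 * m) := pow_le_pow_right₀ one_le_two (by omega)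
  rcases a with a | t | a | a
  · exact ⟨(l _).1, (l _).2.trans u⟩
  · refine ⟨mul_pos (by positivity) (l _).1, ?_⟩
    rw [two_mul, pow_add]
    refine mul_le_mul (pow_le_pow_right₀ one_le_two ?_) (l _).2 (l _).1.le (by positivity)
    obtain ⟨i, -⟩ := t
    fin_cases i <;> assumption
  · exact ⟨(l _).1, (l _).2.trans u⟩
  · exact ⟨one_pos, one_le_pow₀ one_le_two⟩

theorem k2_lo {m r r' : ℕ} (o : c.Ok ε h κ) (hm : h ≤ m) (h1 : c.a1 ≤ m) (h2 : c.a2 ≤ m)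
    {μ : La d c.o.Q r r' →₀ ℕ} (k : μ ∈ full _ s) : 1 / 2 ^ (4 * s * m) ≤ c.k2 r μ := by
  have p : 0 < ∏ a ∈ μ.support, c.wl r a := prod_pos fun a _ => (wl_bd o hm h1 h2 a).1
  have e : #μ.support ≤ s := by
    refine le_trans ?_ (mem_full.1 k)
    rw [Finsupp.degree_apply, card_eq_sum_ones]
    exact sum_le_sum fun a ha => Nat.one_le_iff_ne_zero.2 (Finsupp.mem_support_iff.1 ha)
  have q : ∏ a ∈ μ.support, c.wl r a ≤ (2 ^ (2 * m)) ^ s :=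
    (prod_le_prod (fun a _ => (wl_bd o hm h1 h2 a).1.le) fun a _ => (wl_bd o hm h1 h2 a).2).trans
      ((prod_const _).trans_le (pow_le_pow_right₀ (one_le_pow₀ one_le_two) e))
  rw [one_div]
  refine inv_anti₀ (pow_pos p 2) ((pow_le_pow_left₀ p.le q 2).trans_eq ?_)
  rw [← pow_mul, ← pow_mul]
  congr 1
  ring

theorem card_La {Q r r' m : ℕ} (hQ : Q ≤ m) (hr : r ≤ m) (hr' : r' ≤ m) :
    (Fintype.card (La d Q r r') + 1) ^ s ≤ (d * m + 6 * m + 2) ^ s := by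
  refine Nat.pow_le_pow_left ?_ _
  simp only [Fintype.card_sum, Fintype.card_option, Fintype.card_prod, Fintype.card_fin]
  have := Nat.mul_le_mul_left d hQ
  omega

theorem card_DD {Q r r' m k : ℕ} {j : Fin d} {a : ℕ → ℕ → Bool} {Γ Δ : Finset Bool} (hQ : Q ≤ m)
    (hr : r ≤ m) (hr' : r' ≤ m) :
    Fintype.card (Br.Wd s (DD Q j k r r' a Γ Δ)) ≤ s * (4 * m + 3) ^ (d + 2) := by
  have e : Fintype.card (Br.Wd s (DD Q j k r r' a Γ Δ)) ≤ s * #(DD Q j k r r' a Γ Δ) :=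
    (Fintype.card_subtype_le _).trans_eq (by simp)
  refine e.trans (Nat.mul_le_mul_left _ ((card_le_card (t := grid (qq Q j r r' (2 * (Q + 1))))
    fun t z => Br.mem_grid.2 (Pd.mem_DD.1 z).1).trans ?_))
  rw [grid, Fintype.card_piFinset]
  refine (prod_le_pow_card _ _ (4 * m + 3) fun i _ => ?_).trans (by simp)
  rw [card_insertNone, card_range, qq]
  split_ifs <;> omega

/-- variances of the words as variances of levels and transversals -/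
theorem ex_V {D : Finset (Pt (Fin (d + 2)))} (V : Br.Wd s D → ℝ) {a : ℝ} (a1 : a ≤ 1)
    (hV : ∀ w, a ≤ V w) : ∃ W : ℕ → Pt (Fin (d + 2)) → ℝ, (∀ j t, a ≤ W j t) ∧
      V = fun w => W w.lv w.tr := by
  classical
  refine ⟨fun j t => if k : ∃ w : Br.Wd s D, w.lv = j ∧ w.tr = t then V k.choose else 1,
    fun j t => by beta_reduce; split_ifs; exacts [hV _, a1], funext fun w => ?_⟩
  have k : ∃ w' : Br.Wd s D, w'.lv = w.lv ∧ w'.tr = w.tr := ⟨w, rfl, rfl⟩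
  beta_reduce
  rw [dif_pos k, Wd.ext' k.choose_spec.1 k.choose_spec.2]

/-- no locations: no hidden words -/
theorem hs_zero {Q r' k : ℕ} {j : Fin d} {a : ℕ → ℕ → Bool} {Γ Δ : Finset Bool} {T : TS Unit}
    (δ : T.C → ℝ) (V x b) : He.hs s T (DD Q j k 0 r' a Γ Δ) δ V x b (fun _ => 1) = 1 := by
  have : IsEmpty (HW s T (DD Q j k 0 r' a Γ Δ)) := ⟨fun y => by
    obtain ⟨n, e⟩ := Option.ne_none_iff_exists'.1 y.2
    simpa [qq] using (Pd.mem_DD.1 (Wd.mem y.1.1.2)).1 0 n e⟩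
  simp [He.hs]

/-- **the normalised sum is one** -/
theorem zv (jz : JZ) (ph0 : PHZ) (sg : SGN) (fn : FNH) (cv : CVF) (em : EMV) (dt : DETV)
    (bv : BGV) {m r r' C N : ℕ} (k : Fin c.o.Q) (a : ℕ → ℕ → Bool) (Γ Δ : Finset Bool)
    (V : Br.Wd s (DD c.o.Q c.j k r r' a Γ Δ) → ℝ)
    (x : c.P.Cw (SD s (DD c.o.Q c.j k r r' a Γ Δ)) → ℝ) (o : c.Ok ε h κ) (F0 : c.P.C)
    (ma : MAST c.f.M C) (rg : c.f.Rg C N (1 / 2 ^ N) (1 / 2 ^ N)) (hm : h ≤ m) (h1 : c.a1 ≤ m)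
    (h2 : c.a2 ≤ m) (hQ : c.o.Q ≤ m) (hr : r ≤ m) (hr' : r' ≤ m)
    (hc : Fintype.card c.f.T.C ≤ 2 ^ m) (hV : ∀ w, 1 / 2 ^ m ≤ V w) (hN : NB s d m ≤ N) :
    |c.ZV (c.Sx k Γ Δ) r' (fun z => He.hs s c.P _ c.δ V x (c.bg k (c.wb z) (c.vs _ (c.nb z)))
      fun _ => 1) - 1| ≤ 1 / 2 ^ N := by
  have hs : 0 < s := lt_of_lt_of_le (Nat.succ_pos _) o.o.cx.ds
  obtain ⟨D, d1, d2, d3, d4, d5, d6, d7⟩ := ex_D o F0
  obtain ⟨W, W1, rfl⟩ := ex_V V (div_le_one_of_le₀ (one_le_pow₀ one_le_two) (by positivity)) hV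
  have W0 : ∀ j t, 0 < W j t := fun j t => lt_of_lt_of_le (by positivity) (W1 j t)
  have cA := card_La (d := d) (s := s) hQ hr hr'
  have cB := card_DD (s := s) (j := c.j) (k := k) (a := a) (Γ := Γ) (Δ := Δ) hQ hr hr'
  unfold NB at hN
  generalize (d * m + 6 * m + 2) ^ s = A at cA hN
  generalize s * (4 * m + 3) ^ (d + 2) = B at cB hN
  have e6 : (4 * s + 6) * m = 4 * s * m + 6 * m := by ring
  let κ0 : ℝ := 1 / 2 ^ (m + 1 + A + B)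
  obtain ⟨e, w, e1, e2, e3, e4, e5, e7⟩ := em s d c ε κ0 h κ r r' (c.Sx k Γ Δ) o
  obtain ⟨g1, g2, g3, g4⟩ := sg s d c.o.Q r r' c.j k a Γ Δ W fun _ => κ0
  obtain ⟨σ, M, g5, g6, g7⟩ := @g4 (Fintype.ofFinite _) (Classical.decEq _)
  obtain ⟨p1, p2, p3⟩ := ph0 d s (La d c.o.Q r r') _ W (lb c.j) (al c.j k) ms (fun _ => κ0) g1
  have oR := tw_ok (s := s) g1 W0
  have n1 : ∀ x : La d c.o.Q r r', ms x ≠ 0 → lb c.j x = 0 := by
    rintro (x | x | x | x) z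
    exacts [(z rfl).elim, (z rfl).elim, (z rfl).elim, rfl]
  have n2 : 2 * (1 / 2 ^ N) * (1 + ((2 : ℝ) ^ (2 * h)) ^ 2 *
      (((Fintype.card (La d c.o.Q r r') : ℝ) + 1) ^ s) ^ 2 * Fintype.card c.T2.C) ≤
      1 / 2 ^ (4 * s * m + (m + 1 + A + B)) := by
    have b1 : ((2 : ℝ) ^ (2 * h)) ^ 2 ≤ 2 ^ (4 * m) := by
      rw [← pow_mul]; exact pow_le_pow_right₀ one_le_two (by omega)
    have b2 : (((Fintype.card (La d c.o.Q r r') : ℝ) + 1) ^ s) ^ 2 ≤ (2 ^ A) ^ 2 := by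
      refine pow_le_pow_left₀ (by positivity) ?_ 2
      exact_mod_cast le2 cA
    have b3 : (Fintype.card c.T2.C : ℝ) ≤ 2 ^ m := by exact_mod_cast hc
    have b4 : (1 : ℝ) ≤ 2 ^ (4 * m) * (2 ^ A) ^ 2 * 2 ^ m := by
      rw [← pow_mul, ← pow_add, ← pow_add]; exact one_le_pow₀ one_le_two
    calc _ ≤ 2 * (1 / 2 ^ N) * (2 ^ (4 * m) * (2 ^ A) ^ 2 * 2 ^ m +
          2 ^ (4 * m) * (2 ^ A) ^ 2 * 2 ^ m : ℝ) := by gcongr
      _ = 2 ^ (5 * m + 2 * A + 2) / 2 ^ N := by ring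
      _ ≤ _ := by
        rw [div_le_div_iff₀ (by positivity) (by positivity), ← pow_add, one_mul]
        exact pow_le_pow_right₀ one_le_two (by omega)
  have c1 := cv d s hs (La d c.o.Q r r') _ (lb c.j) ms (fun t => .inl (some t)) c.P c.T2 _ _ _ _ C
    N D _ κ0 (1 / 2 ^ N) _ _ (c.k2 r) n1 c.P_stg d5 d1 d2 d3 d4 ma (d6 _ _ _ _ rg) (by positivity)
    (div_le_one_of_le₀ (one_le_pow₀ one_le_two) (by positivity)) (by omega) (by positivity)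
    (hl (by omega)) (fun μ hμ => (hl (by omega)).trans (k2_lo o hm h1 h2 hμ)) n2
  have ad := Ho.adm_ot c.P_stg.cl.1 (c.P_stg.adm oR) x
  have n3 : 2 * κ0 * Fintype.card (c.SS r r' κ0).W *
      Fintype.card (Br.tw s (DD c.o.Q c.j k r r' a Γ Δ) W).W ≤ 1 / 2 ^ m := by
    have b1 : (Fintype.card (c.SS r r' κ0).W : ℝ) ≤ 2 ^ A := le2 (le_trans (le_trans
      ((Fintype.card_coe _).trans_le card_erase_le) (En.card_full _ s)) cA)
    have b2 : (Fintype.card (Br.tw s (DD c.o.Q c.j k r r' a Γ Δ) W).W : ℝ) ≤ 2 ^ B := le2 cB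
    calc _ ≤ 2 * κ0 * 2 ^ A * 2 ^ B := by gcongr
      _ = _ := by simp only [κ0]; field_simp; ring
  have key := @jz _ _ (c.KV (c.Sx k Γ Δ) r') _ _ c.P c.T2 (c.SS r r' κ0)
    (Br.tw s (DD c.o.Q c.j k r r' a Γ Δ) W) (kp (lb c.j)) kw (_)
    (inferInstance : DecidablePred (kw (s := s) (D := DD c.o.Q c.j k r r' a Γ Δ)))
    c.o.g.st c.f.st _ _ _ _ (ph s _ (lb c.j) (al c.j k)) σ M (Ho.ot (c.P.tw0 _) x) x w e c.Ph
    (fun z => c.bg k (c.wb z) (c.vs _ (c.nb z))) c1 oR p1 p2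
    (fun y => ⟨(g5 y).1, (g5 y).2.trans (tw_dg _).symm⟩) (by convert g6)
    (fun y y' z => ((tw_dg _).trans (g7 y y' z)).trans (tw_dg _).symm) ad
    (fun y q _ => (congrArg (MvPolynomial.eval y) (congrFun (Ho.off_Φ oR (c.P.tw0 _) x) q)).trans
      ((map_sub (MvPolynomial.eval y) _ _).trans (congrArg₂ HSub.hSub
        (congrArg (fun Ψ => (c.P.tw _ Ψ).u y q) (TS.tp_tw0 g3).symm) (MvPolynomial.eval_C _))))
    (@fn _ _ c.P _ _ _ _ (_) (_) _ _ _ _ (fun w => W w.lv w.tr) κ0 (1 / 2 ^ m) rfl (cs_K s ms _) rfl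
      (fun w => W1 _ _) (by positivity) (by positivity) (p3 g2) n3) e3 e4 e2 e5 e7
    (bv s d hs c ε κ0 h κ r r' k a Γ Δ W D e o d7 e1)
  rw [dt s d c ε h κ r' _ o] at key
  simp only [hs_hid c.P_stg rfl o.δ g1 W0]
  exact key

end G2

/-- **the total masses are one** -/
theorem jzt2 (jz : JZ) (ph0 : PHZ) (sg : SGN) (fn : FNH) (cv : CVF) (em : EMV) (dt : DETV)
    (bv : BGV) (bd : BGD) (sv : SUMV) (ep : EMP) : JZT := by
  intro s d c ε h κ m r r' C N k a Γ Δ V x o ma rg hm h1 h2 hQ hr hr' hc hV hN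
  rcases isEmpty_or_nonempty c.P.C with E | ⟨⟨F0⟩⟩
  · rw [ep s d c ε h κ r r' k a Γ Δ V x o E, sub_self, abs_zero]; positivity
  have z1 := G2.zv jz ph0 sg fn cv em dt bv k a Γ Δ V x o F0 ma rg hm h1 h2 hQ hr hr' hc hV hN
  have z0 := G2.zv jz ph0 sg fn cv em dt bv (r := 0) (r' := 0) k a Γ Δ (fun _ => 1) 0 o F0 ma rg
    hm h1 h2 hQ m.zero_le m.zero_le hc
    (fun _ => div_le_one_of_le₀ (one_le_pow₀ one_le_two) (by positivity)) hN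
  replace z0 : |c.ZV (c.Sx k Γ Δ) 0 (fun _ => 1) - 1| ≤ 1 / 2 ^ N :=
    (congrArg (|c.ZV _ 0 · - 1|) (funext fun z => G2.hs_zero _ _ _ _)).ge.trans z0
  have δ0 : ∀ F, 0 ≤ c.δ F := fun F => (o.δ.1 F).le
  obtain ⟨B, -, hB⟩ := Hc.hs_bd (c := c) Pd.dc_DD δ0 fun w => lt_of_lt_of_le (by positivity) (hV w)
  have e := sv s d c ε B h κ r' (c.Sx k Γ Δ)
    (fun w n => He.hs s c.P _ c.δ V x (c.bg k w (c.vs _ n)) fun _ => 1) o
    (fun w n => ⟨Hc.hs_nonneg δ0 _ _ _, hB _ _⟩) fun w w' n z => by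
      rw [bd s d c ε h κ k _ w w' _ o z]
  rw [← e] at z1
  change |c.U.Ex (c.tm k r r' a Γ Δ V x) * _ - 1| ≤ _ at z1
  generalize c.U.Ex (c.tm k r r' a Γ Δ V x) = X at z1 ⊢
  generalize c.ZV (c.Sx k Γ Δ) 0 (fun _ => 1) = Z at z0 z1
  have n : (1 : ℝ) / 2 ^ N ≤ 1 / 2 ^ 1 := G2.hl (by unfold NB at hN; omega)
  rw [show (4 : ℝ) / 2 ^ N = 4 * (1 / 2 ^ N) by ring]
  generalize (1 : ℝ) / 2 ^ N = η at z0 z1 n
  have b : |X - 1| * Z ≤ 2 * η := by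
    rw [← abs_of_nonneg (show 0 ≤ Z by linarith [abs_le.1 z0]), ← abs_mul,
      show (X - 1) * Z = (X * Z - 1) - (Z - 1) by ring]
    linarith [abs_sub (X * Z - 1) (Z - 1)]
  nlinarith [abs_le.1 z0, abs_nonneg (X - 1)]

end Crest.Agent.N49.He

end
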