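import Crest.Agent.N49.He.Gk
import Crest.Agent.N49.He.Gap
import Crest.Agent.N49.He.Insg
import Crest.Agent.N49.He.Fub

/-!
# Row 49 (helper49): new narrow coordinates are inserted (abstract form)
-/

set_option autoImplicit false
set_option linter.unusedSectionVars false

open Finset Matrix

noncomputable section

namespace Crest.Agent.N49.He.Lf

open Po Tw Sd Ia

variable {X Y C H J : Type} [Fintype C] [DecidableEq C] [Fintype H] [DecidableEq H] [Fintype J]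
  [DecidableEq J]

/-- `TILE` for products -/
theorem tile_ga [Countable Y] (lev : J → ℕ) (A : Matrix J J ℝ) (δ V : J → ℝ) (hA : A.det ≠ 0)
    (bA : ∀ i j, A i j ≠ 0 → lev i = lev j) (hδ : ∏ i, δ i = |A.det|) (hV : ∀ i, 0 < V i)
    {w : Y → ℝ} (hw : Summable w) (u : Y → (J → ℤ) → J → ℝ) (hu : ∀ a y y' i,
      (∀ j, lev j < lev i → y j = y' j) → u a y i - (A *ᵥ zc y) i = u a y' i - (A *ᵥ zc y') i) :
    ∃ x : J → ℝ, ∑' a, w a ≤
      ∑' a : Y × (J → ℤ), w a.1 * ∏ i, ga (δ i) (V i) (u a.1 a.2 i - x i) := by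
  have kA : Rw.Blk lev A := fun c c' n => by_contra fun z => n (bA c c' z)
  have hD : (diagonal fun i => (V i)⁻¹).PosDef := .diagonal fun i => inv_pos.2 (hV i)
  have kD : Rw.Blk lev (diagonal fun i => (V i)⁻¹) := fun c c' n =>
    diagonal_apply_ne _ fun e => n (e ▸ rfl)
  have kM := blk_mul (blk_mul (blk_tr kA) kD) kA
  obtain ⟨-, x, hx⟩ := tile _ _ lev _ w (fun a y => -(A⁻¹ *ᵥ (u a y - A *ᵥ zc y)))
    (Po.posDef_conj hD (mulVec_injective_iff_isUnit.2 ((isUnit_iff_isUnit_det _).2 hA.isUnit))) hw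
    (fun a y y' i e => congrArg Neg.neg (mulVec_blk (blk_inv kA) fun k z =>
      hu _ _ _ k fun j q => e j (q.trans_eq z))) fun c c' z => by_contra fun n => z (kM c c' n)
  have e : ∀ a y, gs (Aᵀ * diagonal (fun i => (V i)⁻¹) * A)
      (zc y - -(A⁻¹ *ᵥ (u a y - A *ᵥ zc y)) - x) =
      gs (diagonal fun i => (V i)⁻¹) fun i => u a y i - (A *ᵥ x) i := fun a y => by
    rw [gs, gs, qf_conj, sub_neg_eq_add, mulVec_sub, mulVec_add, mulVec_mulVec,
      mul_nonsing_inv _ hA.isUnit, one_mulVec, add_sub_cancel]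
    rfl
  have p : 0 < ∏ i, √(V i) := prod_pos fun i _ => Real.sqrt_pos.2 (hV i)
  have d : (∏ i, δ i / √(V i)) * dt (Aᵀ * diagonal (fun i => (V i)⁻¹) * A) = 1 := by
    have := abs_pos.2 hA
    rw [Rf.dt_conj, dt, det_diagonal, prod_div_distrib, hδ,
      Real.sqrt_prod _ fun i _ => (inv_pos.2 (hV i)).le]
    simp only [Real.sqrt_inv, prod_inv_distrib, inv_inv]
    field_simp
  refine ⟨A *ᵥ x, ?_⟩
  simp only [e] at hx
  simp only [prod_ga, mul_left_comm (w _), tsum_mul_left]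
  refine le_of_eq_of_le ?_ (mul_le_mul_of_nonneg_left hx (by
    rw [prod_div_distrib, hδ]; positivity))
  rw [mul_left_comm, d, mul_one]

theorem wide (δ V v : H → ℝ) {m : ℝ} (hm : 1 ≤ m) :
    (∏ i, δ i / √(V i)) * gs ((m / (m + 1)) • diagonal fun i => (V i)⁻¹) v =
      √((m + 1) / m) ^ Fintype.card H * ∏ i, ga (δ i) ((m + 1) / m * V i) (v i) := by
  have c : 0 < (m + 1) / m := by positivity
  have s := (Real.sqrt_pos.2 c).ne'
  rw [prod_ga, ← mul_assoc, ← card_univ, ← prod_const, ← prod_mul_distrib, ← diagonal_smul]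
  congr 3
  · funext i; rw [Real.sqrt_mul c.le]; field_simp
  · funext i; simp [mul_comm]

theorem two {m : ℝ} {N : ℕ} (hm : 1 ≤ m) (h : (N : ℝ) ≤ m) : √((m + 1) / m) ^ N ≤ 2 := by
  have c : 0 < (m + 1) / m := by positivity
  refine (pow_le_pow_iff_left₀ (by positivity) two_pos.le two_ne_zero).1 ?_
  rw [← pow_mul, mul_comm, pow_mul, Real.sq_sqrt c.le]
  have : (m + 1) / m ≤ Real.exp (1 / m) := by
    rw [add_div, div_self (by positivity), add_comm]; exact Real.add_one_le_exp _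
  refine (pow_le_pow_left₀ c.le this N).trans ?_
  rw [← Real.exp_nat_mul]
  refine (Real.exp_le_exp.2 (show _ ≤ (1 : ℝ) from ?_)).trans (by linarith [Real.exp_one_lt_d9])
  rw [mul_one_div, div_le_one (by positivity)]; exact h

/-- `GAP` for products -/
theorem gap_ga {δ V : H → ℝ} {δ' V' : J → ℝ} (hδ : ∀ i, 0 ≤ δ i) (hδ' : ∀ i, 0 ≤ δ' i)
    (hV : ∀ i, 0 < V i) (hV' : ∀ i, 0 < V' i) {m k : ℝ} (hm : 1 ≤ m)
    (hN : (Fintype.card H + Fintype.card J : ℕ) ≤ m) (k0 : 0 ≤ k) (k1 : k ≤ 1 / (100 * m))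
    (v w e : H → ℝ) (u : J → ℝ) (hw : ∑ i, w i ^ 2 / V i ≤ k ^ 2 * ∑ i, u i ^ 2 / V' i)
    (he : ∑ i, e i ^ 2 / V i ≤ k ^ 2) :
    |∏ i, ga (δ i) (V i) (v i + w i + e i) - ∏ i, ga (δ i) (V i) (v i)| *
      ∏ i, ga (δ' i) (V' i) (u i) ≤ 200 * m * k * ((∏ i, ga (δ i) ((m + 1) / m * V i) (v i)) *
        ∏ i, ga (δ' i) ((m + 1) / m * V' i) (u i)) := by
  have q : ∀ {I : Type} [Fintype I] [DecidableEq I] (W x : I → ℝ),
      qf (diagonal fun i => (W i)⁻¹) x = ∑ i, x i ^ 2 / W i := fun W x =>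
    sum_congr rfl fun i _ => by rw [mulVec_diagonal]; ring
  have g := gap (Q1 := diagonal fun i => (V i)⁻¹) (Q2 := diagonal fun i => (V' i)⁻¹)
    (.diagonal fun i => inv_pos.2 (hV i)) (.diagonal fun i => inv_pos.2 (hV' i)) hm k0 k1 v w e u
    (by rwa [q, q]) (by rwa [q])
  have p : 0 ≤ ∏ i, δ i / √(V i) := prod_nonneg fun i _ => div_nonneg (hδ i) (Real.sqrt_nonneg _)
  have p' : 0 ≤ ∏ i, δ' i / √(V' i) :=
    prod_nonneg fun i _ => div_nonneg (hδ' i) (Real.sqrt_nonneg _)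
  have a := wide δ V v hm
  have a' := wide δ' V' u hm
  have t := two hm hN
  have z : 0 ≤ 100 * m * k * ((∏ i, ga (δ i) ((m + 1) / m * V i) (v i)) *
      ∏ i, ga (δ' i) ((m + 1) / m * V' i) (u i)) := mul_nonneg (by positivity) (mul_nonneg
    (prod_nonneg fun i _ => ga_nonneg (hδ i) _) (prod_nonneg fun i _ => ga_nonneg (hδ' i) _))
  rw [prod_ga δ V, prod_ga δ V, prod_ga δ' V', ← mul_sub, abs_mul, abs_of_nonneg p]
  calc _ = (∏ i, δ i / √(V i)) * (∏ i, δ' i / √(V' i)) * (|gs _ (v + w + e) - gs _ v| * gs _ u) := by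
        change _ * |gs _ (v + w + e) - _| * _ = _; ring
    _ ≤ _ := mul_le_mul_of_nonneg_left g (mul_nonneg p p')
    _ = √((m + 1) / m) ^ (Fintype.card H + Fintype.card J) * (100 * m * k *
        ((∏ i, ga (δ i) ((m + 1) / m * V i) (v i)) *
          ∏ i, ga (δ' i) ((m + 1) / m * V' i) (u i))) := by
        linear_combination (100 * m * k * ((∏ i, δ' i / √(V' i)) *
          gs ((m / (m + 1)) • diagonal fun i => (V' i)⁻¹) u)) * a + (100 * m * k *
          (√((m + 1) / m) ^ Fintype.card H * ∏ i, ga (δ i) ((m + 1) / m * V i) (v i))) * a'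
    _ ≤ _ := by nlinarith [mul_le_mul_of_nonneg_right t z]

theorem spl {M : Type} [CommMonoid M] {j : C → Prop} [DecidablePred j] {β : H → C}
    (P : Prt (fun _ => False) j β) (f : C → M) :
    ∏ c, f c = (∏ h, f (β h)) * ∏ c : {c // j c}, f c.1 := by
  rw [← Fintype.prod_subtype_mul_prod_subtype j, mul_comm]
  congr 1
  exact (Fintype.prod_bijective (fun a => (⟨β a, P.jb a⟩ : {c // ¬ j c})) ⟨fun a b e =>
    P.inj (congrArg Subtype.val e), fun c => by
      rcases P.cov c.1 with z | z | ⟨a, z⟩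
      exacts [z.elim, (c.2 z).elim, ⟨a, Subtype.ext z⟩]⟩ _ _ fun _ => rfl).symm

/-- **insertion of the narrow coordinates `j`** -/
theorem lfa [Countable X] {j : C → Prop} [DecidablePred j] {β : H → C}
    (P : Prt (fun _ => False) j β) (L : Matrix H C ℤ)
    (hL : ∀ h h', L h (β h') = if h = h' then 1 else 0) (lev : C → ℕ)
    (hl : ∀ h c, L h c ≠ 0 → lev c ≤ lev (β h)) (A : Matrix {c // j c} {c // j c} ℝ)
    (δ V : C → ℝ) (hA : A.det ≠ 0) (bA : ∀ c c', A c c' ≠ 0 → lev c.1 = lev c'.1)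
    (hδ : ∏ c : {c // j c}, δ c.1 = |A.det|) (δ0 : ∀ c, 0 ≤ δ c) (hV : ∀ c, 0 < V c)
    (U : X → (C → ℤ) → C → ℝ) (hU : ∀ a (y y' : C → ℤ) (c : {c // j c}),
      (∀ c', lev c' < lev c.1 → y c' = y' c') → U a y c.1 - (A *ᵥ zc fun c => y c.1) c =
        U a y' c.1 - (A *ᵥ zc fun c => y' c.1) c)
    (sU : ∀ W : C → ℝ, (∀ c, 0 < W c) → ∀ x : C → ℝ, ∃ B, ∀ a,
      (Summable fun y => ∏ c, ga (δ c) (W c) (U a y c - x c)) ∧
        ∑' y, ∏ c, ga (δ c) (W c) (U a y c - x c) ≤ B)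
    (k : X → H → ℤ) (E : X → (H → ℤ) → H → ℝ) (e : X → H → ℝ)
    (hE : ∀ a y, E a (k a + L *ᵥ y) = rl L *ᵥ U a y + e a) {ω : X → ℝ} (sω : Summable ω)
    (G : X → (H → ℤ) → ℝ) (hG : ∀ a z, |G a z| ≤ 1)
    (sE : Summable fun a : X × (H → ℤ) =>
      ω a.1 * ((∏ h, ga (δ (β h)) (V (β h)) (E a.1 a.2 h)) * G a.1 a.2))
    {m κ : ℝ} (hm : 1 ≤ m) (hN : (Fintype.card C : ℝ) ≤ m) (k0 : 0 ≤ κ) (k1 : κ ≤ 1 / (100 * m))
    (hw : ∀ u : {c // j c} → ℝ, ∑ h, (∑ c : {c // j c}, L h c.1 * u c) ^ 2 / V (β h) ≤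
      κ ^ 2 * ∑ c, u c ^ 2 / V c.1) (he : ∀ a, ω a ≠ 0 → ∑ h, e a h ^ 2 / V (β h) ≤ κ ^ 2) :
    ∃ x : C → ℝ, ∑' a, ω a * ∑' z, (∏ h, ga (δ (β h)) (V (β h)) (E a z h)) * G a z ≤
      ∑' a, ω a * (∑' y, (∏ c, ga (δ c) (V c) (U a y c - x c)) * G a (k a + L *ᵥ y)) +
        200 * m * κ * ∑' a, |ω a| * ∑' y, ∏ c, ga (δ c) ((m + 1) / m * V c) (U a y c - x c) := by
  have sp : ∀ {R : Type} [CommRing R] (f : ℤ →+* R) (y : C → R) (h : H), ∑ c, f (L h c) * y c =
      y (β h) + ∑ c : {c // j c}, f (L h c.1) * y c.1 := fun f y h => by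
    have := spl (M := Multiplicative _) P fun c => .ofAdd (f (L h c) * y c)
    rw [← ofAdd_sum, ← ofAdd_sum, ← ofAdd_sum] at this
    refine (Multiplicative.ofAdd.injective (this.trans (ofAdd_add _ _).symm)).trans
      (congrArg₂ _ ?_ rfl)
    simp [hL, apply_ite f]
  let N := L.submatrix id (Subtype.val : {c // j c} → C)
  let lf : X → (H → ℤ) → ({c // j c} → ℤ) → C → ℤ := fun a z n =>
    Function.extend β (z - k a - N *ᵥ n) (glue j n 0)
  have lb : ∀ a z n h, lf a z n (β h) = (z - k a - N *ᵥ n) h := fun a z n h =>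
    P.inj.extend_apply _ _ _
  have lj : ∀ a z n, (fun c : {c // j c} => lf a z n c.1) = n := fun a z n => funext fun c =>
    (Function.extend_apply' _ _ _ (nr P (.inr c.2))).trans (glue_pos _ _ c.2)
  have vl : ∀ y : C → ℤ, L *ᵥ y = (fun h => y (β h)) + N *ᵥ fun c => y c.1 := fun y =>
    funext (sp (RingHom.id ℤ) y)
  have l1 : ∀ a z n, k a + L *ᵥ lf a z n = z := fun a z n => by
    rw [vl, lj, funext (lb a z n), sub_add_cancel, add_sub_cancel]
  have l2 : ∀ a y, lf a (k a + L *ᵥ y) (fun c => y c.1) = y := fun a y => funext fun c => by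
    rcases P.cov c with z | z | ⟨h, rfl⟩
    · exact z.elim
    · exact congrFun (lj a _ _) ⟨c, z⟩
    · rw [lb, add_sub_cancel_left, vl, add_sub_cancel_right]
  let eq : X × (C → ℤ) ≃ (X × (H → ℤ)) × ({c // j c} → ℤ) :=
    ⟨fun a => ((a.1, k a.1 + L *ᵥ a.2), fun c => a.2 c.1), fun a => (a.1.1, lf a.1.1 a.1.2 a.2),
      fun a => Prod.ext rfl (l2 _ _), fun a => Prod.ext (Prod.ext rfl (l1 _ _ _)) (lj _ _ _)⟩
  obtain ⟨x, hx⟩ := tile_ga (fun c : {c // j c} => lev c.1) A (fun c => δ c.1) (fun c => V c.1) hA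
    bA hδ (fun c => hV _) sE (fun a n c => U a.1 (lf a.1 a.2 n) c.1) fun a n n' c q => by
      have := hU a.1 (lf a.1 a.2 n) (lf a.1 a.2 n') c fun c' r => by
        rcases P.cov c' with w | w | ⟨h, rfl⟩
        · exact w.elim
        · exact (congrFun (lj _ _ n) ⟨c', w⟩).trans ((q ⟨c', w⟩ r).trans
            (congrFun (lj _ _ n') ⟨c', w⟩).symm)
        · rw [lb, lb, Pi.sub_apply, Pi.sub_apply _ (N *ᵥ n')]
          refine congrArg _ (sum_congr rfl fun c'' _ => ?_)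
          change N h c'' * _ = N h c'' * _
          by_cases w : N h c'' = 0
          · rw [w, zero_mul, zero_mul]
          · rw [q c'' ((hl _ _ w).trans_lt r)]
      rwa [lj, lj] at this
  let x' : C → ℝ := Function.extend β (fun h => -∑ c : {c // j c}, L h c.1 * x c) (glue j x 0)
  have xb : ∀ h, x' (β h) = -∑ c : {c // j c}, L h c.1 * x c := fun h => P.inj.extend_apply _ _ _
  have xj : ∀ c : {c // j c}, x' c.1 = x c := fun c =>
    (Function.extend_apply' _ _ _ (nr P (.inr c.2))).trans (glue_pos _ _ c.2)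
  have c0 : 0 < (m + 1) / m := by positivity
  have g0 : ∀ (W u : C → ℝ), 0 ≤ ∏ c, ga (δ c) (W c) (u c) := fun W u =>
    prod_nonneg fun c _ => ga_nonneg (δ0 c) _
  obtain ⟨B, s1⟩ := sU V hV x'
  obtain ⟨B', s2⟩ := sU (fun c => (m + 1) / m * V c) (fun c => mul_pos c0 (hV c)) x'
  have t1 := Fb.sm2 (fun a => abs_nonneg (ω a)) (fun a y => g0 _ _) sω.abs s1
  have t2 := Fb.sm2 (fun a => abs_nonneg (ω a)) (fun a y => g0 _ _) sω.abs s2
  have t3 : Summable fun a : X × (C → ℤ) => ω a.1 * ((∏ c, ga (δ c) (V c) (U a.1 a.2 c - x' c)) *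
      G a.1 (k a.1 + L *ᵥ a.2)) := .of_norm_bounded t1 fun a => by
    rw [norm_mul, norm_mul, Real.norm_of_nonneg (g0 _ _)]
    exact mul_le_mul_of_nonneg_left (mul_le_of_le_one_right (g0 _ _) (hG _ _)) (abs_nonneg _)
  have key : ∀ a : X × (C → ℤ), |ω a.1 * ((∏ h, ga (δ (β h)) (V (β h))
      (E a.1 (k a.1 + L *ᵥ a.2) h)) * G a.1 (k a.1 + L *ᵥ a.2)) *
      (∏ c : {c // j c}, ga (δ c.1) (V c.1) (U a.1 a.2 c.1 - x c)) -
      ω a.1 * ((∏ c, ga (δ c) (V c) (U a.1 a.2 c - x' c)) * G a.1 (k a.1 + L *ᵥ a.2))| ≤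
      200 * m * κ * (|ω a.1| * ∏ c, ga (δ c) ((m + 1) / m * V c) (U a.1 a.2 c - x' c)) := fun a => by
    by_cases z : ω a.1 = 0
    · simp [z]
    have g := gap_ga (δ := fun h => δ (β h)) (V := fun h => V (β h))
      (δ' := fun c : {c // j c} => δ c.1) (V' := fun c : {c // j c} => V c.1) (fun _ => δ0 _)
      (fun _ => δ0 _) (fun _ => hV _) (fun _ => hV _) hm (le_of_eq_of_le (by
        have := spl (M := Multiplicative ℕ) P fun _ => .ofAdd 1
        rw [← ofAdd_sum, ← ofAdd_sum, ← ofAdd_sum] at this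
        simp only [sum_const, card_univ, smul_eq_mul, mul_one] at this
        exact congrArg _ this.symm) hN) k0 k1 (fun h => U a.1 a.2 (β h) - x' (β h))
      (fun h => ∑ c : {c // j c}, L h c.1 * (U a.1 a.2 c.1 - x c)) (e a.1)
      (fun c => U a.1 a.2 c.1 - x c) (hw _) (he _ z)
    have q : ∀ h, E a.1 (k a.1 + L *ᵥ a.2) h = U a.1 a.2 (β h) - x' (β h) +
        ∑ c : {c // j c}, L h c.1 * (U a.1 a.2 c.1 - x c) + e a.1 h := fun h => by
      have := sp (Int.castRingHom ℝ) (U a.1 a.2) h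
      rw [hE, xb]
      simp only [mul_sub, sum_sub_distrib, eq_intCast] at this ⊢
      change ∑ c, (L h c : ℝ) * U a.1 a.2 c + _ = _
      rw [this]; ring
    simp only [q, spl P (M := ℝ), xj]
    have p := prod_nonneg fun (c : {c // j c}) (_ : c ∈ univ) =>
      ga_nonneg (V := V c.1) (δ0 c.1) (U a.1 a.2 c.1 - x c)
    refine le_of_eq_of_le ?_ ((mul_le_mul (mul_le_of_le_one_right (abs_nonneg (ω a.1))
      (hG a.1 (k a.1 + L *ᵥ a.2))) g (by positivity) (abs_nonneg _)).trans_eq (by ring))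
    rw [← abs_of_nonneg p, ← abs_mul, ← abs_mul, ← abs_mul, abs_of_nonneg p]
    congr 1; ring
  have t4 := (t2.mul_left (200 * m * κ)).of_norm_bounded fun a =>
    (Real.norm_eq_abs _).trans_le (key a)
  refine ⟨x', ?_⟩
  simp only [← tsum_mul_left]
  rw [← sE.tsum_prod, ← t3.tsum_prod, ← (t2.mul_left _).tsum_prod]
  refine hx.trans ?_
  rw [← eq.tsum_eq, ← t3.tsum_add (t2.mul_left _)]
  refine Summable.tsum_le_tsum (fun a => ?_) ((t4.add t3).congr fun a => ?_)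
    (t3.add (t2.mul_left _))
  · have := (abs_le.1 (key a)).2
    simp only [eq, Equiv.coe_fn_mk, l2]
    linarith
  · simp only [eq, Equiv.coe_fn_mk, l2, sub_add_cancel]

end Crest.Agent.N49.He.Lf

end
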