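import Crest.Agent.N49.He.Lfa
import Crest.Agent.N49.He.Hs
import Crest.Agent.N49.He.Loc
import Crest.Agent.N49.He.Phi
import Crest.Agent.N49.Un.Untw

/-!
# Row 49 (helper49): hidden sums are lifted to the ring with one more clone
-/

set_option autoImplicit false
set_option linter.unusedSectionVars false

open Finset Matrix

noncomputable section

namespace Crest.Agent.N49.He.Lf

open Po Tw Br Sd Ph

theorem nr1 {H J : Type} [Fintype H] [Fintype J] {L : H → J → ℝ} (hL : ∀ h c, |L h c| ≤ 1)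
    {V : H → ℝ} {W : J → ℝ} {v ε m κ : ℝ} (v0 : 0 < v) (hv : ∀ h, v ≤ V h) (hW : ∀ c, 0 < W c)
    (hε : ∀ c, W c ≤ ε) (cH : (Fintype.card H : ℝ) ≤ m) (cJ : (Fintype.card J : ℝ) ≤ m)
    (n1 : m ^ 2 * ε ≤ κ ^ 2 * v) (u : J → ℝ) :
    ∑ h, (∑ c, L h c * u c) ^ 2 / V h ≤ κ ^ 2 * ∑ c, u c ^ 2 / W c := by
  have m0 : 0 ≤ m := (Nat.cast_nonneg _).trans cH
  have s0 : 0 ≤ ∑ c, u c ^ 2 / W c := sum_nonneg fun c _ => div_nonneg (sq_nonneg _) (hW _).le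
  have s1 : ∑ c, u c ^ 2 ≤ ε * ∑ c, u c ^ 2 / W c := by
    rw [mul_sum]
    exact sum_le_sum fun c _ => (mul_div_cancel₀ _ (hW c).ne').symm.trans_le
      (mul_le_mul_of_nonneg_right (hε c) (div_nonneg (sq_nonneg _) (hW _).le))
  refine (sum_le_card_nsmul _ _ (m * (∑ c, u c ^ 2) / v) fun c _ => div_le_div₀
    (by positivity) ((sum_mul_sq_le_sq_mul_sq _ _ _).trans (mul_le_mul_of_nonneg_right
      ((sum_le_card_nsmul _ _ 1 fun i _ => (sq_le_one_iff_abs_le_one _).2 (hL _ _)).trans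
        (by simpa using cJ)) (by positivity))) v0 (hv c)).trans ?_
  rw [nsmul_eq_mul, card_univ, ← mul_div_assoc, div_le_iff₀ v0]
  calc _ ≤ m * (m * (ε * ∑ c, u c ^ 2 / W c)) := by gcongr
    _ ≤ _ := by nlinarith [mul_le_mul_of_nonneg_right n1 s0]

theorem nr2 {H J : Type} [Fintype H] [Fintype J] {L : H → J → ℝ} {η : ℝ}
    (hL : ∀ h c, |L h c| ≤ |η|) {V : H → ℝ} {v m κ : ℝ} (v0 : 0 < v) (hv : ∀ h, v ≤ V h)
    (cH : (Fintype.card H : ℝ) ≤ m) (cJ : (Fintype.card J : ℝ) ≤ m)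
    (n2 : m ^ 3 * η ^ 2 ≤ κ ^ 2 * v) : ∑ h, (∑ c, L h c) ^ 2 / V h ≤ κ ^ 2 := by
  have m0 : 0 ≤ m := (Nat.cast_nonneg _).trans cH
  have k : ∀ h, |∑ c, L h c| ≤ m * |η| := fun h => (abs_sum_le_sum_abs _ _).trans
    ((sum_le_card_nsmul _ _ |η| fun p _ => hL h p).trans (by rw [nsmul_eq_mul, card_univ]; gcongr))
  refine (sum_le_card_nsmul _ _ ((m * |η|) ^ 2 / v) fun c _ => div_le_div₀
    (by positivity) (sq_le_sq' (abs_le.1 (k c)).1 (abs_le.1 (k c)).2) v0 (hv c)).trans ?_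
  rw [nsmul_eq_mul, card_univ, ← mul_div_assoc, div_le_iff₀ v0, mul_pow, sq_abs]
  calc _ ≤ m * (m ^ 2 * η ^ 2) := by gcongr
    _ ≤ _ := by nlinarith

theorem sm3 {X Y : Type} {ω : X → ℝ} {p G : X → Y → ℝ} {B : ℝ} (sω : Summable ω)
    (p0 : ∀ a y, 0 ≤ p a y) (hp : ∀ a, Summable (p a) ∧ ∑' y, p a y ≤ B) (hG : ∀ a y, |G a y| ≤ 1) :
    Summable fun a : X × Y => ω a.1 * (p a.1 a.2 * G a.1 a.2) :=
  .of_norm_bounded (Fb.sm2 (fun a => abs_nonneg (ω a)) p0 sω.abs hp) fun a => by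
    rw [norm_mul, norm_mul, Real.norm_of_nonneg (p0 _ _)]
    exact mul_le_mul_of_nonneg_left (mul_le_of_le_one_right (p0 _ _) (hG _ _)) (abs_nonneg _)

section
variable {τ : Type} {T : TS Unit} {S : Sh Unit τ} (q : S.W → Prop) [DecidablePred q]

theorem mv_gl {R I : Type} [CommRing R] [Fintype (Kc T S q)] (M : Matrix I (T.Cw S) R)
    (y : Kc T S q → R) : M *ᵥ Sd.gl T S q y 0 = M.submatrix id Subtype.val *ᵥ y := funext fun i => by
  refine Eq.trans ?_ ((sum_subtype (univ.filter fun c : T.Cw S => q c.1.2) (by simp)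
    fun c => M i c * Sd.gl T S q y 0 c).trans (sum_congr rfl fun c _ =>
      congrArg _ (glue_pos (p := fun c : T.Cw S => q c.1.2) y 0 c.2)))
  exact (sum_filter_of_ne fun c _ z => by_contra fun n => z (mul_eq_zero_of_right _
    (glue_neg (p := fun c : T.Cw S => q c.1.2) y 0 n))).symm

theorem gl_add {R : Type} [CommRing R] (y : Kc T S q → R) (b : T.Cw S → R) :
    Sd.gl T S q y b = Sd.gl T S q y 0 + Sd.gl T S q 0 b := funext fun c => by
  by_cases k : q c.1.2 <;> simp [Sd.gl, glue, k]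

theorem mv_gl2 {I : Type} [Fintype (Kc T S q)] (M : Matrix I (T.Cw S) ℝ) (y : Kc T S q → ℝ)
    (b : T.Cw S → ℝ) (i : I) : (M *ᵥ Sd.gl T S q y b) i =
      ∑ p : Kc T S q, M i p.1 * y p + ∑ p, M i p * Sd.gl T S q 0 b p := by
  rw [gl_add, mulVec_add, mv_gl]; rfl

theorem gl_pos {R : Type} (y : Kc T S q → R) (b : T.Cw S → R) {c : T.Cw S} (k : q c.1.2) :
    Sd.gl T S q y b c = y ⟨c, k⟩ := dif_pos k

theorem gl_neg {R : Type} (y : Kc T S q → R) (b : T.Cw S → R) {c : T.Cw S} (k : ¬ q c.1.2) :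
    Sd.gl T S q y b c = b c := dif_neg k

theorem gl_low {y y' : Kc T S q → ℤ} (b : T.Cw S → ℤ) {l : ℕ}
    (e : ∀ c : Kc T S q, T.lev c.1.1.1 < l → y c = y' c) (p : T.Cw S) (k : T.lev p.1.1 < l) :
    zc (Sd.gl T S q y b) p = zc (Sd.gl T S q y' b) p := congrArg Int.cast (by
  by_cases r : q p.1.2
  · rw [gl_pos q y b r, gl_pos q y' b r, e _ k]
  · rw [gl_neg q y b r, gl_neg q y' b r])

theorem tri_q (hT : T.Tri) (o : S.Ok) {I : Type} [Fintype I] (f : I → T.Cw S)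
    (hf : Function.Injective f) (c : I) (hc : ∀ p : T.Cw S, p.1.2 = (f c).1.2 → p ∈ Set.range f)
    {y y' : T.Cw S → ℝ} (e : ∀ p : T.Cw S, T.lev p.1.1 < T.lev (f c).1.1 → y p = y' p) :
    (T.sh S).u y (f c) - ((T.kw S T.A 1).submatrix f f *ᵥ fun i => y (f i)) c =
      (T.sh S).u y' (f c) - ((T.kw S T.A 1).submatrix f f *ᵥ fun i => y' (f i)) c := by
  have t := TS.sh_tri' hT (fun F G z => Tw.unit_ext (by_contra fun n => z (if_neg n))) o
  have k : ∀ y : T.Cw S → ℝ, (T.sh S).u y (f c) -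
      ((T.kw S T.A 1).submatrix f f *ᵥ fun i => y (f i)) c =
      MvPolynomial.eval y ((T.sh S).low (f c)) := fun y => by
    refine sub_eq_of_eq_add' ((congrFun (TS.u_low (T.sh S) y) (f c)).trans
      ((Pi.add_apply _ _ _).trans (congrArg₂ HAdd.hAdd ?_ rfl)))
    rw [TS.sh_A' o]
    exact (Fintype.sum_of_injective f hf _ (fun p => T.kw S T.A 1 (f c) p * y p) (fun p n =>
      mul_eq_zero_of_left (mul_eq_zero_of_right _ (one_apply_ne fun e => n (hc p e.symm))) _)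
      fun _ => rfl).symm
  exact (k y).trans ((t.eval_low fun p hp =>
    e p ((TS.sh_lev p).symm.trans_lt (hp.trans_eq (TS.sh_lev _)))).trans (k y').symm)

/-- uniform bounds of the weights of the words `q` -/
theorem sm_q (hT : T.Tri) (o : S.Ok) [Fintype (Kc T S q)] [DecidableEq (Kc T S q)] {δ : T.C → ℝ}
    (hδ : Dl T δ) (W : Kc T S q → ℝ) (hW : ∀ c, 0 < W c) (x : Kc T S q → ℝ) : ∃ B, ∀ b,
    (Summable fun y => ∏ c : Kc T S q, ga (δ c.1.1.1) (W c)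
      ((T.sh S).u (zc (Sd.gl T S q y b)) c.1 - x c)) ∧ ∑' y, ∏ c : Kc T S q, ga (δ c.1.1.1) (W c)
        ((T.sh S).u (zc (Sd.gl T S q y b)) c.1 - x c) ≤ B := by
  obtain ⟨B, h⟩ := tri_ga (fun c : Kc T S q => T.lev c.1.1.1)
    ((T.kw S T.A 1).submatrix Subtype.val Subtype.val) (fun c => δ c.1.1.1) W
    (abs_pos.1 ((prod_pos fun c _ => hδ.1 _).trans_eq (Hs.det_A q hδ).symm))
    (fun c c' z => by_contra fun n => left_ne_zero_of_mul z (if_neg n)) (fun c => (hδ.1 _).le) hW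
  refine ⟨B, fun b => h _ fun y y' c e => ?_⟩
  have z : ∀ y : Kc T S q → ℤ, zc y = fun i : Kc T S q => zc (Sd.gl T S q y b) i.1 := fun y =>
    funext fun i => congrArg Int.cast (gl_pos q y b i.2).symm
  rw [sub_right_comm, sub_right_comm _ (x c), z y, z y']
  exact congrArg₂ _ (tri_q hT o _ Subtype.val_injective c
    (fun p k => ⟨⟨p, k ▸ c.2⟩, rfl⟩) (gl_low q b e)) rfl
end

variable {s d : ℕ} {T : TS Unit} {D D' : Finset (Pt (Fin (d + 2)))} {j : Fin (d + 2)} {g : ℕ}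

/-- kept words read kept words -/
theorem phi_kw (j0 : j ≠ 0) {u : Wd s D} {v : Wd s D'} (k : phi s D D' j g u v ≠ 0) (a : kw u) :
    kw v := by
  have l : Le (sg j g v.tr) u.tr := by_contra fun n => k (by
    rw [phi, of_apply, if_neg fun z => n z.2.1, if_neg fun z => n z.2.2.1, sub_zero])
  have e : sg j g v.tr 0 = v.tr 0 := by unfold sg; split_ifs <;> simp [j0.symm]
  exact by_contra fun n => n (e.symm.trans ((l 0 (e ▸ n)).trans a))

/-- old coordinates -/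
def bc (h : Ex D D' j g) (c : T.Cw (SD s D)) : T.Cw (SD s D') :=
  ⟨(c.1.1, inc h c.1.2), (tw_cd _).trans ((tw_cd c.1.2).symm.trans c.2)⟩

theorem hm_kw (j0 : j ≠ 0) {y y' : T.Cw (SD s D') → ℤ} (e : ∀ p, kw p.1.2 → y p = y' p)
    {c : T.Cw (SD s D)} (k : kw c.1.2) : T.hm (SD s D') (SD s D) (phi s D D' j g) y c =
      T.hm (SD s D') (SD s D) (phi s D D' j g) y' c := sum_congr rfl fun p _ => by
  by_cases z : phi s D D' j g c.1.2 p.1.2 = 0
  · rw [z, zero_mul, zero_mul]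
  · rw [e p (phi_kw j0 z k)]

theorem abs_hmM (c : T.Cw (SD s D)) (p : T.Cw (SD s D')) :
    |((T.hmM (SD s D') (SD s D) (phi s D D' j g) c p : ℤ) : ℝ)| ≤ 1 := by
  rw [TS.hmM, of_apply]
  split_ifs
  · exact_mod_cast abs_phi _ _
  · simp

theorem hm_gl (j0 : j ≠ 0) (b : T.Cw (SD s D') → ℤ) (y : HW s T D' → ℤ) :
    Sd.gl T (SD s D) (fun w => ¬ kw w) ((fun c : HW s T D => T.hm (SD s D') (SD s D)
      (phi s D D' j g) (Sd.gl T (SD s D') (fun w => ¬ kw w) 0 b) c.1) +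
      (T.hmM (SD s D') (SD s D) (phi s D D' j g)).submatrix Subtype.val Subtype.val *ᵥ y)
      (T.hm (SD s D') (SD s D) (phi s D D' j g) b) =
      T.hm (SD s D') (SD s D) (phi s D D' j g) (Sd.gl T (SD s D') (fun w => ¬ kw w) y b) := by
  funext c
  by_cases k : kw c.1.2
  · exact (gl_neg _ _ _ (not_not.2 k)).trans
      (hm_kw j0 (fun p r => (gl_neg _ _ _ (not_not.2 r)).symm) k)
  · refine (gl_pos _ _ _ k).trans ?_
    rw [gl_add _ y, TS.hm_eq (y := _ + _), mulVec_add, mv_gl, ← TS.hm_eq]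
    exact add_comm _ _

theorem u_gl (h : Ex D D' j g) (b : T.Cw (SD s D') → ℤ) (y : HW s T D' → ℤ) (c : T.Cw (SD s D)) :
    (T.sh (SD s D)).u (zc (T.hm (SD s D') (SD s D) (phi s D D' j g)
      (Sd.gl T (SD s D') (fun w => ¬ kw w) y b))) c =
    ∑ p : HW s T D', ((T.hmM (SD s D') (SD s D) (phi s D D' j g) c p.1 : ℤ) : ℝ) *
      (T.sh (SD s D')).u (zc (Sd.gl T (SD s D') (fun w => ¬ kw w) y b)) p.1 +
    ∑ p, ((T.hmM (SD s D') (SD s D) (phi s D D' j g) c p : ℤ) : ℝ) *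
      Sd.gl T (SD s D') (fun w => ¬ kw w) 0 ((T.sh (SD s D')).u (zc b)) p := by
  have e : (T.sh (SD s D')).u (zc (Sd.gl T (SD s D') (fun w => ¬ kw w) y b)) =
      Sd.gl T (SD s D') (fun w => ¬ kw w) (fun c => (T.sh (SD s D')).u
        (zc (Sd.gl T (SD s D') (fun w => ¬ kw w) y b)) c.1) ((T.sh (SD s D')).u (zc b)) :=
    funext fun p : T.Cw (SD s D') => by
      by_cases r : kw p.1.2
      · exact Eq.trans (u_loc1 h.dc' fun q k => congrArg Int.cast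
          (gl_neg _ _ _ fun n => n (by_contra fun z => z ((k 0 z).trans r)))) (gl_neg _ _ _ (not_not.2 r)).symm
      · exact (gl_pos (fun w => ¬ kw w) (fun c => (T.sh (SD s D')).u
          (zc (Sd.gl T (SD s D') (fun w => ¬ kw w) y b)) c.1) _ r).symm
  exact (congrFun (TS.sh_u_hm (phi_hm h) (tw_ok h.dc' fun _ _ => one_pos)
    (tw_ok h.dc fun _ _ => one_pos) _) c).trans ((congrArg₂ (fun M z => (M *ᵥ z) c)
      TS.rl_hmM.symm e).trans (mv_gl2 (T := T) (S := SD s D') (fun w => ¬ kw w) _ _ _ c))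

theorem e_le (h : Ex D D' j g) {u : T.Cw (SD s D') → ℝ} {η : ℝ}
    (he : ∀ p : T.Cw (SD s D'), kw p.1.2 → Wd.tr p.1.2 j = some g → |u p| ≤ η) (c : HW s T D)
    (p : T.Cw (SD s D')) : |((T.hmM (SD s D') (SD s D) (phi s D D' j g) c.1 p : ℤ) : ℝ) *
      Sd.gl T (SD s D') (fun w => ¬ kw w) 0 u p| ≤ |η| := by
  by_cases r : kw p.1.2
  swap
  · rw [gl_pos _ _ _ r]; simp
  by_cases t : T.hmM (SD s D') (SD s D) (phi s D D' j g) c.1 p = 0
  · simp [t]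
  have t' : phi s D D' j g c.1.1.2 p.1.2 ≠ 0 := fun e => t (ite_eq_right_iff.2 fun _ => e)
  rw [gl_neg _ _ _ (not_not.2 r), abs_mul]
  exact (mul_le_of_le_one_left (abs_nonneg _) (abs_hmM _ _)).trans ((he p r
    ((phi_ne h t').resolve_left fun e => c.2 (by rw [e] at r; exact r))).trans (le_abs_self _))

theorem hs_kw {δ : T.C → ℝ} {V : Wd s D → ℝ} {x : T.Cw (SD s D) → ℝ} {b b' : T.Cw (SD s D) → ℤ}
    (e : ∀ y, kw y.1.2 → b y = b' y) (G : (T.Cw (SD s D) → ℤ) → ℝ) :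
    hs s T D δ V x b G = hs s T D δ V x b' G := by
  have k : ∀ z, Sd.gl T (SD s D) (fun w => ¬ kw w) z b = Sd.gl T (SD s D) (fun w => ¬ kw w) z b' :=
    fun z => funext fun c => by
      by_cases r : kw c.1.2
      · rw [gl_neg _ _ _ (not_not.2 r), gl_neg _ _ _ (not_not.2 r), e c r]
      · rw [gl_pos _ _ _ r, gl_pos _ _ _ r]
  simp only [hs, k]

theorem chi_phi (h : Ex D D' j g) {t : Pt (Fin (d + 2))} (ht : t ∈ D) (hb : bl t = univ) :
    chi (s := s) (D := D) (fun _ _ => 1) t ᵥ* phi s D D' j g = chi (fun _ _ => 1) t := by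
  funext v
  have k : ∀ {U B}, bl U ⊆ B → #B ≤ #(bl v.tr) → ∑ u : Wd s D, (if Le u.tr t then 1 else 0) *
      (if Oc u v.lv U B then 1 else 0) = if Le U t then (1 : ℤ) else 0 := fun {U B} a b => by
    refine (sum_two ⟨fun l => ?_, fun ⟨u, x, y⟩ => y.2.1.trans x⟩
      fun _ _ a b a' b' => Wd.uniq (b.1.trans b'.1.symm) b.2.2 b'.2.2 a a').symm
    obtain ⟨F, f, e⟩ := exists_fill B (b.trans_eq v.card) (min_le_right ..)
    obtain ⟨u, e1, e2⟩ := exists_wd h.dc ht v.lv_pos v.lv_le (hb ▸ subset_univ F) e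
    exact ⟨u, e2 ▸ rs_le _ _, e1, e2 ▸ l.rs (a.trans f.1), by
      rwa [e2, bl_rs (hb ▸ subset_univ F)]⟩
  change ∑ u : Wd s D, (if Le u.tr t then 1 else 0) * phi s D D' j g u v = if Le v.tr t then 1 else 0
  simp only [phi, of_apply, mul_sub, sum_sub_distrib]
  rw [k Subset.rfl (card_le_card (bl_sg_le _))]
  by_cases r : v.tr j = some g
  · simp only [r, true_and]
    rw [k (bl_sg_le _) le_rfl, sub_self, if_neg fun l => h.ng t ht ((l j (r ▸ nofun)).symm.trans r)]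
  · simp [r, sg_neg r]

theorem pf_phi (h : Ex D D' j g) (f : (T.C → ℤ) → ℝ) {Ω : Finset (Pt (Fin (d + 2)))}
    (hΩ : ∀ t ∈ Ω, t ∈ D ∧ bl t = univ) (y : T.Cw (SD s D') → ℤ) :
    pf s T D f Ω (T.hm (SD s D') (SD s D) (phi s D D' j g) y) = pf s T D' f Ω y :=
  prod_congr rfl fun t ht => congrArg f ((Un.Uw.pw_hm (phi_hm (V := fun _ _ => 1)
    (V' := fun _ _ => 1) h).cd _ y).trans
      (congrArg (T.pw (SD s D') · y) (chi_phi h (hΩ t ht).1 (hΩ t ht).2)))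

/-- **the lift** -/
theorem lft0 (hT : T.Tri) {δ : T.C → ℝ} (hδ : Dl T δ) (h : Ex D D' j g)
    (hc : ∀ w ∈ D', w j ≠ some g → w ∈ D) (j0 : j ≠ 0) (V : Wd s D' → ℝ) (hV : ∀ w, 0 < V w)
    {v ε η m κ : ℝ} (v0 : 0 < v) (hv : ∀ w, w.tr j ≠ some g → v ≤ V w)
    (hε : ∀ w, w.tr j = some g → V w ≤ ε) (hm : 1 ≤ m)
    (hN : (Fintype.card (T.Cw (SD s D')) : ℝ) ≤ m) (k0 : 0 ≤ κ) (k1 : κ ≤ 1 / (100 * m))
    (n1 : m ^ 2 * ε ≤ κ ^ 2 * v) (n2 : m ^ 3 * η ^ 2 ≤ κ ^ 2 * v) {X : Type} [Countable X]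
    {ω : X → ℝ} (sω : Summable ω) (b : X → T.Cw (SD s D') → ℤ)
    (G : X → (T.Cw (SD s D) → ℤ) → ℝ) (hG : ∀ a y, |G a y| ≤ 1)
    (he : ∀ a, ω a ≠ 0 → ∀ p : T.Cw (SD s D'), kw p.1.2 → Wd.tr p.1.2 j = some g →
      |(T.sh (SD s D')).u (zc (b a)) p| ≤ η) :
    ∃ x : T.Cw (SD s D') → ℝ, ∑' a, ω a * hs s T D δ (fun w => V (inc h w)) 0
      (T.hm (SD s D') (SD s D) (phi s D D' j g) (b a)) (G a) ≤
      ∑' a, ω a * (hs s T D' δ V x (b a) fun y => G a (T.hm (SD s D') (SD s D) (phi s D D' j g) y)) +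
        200 * m * κ * ∑' a, |ω a| * hs s T D' δ (fun w => (m + 1) / m * V w) x (b a) fun _ => 1 := by
  have o : (SD s D).Ok := tw_ok h.dc fun _ _ => one_pos
  have o' : (SD s D').Ok := tw_ok h.dc' fun _ _ => one_pos
  let φ := phi s D D' j g
  let J : HW s T D' → Prop := fun c => Wd.tr c.1.1.2 j = some g
  let β : HW s T D → HW s T D' := fun c => ⟨bc h c.1, c.2⟩
  let f : {c // J c} → T.Cw (SD s D') := fun c => c.1.1
  have P : Prt (fun _ => False) J β := ⟨fun a a' e => Subtype.ext (Subtype.ext (Prod.ext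
      (congrArg (·.1.1.1) e) (Wd.ext' (congrArg (Wd.lv ·.1.1.2) e) (congrArg (Wd.tr ·.1.1.2) e)))),
    fun c => .inr (or_iff_not_imp_left.2 fun n => ⟨⟨⟨(c.1.1.1, Wd.mk' c.1.1.2 _
      (hc _ (Wd.mem _) n) rfl), (tw_cd _).trans ((tw_cd c.1.1.2).symm.trans c.1.2)⟩, c.2⟩, rfl⟩),
    fun _ k => k.elim, fun _ => id, fun a => h.ng _ (Wd.mem a.1.1.2)⟩
  let L : Matrix (HW s T D) (HW s T D') ℤ :=
    (T.hmM (SD s D') (SD s D) φ).submatrix Subtype.val Subtype.val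
  let eJ : {c // J c} ≃ Kc T (SD s D') fun w => ¬ kw w ∧ Wd.tr w j = some g :=
    ⟨fun c => ⟨c.1.1, c.1.2, c.2⟩, fun c => ⟨⟨c.1, c.2.1⟩, c.2.2⟩, fun _ => rfl, fun _ => rfl⟩
  have dA : ∏ c : {c // J c}, δ c.1.1.1.1 = |((T.kw (SD s D') T.A 1).submatrix f f).det| :=
    (eJ.prod_comp fun c => δ c.1.1.1).trans ((Hs.det_A _ hδ).symm.trans
      (congrArg _ (det_submatrix_equiv_self eJ _).symm))
  have cH : (Fintype.card (HW s T D) : ℝ) ≤ m :=
    (Nat.cast_le.2 ((Fintype.card_le_of_injective _ P.inj).trans (Fintype.card_subtype_le _))).trans hN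
  obtain ⟨B, sB⟩ := sm_q (fun w => ¬ kw w) hT o hδ (fun c => V (inc h c.1.1.2)) (fun _ => hV _) 0
  let U : X → (HW s T D' → ℤ) → HW s T D' → ℝ := fun a y c =>
    (T.sh (SD s D')).u (zc (Sd.gl T (SD s D') (fun w => ¬ kw w) y (b a))) c.1
  let k : X → HW s T D → ℤ := fun a c =>
    T.hm (SD s D') (SD s D) φ (Sd.gl T (SD s D') (fun w => ¬ kw w) 0 (b a)) c.1
  let E : X → (HW s T D → ℤ) → HW s T D → ℝ := fun a z c => (T.sh (SD s D)).u
    (zc (Sd.gl T (SD s D) (fun w => ¬ kw w) z (T.hm (SD s D') (SD s D) φ (b a)))) c.1 - 0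
  let e : X → HW s T D → ℝ := fun a c => ∑ p, ((T.hmM (SD s D') (SD s D) φ c.1 p : ℤ) : ℝ) *
    Sd.gl T (SD s D') (fun w => ¬ kw w) 0 ((T.sh (SD s D')).u (zc (b a))) p
  have h1 : ∀ a a', L a (β a') = if a = a' then 1 else 0 := fun a a' => by
    change (if a'.1.1.1 = a.1.1.1 then phi s D D' j g a.1.1.2 (inc h a'.1.1.2) else 0) = _
    rw [phi_inc, ← ite_and]
    exact if_congr ⟨fun e => Subtype.ext (Subtype.ext (Prod.ext e.1.symm e.2)),
      fun e => e ▸ ⟨rfl, rfl⟩⟩ rfl rfl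
  have h2 : ∀ a c, L a c ≠ 0 → T.lev c.1.1.1 ≤ T.lev (β a).1.1.1 := fun a c z =>
    (congrArg T.lev (by_contra fun n => z (if_neg n) : c.1.1.1 = a.1.1.1)).le
  have h3 : ∀ a (y y' : HW s T D' → ℤ) (c : {c // J c}),
      (∀ c' : HW s T D', T.lev c'.1.1.1 < T.lev c.1.1.1.1 → y c' = y' c') →
      U a y c.1 - ((T.kw (SD s D') T.A 1).submatrix f f *ᵥ zc fun c => y c.1) c =
        U a y' c.1 - ((T.kw (SD s D') T.A 1).submatrix f f *ᵥ zc fun c => y' c.1) c := by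
    intro a y y' c e
    have z : ∀ y : HW s T D' → ℤ, (zc fun c : {c // J c} => y c.1) =
        fun i => zc (Sd.gl T (SD s D') (fun w => ¬ kw w) y (b a)) (f i) := fun y =>
      funext fun i => congrArg Int.cast (gl_pos _ y (b a) i.1.2).symm
    rw [z y, z y']
    exact tri_q hT o' f (fun _ _ e => Subtype.ext (Subtype.ext e)) c
      (fun p k => ⟨⟨⟨p, k ▸ c.1.2⟩, (congrArg (Wd.tr · j) k).trans c.2⟩, rfl⟩) (gl_low _ _ e)
  have h4 : ∀ a y, E a (k a + L *ᵥ y) = rl L *ᵥ U a y + e a := fun a y => funext fun c =>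
    (sub_zero _).trans ((congrArg (fun z => (T.sh (SD s D)).u (zc z) c.1) (hm_gl j0 (b a) y)).trans
      (u_gl h (b a) y c.1))
  have h5 : Summable fun a : X × (HW s T D → ℤ) => ω a.1 * ((∏ c, ga (δ (β c).1.1.1) (V (β c).1.1.2)
      (E a.1 a.2 c)) * G a.1 (Sd.gl T (SD s D) (fun w => ¬ kw w) a.2
        (T.hm (SD s D') (SD s D) φ (b a.1)))) :=
    sm3 (p := fun a z => ∏ c, ga (δ (β c).1.1.1) (V (β c).1.1.2) (E a z c)) (G := fun a z => G a
      (Sd.gl T (SD s D) (fun w => ¬ kw w) z (T.hm (SD s D') (SD s D) φ (b a)))) sω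
      (fun _ _ => prod_nonneg fun c _ => ga_nonneg (hδ.1 _).le _)
      (fun a => sB (T.hm (SD s D') (SD s D) φ (b a))) fun _ _ => hG _ _
  have h6 : ∀ u : {c // J c} → ℝ, ∑ a, (∑ c : {c // J c}, L a c.1 * u c) ^ 2 / V (β a).1.1.2 ≤
      κ ^ 2 * ∑ c, u c ^ 2 / V c.1.1.1.2 := nr1 (L := fun a (c : {c // J c}) => L a c.1)
    (fun _ _ => abs_hmM _ _) v0 (fun c => hv _ (P.jb c)) (fun _ => hV _) (fun c => hε _ c.2) cH
      ((Nat.cast_le.2 ((Fintype.card_subtype_le _).trans (Fintype.card_subtype_le _))).trans hN) n1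
  have h7 : ∀ a, ω a ≠ 0 → ∑ c, e a c ^ 2 / V (β c).1.1.2 ≤ κ ^ 2 := fun a z =>
    nr2 (e_le h (he a z)) v0 (fun c => hv _ (P.jb c)) cH hN n2
  obtain ⟨x, hx⟩ := lfa P L h1 (fun c => T.lev c.1.1.1) h2 _ (fun c => δ c.1.1.1)
    (fun c => V c.1.1.2) (abs_pos.1 ((prod_pos fun c _ => hδ.1 _).trans_eq dA))
    (fun c c' z => by_contra fun n => left_ne_zero_of_mul z (if_neg n)) dA (fun c => (hδ.1 _).le)
    (fun _ => hV _) U h3
    (fun W hW x => (sm_q (fun w => ¬ kw w) hT o' hδ W hW x).imp fun _ k a => k (b a)) k E e h4 sω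
    (fun a z => G a (Sd.gl T (SD s D) (fun w => ¬ kw w) z (T.hm (SD s D') (SD s D) φ (b a))))
    (fun _ _ => hG _ _) h5 hm ((Nat.cast_le.2 (Fintype.card_subtype_le _)).trans hN) k0 k1 h6 h7
  refine ⟨Sd.gl T (SD s D') (fun w => ¬ kw w) x 0, hx.trans_eq ?_⟩
  have e : ∀ c : HW s T D', Sd.gl T (SD s D') (fun w => ¬ kw w) x 0 c.1 = x c := fun c =>
    gl_pos _ _ _ c.2
  simp only [hs, e, mul_one]
  exact congrArg₂ _ (tsum_congr fun a => congrArg _ (tsum_congr fun y =>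
    congrArg _ (congrArg _ (hm_gl j0 _ _)))) rfl

end Crest.Agent.N49.He.Lf

end
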