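import Crest.Agent.N49.He.Cpz
import Crest.Agent.N49.He.As1

/-!
# Row 49 (helper51): the mass of a system with copies is a total mass
-/

set_option autoImplicit false

open Finset Matrix

noncomputable section

namespace Crest.Agent.N49.He

open Po Tw Br Rm Rm.TT Ft Md Sd As

namespace Hc
variable {s d : ℕ} (c : Hc s d) (k : Fin c.o.Q) (Γ Δ : Finset Bool)

/-- forget the copy -/
def pk (i : Fin (d + 2)) (n : ℕ) : ℕ := if i = c.j.succ.succ then n % (c.o.Q + 1) else n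

theorem pk_mem : ∀ t ∈ c.DK k Γ Δ, Br.cm c.pk t ∈ D1 c.o.Q c.j := fun t m =>
  Br.mem_grid.2 fun i n e => by
    obtain ⟨n', f, rfl⟩ := Option.map_eq_some_iff.1 e
    by_cases z : i = c.j.succ.succ
    · rw [pk, if_pos z, z, qq_j]; exact Nat.mod_lt _ (Nat.succ_pos _)
    · rw [pk, if_neg z]; exact (Br.mem_grid.1 (As.mem_DD.1 m).1 i n' f).trans_eq (qq_ne z)

/-- the variances of the copies -/
def Vk (V : Br.Wd s (D1 c.o.Q c.j) → ℝ) (t : Br.Wd s (c.DK k Γ Δ)) : ℝ :=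
  V (Br.pw c.pk (c.pk_mem k Γ Δ) t)
/-- the offsets of the copies -/
def xk (x : c.P.Cw (SD s (D1 c.o.Q c.j)) → ℝ) (q : c.P.Cw (SD s (c.DK k Γ Δ))) : ℝ :=
  x (Pd.cp c.P c.pk (c.pk_mem k Γ Δ) q)

variable {c k Γ Δ}
/-- the directions of a configuration -/
def nY (Y : c.E' k Γ Δ → ℤ) (i : Fin 2) (z : c.XW (c.Sx k Γ Δ)) : ℤ := Y (.inl (i, z))
/-- the weight of the hidden words -/
def hf (V : Br.Wd s (c.DK k Γ Δ) → ℝ) (x : c.P.Cw (SD s (c.DK k Γ Δ)) → ℝ) (w : c.CU → ℤ)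
    (n : Fin 2 → c.XW (c.Sx k Γ Δ) → ℤ) (z : HW s c.P (c.DK k Γ Δ) → ℤ)
    (a : HW s c.P (c.DK k Γ Δ)) : ℝ := ga (c.δ a.1.1.1) (V a.1.1.2) ((c.P.sh (SD s _)).u
  (zc (Sd.gl c.P (SD s _) (fun w => ¬ kw w) z (c.bg k w (c.vs _ n)))) a.1 - x a.1)
/-- the factors of the total mass -/
def om' (V : Br.Wd s (c.DK k Γ Δ) → ℝ) (x : c.P.Cw (SD s (c.DK k Γ Δ)) → ℝ) (w : c.CU → ℤ)
    (Y : c.E' k Γ Δ → ℤ) : c.E' k Γ Δ → ℝ
  | .inl z => ga (c.lu z.2.1) 1 (c.U.Φ (pt c.U c.x w (c.vs _ (nY Y) z.1)) z.2.1)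
  | .inr z => hf V x w (nY Y) (fun z => Y (.inr z)) z

theorem vs_eq {S : Finset c.L} (n : Fin 2 → c.XW S → ℤ) (i : Fin 2) :
    c.vs S n i = ex c.U S c.x (n i) := dif_pos i.2

theorem prod_om' (V x w) (Y : c.E' k Γ Δ → ℤ) : ∏ e, om' V x w Y e =
    (∏ i, c.mu _ w (nY Y i)) * ∏ a, hf V x w (nY Y) (fun z => Y (.inr z)) a := by
  rw [Fintype.prod_sum_type, Fintype.prod_prod_type]
  exact congrArg₂ (· * ·) (prod_congr rfl fun i _ => prod_congr rfl fun z _ => by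
    rw [om', vs_eq]) rfl

variable {b1 b2 : Bool} {ε : ℝ} {h κ : ℕ}

theorem th_tx5 (sw : c.SW) {z : c.CU} (a : Disjoint (c.U.ty z) c.S5) :
    c.th k b1 b2 z = tx c.U c.sl c.τ c.σ k (![false, b1, b2] (c.cu k z)) z := by
  obtain ⟨a1, a2⟩ := dis_S5.1 a
  unfold cu
  split_ifs with m m'
  · have e : c.σ z = z := sw.s2.fix 0 z (sw.dis _ _ _ _ m) a1
    have t : tx c.U c.sl c.τ c.σ k true z = c.τ k z := if_pos m
    cases b1 <;> cases b2
    exacts [rfl, e, t.symm, (congrArg (c.τ k) e).trans t.symm]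
  · have t : tx c.U c.sl c.τ c.σ k true z = c.σ z := if_neg m
    cases b1 <;> cases b2
    exacts [rfl, t.symm, sw.s1.fix k z m (a2 k), (sw.s1.fix k _ (mt (s_σ sw).1 m)
      (mt (s_σ sw).1 (a2 k))).trans t.symm]
  · have e : c.σ z = z := sw.s2.fix 0 z m' a1
    have f : c.τ k z = z := sw.s1.fix k z m (a2 k)
    cases b1 <;> cases b2
    exacts [rfl, e, f, (congrArg (c.τ k) e).trans f]

theorem lf_ul (t : Pt (Fin (d + 2))) :
    Br.cm (c.lf k b1 b2) t = ul c.o.Q c.j (![false, b1, b2] (c.cw k t)) t := funext fun i => by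
  by_cases z : i = c.j.succ.succ
  · rw [z, lf_j, ul_j, cw]
    rcases t c.j.succ.succ with _ | n
    · rfl
    · simp only [Option.map_some, Option.elim_some, He.cp]
      split_ifs <;> rfl
  · rw [lf_ne _ z, ul_ne z]

theorem pk_ul {t : Pt (Fin (d + 2))} (m : t ∈ D1 c.o.Q c.j) (b : Bool) :
    Br.cm c.pk (ul c.o.Q c.j b t) = t := funext fun i => by
  by_cases z : i = c.j.succ.succ
  · subst z
    rw [Br.cm, ul_j]
    rcases e : t c.j.succ.succ with _ | n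
    · rfl
    · exact congrArg some ((if_pos rfl).trans (cb_add (lt_j m e)).2)
  · rw [Br.cm, ul_ne z]
    exact (congrArg (Option.map · _) (funext fun _ => if_neg z)).trans Option.map_id'

/-- **the factors of the system are the factors of the total mass** -/
theorem om_up (o : c.Ok ε h κ) (V x w) (Y : c.E' k Γ Δ → ℤ) {i : Fin 3} {y : c.E → ℤ}
    (hm : ![false, b1, b2] i ∈ al Γ Δ i) (hy : ∀ e b m, c.cls k e = 0 ∨ c.cls k e = i →
      b = ![false, b1, b2] (c.cls k e) → y e = Y (up o.sw2 e b m)) (e : c.E) (b m)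
    (he : c.cls k e = 0 ∨ c.cls k e = i) (hb : b = ![false, b1, b2] (c.cls k e)) :
    c.om k V x (w ∘ c.th k b1 b2) y e =
      om' (c.Vk k Γ Δ V) (c.xk k Γ Δ x) w Y (up o.sw2 e b m) := by
  have mm : ∀ e, c.cls k e = 0 ∨ c.cls k e = i →
      ![false, b1, b2] (c.cls k e) ∈ al Γ Δ (c.cls k e) := fun e f => by
    rcases f with f | f <;> rw [f]
    exacts [mem_singleton_self _, hm]
  have hx : ∀ (l : Fin 2) (a : c.XW c.S5), c.cu k a.1 = 0 ∨ c.cu k a.1 = i →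
      c.vs _ (nY Y) l (c.th k b1 b2 a.1) = y (.inl (l, a)) := fun l a f => by
    rw [vs_eq, th_tx5 o.sw2 (xw_iff.1 a.2).1, hy (.inl (l, a)) _ (mm _ f) f rfl]
    exact dif_pos (tx_mem o.sw2 a.2 (mm (.inl (l, a)) f))
  subst hb
  rcases e with ⟨l, a⟩ | a
  · rw [om_inl o hx V x l a he, th_tx5 o.sw2 (xw_iff.1 a.2).1]; rfl
  · refine (om_inr (z := fun z => Y (.inr z)) o hx Pd.dc_DD (fun a a' e f g => ?_) V x
      (a' := ⟨uw _ a.1 m, fun e => a.2 (ul_0.symm.trans e)⟩) rfl (lf_ul _).symm he).trans ?_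
    · rw [hy (.inr a) _ (mm _ g) g rfl]
      exact congrArg (fun z => Y (.inr z)) (Subtype.ext (Pd.cw_ext e (f.trans (lf_ul _))))
    · have e : Pd.cp c.P c.pk (c.pk_mem k Γ Δ) (uw _ a.1 m) = a.1 :=
        Pd.cw_ext rfl (pk_ul (Br.Wd.mem a.1.1.2) _)
      exact congrArg₂ (fun t q => ga _ (V t) (_ - x q)) (congrArg (·.1.2) e).symm e.symm

variable (o : c.Ok ε h κ) (a : Fin c.o.D) (b R : ℝ) (V : Br.Wd s (D1 c.o.Q c.j) → ℝ)
  (x : c.P.Cw (SD s (D1 c.o.Q c.j)) → ℝ) (w : c.CU → ℤ)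

/-- **the weight of a configuration with copies** -/
theorem wt_cb (Y : c.E' k Γ Δ → ℤ) : (c.sys k a b R V x).ϖ w (cb' o.sw2 Y).1 *
    ((∏ β : Γ, (c.sys k a b R V x).la (bif β.1 then w ∘ c.τ k else w) (cb' o.sw2 Y).1
      ((cb' o.sw2 Y).2.1 β)) * ∏ β : Δ, (c.sys k a b R V x).ka (bif β.1 then w ∘ c.σ else w)
        (cb' o.sw2 Y).1 ((cb' o.sw2 Y).2.2 β)) = (∏ i, c.mu _ w (nY Y i)) *
      ∏ e, hf (c.Vk k Γ Δ V) (c.xk k Γ Δ x) w (nY Y) (fun z => Y (.inr z)) e := by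
  rw [← prod_om', prod_wf o.sw2]
  refine congrArg₂ (· * ·) (prod_congr rfl fun e _ => ?_) (congrArg₂ (· * ·)
    (prod_congr rfl fun β _ => prod_congr rfl fun e _ => ?_)
    (prod_congr rfl fun β _ => prod_congr rfl fun e _ => ?_))
  · refine om_up (b1 := false) (b2 := false) (i := 0) o V x w Y (mem_singleton_self _)
      (fun e β m f g => ?_) e.1 false _ (.inl e.2) (by rw [e.2]; rfl)
    have f : c.cls k e = 0 := f.elim id id
    obtain rfl : β = false := by rw [g, f]; rfl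
    exact c.as0 _ _ _ ⟨e, f⟩
  · rw [bif_τ]
    refine om_up (b1 := β.1) (b2 := false) (i := 1) o V x w Y β.2
      (fun e β' m f g => ?_) e.1 β.1 _ (.inr e.2) (by rw [e.2]; rfl)
    rcases f with f | f
    · obtain rfl : β' = false := by rw [g, f]; rfl
      exact c.as0 _ _ _ ⟨e, f⟩
    · obtain rfl : β' = β.1 := by rw [g, f]; rfl
      exact c.as1 _ _ _ ⟨e, f⟩
  · rw [bif_σ (k := k)]
    refine om_up (b1 := false) (b2 := β.1) (i := 2) o V x w Y β.2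
      (fun e β' m f g => ?_) e.1 β.1 _ (.inr e.2) (by rw [e.2]; rfl)
    rcases f with f | f
    · obtain rfl : β' = false := by rw [g, f]; rfl
      exact c.as0 _ _ _ ⟨e, f⟩
    · obtain rfl : β' = β.1 := by rw [g, f]; rfl
      exact c.as2 _ _ _ ⟨e, f⟩

variable (k Γ Δ) in
/-- directions and hidden words -/
def eY : (Fin 2 → c.XW (c.Sx k Γ Δ) → ℤ) × (HW s c.P (c.DK k Γ Δ) → ℤ) ≃ (c.E' k Γ Δ → ℤ) where
  toFun p := Sum.elim (fun z => p.1 z.1 z.2) p.2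
  invFun Y := (nY Y, fun z => Y (.inr z))
  left_inv _ := rfl
  right_inv Y := funext fun z => by cases z <;> rfl

theorem hs_hf (V' x') (n : Fin 2 → c.XW (c.Sx k Γ Δ) → ℤ) :
    hs s c.P _ c.δ V' x' (c.bg k w (c.vs _ n)) (fun _ => 1) = ∑' z, ∏ e, hf V' x' w n z e :=
  tsum_congr fun _ => mul_one _

include o in
/-- **the mass with copies** -/
theorem N_has (ok : (c.sys k a b R V x).Ok) :
    HasSum (fun n : Fin 2 → c.XW (c.Sx k Γ Δ) → ℤ => (∏ i, c.mu _ w (n i)) *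
      hs s c.P _ c.δ (c.Vk k Γ Δ V) (c.xk k Γ Δ x) (c.bg k w (c.vs _ n)) fun _ => 1)
      ((c.sys k a b R V x).N (· ∘ c.τ k) (· ∘ c.σ) Γ Δ w) := by
  have t := ((eY k Γ Δ).trans (cb' o.sw2)).hasSum_iff.2 (ok.hs_N (· ∘ c.τ k) (· ∘ c.σ) Γ Δ w)
  have t' : HasSum (fun p : (Fin 2 → c.XW (c.Sx k Γ Δ) → ℤ) × (HW s c.P (c.DK k Γ Δ) → ℤ) =>
      (∏ i, c.mu _ w (p.1 i)) * ∏ e, hf (c.Vk k Γ Δ V) (c.xk k Γ Δ x) w p.1 p.2 e)
      ((c.sys k a b R V x).N (· ∘ c.τ k) (· ∘ c.σ) Γ Δ w) :=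
    (congrArg (HasSum · _) (funext fun p => wt_cb o a b R V x w (eY k Γ Δ p))).mp t
  refine t'.prod_fiberwise fun n => ?_
  rw [hs_hf, ← tsum_mul_left]
  exact (t'.summable.prod_factor n).hasSum

include o in
theorem N_tm (ok : (c.sys k a b R V x).Ok) : (c.sys k a b R V x).N (· ∘ c.τ k) (· ∘ c.σ) Γ Δ w =
    c.tm k 1 2 (fun _ _ => true) Γ Δ (c.Vk k Γ Δ V) (c.xk k Γ Δ x) w :=
  (N_has o a b R V x w ok).tsum_eq.symm

end Hc

end Crest.Agent.N49.He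

end
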