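import Crest.Agent.N49.He.Phi
import Crest.Agent.N49.Tn.Mul
import Crest.Agent.N49.Tw.ConM

/-!
# Row 49 (helper23): the free ring maps to a top-word ring, a letter goes to a sum of clones
-/

set_option autoImplicit false
set_option linter.unusedSectionVars false

open Matrix MvPolynomial Finset

noncomputable section

namespace Crest.Agent.N49.He

open Po Tw Br

variable {ι Λ : Type} [Fintype ι] [LinearOrder ι] [Fintype Λ] [DecidableEq Λ] {s : ℕ}
  {D : Finset (Pt ι)} (blk : Λ → ι) (al : Λ → ℕ → ℤ)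

/-- the coefficient of a monomial at a transversal -/
def pa (t : Pt ι) (μ : Λ →₀ ℕ) : ℤ := μ.prod fun a n => ((t (blk a)).elim 0 (al a)) ^ n

/-- the coefficient of a word in the image of a monomial -/
def pk (w : Br.Wd s D) (μ : Λ →₀ ℕ) : ℤ :=
  if μ.degree = w.lv ∧ Fill (μ.support.image blk) (bl w.tr) then pa blk al w.tr μ else 0

variable (s D) in
/-- **the morphism** `a ↦ ∑ n, al a n • (blk a, n)` -/
def phm : Matrix (Br.Wd s D) (Sh.MW (full Λ s)) ℤ := Matrix.of fun w μ =>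
  if μ.1.degree = w.lv ∧ Fill (μ.1.support.image blk) (bl w.tr) then pa blk al w.tr μ.1 else 0

theorem phm_eq (w : Br.Wd s D) (μ : Sh.MW (full Λ s)) : phm s D blk al w μ = pk blk al w μ.1 := rfl

theorem pa_add (t : Pt ι) (μ ν : Λ →₀ ℕ) : pa blk al t (μ + ν) = pa blk al t μ * pa blk al t ν :=
  Finsupp.prod_add_index' (by simp) (by simp [pow_add])

theorem pa_zero (t : Pt ι) : pa blk al t 0 = 1 := rfl

theorem pa_single (t : Pt ι) (a : Λ) (n : ℕ) :
    pa blk al t (Finsupp.single a n) = ((t (blk a)).elim 0 (al a)) ^ n :=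
  Finsupp.prod_single_index (by simp)

variable {blk al}

theorem pa_congr {t t' : Pt ι} {μ : Λ →₀ ℕ} (h : ∀ a ∈ μ.support, t (blk a) = t' (blk a)) :
    pa blk al t μ = pa blk al t' μ := prod_congr rfl fun a ha => by simp only [h a ha]

theorem pa_ne {t : Pt ι} {μ : Λ →₀ ℕ} (h : pa blk al t μ ≠ 0) {a : Λ} (ha : a ∈ μ.support) :
    ∃ n, t (blk a) = some n ∧ al a n ≠ 0 := by
  have := prod_ne_zero_iff.1 h a ha
  cases e : t (blk a) with
  | none => simp [e, Finsupp.mem_support_iff.1 ha] at this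
  | some n => exact ⟨n, rfl, fun z => by simp [e, z, Finsupp.mem_support_iff.1 ha] at this⟩

theorem abs_pa (h : ∀ a n, |al a n| ≤ 1) (t : Pt ι) (μ : Λ →₀ ℕ) : |pa blk al t μ| ≤ 1 := by
  rw [pa, Finsupp.prod, abs_prod]
  refine prod_le_one (fun _ _ => abs_nonneg _) fun a _ => ?_
  rw [abs_pow]
  refine pow_le_one₀ (abs_nonneg _) ?_
  cases t (blk a) <;> simp [h]

theorem pk_ne {w : Br.Wd s D} {μ : Λ →₀ ℕ} (h : pk blk al w μ ≠ 0) : μ.degree = w.lv ∧
    Fill (μ.support.image blk) (bl w.tr) ∧ pa blk al w.tr μ ≠ 0 := by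
  by_cases k : μ.degree = w.lv ∧ Fill (μ.support.image blk) (bl w.tr)
  · exact ⟨k.1, k.2, by rwa [pk, if_pos k] at h⟩
  · exact absurd (if_neg k) h

theorem abs_phm (h : ∀ a n, |al a n| ≤ 1) (w : Br.Wd s D) (μ : Sh.MW (full Λ s)) :
    |phm s D blk al w μ| ≤ 1 := by
  rw [phm_eq, pk]
  split_ifs
  exacts [abs_pa h _ _, by simp]

namespace Pm

theorem card_sup (μ : Λ →₀ ℕ) : #μ.support ≤ μ.degree := by
  rw [Finsupp.degree_apply, card_eq_sum_ones]
  exact sum_le_sum fun a ha => Nat.one_le_iff_ne_zero.2 (Finsupp.mem_support_iff.1 ha)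

theorem card_im (μ : Λ →₀ ℕ) : #(μ.support.image blk) ≤ μ.degree :=
  card_image_le.trans (card_sup μ)

variable (blk al) in
/-- the coefficient of `w` in `phm x * n` -/
def cc (w : Br.Wd s D) (x : Λ →₀ ℕ) (n : Br.Wd s D →₀ ℕ) : ℤ :=
  if (∀ u ∈ n.support, Le u.tr w.tr) ∧ x.degree + Finsupp.weight Wd.lv n = w.lv ∧
    Fill (x.support.image blk ∪ bu n) (bl w.tr) then pa blk al w.tr x else 0

theorem cc_add (hD : Dc D) (w : Br.Wd s D) {μ : Λ →₀ ℕ} (h : μ ≠ 0) (x : Λ →₀ ℕ)
    (n : Br.Wd s D →₀ ℕ) : ∑ u, pk blk al u μ * cc blk al w x (Finsupp.single u 1 + n) =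
      cc blk al w (μ + x) n := by
  have sp : ∀ x : Br.Wd s D, (Finsupp.single x 1).support = {x} :=
    fun x => Finsupp.support_single _ one_ne_zero
  have su : (μ + x).support.image blk = μ.support.image blk ∪ x.support.image blk := by
    rw [Finsupp.support_add_eq_union, image_union]
  simp only [cc, forall_add, sp, mem_singleton, forall_eq, bu_add, bu_single, map_add,
    Finsupp.weight_single, one_smul, su, pa_add]
  by_cases c : (∀ u ∈ n.support, Le u.tr w.tr) ∧
    μ.degree + x.degree + Finsupp.weight Wd.lv n = w.lv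
  swap
  · rw [if_neg fun k => c ⟨k.1, k.2.1⟩]
    refine sum_eq_zero fun u _ => of_not_not fun z => right_ne_zero_of_mul z (if_neg fun k => c
      ⟨k.1.2, ?_⟩)
    have := (pk_ne (left_ne_zero_of_mul z)).1
    omega
  have t := Ph.sum_oc (U := fun _ => none) (B := μ.support.image blk)
    (B' := x.support.image blk ∪ bu n) hD w
    (Nat.one_le_iff_ne_zero.2 fun z => h ((Finsupp.degree_eq_zero_iff _).1 z))
    ((add_assoc _ _ _).symm.trans c.2) (fun i k => absurd rfl (mem_bl.1 k))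
    (le_min (card_im μ) (card_le_univ _))
    ((card_union_le ..).trans (add_le_add (card_im x) ((card_bu n).trans (min_le_left ..))))
  have n0 : ∀ v : Pt ι, Le (fun _ => none) v := fun v i k => absurd rfl k
  refine Eq.trans (sum_congr rfl fun u _ => ?_) ((sum_mul ..).symm.trans
    ((congrArg (· * (pa blk al w.tr μ * pa blk al w.tr x)) t).trans ?_))
  · by_cases a : μ.degree = u.lv ∧ Fill (μ.support.image blk) (bl u.tr)
    · have a' : Oc u μ.degree (fun _ => none) (μ.support.image blk) := ⟨a.1.symm, n0 _, a.2⟩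
      have l : x.degree + (u.lv + Finsupp.weight Wd.lv n) = w.lv := by omega
      rw [pk, if_pos a, if_pos a', one_mul, union_left_comm]
      by_cases k : Le u.tr w.tr ∧ Fill (bl u.tr ∪ (x.support.image blk ∪ bu n)) (bl w.tr)
      · rw [if_pos k, if_pos ⟨⟨k.1, c.1⟩, l, k.2⟩, one_mul, pa_congr fun b hb =>
          k.1 _ (mem_bl.1 (a.2.1 (mem_image_of_mem _ hb)))]
      · rw [if_neg k, if_neg fun z => k ⟨z.1.1, z.2.2⟩, zero_mul, mul_zero]
    · rw [pk, if_neg a, if_neg (show ¬ Oc u μ.degree _ _ from fun z => a ⟨z.1.symm, z.2.2⟩),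
        zero_mul, zero_mul, zero_mul]
  · simp only [n0, eq_true c.1, c.2, true_and, union_assoc, ite_mul, one_mul, zero_mul]

theorem cf_phm (hD : Dc D) (V : ℕ → Pt ι → ℝ) (w : Br.Wd s D) (m : Sh.MW (full Λ s) →₀ ℕ) :
    ∀ n : Br.Wd s D →₀ ℕ, (Br.tw s D V).cf ℤ w (aeval (fun μ => (Br.tw s D V).el fun u =>
      phm s D blk al u μ) (monomial m (1 : ℤ)) * monomial n 1) =
      cc blk al w (Finsupp.weight Subtype.val m) n := by
  induction m using Ph.ind1 with
  | h0 =>
    intro n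
    rw [monomial_zero', C_1, map_one, one_mul, Sh.cf_monomial, one_mul, Int.cast_id]
    change (if _ ∧ _ ∧ Fill (bu n) _ then _ else _) = _
    simp only [cc, map_zero, Finsupp.support_zero, image_empty, empty_union, zero_add, pa_zero]
    exact if_congr (by tauto) rfl rfl
  | h v m ih =>
    intro n
    rw [monomial_single_add, pow_one, map_mul (aeval _), aeval_X, Sh.el, sum_mul, sum_mul, map_sum,
      map_add, Finsupp.weight_single, one_smul, ← cc_add hD w (Sh.MW.ne v)]
    refine sum_congr rfl fun u _ => ?_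
    rw [← ih, monomial_single_add, pow_one, smul_mul_assoc, smul_mul_assoc, map_zsmul,
      smul_eq_mul, mul_left_comm _ (X u), mul_assoc, phm_eq]

end Pm

/-- **`phm` is a morphism** -/
theorem phm_hm0 (hD : Dc D) (V : ℕ → Pt ι → ℝ) (ε : Λ → ℤ) (K : (Λ →₀ ℕ) → (Λ →₀ ℕ) → ℝ) :
    (Sh.mono (fun _ => ()) (full Λ s) ε K).Hm0 (Br.tw s D V) (phm s D blk al) where
  cd w μ z := unit_ext ((Sh.cd_degree w).trans (((tw_dg w).trans (pk_ne z).1.symm).trans
    (Sh.cd_degree (S := Sh.mono (fun _ => ()) (full Λ s) ε K) μ).symm))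
  mul w m z := by
    have a := Pm.cf_phm (blk := blk) (al := al) hD V w m 0
    rw [monomial_zero', C_1, mul_one] at a
    refine Eq.trans ?_ a.symm
    let x : Λ →₀ ℕ := Finsupp.weight (fun μ : Sh.MW (full Λ s) => (μ.1 : Λ →₀ ℕ)) m
    have b : Pm.cc blk al w x 0 = pk blk al w x := by simp [Pm.cc, pk, bu]
    refine Eq.trans ?_ b.symm
    by_cases e : x.degree ≤ s
    · let μ0 : Sh.MW (full Λ s) := ⟨x, mem_erase.2 ⟨Sh.weight_ne z, mem_full.2 e⟩⟩
      refine (sum_eq_single μ0 (fun μ _ ne => mul_eq_zero_of_right _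
        (if_neg fun k => ne (Subtype.ext k.symm))) fun k => absurd (mem_univ _) k).trans ?_
      exact (congrArg _ (if_pos rfl : (Sh.mono (fun _ => ()) (full Λ s) ε K).r μ0 m = 1)).trans
        (mul_one _)
    · rw [of_not_not fun k : ¬pk blk al w x = 0 => e ((pk_ne k).1.trans_le w.lv_le)]
      exact sum_eq_zero fun μ _ => mul_eq_zero_of_right _ (if_neg fun k =>
        e ((congrArg Finsupp.degree k).trans_le (mem_full.1 (Sh.MW.mem μ))))

end Crest.Agent.N49.He

end
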