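import Crest.Agent.N49.He.Db
import Crest.Agent.N49.Sy.Sok

/-!
# Row 49 (helper36): normalisers by roots
-/

set_option autoImplicit false
set_option linter.unusedSectionVars false

open Finset Matrix

noncomputable section

namespace Crest.Agent.N49.He

open Tw Rm Md Sy

/-- positive numbers with prescribed products along the fibres of a map -/
theorem ex_root {W A : Type} [Fintype W] [DecidableEq A] (g : W → A) (D : A → ℝ)
    (h : ∀ a, 0 < D a) (h1 : ∀ a, IsEmpty {w // g w = a} → D a = 1) :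
    ∃ l : W → ℝ, (∀ w, 0 < l w) ∧ ∀ a, ∏ w : {w // g w = a}, l w.1 = D a := by
  refine ⟨fun w => D (g w) ^ ((Fintype.card {v // g v = g w} : ℝ)⁻¹),
    fun w => Real.rpow_pos_of_pos (h _) _, fun a => ?_⟩
  rw [prod_congr rfl (g := fun _ => D a ^ ((Fintype.card {v // g v = a} : ℝ)⁻¹))
    fun w _ => by obtain ⟨w, rfl⟩ := w; rfl, prod_const, card_univ]
  rcases isEmpty_or_nonempty {w // g w = a} with e | e
  · simp [h1 a e]
  · exact Real.rpow_inv_natCast_pow (h a).le Fintype.card_ne_zero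

/-- a principal block of an invertible block matrix, restricted to a closed family -/
theorem det_blk_ne {C W : Type} [Fintype C] [DecidableEq C] [Fintype W] [DecidableEq W]
    {M : Matrix C C ℝ} (hM : M.det ≠ 0) {e : W → C} (he : Function.Injective e)
    (cl : ∀ w c, M (e w) c ≠ 0 → c ∈ Set.range e) : (M.submatrix e e).det ≠ 0 := by
  intro z
  obtain ⟨v, v0, hv⟩ := exists_vecMul_eq_zero_iff.2 z
  refine hM (exists_vecMul_eq_zero_iff.1 ⟨Function.extend e v 0, fun h => v0 (funext fun w => ?_),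
    funext fun c => ?_⟩)
  · simpa [he.extend_apply] using congrFun h (e w)
  · have k : (Function.extend e v 0 ᵥ* M) c = ∑ w, v w * M (e w) c := by
      simp only [vecMul, dotProduct]
      refine (sum_of_injOn e (he.injOn) (fun _ _ => mem_univ _) (fun c' _ hc => ?_)
        fun w _ => by rw [he.extend_apply]).symm
      rw [Function.extend_apply' _ _ _ (by simpa using hc)]
      simp
    rw [k]
    by_cases hc : c ∈ Set.range e
    · obtain ⟨w, rfl⟩ := hc
      exact congrFun hv w
    · exact sum_eq_zero fun w _ => by rw [by_contra fun n => hc (cl w c n), mul_zero]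

/-- the normalisers of a tower exist -/
theorem ex_dl {T : TS Unit} (h : T.Tri) : ∃ δ, Dl T δ := by
  refine ex_root T.lev (fun l => |(T.A.submatrix (Subtype.val : {F // T.lev F = l} → _)
    Subtype.val).det|) (fun l => abs_pos.2 (det_blk_ne h.det Subtype.val_injective
      fun w c n => ⟨⟨c, ?_⟩, rfl⟩)) fun l e => by simp [det_isEmpty]
  rw [← w.2]
  exact by_contra fun k => n (if_neg fun k' => k k'.symm)

section
variable {τ L C1 : Type} [Fintype τ] [DecidableEq τ] [Fintype L] [DecidableEq L] [Fintype C1]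
  [DecidableEq C1] {B : Bs L} {W : Finset (Finset τ)} {blk : τ → L} {T1 : TT L C1}
  {e : Gd.Lv T1 → B.SC W} {s h : ℕ}

theorem la_pos (k : B.Ok s h) (A : Finset τ) : 0 < ∏ a ∈ A, B.la (blk a) :=
  prod_pos fun a _ => lt_of_lt_of_le (by positivity) (k.la (blk a)).1

/-- a subsystem is closed under the linear part -/
theorem em_cl (k : B.Ok s h) (m : Em T1 e (B.SY W blk)) (w : Gd.Lv T1) (F : B.T.C)
    (n : B.T.A (e w).1.1 F ≠ 0) : ∃ w', (e w').1 = (F, (e w).1.2) := by
  have l : B.T.lev (e w).1.1 = B.T.lev F := by_contra fun z => n (if_neg z)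
  let v : B.SC W := ⟨(F, (e w).1.2), Nat.lt_succ_of_le (k.old.stg.le F).1, (e w).2.2.1,
    (e w).2.2.2.trans l⟩
  by_contra z
  have z' : ∀ w', e w' ≠ v := fun w' q => z ⟨w', by rw [q]⟩
  have a : rr T1 e 0 (Pi.single (.inl v) 1) = rr T1 e 0 (0 : B.SC W ⊕ L → ℝ) := by
    funext x
    rcases x with x | x
    · simp only [rr, Sum.elim_inl]
      split_ifs with g
      · exact Pi.single_eq_of_ne (fun q => z' _ (Sum.inl.inj q)) _
      · rfl
    · simp [rr]
  have b := (m.Φ 0 (Pi.single (.inl v) 1 : B.SC W ⊕ L → ℝ) w).symm.trans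
    ((congrArg (fun q => T1.Φ q w.1) a).trans (m.Φ 0 (0 : B.SC W ⊕ L → ℝ) w))
  have b' := mul_left_cancel₀ (la_pos (blk := blk) k (e w).1.2).ne' b
  rw [sP_phi, sP_phi] at b'
  have c : sP B.T _ W (B.T.low (e w).1.1) (e w).1.2 (fun u : B.SC W =>
      (Pi.single (.inl v) 1 : B.SC W ⊕ L → ℝ) (.inl u)) =
      sP B.T _ W (B.T.low (e w).1.1) (e w).1.2 fun u : B.SC W => (0 : B.SC W ⊕ L → ℝ) (.inl u) :=
    sy_congr _ (low_mem k.old.ok.toTri _) fun c hc _ _ _ => sx_ext fun _ =>
      Pi.single_eq_of_ne (fun q => by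
        have : c = F := congrArg (fun x : B.SC W => x.1.1) (Sum.inl.inj q)
        exact absurd hc (by rw [this]; exact (l ▸ lt_irrefl _ : ¬ B.T.lev F < B.T.lev (e w).1.1))) _
  rw [c, add_left_inj, sum_eq_single F, sum_eq_zero] at b'
  · exact n (by simpa [sx, v.2, v] using b')
  · exact fun F' _ => by simp [sx]
  · refine fun F' _ q => mul_eq_zero_of_right _ ?_
    unfold sx
    split_ifs with g
    · exact Pi.single_eq_of_ne (fun r => q (congrArg (fun x : B.SC W => x.1.1) (Sum.inl.inj r))) _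
    · rfl
  · simp

/-- **the normalisers of a subsystem exist** -/
theorem ex_lam (k : B.Ok s h) (m : Em T1 e (B.SY W blk)) : ∃ lam : C1 → ℝ, (∀ w, 0 < lam w) ∧
    ∀ A, ∏ w : {w // (e w).1.2 = A}, lam w.1.1 = |(Matrix.of
      fun w w' : {w // (e w).1.2 = A} =>
        (∏ a ∈ A, B.la (blk a)) * B.T.A (e w.1).1.1 (e w'.1).1.1).det| := by
  have d : ∀ A, 0 < |(Matrix.of fun w w' : {w // (e w).1.2 = A} =>
      (∏ a ∈ A, B.la (blk a)) * B.T.A (e w.1).1.1 (e w'.1).1.1).det| := fun A => by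
    have := det_blk_ne k.old.ok.det (e := fun w : {w // (e w).1.2 = A} => (e w.1).1.1)
      (fun w w' q => Subtype.ext (m.inj (Subtype.ext (Prod.ext q (w.2.trans w'.2.symm)))))
      fun w F n => (em_cl k m w.1 F n).elim fun w' q =>
        ⟨⟨w', (congrArg Prod.snd q).trans w.2⟩, congrArg Prod.fst q⟩
    exact abs_pos.2 ((det_smul _ _).trans_ne (mul_ne_zero (pow_ne_zero _ (la_pos k A).ne') this))
  obtain ⟨l, l0, l1⟩ := ex_root (fun w => (e w).1.2) _ d fun A z => by simp [det_isEmpty]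
  refine ⟨fun c => if g : (T1.ty c).Nonempty then l ⟨c, g⟩ else 1, fun c => ?_, fun A =>
    (prod_congr rfl fun w _ => dif_pos w.1.2).trans (l1 A)⟩
  dsimp only
  split_ifs
  exacts [l0 _, one_pos]
end

end Crest.Agent.N49.He

end
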