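import Crest.Agent.N49.Br.Ring
import Crest.Agent.N49.Tw.ConM

/-!
# Row 49 (helper84): the section of the cover morphism on the hidden words is an involution
-/

set_option autoImplicit false
set_option linter.unusedSectionVars false

open Finset Matrix

noncomputable section

namespace Crest.Agent.N49.He

open Po Tw Br

variable {ι Λ : Type} [Fintype ι] [LinearOrder ι] [Fintype Λ] [DecidableEq Λ] {s : ℕ}
  {D : Finset (Pt ι)} (sc : ι → ℕ → Λ) (i0 : ι)

/-- the monomial of a word -/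
def sg0 (w : Br.Wd s D) : Λ →₀ ℕ :=
  ∑ i ∈ bl w.tr, Finsupp.single (sc i ((w.tr i).getD 0)) 1 +
    Finsupp.single (sc i0 ((w.tr i0).getD 0)) (w.lv - #(bl w.tr))

theorem sg0_deg (w : Br.Wd s D) : (sg0 sc i0 w).degree = w.lv := by
  have := w.card
  simp only [sg0, map_add, map_sum, Finsupp.degree_single, sum_const, smul_eq_mul, mul_one]
  omega

/-- **the section** -/
def sgm (w : Br.Wd s D) : Sh.MW (full Λ s) := ⟨sg0 sc i0 w, mem_erase.2 ⟨fun z => by
  have := sg0_deg sc i0 w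
  have := w.lv_pos
  rw [z, map_zero] at *
  omega, mem_full.2 ((sg0_deg sc i0 w).trans_le w.lv_le)⟩⟩

theorem sgm_deg (w : Br.Wd s D) : (sgm sc i0 w).1.degree = w.lv := sg0_deg sc i0 w

variable {sc i0} {blk : Λ → ι} {al : Λ → ℕ → ℤ}

theorem mem_sg0 {w : Br.Wd s D} (h0 : w.tr i0 ≠ none) {a : Λ} :
    a ∈ (sg0 sc i0 w).support ↔ ∃ i ∈ bl w.tr, a = sc i ((w.tr i).getD 0) := by
  rw [Finsupp.mem_support_iff, sg0, Finsupp.add_apply, Finsupp.finsetSum_apply, Ne,
    Nat.add_eq_zero_iff, sum_eq_zero_iff]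
  constructor
  · intro h
    by_contra k
    push Not at k
    exact h ⟨fun i hi => Finsupp.single_eq_of_ne (k i hi),
      Finsupp.single_eq_of_ne (k i0 (mem_bl.2 h0))⟩
  · rintro ⟨i, hi, rfl⟩ h
    simpa using h.1 i hi

/-- the section of a hidden word has a letter in the block `i0` -/
theorem sgm_i0 (hb : ∀ i n, blk (sc i n) = i) {w : Br.Wd s D} (h0 : w.tr i0 ≠ none) :
    ∃ a ∈ (sgm sc i0 w).1.support, blk a = i0 :=
  ⟨_, (mem_sg0 h0).2 ⟨i0, mem_bl.2 h0, rfl⟩, hb _ _⟩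

theorem sgm_img (hb : ∀ i n, blk (sc i n) = i) {w : Br.Wd s D} (h0 : w.tr i0 ≠ none) :
    (sgm sc i0 w).1.support.image blk = bl w.tr := by
  ext i
  simp only [mem_image, sgm, mem_sg0 h0]
  exact ⟨fun ⟨_, ⟨k, hk, e⟩, e'⟩ => by rwa [← e', e, hb], fun h => ⟨_, ⟨i, h, rfl⟩, hb _ _⟩⟩

theorem sg0_prod (w : Br.Wd s D) (g : Λ → ℤ) : ((sg0 sc i0 w).prod fun a n => g a ^ n) =
    (∏ i ∈ bl w.tr, g (sc i ((w.tr i).getD 0))) *
      g (sc i0 ((w.tr i0).getD 0)) ^ (w.lv - #(bl w.tr)) := by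
  have e : ∀ a k, ((Finsupp.single a k).prod fun a n => g a ^ n) = g a ^ k :=
    fun a k => Finsupp.prod_single_index (h := fun a n => g a ^ n) (pow_zero _)
  rw [sg0, Finsupp.prod_add_index' (h := fun a n => g a ^ n) (fun _ => pow_zero _)
    fun _ _ _ => pow_add _ _ _, e, ← Finsupp.prod_finsetSum_index (h := fun a n => g a ^ n)
      (fun _ => pow_zero _) fun _ _ _ => pow_add _ _ _]
  simp only [e, pow_one]

variable (sc al) in
/-- the matrix of the letters of the block `j` -/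
def lB (j : ι) : Option ℕ → Option ℕ → ℤ
  | none, none => 1
  | some n, some n' => al (sc j n') n
  | _, _ => 0

/-- equal outside the block `j` -/
def Eo (j : ι) (w w' : Br.Wd s D) : Prop := w'.lv = w.lv ∧ ∀ i, i ≠ j → w.tr i = w'.tr i

theorem Eo.eq {j : ι} {w w' : Br.Wd s D} (h : Eo j w w') (e : w.tr j = w'.tr j) : w = w' :=
  Br.Wd.ext' h.1.symm (funext fun i => if k : i = j then k ▸ e else h.2 i k)

variable {φ : Matrix (Br.Wd s D) (Sh.MW (full Λ s)) ℤ} {j : ι}

open Classical in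
theorem phi_sgm (hφ : ∀ w μ, φ w μ = if μ.1.degree = w.lv ∧ Fill (μ.1.support.image blk) (bl w.tr)
      then μ.1.prod fun a n => ((w.tr (blk a)).elim 0 (al a)) ^ n else 0)
    (hb : ∀ i n, blk (sc i n) = i) (hj : j ≠ i0)
    (h1 : ∀ i, i ≠ j → ∀ t ∈ D, ∀ t' ∈ D, ∀ n n', t i = some n → t' i = some n' →
      al (sc i n') n = if n = n' then 1 else 0) (w : Br.Wd s D) {w' : Br.Wd s D}
    (h0 : w'.tr i0 ≠ none) :
    φ w (sgm sc i0 w') = if Eo j w w' then lB sc al j (w.tr j) (w'.tr j) else 0 := by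
  rw [hφ, sgm_img hb h0, sgm_deg]
  have key : ∀ i ∈ bl w'.tr, i ∈ bl w.tr → i ≠ j →
      (w.tr i).elim 0 (al (sc i ((w'.tr i).getD 0))) = if w.tr i = w'.tr i then 1 else 0 := by
    intro i a b c
    obtain ⟨n', e'⟩ := Option.ne_none_iff_exists'.1 (mem_bl.1 a)
    obtain ⟨n, e⟩ := Option.ne_none_iff_exists'.1 (mem_bl.1 b)
    rw [e, e', Option.elim_some, Option.getD_some, h1 i c _ w.mem _ w'.mem n n' e e']
    simp only [Option.some.injEq]
  have pr : (sgm sc i0 w').1.prod (fun a n => ((w.tr (blk a)).elim 0 (al a)) ^ n) =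
      (∏ i ∈ bl w'.tr, (w.tr i).elim 0 (al (sc i ((w'.tr i).getD 0)))) *
        (w.tr i0).elim 0 (al (sc i0 ((w'.tr i0).getD 0))) ^ (w'.lv - #(bl w'.tr)) := by
    have := sg0_prod (sc := sc) (i0 := i0) w' fun a => (w.tr (blk a)).elim 0 (al a)
    simp only [hb] at this
    exact this
  rw [pr]
  by_cases c : w'.lv = w.lv ∧ Fill (bl w'.tr) (bl w.tr)
  · have eb : bl w'.tr = bl w.tr :=
      eq_of_subset_of_card_le c.2.1 (by rw [w.card, w'.card, c.1])
    have k0 := mem_bl.2 h0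
    rw [if_pos c]
    by_cases e : Eo j w w'
    · rw [if_pos e, key i0 k0 (eb ▸ k0) hj.symm, if_pos (e.2 _ hj.symm), one_pow, mul_one]
      by_cases m : j ∈ bl w'.tr
      · rw [← mul_prod_erase _ _ m, prod_eq_one fun i hi => (key i (mem_of_mem_erase hi)
          (eb ▸ mem_of_mem_erase hi) (ne_of_mem_erase hi)).trans
            (if_pos (e.2 _ (ne_of_mem_erase hi))), mul_one]
        obtain ⟨n', e'⟩ := Option.ne_none_iff_exists'.1 (mem_bl.1 m)
        obtain ⟨n, e''⟩ := Option.ne_none_iff_exists'.1 (mem_bl.1 (eb ▸ m : j ∈ bl w.tr))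
        rw [e', e'']
        rfl
      · rw [prod_eq_one fun i hi => (key i hi (eb ▸ hi) fun z => m (z ▸ hi)).trans
          (if_pos (e.2 _ fun z => m (z ▸ hi))), not_not.1 (mt mem_bl.2 m),
          not_not.1 (mt mem_bl.2 (eb ▸ m : j ∉ bl w.tr))]
        rfl
    · rw [if_neg e]
      obtain ⟨i, a, b⟩ : ∃ i, i ≠ j ∧ w.tr i ≠ w'.tr i := by
        by_contra z
        push Not at z
        exact e ⟨c.1, z⟩
      have m : i ∈ bl w'.tr := by
        by_contra z
        exact b ((not_not.1 (mt mem_bl.2 (eb ▸ z : i ∉ bl w.tr))).trans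
          (not_not.1 (mt mem_bl.2 z)).symm)
      rw [prod_eq_zero m ((key i m (eb ▸ m) a).trans (if_neg b)), zero_mul]
  · rw [if_neg c]
    split_ifs with e
    · by_contra z
      refine c ⟨e.1, (?_ : bl w'.tr = bl w.tr) ▸ Fill.refl _⟩
      ext i
      rw [mem_bl, mem_bl]
      by_cases k : i = j
      · subst k
        cases a : w.tr i <;> cases b : w'.tr i <;> simp [a, b, lB] at z ⊢
      · rw [e.2 i k]
    · rfl

/-- **the section is an involution on the hidden words** -/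
theorem sec_inv (hφ : ∀ w μ, φ w μ = if μ.1.degree = w.lv ∧ Fill (μ.1.support.image blk) (bl w.tr)
      then μ.1.prod fun a n => ((w.tr (blk a)).elim 0 (al a)) ^ n else 0)
    (hb : ∀ i n, blk (sc i n) = i) (hj : j ≠ i0)
    (h1 : ∀ i, i ≠ j → ∀ t ∈ D, ∀ t' ∈ D, ∀ n n', t i = some n → t' i = some n' →
      al (sc i n') n = if n = n' then 1 else 0) (J : Finset ℕ)
    (hJ : ∀ t ∈ D, ∀ n, t j = some n → n ∈ J ∧ ∀ n' ∈ J, Function.update t j (some n') ∈ D)
    (h2 : ∀ n ∈ J, ∀ n'' ∈ J, ∑ n' ∈ J, al (sc j n') n * al (sc j n'') n' = if n = n'' then 1 else 0)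
    {q : Br.Wd s D → Prop} [Fintype {w // ¬ q w}] [DecidableEq {w // ¬ q w}]
    (hq : ∀ w, q w ↔ w.tr i0 = none) :
    (of fun h h' : {w // ¬ q w} => φ h.1 (sgm sc i0 h'.1)) *
      (of fun h h' : {w // ¬ q w} => φ h.1 (sgm sc i0 h'.1)) = 1 ∧
    ∀ h h' : {w // ¬ q w}, φ h.1 (sgm sc i0 h'.1) ≠ 0 → h.1.lv = h'.1.lv := by
  classical
  have P : ∀ (w : Br.Wd s D) (h' : {w // ¬ q w}), φ w (sgm sc i0 h'.1) =
      if Eo j w h'.1 then lB sc al j (w.tr j) (h'.1.tr j) else 0 :=
    fun w h' => phi_sgm hφ hb hj h1 w (mt (hq _).2 h'.2)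
  refine ⟨Matrix.ext fun h h'' => ?_, fun h h' z => ?_⟩
  swap
  · by_contra e
    exact z ((P _ _).trans (if_neg fun k => e k.1.symm))
  simp only [mul_apply, of_apply, P, one_apply]
  have rf : Eo j h.1 h.1 := ⟨rfl, fun _ _ => rfl⟩
  by_cases e : Eo j h.1 h''.1
  swap
  · rw [if_neg fun z : h = h'' => e (z ▸ rf)]
    refine sum_eq_zero fun h' _ => ?_
    split_ifs with a b
    · exact (e ⟨b.1.trans a.1, fun i k => (a.2 i k).trans (b.2 i k)⟩).elim
    all_goals simp
  have ee : h = h'' ↔ h.1.tr j = h''.1.tr j := ⟨fun z => z ▸ rfl, fun z => Subtype.ext (e.eq z)⟩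
  have tr : ∀ h' : {w // ¬ q w}, Eo j h.1 h'.1 → Eo j h'.1 h''.1 :=
    fun h' a => ⟨e.1.trans a.1.symm, fun i k => (a.2 i k).symm.trans (e.2 i k)⟩
  cases a : h.1.tr j with
  | none =>
    rw [sum_eq_single h, if_pos rf, if_pos e, a]
    · cases b : h''.1.tr j <;> simp [lB, ee, a, b]
    · intro h' _ k
      split_ifs with u v
      · cases b : h'.1.tr j with
        | none => exact (k (Subtype.ext (u.eq (a.trans b.symm))).symm).elim
        | some n => simp [lB]
      all_goals simp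
    · simp
  | some n =>
    obtain ⟨nJ, up⟩ := hJ _ h.1.mem n a
    have t : ∀ h' : {w // ¬ q w}, (if Eo j h.1 h'.1 then lB sc al j (some n) (h'.1.tr j) else 0) *
        (if Eo j h'.1 h''.1 then lB sc al j (h'.1.tr j) (h''.1.tr j) else 0) = ∑ n' ∈ J,
        if Eo j h.1 h'.1 ∧ h'.1.tr j = some n' then
          al (sc j n') n * lB sc al j (some n') (h''.1.tr j) else 0 := by
      intro h'
      by_cases u : Eo j h.1 h'.1
      · rw [if_pos u, if_pos (tr _ u)]
        cases b : h'.1.tr j with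
        | none => simp [lB]
        | some m =>
          simp only [u, true_and, Option.some.injEq, sum_ite_eq, (hJ _ h'.1.mem m b).1, if_true]
          rfl
      · simp [u]
    rw [sum_congr rfl fun h' _ => t h', sum_comm]
    have o : ∀ n' ∈ J, ∀ x : ℤ, (∑ h' : {w // ¬ q w},
        if Eo j h.1 h'.1 ∧ h'.1.tr j = some n' then x else 0) = x := by
      intro n' m x
      have eb : bl (Function.update h.1.tr j (some n')) = bl h.1.tr := by
        ext i
        rw [mem_bl, mem_bl]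
        by_cases k : i = j
        · subst k; simp [a]
        · rw [Function.update_of_ne k]
      let w0 : Br.Wd s D := ⟨(h.1.1.1, ⟨_, up n' m⟩), by rw [eb]; exact h.1.2⟩
      have w1 : Eo j h.1 w0 := ⟨rfl, fun i k => (Function.update_of_ne k _ _).symm⟩
      have w2 : w0.tr j = some n' := Function.update_self ..
      have w3 : ¬ q w0 := fun z => h.2 ((hq _).2 ((w1.2 _ hj.symm).trans ((hq _).1 z)))
      rw [sum_eq_single ⟨w0, w3⟩, if_pos ⟨w1, w2⟩]
      · refine fun h' _ k => if_neg fun u => k (Subtype.ext (Eo.eq (j := j) ⟨w1.1.trans u.1.1.symm,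
          fun i c => (u.1.2 i c).symm.trans (w1.2 i c)⟩ (u.2.trans w2.symm)))
      · simp
    rw [sum_congr rfl fun n' m => o n' m _]
    cases b : h''.1.tr j with
    | none => simp [lB, ee, a, b]
    | some m =>
      rw [show (∑ n' ∈ J, al (sc j n') n * lB sc al j (some n') (some m)) = _ from
        h2 n nJ m (hJ _ h''.1.mem m b).1]
      simp [ee, a, b]

end Crest.Agent.N49.He

end
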