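import Crest.Agent.N49.He.Dc

/-! # Row 49 (helper83): tails of centred lattice Gaussians -/

set_option autoImplicit false

open Finset Matrix

noncomputable section

namespace Crest.Agent.N49.He

open Po

theorem subg2 : SUBG := by
  intro I _ _ N R hM R0
  have hd : IsUnit N.det := by
    have := hM.det_pos.ne'
    rw [det_mul, det_transpose] at this
    exact (left_ne_zero_of_mul this).isUnit
  set θ : I × Bool → I → ℝ := fun q => N⁻¹ *ᵥ Pi.single q.1 (bif q.2 then R else -R) with hθ
  have e : ∀ q n, gs (Nᵀ * N) (zc n - θ q) = Real.exp (-(Real.pi * (qf (Nᵀ * N) (zc n) -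
      2 * (bif q.2 then R else -R) * (N *ᵥ zc n) q.1 + R ^ 2))) := fun q n => by
    rw [gs, qf_mul, qf_mul, mulVec_sub, hθ, mulVec_mulVec, mul_nonsing_inv _ hd, one_mulVec,
      ← add_sum_erase _ _ (mem_univ q.1), ← add_sum_erase _ _ (mem_univ q.1),
      sum_congr rfl fun i hi => by rw [Pi.sub_apply, Pi.single_eq_of_ne (ne_of_mem_erase hi), sub_zero]]
    congr 3
    rcases q with ⟨i, _ | _⟩ <;> simp <;> ring
  have s := hasSum_sum (s := univ) fun q _ =>
    (summable_gs hM (θ q)).hasSum.mul_left (Real.exp (-(Real.pi * R ^ 2)))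
  have s0 : Summable fun n : I → ℤ => gs (Nᵀ * N) (zc n) := by simpa using summable_gs hM 0
  refine (hasSum_le (fun n => ?_) (s0.indicator _).hasSum s).trans ?_
  · have p : ∀ q ∈ (univ : Finset (I × Bool)), 0 ≤ Real.exp (-(Real.pi * R ^ 2)) *
        gs (Nᵀ * N) (zc n - θ q) := fun q _ => mul_nonneg (Real.exp_pos _).le (gs_pos _ _).le
    by_cases h : n ∈ {n : I → ℤ | ∃ i, R < |(N *ᵥ zc n) i|}
    · rw [Set.indicator_of_mem h]
      obtain ⟨i, hi⟩ := h
      have := Real.pi_pos
      rcases lt_abs.1 hi with hi | hi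
      · refine le_trans ?_ (single_le_sum p (mem_univ (i, true)))
        rw [e, gs, ← Real.exp_add, Real.exp_le_exp]
        simp only [cond_true]
        nlinarith [mul_nonneg this.le (mul_nonneg R0 (sub_nonneg.2 hi.le))]
      · refine le_trans ?_ (single_le_sum p (mem_univ (i, false)))
        rw [e, gs, ← Real.exp_add, Real.exp_le_exp]
        simp only [cond_false]
        nlinarith [mul_nonneg this.le (mul_nonneg R0 (sub_nonneg.2 hi.le))]
    · rw [Set.indicator_of_notMem h]
      exact sum_nonneg p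
  · refine (sum_le_card_nsmul _ _ (Real.exp (-(Real.pi * R ^ 2)) * th (Nᵀ * N) 0) fun q _ =>
      mul_le_mul_of_nonneg_left (th_le hM _) (Real.exp_pos _).le).trans (le_of_eq ?_)
    simp only [card_univ, Fintype.card_prod, Fintype.card_bool, nsmul_eq_mul]
    push_cast
    ring

end Crest.Agent.N49.He

end
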