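import Crest.Agent.N49.He.Defs

/-!
# Row 49 (helper70): a pair of exchangeable letters splits the configurations
-/

set_option autoImplicit false
set_option linter.unusedSectionVars false

open Finset Matrix

noncomputable section

namespace Crest.Agent.N49.He

open Po Rm Rm.TT Ft

namespace T0
variable {L C : Type} [Fintype L] [DecidableEq L] [Fintype C] [DecidableEq C] {Q : ℕ}
  {U : TT L C} {x : L} {s : Bool → Fin Q → L} {τ : Fin Q → C → C} {σ : C → C}

theorem m01 (h : Sw U x s τ σ) (k : Fin Q) (c : C) :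
    s false k ∈ U.ty (τ k c) ↔ s true k ∈ U.ty c := by
  rw [h.ty, mem_image]
  refine ⟨fun ⟨ℓ, p, q⟩ => ?_, fun p => ⟨_, p, Equiv.swap_apply_right _ _⟩⟩
  rwa [← (Equiv.swap _ _).injective (q.trans (Equiv.swap_apply_right _ _).symm)]

theorem m10 (h : Sw U x s τ σ) (k : Fin Q) (c : C) :
    s true k ∈ U.ty (τ k c) ↔ s false k ∈ U.ty c := by
  rw [← m01 h k, h.inv]

theorem n01 (h : Sw U x s τ σ) (k : Fin Q) {c : C} (a : s false k ∈ U.ty c) :
    s true k ∉ U.ty c := fun b => Bool.noConfusion (h.one c _ _ _ _ a b).1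

/-- the words without the two letters -/
abbrev VV (U : TT L C) (s : Bool → Fin Q → L) (k : Fin Q) : Type :=
  {c // s false k ∉ U.ty c ∧ s true k ∉ U.ty c}

/-- glue a configuration -/
def gl (h : Sw U x s τ σ) (k : Fin Q) (v : VV U s k → ℤ) (t t' : U.Bl (s false k) → ℤ) (c : C) :
    ℤ :=
  if a : s false k ∈ U.ty c then t ⟨c, a⟩ else
    if b : s true k ∈ U.ty c then t' ⟨τ k c, (m01 h k c).2 b⟩ else v ⟨c, a, b⟩

variable (h : Sw U x s τ σ) (k : Fin Q)

theorem gl0 (v t t') {c : C} (a : s false k ∈ U.ty c) : gl h k v t t' c = t ⟨c, a⟩ := dif_pos a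
theorem gl1 (v t t') {c : C} (b : s true k ∈ U.ty c) :
    gl h k v t t' c = t' ⟨τ k c, (m01 h k c).2 b⟩ :=
  (dif_neg fun a => n01 h k a b).trans (dif_pos b)
theorem glv (v t t') {c : C} (a : s false k ∉ U.ty c) (b : s true k ∉ U.ty c) :
    gl h k v t t' c = v ⟨c, a, b⟩ := (dif_neg a).trans (dif_neg b)

theorem gl_τ (v t t') : gl h k v t t' ∘ τ k = gl h k v t' t := funext fun c => by
  by_cases a : s false k ∈ U.ty c
  · rw [Function.comp, gl1 h k _ _ _ ((m10 h k c).2 a), gl0 h k _ _ _ a]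
    exact congrArg t' (Subtype.ext (h.inv k c))
  by_cases b : s true k ∈ U.ty c
  · rw [Function.comp, gl0 h k _ _ _ ((m01 h k c).2 b), gl1 h k _ _ _ b]
  · rw [Function.comp, h.fix k c a b, glv h k _ _ _ a b, glv h k _ _ _ a b]

/-- the splitting -/
def ψ : (VV U s k → ℤ) × (U.Bl (s false k) → ℤ) × (U.Bl (s false k) → ℤ) ≃ (C → ℤ) where
  toFun z := gl h k z.1 z.2.1 z.2.2
  invFun w := (fun c => w c.1, fun c => w c.1, fun c => w (τ k c.1))
  left_inv z := by
    refine Prod.ext (funext fun c => glv h k _ _ _ c.2.1 c.2.2) (Prod.ext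
      (funext fun c => gl0 h k _ _ _ c.2) (funext fun c => ?_))
    exact (congrFun (gl_τ h k _ _ _) c.1).trans (gl0 h k _ _ _ c.2)
  right_inv w := funext fun c => by
    by_cases a : s false k ∈ U.ty c
    · exact gl0 h k _ _ _ a
    by_cases b : s true k ∈ U.ty c
    · exact (gl1 h k _ _ _ b).trans (congrArg w (h.inv k c))
    · exact glv h k _ _ _ a b

theorem gl_n1 (v t t1 t2) {c : C} (b : s true k ∉ U.ty c) : gl h k v t t1 c = gl h k v t t2 c := by
  by_cases a : s false k ∈ U.ty c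
  · rw [gl0 h k _ _ _ a, gl0 h k _ _ _ a]
  · rw [glv h k _ _ _ a b, glv h k _ _ _ a b]

theorem phi_cf (o : U.Ok) {c : C} {y y' : C → ℤ} (e : ∀ c', U.ty c' ⊆ U.ty c → y c' = y' c') :
    U.Φ (cf y) c = U.Φ (cf y') c := o.phi_cg fun v a => by
  rcases v with c' | ℓ
  · exact congrArg Int.cast (e c' a)
  · rfl

include h in
theorem phi_τ (y : C → ℤ) (c : C) : U.Φ (cf (y ∘ τ k)) c = U.Φ (cf y) (τ k c) := by
  rw [← h.Φ]
  exact congrArg (U.Φ · c) (funext fun v => by cases v <;> rfl)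

include h in
/-- the three sums -/
theorem sum3 (f : C → ℝ) : ∑ c, f c = ∑ c : VV U s k, f c.1 + ∑ c : U.Bl (s false k), f c.1 +
    ∑ c : U.Bl (s false k), f (τ k c.1) := by
  have e1 : ∑ c : VV U s k, f c.1 = ∑ c with s false k ∉ U.ty c ∧ s true k ∉ U.ty c, f c :=
    (sum_subtype _ (fun c => by simp) f).symm
  have e2 : ∀ g : C → ℝ, ∑ c : U.Bl (s false k), g c.1 = ∑ c with s false k ∈ U.ty c, g c :=
    fun g => (sum_subtype _ (fun c => by simp) g).symm
  have e3 : ∑ c with s false k ∈ U.ty c, f (τ k c) = ∑ c with s true k ∈ U.ty c, f c :=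
    sum_nbij' (τ k) (τ k) (fun c a => by simpa [m10 h k] using a)
      (fun c a => by simpa [m01 h k] using a) (fun c _ => h.inv k c) (fun c _ => h.inv k c)
      fun _ _ => rfl
  rw [e1, e2, e2 fun c => f (τ k c), e3, sum_filter, sum_filter, sum_filter, ← sum_add_distrib,
    ← sum_add_distrib]
  refine sum_congr rfl fun c _ => ?_
  by_cases a : s false k ∈ U.ty c
  · simp [a, n01 h k a]
  · by_cases b : s true k ∈ U.ty c <;> simp [a, b]

/-- the weight of the common words -/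
def pv (v : VV U s k → ℤ) : ℝ :=
  Real.exp (-Real.pi * ∑ c : VV U s k, U.Φ (cf (gl h k v 0 0)) c.1 ^ 2)
/-- the weight of one side -/
def θ (v : VV U s k → ℤ) (t : U.Bl (s false k) → ℤ) : ℝ :=
  Real.exp (-Real.pi * ∑ c : U.Bl (s false k), U.Φ (cf (gl h k v t 0)) c.1 ^ 2)

theorem wt_gl (v t t') : U.wt (gl h k v t t') = pv h k v * θ h k v t * θ h k v t' := by
  have s1 : ∀ v t t' (c : U.Bl (s false k)), U.Φ (cf (gl h k v t t')) c.1 =
      U.Φ (cf (gl h k v t 0)) c.1 := fun v t t' c =>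
    phi_cf h.ok fun c' i => gl_n1 h k _ _ _ _ fun b => n01 h k c.2 (i b)
  rw [wt, pv, θ, θ, ← Real.exp_add, ← Real.exp_add, sum3 h k, ← mul_add, ← mul_add]
  congr 3
  · congr 1
    · refine sum_congr rfl fun c _ => congrArg (· ^ 2) (phi_cf h.ok fun c' i => ?_)
      rw [glv h k _ _ _ (fun a => c.2.1 (i a)) fun b => c.2.2 (i b),
        glv h k _ _ _ (fun a => c.2.1 (i a)) fun b => c.2.2 (i b)]
    · exact sum_congr rfl fun c _ => by rw [s1]
  · exact sum_congr rfl fun c _ => by rw [← phi_τ h k, gl_τ, s1]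

end T0

/-- **the splitting of the configurations** -/
theorem dec {L C : Type} [Fintype L] [DecidableEq L] [Fintype C] [DecidableEq C] {Q : ℕ}
    {U : TT L C} {x : L} {s : Bool → Fin Q → L} {τ : Fin Q → C → C} {σ : C → C}
    (h : Sw U x s τ σ) (k : Fin Q) : ∃ (V T : Type) (ψ : V × T × T ≃ (C → ℤ)) (p : V → ℝ)
    (θ : V → T → ℝ), (∀ v, 0 ≤ p v) ∧ (∀ v t, 0 ≤ θ v t) ∧
    (∀ v t t', U.wt (ψ (v, t, t')) = p v * θ v t * θ v t') ∧
    (∀ v t t', ψ (v, t, t') ∘ τ k = ψ (v, t', t)) ∧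
    (∀ v t1 t1' t2 t2' c, Disjoint (U.ty c) {s false k, s true k} →
      ψ (v, t1, t1') c = ψ (v, t2, t2') c) ∧
    ∀ v t t1 t2 c, Disjoint (U.ty c) {s true k} → ψ (v, t, t1) c = ψ (v, t, t2) c := by
  refine ⟨_, _, T0.ψ h k, T0.pv h k, T0.θ h k, fun _ => (Real.exp_pos _).le,
    fun _ _ => (Real.exp_pos _).le, T0.wt_gl h k, T0.gl_τ h k, fun v t1 t1' t2 t2' c d => ?_,
    fun v t t1 t2 c d => T0.gl_n1 h k _ _ _ _ (disjoint_singleton_right.1 d)⟩
  have a : s false k ∉ U.ty c := fun a => disjoint_left.1 d a (by simp)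
  have b : s true k ∉ U.ty c := fun a => disjoint_left.1 d a (by simp)
  exact (T0.glv h k _ _ _ a b).trans (T0.glv h k _ _ _ a b).symm

end Crest.Agent.N49.He

end
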