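import Crest.Agent.N49.He.Defs

/-!
# Row 49 (helper89): one tensor Cauchy-Schwarz step with its numerics
-/

set_option autoImplicit false
set_option linter.unusedSectionVars false

open Finset

noncomputable section

namespace Crest.Agent.N49.He

open Po Rm Rm.TT Ft

namespace T2

theorem sm {n u a b : ℕ} (h : n ≤ u) (e : u + a ≤ b) :
    ((n : ℝ) + 1) * (1 / 2) ^ b ≤ (1 / 2) ^ a := by
  have h1 : (n : ℝ) + 1 ≤ 2 ^ u := by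
    exact_mod_cast (Nat.succ_le_of_lt (h.trans_lt Nat.lt_two_pow_self))
  have h2 : ((1 : ℝ) / 2) ^ b ≤ (1 / 2) ^ (u + a) :=
    pow_le_pow_of_le_one (by norm_num) (by norm_num) e
  refine (mul_le_mul h1 h2 (by positivity) (by positivity)).trans_eq ?_
  rw [pow_add, ← mul_assoc, ← mul_pow]; norm_num

theorem num {n u a b : ℕ} {p q : ℝ} (h : n ≤ u) (hp : (1 / 2 : ℝ) ^ b ≤ p)
    (e : (((1 / 2 : ℝ) ^ a) ^ n * p) ^ 2 / 2 ^ n ≤ 2 ^ n * q) :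
    (1 / 2 : ℝ) ^ (2 * (a * u + b + u)) ≤ q := by
  have h1 : ((1 : ℝ) / 2) ^ (a * u + b) ≤ ((1 / 2) ^ a) ^ n * p := by
    rw [pow_add, ← pow_mul]
    exact mul_le_mul (pow_le_pow_of_le_one (by norm_num) (by norm_num) (Nat.mul_le_mul_left a h))
      hp (by positivity) (by positivity)
  have h2 := pow_le_pow_left₀ (by positivity) h1 2
  have h3 : ((1 : ℝ) / 2) ^ u ≤ (1 / 2) ^ n := pow_le_pow_of_le_one (by norm_num) (by norm_num) h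
  have h4 := pow_le_pow_left₀ (by positivity) h3 2
  have h5 : ((1 : ℝ) / 2) ^ n * 2 ^ n = 1 := by rw [← mul_pow]; norm_num
  rw [div_le_iff₀ (by positivity)] at e
  calc ((1 : ℝ) / 2) ^ (2 * (a * u + b + u))
      = ((1 / 2) ^ (a * u + b)) ^ 2 * ((1 / 2) ^ u) ^ 2 := by ring
    _ ≤ (2 ^ n * q * 2 ^ n) * ((1 / 2) ^ n) ^ 2 :=
      mul_le_mul (h2.trans e) h4 (by positivity) ((sq_nonneg _).trans e)
    _ = q * (((1 : ℝ) / 2) ^ n * 2 ^ n) ^ 2 := by ring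
    _ = q := by rw [h5]; ring

variable {L C : Type} [Fintype L] [DecidableEq L] [Fintype C] [DecidableEq C] {U : TT L C}

/-- removing finitely many small sets -/
theorem cut {I : Type} [Fintype I] (h : U.Ok) {H H' : Set (C → ℤ)} (f : I → Set (C → ℤ)) {ε : ℝ}
    (hf : ∀ i, U.pr (f i) ≤ ε) (e : ∀ w ∈ H, (∀ i, w ∉ f i) → w ∈ H') :
    U.pr H ≤ U.pr H' + Fintype.card I * ε := by
  have : H ⊆ H' ∪ ⋃ i ∈ (univ : Finset I), f i := fun w hw => by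
    by_cases k : ∀ i, w ∉ f i
    · exact .inl (e w hw k)
    · push Not at k
      obtain ⟨i, hi⟩ := k
      exact .inr (Set.mem_biUnion (mem_univ i) hi)
  refine (h.pr_mono this).trans ((h.pr_union _ _).trans (add_le_add le_rfl
    ((h.pr_biUnion _ _).trans ?_)))
  simpa using sum_le_card_nsmul univ _ _ fun i _ => hf i

/-- Markov for the moments -/
theorem mk (h : U.Ok) {r : ℕ} {N : (C → ℤ) → ℝ} (hN : Mo U r N) (h0 : ∀ w, 0 ≤ N w) :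
    U.pr {w | 2 < N w} ≤ 2 * (1 / 2) ^ r := by
  obtain ⟨⟨b, hb⟩, e⟩ := hN
  have k := h.markov (g := fun w => N w ^ r) (B := b ^ r)
    (fun w => ⟨pow_nonneg (h0 w) r, pow_le_pow_left₀ (h0 w) (hb w) r⟩) (t := 2 ^ r) (by positivity)
  have k' : U.pr {w | 2 < N w} ≤ U.pr {w | (2 : ℝ) ^ r ≤ N w ^ r} :=
    h.pr_mono fun w (hw : 2 < N w) => pow_le_pow_left₀ zero_le_two hw.le r
  rw [one_div, inv_pow, ← div_eq_mul_inv, le_div_iff₀ (by positivity), mul_comm]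
  exact (mul_le_mul_of_nonneg_left k' (by positivity)).trans (k.trans e)

end T2

open T2

variable {L C I : Type} [Fintype L] [DecidableEq L] [Fintype C] [DecidableEq C] [Fintype I]
  {Q : ℕ} {U : TT L C} {x : L} {s : Bool → Fin Q → L} {τ : Fin Q → C → C} {σ : C → C} {k : Fin Q}
  {E B : I → Type} {Z : ∀ i, Cs (C → ℤ) (E i) (B i)}

/-- one step, then the removal of `card I` sets of mass `2 · 2^{-c}` -/
theorem tra0 (h : TEN) (hs : Sw U x s τ σ) {r u a b c d : ℕ}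
    (hZ : ∀ i, (Z i).Ok ∧ Bl U {s false k, s true k} (Z i).m ∧
      Bl U {s false k, s true k} (Z i).a ∧ Bl U {s true k} (Z i).κ ∧ Bl U {s true k} (Z i).φ ∧
      Mo U r ((Z i).N (· ∘ τ k))) (hI : Fintype.card I ≤ u) (hc : c ≤ r)
    (h1 : 2 * (a * u + b + u) + 1 ≤ d) (h2 : 2 * (a * u + b + u) + u + 3 ≤ c)
    (f : I → Set (C → ℤ)) (hf : ∀ i, U.pr (f i) ≤ 2 * (1 / 2) ^ c) {S : Set (C → ℤ)}
    (hS : U.Rd {s true k} S) (hw : ∀ w ∈ S, ∀ i, (1 / 2 : ℝ) ^ a ≤ ‖(Z i).c w‖ ∧ (Z i).M w ≤ 2)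
    (hp : (1 / 2 : ℝ) ^ b ≤ U.pr S) :
    (1 / 2 : ℝ) ^ d ≤ U.pr {w | w ∈ S ∧ w ∘ τ k ∈ S ∧
      ∀ i, (1 / 2 : ℝ) ^ c ≤ ‖(Z i).g (· ∘ τ k) w‖ ∧ w ∉ f i} := by
  have e := num hI hp (h L C I Q U x s τ σ k E B Z S r _ ((1 / 2) ^ c) hs hZ hS (by positivity)
    (by positivity) (by omega) hw)
  have e2 := cut hs.ok (H := {w | w ∈ S ∧ w ∘ τ k ∈ S ∧
    ∀ i, (1 / 2 : ℝ) ^ c ≤ ‖(Z i).g (· ∘ τ k) w‖}) (H' := {w | w ∈ S ∧ w ∘ τ k ∈ S ∧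
    ∀ i, (1 / 2 : ℝ) ^ c ≤ ‖(Z i).g (· ∘ τ k) w‖ ∧ w ∉ f i}) f hf
    fun w a b => ⟨a.1, a.2.1, fun i => ⟨a.2.2 i, b i⟩⟩
  have e3 := sm (a := 2 * (a * u + b + u) + 3) (b := c) hI (by omega)
  have e4 : ((1 : ℝ) / 2) ^ d ≤ (1 / 2) ^ (2 * (a * u + b + u) + 1) :=
    pow_le_pow_of_le_one (by norm_num) (by norm_num) h1
  have e5 : 2 * (Fintype.card I : ℝ) / 2 ^ r ≤ 2 * (Fintype.card I * (1 / 2) ^ c) := by
    rw [mul_div_assoc, div_eq_mul_inv, ← inv_pow, ← one_div]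
    exact mul_le_mul_of_nonneg_left (mul_le_mul_of_nonneg_left
      (pow_le_pow_of_le_one (by norm_num) (by norm_num) hc) (by positivity)) (by norm_num)
  have e6 : (0 : ℝ) ≤ (1 / 2) ^ c := by positivity
  rw [pow_add] at e3 e4
  nlinarith

/-- **the second step of `TRA`** -/
theorem tra2 (h : TEN) (hs : Sw U x s τ σ) {u : ℕ}
    (hZ : ∀ i, (Z i).Ok ∧ Bl U {s false k, s true k} (Z i).m ∧
      Bl U {s false k, s true k} (Z i).a ∧ Bl U {s true k} (Z i).κ ∧ Bl U {s true k} (Z i).φ ∧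
      Mo U (10 * u ^ 6) ((Z i).N (· ∘ τ k))) (hu : 10 ≤ u) (hI : Fintype.card I ≤ u)
    (P : I → (C → ℤ) → Prop) (hP : ∀ i, U.pr {w | (1 / 2 : ℝ) ^ (6 * u ^ 5) ≤
      ‖(Z i).g (· ∘ τ k) w‖ ∧ ¬ P i w} ≤ (1 / 2) ^ (6 * u ^ 5)) {S : Set (C → ℤ)}
    (hS : U.Rd (S1 s) S)
    (hw : ∀ w ∈ S, ∀ i, (1 / 2 : ℝ) ^ (3 * u ^ 2) ≤ ‖(Z i).c w‖ ∧ (Z i).M w ≤ 2)
    (hp : (1 / 2 : ℝ) ^ (2 * u ^ 5) ≤ U.pr S) :
    (1 / 2 : ℝ) ^ (5 * u ^ 5) ≤ U.pr {w | w ∈ S ∧ w ∘ τ k ∈ S ∧ ∀ i, P i w} := by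
  have a1 : 10 * u ≤ u ^ 2 := by nlinarith
  have a2 : 10 * u ^ 2 ≤ u ^ 3 := by nlinarith
  have a3 : 10 * u ^ 3 ≤ u ^ 4 := by nlinarith
  have a4 : 10 * u ^ 4 ≤ u ^ 5 := by nlinarith
  have a5 : 10 * u ^ 5 ≤ u ^ 6 := by nlinarith
  have a6 : 3 * u ^ 2 * u = 3 * u ^ 3 := by ring
  refine (tra0 h hs hZ hI (c := 6 * u ^ 5) (by omega) (by omega) (by omega) _
    (fun i => (hP i).trans (le_mul_of_one_le_left (by positivity) one_le_two))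
    (hS.mono (singleton_subset_iff.2 (mem_image_of_mem _ (mem_univ k)))) hw hp).trans
    (hs.ok.pr_mono fun w a => ⟨a.1, a.2.1, fun i => by_contra fun n =>
      (a.2.2 i).2 ⟨(a.2.2 i).1, n⟩⟩)

/-- **the first step of `TRA`** -/
theorem tra1 (h : TEN) (hs : Sw U x s τ σ) {u : ℕ}
    (hZ : ∀ i, (Z i).Ok ∧ Bl U {s false k, s true k} (Z i).m ∧
      Bl U {s false k, s true k} (Z i).a ∧ Bl U {s true k} (Z i).κ ∧ Bl U {s true k} (Z i).φ ∧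
      Mo U (10 * u ^ 6) ((Z i).N (· ∘ τ k))) (hu : 10 ≤ u) (hI : Fintype.card I ≤ u)
    (hM : ∀ i, Mo U (10 * u ^ 6) (Z i).M) (N : I → (C → ℤ) → ℝ)
    (hN : ∀ i, Mo U (10 * u ^ 6) (N i) ∧ ∀ w, 0 ≤ N i w) {H : Set (C → ℤ)}
    (hH : U.Rd {s true k} H) (hp : (1 / 2 : ℝ) ^ u ≤ U.pr H)
    (hw : ∀ w ∈ H, ∀ i, (1 / 2 : ℝ) ^ u ≤ ‖(Z i).c w‖) :
    (1 / 2 : ℝ) ^ u ^ 5 ≤ U.pr {w | w ∈ H ∧
      ∀ i, (1 / 2 : ℝ) ^ (3 * u ^ 2) ≤ ‖(Z i).g (· ∘ τ k) w‖ ∧ N i w ≤ 2} := by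
  have a1 : 10 * u ≤ u ^ 2 := by nlinarith
  have a2 : 10 * u ^ 2 ≤ u ^ 3 := by nlinarith
  have a3 : 10 * u ^ 3 ≤ u ^ 4 := by nlinarith
  have a4 : 10 * u ^ 4 ≤ u ^ 5 := by nlinarith
  have a5 : 10 * u ^ 5 ≤ u ^ 6 := by nlinarith
  have a6 : u * u = u ^ 2 := by ring
  have e1 := cut hs.ok (H := H) (H' := {w | w ∈ H ∧ ∀ i, (Z i).M w ≤ 2})
    (fun i => {w | 2 < (Z i).M w})
    (fun i => mk hs.ok (hM i) fun w => tsum_nonneg ((hZ i).1.m0 w))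
    fun w a b => ⟨a, fun i => not_lt.1 (b i)⟩
  have e2 := sm (a := u + 2) (b := 10 * u ^ 6) hI (by omega)
  have e3 : (1 / 2 : ℝ) ^ (u + 1) ≤ U.pr {w | w ∈ H ∧ ∀ i, (Z i).M w ≤ 2} := by
    have : (0 : ℝ) ≤ (1 / 2) ^ (10 * u ^ 6) := by positivity
    rw [pow_add] at e2 ⊢
    nlinarith
  have e4 : U.Rd {s true k} {w | w ∈ H ∧ ∀ i, (Z i).M w ≤ 2} := fun w w' e a =>
    ⟨hH w w' e a.1, fun i => by
      have := (hZ i).2.1 w w' fun c d => e c (d.mono_right (by simp))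
      simpa only [Cs.M, ← this] using a.2 i⟩
  exact (tra0 h hs hZ hI (c := 3 * u ^ 2) (a := u) (by omega) (by omega) (by omega)
    (fun i => {w | 2 < N i w}) (fun i => (mk hs.ok (hN i).1 (hN i).2).trans
      (mul_le_mul_of_nonneg_left (pow_le_pow_of_le_one (by norm_num) (by norm_num) (by omega))
        zero_le_two)) e4
    (fun w a i => ⟨hw w a.1 i, a.2 i⟩) e3).trans
    (hs.ok.pr_mono fun w a => ⟨a.1.1, fun i => ⟨(a.2.2 i).1, not_lt.1 (a.2.2 i).2⟩⟩)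

end Crest.Agent.N49.He

end
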