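import Crest.Agent.N49.He.Db

/-!
# Row 49 (helper70): triangular products of Gaussian factors are uniformly summable
-/

set_option autoImplicit false
set_option linter.unusedSectionVars false

open Finset Matrix

noncomputable section

namespace Crest.Agent.N49.He

open Po Tw

theorem Tb.ga_nonneg {δ : ℝ} (h : 0 ≤ δ) (V e : ℝ) : 0 ≤ ga δ V e :=
  mul_nonneg (div_nonneg h (Real.sqrt_nonneg _)) (Real.exp_pos _).le

theorem Tb.prod_ga {J : Type} [Fintype J] [DecidableEq J] (δ V e : J → ℝ) :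
    ∏ i, ga (δ i) (V i) (e i) = (∏ i, δ i / √(V i)) * gs (diagonal fun i => (V i)⁻¹) e := by
  simp only [ga, prod_mul_distrib, gs, qf, dotProduct, mulVec_diagonal, ← Real.exp_sum, neg_mul,
    mul_sum, sum_neg_distrib]
  congr 3
  exact sum_congr rfl fun i _ => by ring

/-- **uniform summability** -/
theorem tri_bd {J : Type} [Fintype J] [DecidableEq J] (lev : J → ℕ) (A : Matrix J J ℝ)
    (hA : Function.Injective A.mulVec) (bA : Rw.Blk lev A) (δ V : J → ℝ) (hδ : ∀ i, 0 ≤ δ i)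
    (hV : ∀ i, 0 < V i) : ∃ b, ∀ e : (J → ℤ) → J → ℝ,
      (∀ y y' i, (∀ j, lev j < lev i → y j = y' j) →
        e y i - (A *ᵥ zc y) i = e y' i - (A *ᵥ zc y') i) →
      (Summable fun y => ∏ i, ga (δ i) (V i) (e y i)) ∧ ∑' y, ∏ i, ga (δ i) (V i) (e y i) ≤ b := by
  set D : Matrix J J ℝ := diagonal fun i => (V i)⁻¹ with hD
  have pD : D.PosDef := PosDef.diagonal fun i => inv_pos.2 (hV i)
  have bD : Rw.Blk lev D := fun i j n => diagonal_apply_ne _ fun q => n (q ▸ rfl)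
  have pM : (Aᵀ * D * A).PosDef := posDef_conj pD hA
  have bM := blk_mul (blk_mul (blk_tr bA) bD) bA
  have uA : IsUnit A.det := (isUnit_iff_isUnit_det _).1 (mulVec_injective_iff_isUnit.1 hA)
  have hs : ∀ i, lev i < univ.sup lev + 1 := fun i => Nat.lt_succ_of_le (le_sup (mem_univ i))
  have c0 : 0 ≤ ∏ i, δ i / √(V i) := prod_nonneg fun i _ => div_nonneg (hδ i) (Real.sqrt_nonneg _)
  refine ⟨(∏ i, δ i / √(V i)) * ∏ l ∈ range (univ.sup lev + 1), th (Rw.blk lev (Aᵀ * D * A) l) 0,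
    fun e he => ?_⟩
  let Θ : (J → ℤ) → J → ℝ := fun y => -(A⁻¹ *ᵥ (e y - A *ᵥ zc y))
  have tΘ : Rw.Tri lev Θ := fun y y' i h => by
    simp only [Θ, Pi.neg_apply, mulVec, dotProduct, neg_inj]
    refine sum_congr rfl fun j _ => ?_
    by_cases q : lev i = lev j
    · exact congrArg _ (he y y' j fun j' r => h j' (q ▸ r))
    · rw [blk_inv bA i j q, zero_mul, zero_mul]
  have w : ∀ y, ∏ i, ga (δ i) (V i) (e y i) = (∏ i, δ i / √(V i)) * Rw.wt (Aᵀ * D * A) Θ y :=
    fun y => by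
      rw [Tb.prod_ga, Rw.wt, gs, gs, qf_conj, sub_neg_eq_add, mulVec_add, mulVec_mulVec,
        mul_nonsing_inv _ uA, one_mulVec, add_sub_cancel]
  simp only [w]
  refine ⟨(Rw.summable_wt' tΘ bM pM).mul_left _, ?_⟩
  rw [tsum_mul_left, Rw.Z_eq hs]
  exact mul_le_mul_of_nonneg_left (Rw.Zl_le tΘ bM pM _) c0

end Crest.Agent.N49.He

end
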